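import Claimed.Agent.R291.Tool.TriSC
import Claimed.Agent.R291.Tool.TriSCLat
import Claimed.Agent.R291.Tool.HexPeel

/-!
# Row 291 (S0539), unit PLA, Pl/Place : PLACES (J8 + J9 of the chain of Thm 2.3)      (owner helper105; prefix `hxp_`)      no sorry

Design note: `origin/helper105:notes/R291/places_105.md`.   ABSTRACT PART (any simple graph), on helper147's TriSC kit.

* `hxp_embed`      TriSC is transported by maps which are isomorphisms on the piece
* `hxpG G`, `hxpS R K`, `hxp_glue_sc`   two copies of `R` glued along a connected `K` : TriSC      (a PROOF device)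
* `hxp_lab`        LABELS: a monochromatic path of the glued complex from label `L1` to label `L2` contains a path inside `K`
* **`hxp_dich`**   DICH: four solid sets `AA ∥ CC`, `al ∥ ga`, `K` a component of the free region with its four corners:
                   every `P`:  a path in `K ∩ P` from `N(AA)` to `N(CC)`  or  a path in `K \ P` from `N(al)` to `N(ga)`
* `hxp_corner`     existence of a corner `N(al) ∩ N(CC)` or `N(AA) ∩ N(ga)`
* `hxp_sc_iff`     `HxSC G.Adj s ↔ TriSCOn (ZMod 2) G s`;   `hxp_sc_free`, `hxp_sc_diff` : irregular lattice regions are TriSC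
-/

set_option autoImplicit false
set_option linter.unusedSectionVars false
set_option linter.unusedVariables false
set_option linter.unusedSimpArgs false

namespace Claimed.Agent.R291

open Relation Claims.C0467

section embed
variable {V V' : Type*} {A : Type*} [AddCommGroup A]

/-- transport of TriSC along a map which is an isomorphism on the piece -/
theorem hxp_embed {G : SimpleGraph V} {G' : SimpleGraph V'} {s : Set V} (e : V → V') (hinj : Set.InjOn e s)
    (he : ∀ a ∈ s, ∀ b ∈ s, (G.Adj a b ↔ G'.Adj (e a) (e b))) (hs : TriSCOn A G s) : TriSCOn A G' (e '' s) := by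
  classical
  intro ω hω
  have hm : ∀ a, a ∈ s → e a ∈ e '' s := fun a h => Set.mem_image_of_mem e h
  obtain ⟨f, hf⟩ := hs (fun a b => ω (e a) (e b))
    ⟨fun u hu v hv h => hω.anti _ (hm u hu) _ (hm v hv) ((he u hu v hv).1 h),
     fun u hu v hv w hw h1 h2 h3 => hω.tri _ (hm u hu) _ (hm v hv) _ (hm w hw) ((he u hu v hv).1 h1)
       ((he v hv w hw).1 h2) ((he u hu w hw).1 h3)⟩
  refine ⟨fun x => if h : ∃ a, a ∈ s ∧ e a = x then f h.choose else 0, ?_⟩
  have key : ∀ u ∈ s, (if h : ∃ a, a ∈ s ∧ e a = e u then f h.choose else 0) = f u := by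
    intro u hu
    have h : ∃ a, a ∈ s ∧ e a = e u := ⟨u, hu, rfl⟩
    rw [dif_pos h]
    exact congrArg f (hinj h.choose_spec.1 hu h.choose_spec.2)
  rintro _ ⟨u, hu, rfl⟩ _ ⟨v, hv, rfl⟩ h
  simp only [key u hu, key v hv]
  exact hf u hu v hv ((he u hu v hv).2 h)

end embed

section glue
variable {V : Type*} {A : Type*} [AddCommGroup A]

/-- two sheets (`some false`, `some true`) over `V`, which communicate only through the level `none` -/
def hxpG (G : SimpleGraph V) : SimpleGraph (V × Option Bool) where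
  Adj x y := G.Adj x.1 y.1 ∧ (x.2 = y.2 ∨ x.2 = none ∨ y.2 = none)
  symm := ⟨by
    rintro x y ⟨h, h'⟩
    exact ⟨h.symm, by tauto⟩⟩
  loopless := ⟨by
    rintro x ⟨h, _⟩
    exact G.irrefl h⟩

/-- the glued complex: `K` at level `none`, two copies of `R \ K` -/
def hxpS (R K : Set V) : Set (V × Option Bool) := {x | x.1 ∈ R ∧ (x.2 = none ↔ x.1 ∈ K)}

open Classical in
/-- the sheet `b` -/
noncomputable def hxpE (K : Set V) (b : Bool) (v : V) : V × Option Bool := (v, if v ∈ K then none else some b)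

theorem hxp_E_mem {K : Set V} (b : Bool) {v : V} (h : v ∈ K) : hxpE K b v = (v, none) := by
  simp [hxpE, h]

theorem hxp_E_not {K : Set V} (b : Bool) {v : V} (h : v ∉ K) : hxpE K b v = (v, some b) := by
  simp [hxpE, h]

theorem hxp_E_fst (K : Set V) (b : Bool) (v : V) : (hxpE K b v).1 = v := rfl

theorem hxp_E_adj (G : SimpleGraph V) (K : Set V) (b : Bool) (u v : V) :
    G.Adj u v ↔ (hxpG G).Adj (hxpE K b u) (hxpE K b v) := by
  constructor
  · intro h
    refine ⟨h, ?_⟩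
    by_cases hu : u ∈ K
    · right; left; simp [hxpE, hu]
    · by_cases hv : v ∈ K
      · right; right; simp [hxpE, hv]
      · left; simp [hxpE, hu, hv]
  · intro h
    exact h.1

theorem hxp_E_inj (K : Set V) (b : Bool) : Function.Injective (hxpE K b) := by
  intro u v h
  exact congrArg Prod.fst h

theorem hxp_S_eq (R K : Set V) : hxpS R K = hxpE K false '' R ∪ hxpE K true '' R := by
  ext ⟨v, i⟩
  simp only [hxpS, Set.mem_ofPred_eq, Set.mem_union, Set.mem_image]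
  constructor
  · rintro ⟨hv, hi⟩
    by_cases hK : v ∈ K
    · left
      exact ⟨v, hv, by rw [hxp_E_mem _ hK, hi.2 hK]⟩
    · rcases i with _ | b
      · exact absurd (hi.1 rfl) hK
      · cases b
        · left; exact ⟨v, hv, by rw [hxp_E_not _ hK]⟩
        · right; exact ⟨v, hv, by rw [hxp_E_not _ hK]⟩
  · rintro (⟨u, hu, h⟩ | ⟨u, hu, h⟩)
    · by_cases hK : u ∈ K
      · rw [hxp_E_mem _ hK] at h
        obtain ⟨rfl, rfl⟩ := Prod.mk.inj h
        exact ⟨hu, by simp [hK]⟩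
      · rw [hxp_E_not _ hK] at h
        obtain ⟨rfl, rfl⟩ := Prod.mk.inj h
        exact ⟨hu, by simp [hK]⟩
    · by_cases hK : u ∈ K
      · rw [hxp_E_mem _ hK] at h
        obtain ⟨rfl, rfl⟩ := Prod.mk.inj h
        exact ⟨hu, by simp [hK]⟩
      · rw [hxp_E_not _ hK] at h
        obtain ⟨rfl, rfl⟩ := Prod.mk.inj h
        exact ⟨hu, by simp [hK]⟩

theorem hxp_E_mem_S {R K : Set V} (b : Bool) {v : V} (h : v ∈ R) : hxpE K b v ∈ hxpS R K := by
  rw [hxp_S_eq]
  cases b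
  · exact Or.inl ⟨v, h, rfl⟩
  · exact Or.inr ⟨v, h, rfl⟩

/-- **two copies of a TriSC region glued along a connected set are TriSC** -/
theorem hxp_glue_sc {G : SimpleGraph V} {R K : Set V} (hR : TriSCOn A G R) (hKR : K ⊆ R) (hK : TscConn G K) :
    TriSCOn A (hxpG G) (hxpS R K) := by
  rw [hxp_S_eq]
  have hsheet : ∀ b, TriSCOn A (hxpG G) (hxpE K b '' R) := fun b =>
    hxp_embed (hxpE K b) (hxp_E_inj K b).injOn (fun u _ v _ => hxp_E_adj G K b u v) hR
  have hint : hxpE K false '' R ∩ hxpE K true '' R = hxpE K false '' K := by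
    ext x
    constructor
    · rintro ⟨⟨u, hu, rfl⟩, ⟨v, hv, h⟩⟩
      have huv : v = u := congrArg Prod.fst h
      subst huv
      by_cases hvK : v ∈ K
      · exact ⟨v, hvK, rfl⟩
      · rw [hxp_E_not _ hvK, hxp_E_not _ hvK] at h
        simp at h
    · rintro ⟨u, hu, rfl⟩
      exact ⟨⟨u, hKR hu, rfl⟩, ⟨u, hKR hu, by rw [hxp_E_mem _ hu, hxp_E_mem _ hu]⟩⟩
  refine tsc_union (hsheet false) (hsheet true) ?_ ?_
  · rw [hint]
    exact tsc_conn_map (hxpE K false) (fun a b h => (hxp_E_adj G K false a b).1 h) hK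
  · rintro x hx y hy ⟨hadj, hlev⟩
    -- every vertex at level `none` belongs to both sheets
    have both : ∀ z, z ∈ hxpE K false '' R ∪ hxpE K true '' R → z.2 = none →
        z ∈ hxpE K false '' R ∧ z ∈ hxpE K true '' R := by
      intro z hz hz2
      rw [← hxp_S_eq] at hz
      have hzK : z.1 ∈ K := hz.2.1 hz2
      refine ⟨⟨z.1, hz.1, ?_⟩, ⟨z.1, hz.1, ?_⟩⟩
      · rw [hxp_E_mem _ hzK]; exact Prod.ext rfl hz2.symm
      · rw [hxp_E_mem _ hzK]; exact Prod.ext rfl hz2.symm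
    have lev : ∀ z, z ∈ hxpE K false '' R ∪ hxpE K true '' R → ∀ b, z.2 = some b → z ∈ hxpE K b '' R := by
      intro z hz b hzb
      rw [← hxp_S_eq] at hz
      have hzK : z.1 ∉ K := fun h => by
        have := hz.2.2 h
        rw [hzb] at this
        exact absurd this (by simp)
      exact ⟨z.1, hz.1, by rw [hxp_E_not _ hzK]; exact Prod.ext rfl hzb.symm⟩
    rcases hx2 : x.2 with _ | bx
    · rcases hy2 : y.2 with _ | b
      · exact Or.inl ⟨(both x hx hx2).1, (both y hy hy2).1⟩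
      · cases b
        · exact Or.inl ⟨(both x hx hx2).1, lev y hy false hy2⟩
        · exact Or.inr ⟨(both x hx hx2).2, lev y hy true hy2⟩
    · rcases hy2 : y.2 with _ | b
      · cases bx
        · exact Or.inl ⟨lev x hx false hx2, (both y hy hy2).1⟩
        · exact Or.inr ⟨lev x hx true hx2, (both y hy hy2).2⟩
      · have hb : bx = b := by
          rw [hx2, hy2] at hlev
          rcases hlev with h | h | h
          · exact Option.some.inj h
          · exact absurd h (by simp)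
          · exact absurd h (by simp)
        subst hb
        cases bx
        · exact Or.inl ⟨lev x hx false hx2, lev y hy false hy2⟩
        · exact Or.inr ⟨lev x hx true hx2, lev y hy true hy2⟩

/-- a colour class of the glued complex: `Z` on `K`, the solid set `L` in the sheet `b`, everything but the solid set `M`
in the other sheet -/
def hxpCol (R K Z L M : Set V) (b : Bool) : Set (V × Option Bool) :=
  {x | x ∈ hxpS R K ∧ ((x.2 = none ∧ x.1 ∈ Z) ∨ (x.2 = some b ∧ x.1 ∈ L) ∨ (x.2 = some (!b) ∧ x.1 ∉ M))}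

/-- `x` touches the label `L` -/
def hxpTouch (G : SimpleGraph V) (Z L : Set V) (b : Bool) (x : V × Option Bool) : Prop :=
  (x.2 = some b ∧ x.1 ∈ L) ∨ (x.2 = none ∧ x.1 ∈ Z ∧ ∃ a ∈ L, G.Adj x.1 a)

/-- **LABELS**: a path inside a colour class from the label `L1` to the label `L2` contains a path inside `Z ⊆ K` from
`N(L1)` to `N(L2)`:  the excursions off `K` carry one label each (Timar). -/
theorem hxp_lab {G : SimpleGraph V} {R K Z L1 L2 M : Set V} {b : Bool}
    (hs : TriSCOn (ZMod 2) G (R \ M)) (hK : TscConn G K) (hKs : K ⊆ R \ M) (hZ : Z ⊆ K)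
    (hL : ∀ u ∈ L1, ∀ v ∈ L2, u ≠ v ∧ ¬ G.Adj u v)
    (hKmax : ∀ k ∈ K, ∀ v, G.Adj k v → v ∈ K ∨ v ∈ L1 ∨ v ∈ L2 ∨ v ∈ M)
    {x y : V × Option Bool} (hxy : TscR (hxpG G) (hxpCol R K Z (L1 ∪ L2) M b) x y)
    (hx : hxpTouch G Z L1 b x) (hy : hxpTouch G Z L2 b y) :
    ∃ u v, u ∈ Z ∧ v ∈ Z ∧ (∃ a ∈ L1, G.Adj u a) ∧ (∃ c ∈ L2, G.Adj v c) ∧ TscR G Z u v := by
  classical
  set s' : Set V := (R \ M) \ K with hs'
  -- the invariant
  let Good : V × Option Bool → Prop := fun z =>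
    (z.2 = some b ∧ z.1 ∈ L1) ∨
    (z.2 = some (!b) ∧ z.1 ∈ s' ∧ ∀ d ∈ tscComp G s' z.1, (∃ k ∈ K, G.Adj k d) → d ∈ L1) ∨
    (z.2 = none ∧ ∃ u ∈ Z, (∃ a ∈ L1, G.Adj u a) ∧ TscR G Z u z.1)
  have hbb : ∀ c : Bool, (some c : Option Bool) ≠ some (!c) := by
    intro c h
    cases c <;> simp at h
  have claim : ∀ z, TscR (hxpG G) (hxpCol R K Z (L1 ∪ L2) M b) x z →
      (∃ u v, u ∈ Z ∧ v ∈ Z ∧ (∃ a ∈ L1, G.Adj u a) ∧ (∃ c ∈ L2, G.Adj v c) ∧ TscR G Z u v) ∨ Good z := by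
    intro z hz
    induction hz with
    | refl =>
      right
      rcases hx with h | ⟨h1, h2, h3⟩
      · exact Or.inl h
      · exact Or.inr (Or.inr ⟨h1, x.1, h2, h3, ReflTransGen.refl⟩)
    | @tail y z _ hyz ih =>
      rcases ih with h | hG
      · exact Or.inl h
      obtain ⟨⟨hadj, hlev⟩, hyC, hzC⟩ := hyz
      obtain ⟨hzS, hzc⟩ := hzC
      rcases hG with ⟨hy2, hy1⟩ | ⟨hy2, hy1, hcomp⟩ | ⟨hy2, u, hu, hua, huy⟩
      · -- `y` in the solid set `L1`
        rcases hzc with ⟨hz2, hz1⟩ | ⟨hz2, hz1⟩ | ⟨hz2, hz1⟩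
        · exact Or.inr (Or.inr (Or.inr ⟨hz2, z.1, hz1, ⟨y.1, hy1, hadj.symm⟩, ReflTransGen.refl⟩))
        · rcases hz1 with h | h
          · exact Or.inr (Or.inl ⟨hz2, h⟩)
          · exact absurd hadj (hL _ hy1 _ h).2
        · exfalso
          rw [hy2, hz2] at hlev
          rcases hlev with h | h | h
          · exact hbb b h
          · exact absurd h (by simp)
          · exact absurd h (by simp)
      · -- `y` in a piece of the other sheet
        rcases hzc with ⟨hz2, hz1⟩ | ⟨hz2, hz1⟩ | ⟨hz2, hz1⟩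
        · have : y.1 ∈ L1 := hcomp y.1 (tsc_comp_self hy1) ⟨z.1, hZ hz1, hadj.symm⟩
          exact Or.inr (Or.inr (Or.inr ⟨hz2, z.1, hz1, ⟨y.1, this, hadj.symm⟩, ReflTransGen.refl⟩))
        · exfalso
          rw [hy2, hz2] at hlev
          rcases hlev with h | h | h
          · exact hbb b h.symm
          · exact absurd h (by simp)
          · exact absurd h (by simp)
        · have hzK : z.1 ∉ K := fun h => by
            have := hzS.2.2 h
            rw [hz2] at this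
            exact absurd this (by simp)
          have hzs : z.1 ∈ s' := ⟨⟨hzS.1, hz1⟩, hzK⟩
          refine Or.inr (Or.inr (Or.inl ⟨hz2, hzs, ?_⟩))
          intro d hd hdk
          exact hcomp d ⟨hd.1, (tsc_R_step hadj hy1 hzs).trans hd.2⟩ hdk
      · -- `y` in `K`
        have hyZ : y.1 ∈ Z := by
          rcases hyC.2 with ⟨_, h⟩ | ⟨h, _⟩ | ⟨h, _⟩
          · exact h
          · rw [hy2] at h; exact absurd h (by simp)
          · rw [hy2] at h; exact absurd h (by simp)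
        rcases hzc with ⟨hz2, hz1⟩ | ⟨hz2, hz1⟩ | ⟨hz2, hz1⟩
        · exact Or.inr (Or.inr (Or.inr ⟨hz2, u, hu, hua, huy.tail ⟨hadj, hyZ, hz1⟩⟩))
        · rcases hz1 with h | h
          · exact Or.inr (Or.inl ⟨hz2, h⟩)
          · exact Or.inl ⟨u, y.1, hu, hyZ, hua, ⟨z.1, h, hadj⟩, huy⟩
        · have hzK : z.1 ∉ K := fun h => by
            have := hzS.2.2 h
            rw [hz2] at this
            exact absurd this (by simp)
          have hzs : z.1 ∈ s' := ⟨⟨hzS.1, hz1⟩, hzK⟩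
          rcases hKmax y.1 (hZ hyZ) z.1 hadj with h | h | h | h
          · exact absurd h hzK
          · -- the whole layer of the piece of `z` has the label `L1`
            refine Or.inr (Or.inr (Or.inl ⟨hz2, hzs, ?_⟩))
            have hT := tsc_timar_out hs hKs hK z.1
            set Lam : Set V := {d | d ∈ tscComp G ((R \ M) \ K) z.1 ∧ ∃ c ∈ K, G.Adj c d} with hLam
            have hzL : z.1 ∈ Lam := ⟨tsc_comp_self hzs, y.1, hZ hyZ, hadj⟩
            intro d hd hdk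
            have hdL : d ∈ Lam := ⟨hd, hdk⟩
            have hpath := hT z.1 hzL d hdL
            have : ∀ e, TscR G Lam z.1 e → e ∈ L1 := by
              intro e he
              induction he with
              | refl => exact h
              | @tail p q _ hpq ih2 =>
                obtain ⟨hpqadj, _, hq⟩ := hpq
                obtain ⟨hq1, c, hc, hcq⟩ := hq
                rcases hKmax c hc q hcq with h' | h' | h' | h'
                · exact absurd h' hq1.1.2
                · exact h'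
                · exact absurd hpqadj (hL _ ih2 _ h').2
                · exact absurd h' hq1.1.1.2
            exact this d hpath
          · exact Or.inl ⟨u, y.1, hu, hyZ, hua, ⟨z.1, h, hadj⟩, huy⟩
          · exact absurd h hz1
  rcases claim y hxy with h | hG
  · exact h
  rcases hy with ⟨hy2, hy1⟩ | ⟨hy2, hy1, hyc⟩
  · rcases hG with ⟨_, h⟩ | ⟨h, _⟩ | ⟨h, _⟩
    · exact absurd rfl (hL _ h _ hy1).1
    · rw [hy2] at h; exact absurd h (hbb b)
    · rw [hy2] at h; exact absurd h (by simp)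
  · rcases hG with ⟨h, _⟩ | ⟨h, _⟩ | ⟨_, u, hu, hua, huy⟩
    · rw [hy2] at h; exact absurd h (by simp)
    · rw [hy2] at h; exact absurd h (by simp)
    · exact ⟨u, y.1, hu, hy1, hua, hyc, huy⟩

/-- the test path  `a¹ - k - (l ⇝ l' inside La)² - k' - c¹`  of the glued complex -/
theorem hxp_test_path {G : SimpleGraph V} {R K La : Set V} (hLa : TscConn G La) (hLaK : ∀ v ∈ La, v ∉ K)
    {a k l l' k' c : V} (haK : a ∉ K) (hcK : c ∉ K) (hk : k ∈ K) (hk' : k' ∈ K) (hl : l ∈ La) (hl' : l' ∈ La)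
    (h1 : G.Adj a k) (h2 : G.Adj k l) (h3 : G.Adj l' k') (h4 : G.Adj k' c) :
    TscR (hxpG G) ({(a, some false), (k, none), (k', none), (c, some false)} ∪ hxpE K true '' La)
      (a, some false) (c, some false) := by
  set Q : Set (V × Option Bool) := {(a, some false), (k, none), (k', none), (c, some false)} ∪ hxpE K true '' La with hQ
  have ma : ((a, some false) : V × Option Bool) ∈ Q := Or.inl (by simp)
  have mk : ((k, none) : V × Option Bool) ∈ Q := Or.inl (by simp)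
  have mk' : ((k', none) : V × Option Bool) ∈ Q := Or.inl (by simp)
  have mc : ((c, some false) : V × Option Bool) ∈ Q := Or.inl (by simp)
  have ml : hxpE K true l ∈ Q := Or.inr ⟨l, hl, rfl⟩
  have ml' : hxpE K true l' ∈ Q := Or.inr ⟨l', hl', rfl⟩
  have s1 : TscR (hxpG G) Q (a, some false) (k, none) := tsc_R_step ⟨h1, Or.inr (Or.inr rfl)⟩ ma mk
  have s2 : TscR (hxpG G) Q (k, none) (hxpE K true l) := tsc_R_step ⟨h2, Or.inr (Or.inl rfl)⟩ mk ml
  have s3 : TscR (hxpG G) Q (hxpE K true l) (hxpE K true l') :=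
    tsc_R_mono Set.subset_union_right
      (tsc_R_map (hxpE K true) (fun u v h => (hxp_E_adj G K true u v).1 h) (hLa l hl l' hl'))
  have s4 : TscR (hxpG G) Q (hxpE K true l') (k', none) := tsc_R_step ⟨h3, Or.inr (Or.inr rfl)⟩ ml' mk'
  have s5 : TscR (hxpG G) Q (k', none) (c, some false) := tsc_R_step ⟨h4, Or.inr (Or.inl rfl)⟩ mk' mc
  exact (((s1.trans s2).trans s3).trans s4).trans s5

/-- **DICH** (replaces the label analysis of the boundary arcs of a place and Hex on the glued disc).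
`AA ∥ CC` and `al ∥ ga` solid connected sets, `K` a component of the free region, with its four corners.  Then for every `P`:
a path inside `K ∩ P` from `N(AA)` to `N(CC)`, or a path inside `K \ P` from `N(al)` to `N(ga)`. -/
theorem hxp_dich {G : SimpleGraph V} {R AA CC al ga K : Set V}
    (hR : TriSCOn (ZMod 2) G R) (h1 : TriSCOn (ZMod 2) G (R \ (AA ∪ CC))) (h2 : TriSCOn (ZMod 2) G (R \ (al ∪ ga)))
    (hAR : AA ⊆ R) (hCR : CC ⊆ R) (halR : al ⊆ R) (hgaR : ga ⊆ R)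
    (hA : TscConn G AA) (hC : TscConn G CC) (hal : TscConn G al) (hga : TscConn G ga)
    (hAC : ∀ u ∈ AA, ∀ v ∈ CC, u ≠ v ∧ ¬ G.Adj u v) (hag : ∀ u ∈ al, ∀ v ∈ ga, u ≠ v ∧ ¬ G.Adj u v)
    (hK : TscConn G K) (hKR : K ⊆ R) (hKd : ∀ k ∈ K, k ∉ AA ∧ k ∉ CC ∧ k ∉ al ∧ k ∉ ga)
    (hKmax : ∀ k ∈ K, ∀ v, G.Adj k v → v ∈ K ∨ v ∈ AA ∨ v ∈ CC ∨ v ∈ al ∨ v ∈ ga)
    {k1 k2 k3 k4 : V} (hk1 : k1 ∈ K) (hk2 : k2 ∈ K) (hk3 : k3 ∈ K) (hk4 : k4 ∈ K)
    (c1A : ∃ a ∈ AA, G.Adj k1 a) (c1l : ∃ a ∈ al, G.Adj k1 a) (c2l : ∃ a ∈ al, G.Adj k2 a) (c2C : ∃ a ∈ CC, G.Adj k2 a)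
    (c3C : ∃ a ∈ CC, G.Adj k3 a) (c3g : ∃ a ∈ ga, G.Adj k3 a) (c4g : ∃ a ∈ ga, G.Adj k4 a) (c4A : ∃ a ∈ AA, G.Adj k4 a)
    (P : Set V) :
    (∃ u v, u ∈ K ∩ P ∧ v ∈ K ∩ P ∧ (∃ a ∈ AA, G.Adj u a) ∧ (∃ c ∈ CC, G.Adj v c) ∧ TscR G (K ∩ P) u v) ∨
    (∃ u v, u ∈ K \ P ∧ v ∈ K \ P ∧ (∃ a ∈ al, G.Adj u a) ∧ (∃ c ∈ ga, G.Adj v c) ∧ TscR G (K \ P) u v) := by
  classical
  obtain ⟨a1, ha1, hk1a⟩ := c1A
  obtain ⟨l1, hl1, hk1l⟩ := c1l
  obtain ⟨l2, hl2, hk2l⟩ := c2l
  obtain ⟨c2, hc2, hk2c⟩ := c2C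
  obtain ⟨c3, hc3, hk3c⟩ := c3C
  obtain ⟨g3, hg3, hk3g⟩ := c3g
  obtain ⟨g4, hg4, hk4g⟩ := c4g
  obtain ⟨a4, ha4, hk4a⟩ := c4A
  have nA : ∀ v ∈ AA, v ∉ K := fun v hv h => (hKd v h).1 hv
  have nC : ∀ v ∈ CC, v ∉ K := fun v hv h => (hKd v h).2.1 hv
  have nl : ∀ v ∈ al, v ∉ K := fun v hv h => (hKd v h).2.2.1 hv
  have ng : ∀ v ∈ ga, v ∉ K := fun v hv h => (hKd v h).2.2.2 hv
  set X := hxpS R K with hX
  have hXsc : TriSCOn (ZMod 2) (hxpG G) X := hxp_glue_sc hR hKR hK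
  set Pl := hxpCol R K (K ∩ P) (AA ∪ CC) (al ∪ ga) false with hPl
  set Mi := hxpCol R K (K \ P) (al ∪ ga) (AA ∪ CC) true with hMi
  have hPlX : Pl ⊆ X := fun x hx => hx.1
  -- the two classes are complementary
  have hcompl : ∀ x, x ∈ X → x ∉ Pl → x ∈ Mi := by
    rintro ⟨v, i⟩ hx hn
    refine ⟨hx, ?_⟩
    rcases i with _ | b
    · left
      have hvK : v ∈ K := hx.2.1 rfl
      refine ⟨rfl, hvK, fun hP => hn ⟨hx, Or.inl ⟨rfl, hvK, hP⟩⟩⟩
    · cases b
      · right; right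
        refine ⟨rfl, fun h => hn ⟨hx, Or.inr (Or.inl ⟨rfl, h⟩)⟩⟩
      · right; left
        refine ⟨rfl, ?_⟩
        by_contra h
        exact hn ⟨hx, Or.inr (Or.inr ⟨rfl, h⟩)⟩
  have memX : ∀ v ∈ R, v ∉ K → ∀ b, ((v, some b) : V × Option Bool) ∈ X := by
    intro v hv hvK b
    exact ⟨hv, by simp [hvK]⟩
  have memXK : ∀ v ∈ K, ((v, none) : V × Option Bool) ∈ X := fun v hv => ⟨hKR hv, by simp [hv]⟩
  have ta : ((a1, some false) : V × Option Bool) ∈ Pl :=
    ⟨memX a1 (hAR ha1) (nA a1 ha1) false, Or.inr (Or.inl ⟨rfl, Or.inl ha1⟩)⟩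
  have tc : ((c2, some false) : V × Option Bool) ∈ Pl :=
    ⟨memX c2 (hCR hc2) (nC c2 hc2) false, Or.inr (Or.inl ⟨rfl, Or.inr hc2⟩)⟩
  by_cases hjoin : TscR (hxpG G) Pl (a1, some false) (c2, some false)
  · -- plus connection
    left
    refine hxp_lab (b := false) (L1 := AA) (L2 := CC) (M := al ∪ ga) (Z := K ∩ P) h2 hK ?_ Set.inter_subset_left hAC ?_
      hjoin (Or.inl ⟨rfl, ha1⟩) (Or.inl ⟨rfl, hc2⟩)
    · intro k hk
      exact ⟨hKR hk, fun h => h.elim (hKd k hk).2.2.1 (hKd k hk).2.2.2⟩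
    · intro k hk v hv
      rcases hKmax k hk v hv with h | h | h | h | h
      · exact Or.inl h
      · exact Or.inr (Or.inl h)
      · exact Or.inr (Or.inr (Or.inl h))
      · exact Or.inr (Or.inr (Or.inr (Or.inl h)))
      · exact Or.inr (Or.inr (Or.inr (Or.inr h)))
  · right
    obtain ⟨M, hM, hMc, hMm⟩ := tsc_hex hXsc hPlX ta tc hjoin
    -- first test path: through `al`
    have p1 := hxp_test_path (R := R) hal nl (nA a1 ha1) (nC c2 hc2) hk1 hk2 hl1 hl2 hk1a.symm hk1l hk2l.symm hk2c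
    have q1 : ({(a1, some false), (k1, none), (k2, none), (c2, some false)} ∪ hxpE K true '' al : Set (V × Option Bool)) ⊆ X := by
      rintro x (hx | ⟨v, hv, rfl⟩)
      · simp only [Set.mem_insert_iff, Set.mem_singleton_iff] at hx
        rcases hx with rfl | rfl | rfl | rfl
        · exact ta.1
        · exact memXK _ hk1
        · exact memXK _ hk2
        · exact tc.1
      · exact hxp_E_mem_S true (halR hv)
    obtain ⟨m1, hm1Q, hm1M⟩ := hMm _ q1 p1
    have t1 : hxpTouch G (K \ P) al true m1 := by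
      have hnP : m1 ∉ Pl := (hM hm1M).2
      rcases hm1Q with hx | ⟨v, hv, rfl⟩
      · simp only [Set.mem_insert_iff, Set.mem_singleton_iff] at hx
        rcases hx with rfl | rfl | rfl | rfl
        · exact absurd ta hnP
        · exact Or.inr ⟨rfl, ⟨hk1, fun hP => hnP ⟨memXK _ hk1, Or.inl ⟨rfl, hk1, hP⟩⟩⟩, l1, hl1, hk1l⟩
        · exact Or.inr ⟨rfl, ⟨hk2, fun hP => hnP ⟨memXK _ hk2, Or.inl ⟨rfl, hk2, hP⟩⟩⟩, l2, hl2, hk2l⟩
        · exact absurd tc hnP
      · rw [hxp_E_not _ (nl v hv)]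
        exact Or.inl ⟨rfl, hv⟩
    -- second test path: `a1 ⇝ a4 - k4 - (g4 ⇝ g3) - k3 - c3 ⇝ c2`
    have p2 := hxp_test_path (R := R) hga ng (nA a4 ha4) (nC c3 hc3) hk4 hk3 hg4 hg3 hk4a.symm hk4g hk3g.symm hk3c
    set Q2 : Set (V × Option Bool) := (hxpE K false '' AA ∪ hxpE K false '' CC) ∪
      ({(a4, some false), (k4, none), (k3, none), (c3, some false)} ∪ hxpE K true '' ga) with hQ2
    have p2' : TscR (hxpG G) Q2 (a1, some false) (c2, some false) := by
      have e1 : TscR (hxpG G) Q2 (hxpE K false a1) (hxpE K false a4) :=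
        tsc_R_mono (fun x hx => Or.inl (Or.inl hx))
          (tsc_R_map (hxpE K false) (fun u v h => (hxp_E_adj G K false u v).1 h) (hA a1 ha1 a4 ha4))
      have e3 : TscR (hxpG G) Q2 (hxpE K false c3) (hxpE K false c2) :=
        tsc_R_mono (fun x hx => Or.inl (Or.inr hx))
          (tsc_R_map (hxpE K false) (fun u v h => (hxp_E_adj G K false u v).1 h) (hC c3 hc3 c2 hc2))
      rw [hxp_E_not _ (nA a1 ha1), hxp_E_not _ (nA a4 ha4)] at e1
      rw [hxp_E_not _ (nC c3 hc3), hxp_E_not _ (nC c2 hc2)] at e3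
      exact (e1.trans (tsc_R_mono Set.subset_union_right p2)).trans e3
    have q2 : Q2 ⊆ X := by
      rintro x ((⟨v, hv, rfl⟩ | ⟨v, hv, rfl⟩) | (hx | ⟨v, hv, rfl⟩))
      · exact hxp_E_mem_S false (hAR hv)
      · exact hxp_E_mem_S false (hCR hv)
      · simp only [Set.mem_insert_iff, Set.mem_singleton_iff] at hx
        rcases hx with rfl | rfl | rfl | rfl
        · exact memX _ (hAR ha4) (nA _ ha4) false
        · exact memXK _ hk4
        · exact memXK _ hk3
        · exact memX _ (hCR hc3) (nC _ hc3) false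
      · exact hxp_E_mem_S true (hgaR hv)
    obtain ⟨m2, hm2Q, hm2M⟩ := hMm _ q2 p2'
    have plA : ∀ v ∈ AA, ((v, some false) : V × Option Bool) ∈ Pl := fun v hv =>
      ⟨memX v (hAR hv) (nA v hv) false, Or.inr (Or.inl ⟨rfl, Or.inl hv⟩)⟩
    have plC : ∀ v ∈ CC, ((v, some false) : V × Option Bool) ∈ Pl := fun v hv =>
      ⟨memX v (hCR hv) (nC v hv) false, Or.inr (Or.inl ⟨rfl, Or.inr hv⟩)⟩
    have t2 : hxpTouch G (K \ P) ga true m2 := by
      have hnP : m2 ∉ Pl := (hM hm2M).2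
      rcases hm2Q with (⟨v, hv, rfl⟩ | ⟨v, hv, rfl⟩) | (hx | ⟨v, hv, rfl⟩)
      · rw [hxp_E_not _ (nA v hv)] at hnP
        exact absurd (plA v hv) hnP
      · rw [hxp_E_not _ (nC v hv)] at hnP
        exact absurd (plC v hv) hnP
      · simp only [Set.mem_insert_iff, Set.mem_singleton_iff] at hx
        rcases hx with rfl | rfl | rfl | rfl
        · exact absurd (plA _ ha4) hnP
        · exact Or.inr ⟨rfl, ⟨hk4, fun hP => hnP ⟨memXK _ hk4, Or.inl ⟨rfl, hk4, hP⟩⟩⟩, g4, hg4, hk4g⟩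
        · exact Or.inr ⟨rfl, ⟨hk3, fun hP => hnP ⟨memXK _ hk3, Or.inl ⟨rfl, hk3, hP⟩⟩⟩, g3, hg3, hk3g⟩
        · exact absurd (plC _ hc3) hnP
      · rw [hxp_E_not _ (ng v hv)]
        exact Or.inl ⟨rfl, hv⟩
    have hMMi : M ⊆ Mi := fun x hx => hcompl x (hM hx).1 (hM hx).2
    have hpath : TscR (hxpG G) Mi m1 m2 := tsc_R_mono hMMi (hMc m1 hm1M m2 hm2M)
    refine hxp_lab (b := true) (L1 := al) (L2 := ga) (M := AA ∪ CC) (Z := K \ P) h1 hK ?_ Set.sdiff_subset hag ?_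
      hpath t1 t2
    · intro k hk
      exact ⟨hKR hk, fun h => h.elim (hKd k hk).1 (hKd k hk).2.1⟩
    · intro k hk v hv
      rcases hKmax k hk v hv with h | h | h | h | h
      · exact Or.inl h
      · exact Or.inr (Or.inr (Or.inr (Or.inl h)))
      · exact Or.inr (Or.inr (Or.inr (Or.inr h)))
      · exact Or.inr (Or.inl h)
      · exact Or.inr (Or.inr (Or.inl h))

/-- **CORNER**: `K` touches `AA` and `CC`, which are joined off `K`.  Then some site of `K` sees `al` and `CC`, or `AA` and `ga`.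
(All that is left of the cyclic order of the boundary arcs of a place.) -/
theorem hxp_corner {G : SimpleGraph V} {s AA CC al ga K : Set V}
    (hs : TriSCOn (ZMod 2) G s) (hKs : K ⊆ s) (hK : TscConn G K)
    (hAC : ∀ u ∈ AA, ∀ v ∈ CC, u ≠ v ∧ ¬ G.Adj u v) (hag : ∀ u ∈ al, ∀ v ∈ ga, u ≠ v ∧ ¬ G.Adj u v)
    (hKd : ∀ k ∈ K, k ∉ AA ∧ k ∉ CC ∧ k ∉ al ∧ k ∉ ga)
    (hKmax : ∀ k ∈ K, ∀ v, G.Adj k v → v ∈ K ∨ v ∈ AA ∨ v ∈ CC ∨ v ∈ al ∨ v ∈ ga)
    {k1 k3 a1 c3 : V} (hk1 : k1 ∈ K) (hk3 : k3 ∈ K) (ha1 : a1 ∈ AA) (h1 : G.Adj k1 a1) (hc3 : c3 ∈ CC) (h3 : G.Adj k3 c3)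
    (hjoin : TscR G (s \ K) a1 c3) :
    ∃ k ∈ K, ((∃ a ∈ al, G.Adj k a) ∧ (∃ c ∈ CC, G.Adj k c)) ∨ ((∃ a ∈ AA, G.Adj k a) ∧ (∃ c ∈ ga, G.Adj k c)) := by
  classical
  by_contra hne
  have hno1 : ∀ k ∈ K, ∀ a ∈ al, G.Adj k a → ∀ c ∈ CC, ¬ G.Adj k c := fun k hk a ha hka c hc hkc =>
    hne ⟨k, hk, Or.inl ⟨⟨a, ha, hka⟩, ⟨c, hc, hkc⟩⟩⟩
  have hno2 : ∀ k ∈ K, ∀ a ∈ AA, G.Adj k a → ∀ c ∈ ga, ¬ G.Adj k c := fun k hk a ha hka c hc hkc =>
    hne ⟨k, hk, Or.inr ⟨⟨a, ha, hka⟩, ⟨c, hc, hkc⟩⟩⟩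
  set S : Set V := AA ∪ al with hS
  have hdis : ∀ a, a ∈ K → a ∈ S → False := fun a h h' => h'.elim (hKd a h).1 (hKd a h).2.2.1
  have key : ∀ a ∈ K, ∀ b ∈ S, ∀ c, G.Adj a b → G.Adj a c → G.Adj b c → c ∈ K ∨ c ∈ S := by
    intro a ha b hb c hab hac hbc
    rcases hKmax a ha c hac with h | h | h | h | h
    · exact Or.inl h
    · exact Or.inr (Or.inl h)
    · rcases hb with hb | hb
      · exact absurd hbc (hAC b hb c h).2
      · exact absurd hac (hno1 a ha b hb hab c h)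
    · exact Or.inr (Or.inr h)
    · rcases hb with hb | hb
      · exact absurd hac (hno2 a ha b hb hab c h)
      · exact absurd hbc (hag b hb c h).2
  let ω : V → V → ZMod 2 := fun u v => if (u ∈ K ∧ v ∈ S) ∨ (v ∈ K ∧ u ∈ S) then 1 else 0
  obtain ⟨f, hf⟩ := tsc_mod2 hs ω (fun u _ v _ _ => by simp only [ω, or_comm])
    (fun u hu v hv w hw huv hvw huw => tsc_aux (u ∈ K) (u ∈ S) (v ∈ K) (v ∈ S) (w ∈ K) (w ∈ S) (hdis u) (hdis v) (hdis w)
      (fun h h' => key u h v h' w huv huw hvw) (fun h h' => key v h u h' w huv.symm hvw huw)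
      (fun h h' => key u h w h' v huw huv hvw.symm) (fun h h' => key w h u h' v huw.symm hvw.symm huv)
      (fun h h' => key v h w h' u hvw huv.symm huw.symm) (fun h h' => key w h v h' u hvw.symm huw.symm huv.symm))
  have fK : f k1 = f k3 := by
    refine tsc_R_const f (fun p q h => ?_) (hK k1 hk1 k3 hk3)
    have e1 := hf p (hKs h.2.1) q (hKs h.2.2) h.1
    have e2 : ω p q = 0 := by
      simp only [ω]
      rw [if_neg]
      rintro (⟨_, h'⟩ | ⟨_, h'⟩)
      · exact hdis q h.2.2 h'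
      · exact hdis p h.2.1 h'
    rw [e2] at e1
    exact CharTwo.add_eq_zero.1 e1.symm
  have fO : f a1 = f c3 := by
    refine tsc_R_const f (fun p q h => ?_) hjoin
    have e1 := hf p h.2.1.1 q h.2.2.1 h.1
    have e2 : ω p q = 0 := by
      simp only [ω]
      rw [if_neg]
      rintro (⟨h', _⟩ | ⟨h', _⟩)
      · exact h.2.1.2 h'
      · exact h.2.2.2 h'
    rw [e2] at e1
    exact CharTwo.add_eq_zero.1 e1.symm
  have ha1s : a1 ∈ s := by
    rcases Relation.ReflTransGen.cases_head hjoin with h | ⟨c, hc, _⟩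
    · exact absurd h (hAC a1 ha1 c3 hc3).1
    · exact hc.2.1.1
  have hc3s : c3 ∈ s := by
    rcases Relation.ReflTransGen.cases_tail hjoin with h | ⟨c, _, hc⟩
    · exact absurd h.symm (hAC a1 ha1 c3 hc3).1
    · exact hc.2.2.1
  have e0 : ω k1 a1 = 1 := by
    simp only [ω]
    exact if_pos (Or.inl ⟨hk1, Or.inl ha1⟩)
  have e3 : ω k3 c3 = 0 := by
    simp only [ω]
    rw [if_neg]
    rintro (⟨_, h'⟩ | ⟨h', _⟩)
    · rcases h' with h' | h'
      · exact (hAC c3 h' c3 hc3).1 rfl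
      · exact hno1 k3 hk3 c3 h' h3 c3 hc3 h3
    · exact (hKd c3 h').2.1 hc3
  rw [hf k1 (hKs hk1) a1 ha1s h1] at e0
  rw [hf k3 (hKs hk3) c3 hc3s h3] at e3
  rw [fK, fO, e3] at e0
  exact absurd e0 (by decide)

/-- the two formulations of `H^1 = 0` mod 2 agree -/
theorem hxp_sc_iff {G : SimpleGraph V} {s : Set V} : HxSC G.Adj s ↔ TriSCOn (ZMod 2) G s := by
  classical
  constructor
  · intro h ω hω
    have hcl : HxCl G.Adj s (fun u v => if u ∈ s ∧ v ∈ s ∧ G.Adj u v then ω u v else 0) := by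
      refine ⟨?_, ?_⟩
      · intro u v
        show (if u ∈ s ∧ v ∈ s ∧ G.Adj u v then ω u v else 0) = (if v ∈ s ∧ u ∈ s ∧ G.Adj v u then ω v u else 0)
        by_cases huv : u ∈ s ∧ v ∈ s ∧ G.Adj u v
        · rw [if_pos huv, if_pos ⟨huv.2.1, huv.1, huv.2.2.symm⟩, hω.anti u huv.1 v huv.2.1 huv.2.2, CharTwo.neg_eq]
        · rw [if_neg huv, if_neg (fun h => huv ⟨h.2.1, h.1, h.2.2.symm⟩)]
      · intro u hu v hv w hw huv hvw huw
        show (if u ∈ s ∧ v ∈ s ∧ G.Adj u v then ω u v else 0) + (if v ∈ s ∧ w ∈ s ∧ G.Adj v w then ω v w else 0)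
          + (if u ∈ s ∧ w ∈ s ∧ G.Adj u w then ω u w else 0) = 0
        rw [if_pos ⟨hu, hv, huv⟩, if_pos ⟨hv, hw, hvw⟩, if_pos ⟨hu, hw, huw⟩, hω.tri u hu v hv w hw huv hvw huw]
        exact CharTwo.add_self_eq_zero _
    obtain ⟨f, hf⟩ := h _ hcl
    refine ⟨f, fun u hu v hv huv => ?_⟩
    have : (if u ∈ s ∧ v ∈ s ∧ G.Adj u v then ω u v else 0) = f u + f v := hf u hu v hv huv
    rw [if_pos ⟨hu, hv, huv⟩] at this
    rw [this, CharTwo.sub_eq_add, add_comm]
  · intro h om hom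
    exact tsc_mod2 h om (fun u _ v _ _ => hom.1 u v) hom.2

end glue

/-! ### irregular regions of the triangular lattice -/

section lattice

/-- every finite set of sites without holes is TriSC (mod 2) -/
theorem hxp_sc_free {S : Set (ℤ × ℤ)} (hfin : S.Finite) (h : HxFree S) : TriSCOn (ZMod 2) tscG S :=
  hxp_sc_iff.1 (hx_sc_of_free hfin h)

/-- deleting from a TriSC region a finite set all of whose sites are joined, inside the deleted set or off the region, to the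
complement of the region -/
theorem hxp_sc_diff {R D : Set (ℤ × ℤ)} (hR : TriSCOn (ZMod 2) tscG R) (hD : D.Finite) (hDR : D ⊆ R)
    (h : ∀ d ∈ D, ∃ t, t ∉ R ∧ ReflTransGen (fun a b => triAdj a b ∧ b ∉ R \ D) d t) :
    TriSCOn (ZMod 2) tscG (R \ D) := by
  classical
  refine hxp_sc_iff.1 (hx_region (adj := tscG.Adj) hx_tri_symm hx_tri_irrefl _ R (R \ D) hD.toFinset rfl
    (hxp_sc_iff.2 hR) Set.sdiff_subset ?_ ?_ ?_)
  · ext x
    simp only [Set.mem_sdiff, Set.Finite.coe_toFinset]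
    constructor
    · rintro ⟨h1, h2⟩
      by_contra h3
      exact h2 ⟨h1, h3⟩
    · intro h1
      exact ⟨hDR h1, fun h2 => h2.2 h1⟩
  · intro w _ w' hww' L hL
    exact hx_tri_link w w' hww' L hL
  · intro d hd
    exact h d (hD.mem_toFinset.1 hd)

/-- deleting connected sets anchored at the boundary of the region -/
theorem hxp_sc_diff_conn {R D : Set (ℤ × ℤ)} (hR : TriSCOn (ZMod 2) tscG R) (hD : D.Finite) (hDR : D ⊆ R)
    (h : ∀ d ∈ D, ∃ e t, e ∈ D ∧ TscR tscG D d e ∧ t ∉ R ∧ triAdj e t) :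
    TriSCOn (ZMod 2) tscG (R \ D) := by
  refine hxp_sc_diff hR hD hDR ?_
  intro d hd
  obtain ⟨e, t, he, hde, ht, het⟩ := h d hd
  refine ⟨t, ht, ?_⟩
  have h1 : ∀ e', TscR tscG D d e' → ReflTransGen (fun a b => triAdj a b ∧ b ∉ R \ D) d e' := by
    intro e' he'
    induction he' with
    | refl => exact ReflTransGen.refl
    | tail _ hbc ih => exact ih.tail ⟨hbc.1, fun h' => h'.2 hbc.2.2⟩
  exact (h1 e hde).tail ⟨het, fun h' => ht h'.1⟩

end lattice

end Claimed.Agent.R291
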