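import Mathlib
import Claimed.Agent.R291.Defs.Frozen
import Claimed.Agent.R291.Defs.Lat
import Claimed.Agent.R291.Tool.TriSCLat

/-!
# Row 291 (S0539), Pl/Ball : COMPONENTS OF COMPLEMENTS, EDGE FORM OF TIMAR, HEXAGON BALLS      (owner helper110; prefix `plh_`)

Unit PLA (head 269).  Facts N1, N1b, N4 of `origin/helper149:notes/R291/thmD2_149.md` Sec. 10 (TEX[thm:annulus], proof of Theorem 2.3, planar inputs).
Language: `TscR / TscConn / tscComp` on `tscG` (Tool/TriSC, 147) and `latN / latBall / latBd / cellV` (Defs/Lat, 115).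

ABSTRACT (any simple graph)
* `plh_comp_compl_conn`   N1b: `s` connected, `K ⊆ s` connected nonempty, `H` a component of `s \ K`  ⟹  `s \ H` connected
* `PlhEStep`, `plh_timar_edge`   N1, EDGE FORM OF TIMAR: the edges between `X` and `Y` are connected through triangles
LATTICE
* `PlhNice H`  (connected, complement connected), `plh_comp_nice`
* `plhCut H` (up-cells meeting `H` and its complement), `plh_cut_conn` : the cut cells of a nice set are chain connected
* `latN` : `plh_N_le_iff`, `plh_N_adj`, `plh_N_add`, `plh_N_neg`, `plh_N_eq_zero`, `plh_N_rot`, `plh_N_refl`, `plh_N_swap`, `plh_desc`, `plh_asc`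
* `plh_ball_conn`, `plh_ball_compl_conn`, `plh_ball_nice`, `plh_sphere_conn`, `plh_bd_ball`, `plh_int_ball`, `plh_lay_iff`
* `plh_ball_sub_box`, `plh_box_sub_ball`, `plh_ball_eq_hex`, `plh_ball_sc`, `plh_ball_mono`, `plh_ball_shift`, `plh_walk_len`
-/

set_option autoImplicit false
set_option linter.unusedVariables false
set_option linter.unusedSimpArgs false

namespace Claimed.Agent.R291

open Relation Claims Claims.C0467

section abstract
variable {V : Type*} {G : SimpleGraph V} {s K : Set V}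

/-- from a point of `s` off the component `H` of `s \ K`, a path towards `K` reaches `K` without meeting `H` -/
theorem plh_reach (x : V) {v w : V} (h : TscR G s v w) (hw : w ∈ K) (hv : v ∈ s) (hvH : v ∉ tscComp G (s \ K) x) :
    ∃ k ∈ K, TscR G (s \ tscComp G (s \ K) x) v k := by
  revert hv hvH
  refine ReflTransGen.head_induction_on (motive := fun a _ => a ∈ s → a ∉ tscComp G (s \ K) x →
    ∃ k ∈ K, TscR G (s \ tscComp G (s \ K) x) a k) h ?_ ?_
  · intro _ _
    exact ⟨w, hw, tsc_R_refl _⟩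
  · intro a c hac _ ih ha haH
    by_cases haK : a ∈ K
    · exact ⟨a, haK, tsc_R_refl _⟩
    · have hcH : c ∉ tscComp G (s \ K) x := fun hc => haH (tsc_comp_adj hc ⟨ha, haK⟩ hac.1.symm)
      obtain ⟨k, hk, hck⟩ := ih hac.2.2 hcH
      exact ⟨k, hk, ReflTransGen.head ⟨hac.1, ⟨ha, haH⟩, ⟨hac.2.2, hcH⟩⟩ hck⟩

/-- **N1b**: the complement (in the connected set `s`) of a component of `s \ K`, `K` connected, is connected -/
theorem plh_comp_compl_conn (hs : TscConn G s) (hKs : K ⊆ s) (hK : TscConn G K) (hne : K.Nonempty) (x : V) :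
    TscConn G (s \ tscComp G (s \ K) x) := by
  obtain ⟨k0, hk0⟩ := hne
  have hKsub : K ⊆ s \ tscComp G (s \ K) x := fun a ha => ⟨hKs ha, fun h => h.1.2 ha⟩
  intro u hu v hv
  obtain ⟨k, hk, huk⟩ := plh_reach x (hs u hu.1 k0 (hKs hk0)) hk0 hu.1 hu.2
  obtain ⟨k', hk', hvk⟩ := plh_reach x (hs v hv.1 k0 (hKs hk0)) hk0 hv.1 hv.2
  exact tsc_R_trans huk (tsc_R_trans (tsc_R_mono hKsub (hK k hk k' hk')) (tsc_R_symm hvk))

/-- a connected set is its own component -/
theorem plh_comp_eq_of_conn (hs : TscConn G s) {x : V} (hx : x ∈ s) : tscComp G s x = s := by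
  ext v
  exact ⟨fun h => h.1, fun h => ⟨h, hs x hx v h⟩⟩

/-- two components which meet are equal -/
theorem plh_comp_eq_of_mem {x y : V} (h : y ∈ tscComp G s x) : tscComp G s y = tscComp G s x := by
  ext v
  exact ⟨fun hv => ⟨hv.1, tsc_R_trans h.2 hv.2⟩, fun hv => ⟨hv.1, tsc_R_trans (tsc_R_symm h.2) hv.2⟩⟩

/-- a connected subset of `s` which meets a component lies inside it -/
theorem plh_conn_sub_comp {C : Set V} (hC : TscConn G C) (hCs : C ⊆ s) {x a : V} (ha : a ∈ C) (hax : a ∈ tscComp G s x) :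
    C ⊆ tscComp G s x :=
  fun v hv => ⟨hCs hv, tsc_R_trans hax.2 (tsc_R_mono hCs (hC a ha v hv))⟩

/-- the edges from `X` to `Y` -/
def PlhEdge (G : SimpleGraph V) (X Y : Set V) (e : V × V) : Prop := e.1 ∈ X ∧ e.2 ∈ Y ∧ G.Adj e.1 e.2

/-- two edges from `X` to `Y` which are two sides of one triangle -/
def PlhEStep (G : SimpleGraph V) (X Y : Set V) (e e' : V × V) : Prop :=
  PlhEdge G X Y e ∧ PlhEdge G X Y e' ∧ ((e.1 = e'.1 ∧ G.Adj e.2 e'.2) ∨ (e.2 = e'.2 ∧ G.Adj e.1 e'.1))

/-- parity bookkeeping on one triangle -/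
theorem plh_par (p q r : Prop) [Decidable p] [Decidable q] [Decidable r] (h1 : p → (r ↔ ¬ q)) (h2 : q → (p ↔ ¬ r)) (h3 : r → (p ↔ ¬ q)) :
    (if p then (1 : ZMod 2) else 0) + (if q then 1 else 0) + (if r then 1 else 0) = 0 := by
  by_cases hp : p <;> by_cases hq : q <;> by_cases hr : r <;> simp only [hp, hq, hr, if_true, if_false] <;>
    first
      | decide
      | (exfalso; simp only [hp, hq, hr, true_iff, iff_true, false_iff, iff_false, not_true_eq_false, not_false_eq_true,
          forall_const, imp_false, IsEmpty.forall_iff] at h1 h2 h3)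

/-- **N1, edge form of Timar's lemma**: `X`, `Y` disjoint connected, every triangle on an `X`-`Y` edge stays in `X ∪ Y`:
the `X`-`Y` edges are connected through triangles -/
theorem plh_timar_edge (hs : TriSCOn (ZMod 2) G s) {X Y : Set V} (hX : X ⊆ s) (hY : Y ⊆ s) (hXY : ∀ a, a ∈ X → a ∈ Y → False)
    (hXc : TscConn G X) (hYc : TscConn G Y)
    (hK : ∀ x ∈ X, ∀ y ∈ Y, ∀ c ∈ s, G.Adj x y → G.Adj x c → G.Adj y c → c ∈ X ∨ c ∈ Y)
    {e e' : V × V} (he : PlhEdge G X Y e) (he' : PlhEdge G X Y e') : ReflTransGen (PlhEStep G X Y) e e' := by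
  classical
  set S : Set (V × V) := {d | PlhEdge G X Y d ∧ ReflTransGen (PlhEStep G X Y) e d} with hS
  let P : V → V → Prop := fun a b => (a, b) ∈ S ∨ (b, a) ∈ S
  have Psymm : ∀ a b, P a b ↔ P b a := fun a b => or_comm
  have PX : ∀ a b, a ∈ X → b ∈ X → ¬ P a b := by
    rintro a b ha hb (h | h)
    · exact hXY b hb h.1.2.1
    · exact hXY a ha h.1.2.1
  have PY : ∀ a b, a ∈ Y → b ∈ Y → ¬ P a b := by
    rintro a b ha hb (h | h)
    · exact hXY a h.1.1 ha
    · exact hXY b h.1.1 hb
  -- one oriented edge of `S` in a triangle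
  have key0 : ∀ a b c, c ∈ s → G.Adj a c → G.Adj b c → (a, b) ∈ S → (P a c ↔ ¬ P b c) := by
    intro a b c hc hac hbc hab
    have ha : a ∈ X := hab.1.1
    have hb : b ∈ Y := hab.1.2.1
    rcases hK a ha b hb c hc hab.1.2.2 hac hbc with h | h
    · have h1 : (c, b) ∈ S := by
        have hE : PlhEdge G X Y (c, b) := ⟨h, hb, hbc.symm⟩
        exact ⟨hE, hab.2.tail ⟨hab.1, hE, Or.inr ⟨rfl, hac⟩⟩⟩
      exact ⟨fun h' => (PX a c ha h h').elim, fun h' => (h' (Or.inr h1)).elim⟩
    · have h1 : (a, c) ∈ S := by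
        have hE : PlhEdge G X Y (a, c) := ⟨ha, h, hac⟩
        exact ⟨hE, hab.2.tail ⟨hab.1, hE, Or.inl ⟨rfl, hbc⟩⟩⟩
      exact ⟨fun _ => PY b c hb h, fun _ => Or.inl h1⟩
  have key : ∀ a b c, c ∈ s → G.Adj a c → G.Adj b c → P a b → (P a c ↔ ¬ P b c) := by
    intro a b c hc hac hbc hab
    rcases hab with h | h
    · exact key0 a b c hc hac hbc h
    · have := key0 b a c hc hbc hac h
      constructor
      · intro h1 h2
        exact (this.1 h2) h1
      · intro h1
        by_contra h2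
        exact h1 (this.2 h2)
  let ω : V → V → ZMod 2 := fun u v => if P u v then 1 else 0
  obtain ⟨f, hf⟩ := tsc_mod2 hs ω (fun u _ v _ _ => by simp only [ω, Psymm u v])
    (fun u hu v hv w hw huv hvw huw => by
      refine plh_par (P u v) (P v w) (P u w) ?_ ?_ ?_
      · intro h
        exact key u v w hw huw hvw h
      · intro h
        have := key v w u hu huv.symm huw.symm h
        rw [Psymm v u, Psymm w u] at this
        exact this
      · intro h
        have := key u w v hv huv hvw.symm h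
        rw [Psymm w v] at this
        exact this)
  have fX : ∀ a ∈ X, ∀ b ∈ X, f a = f b := by
    intro a ha b hb
    refine tsc_R_const f (fun p q h => ?_) (hXc a ha b hb)
    have h1 := hf p (hX h.2.1) q (hX h.2.2) h.1
    have h2 : ω p q = 0 := if_neg (PX p q h.2.1 h.2.2)
    rw [h2] at h1
    exact CharTwo.add_eq_zero.1 h1.symm
  have fY : ∀ a ∈ Y, ∀ b ∈ Y, f a = f b := by
    intro a ha b hb
    refine tsc_R_const f (fun p q h => ?_) (hYc a ha b hb)
    have h1 := hf p (hY h.2.1) q (hY h.2.2) h.1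
    have h2 : ω p q = 0 := if_neg (PY p q h.2.1 h.2.2)
    rw [h2] at h1
    exact CharTwo.add_eq_zero.1 h1.symm
  have e0 : ω e.1 e.2 = 1 := if_pos (Or.inl ⟨he, ReflTransGen.refl⟩)
  have e1 : ω e'.1 e'.2 = 1 := by
    rw [hf e'.1 (hX he'.1) e'.2 (hY he'.2.1) he'.2.2, fX e'.1 he'.1 e.1 he.1, fY e'.2 he'.2.1 e.2 he.2.1,
      ← hf e.1 (hX he.1) e.2 (hY he.2.1) he.2.2, e0]
  by_cases h : P e'.1 e'.2
  · rcases h with h | h
    · exact h.2
    · exact (hXY e'.2 h.1.1 he'.2.1).elim
  · have : ω e'.1 e'.2 = 0 := if_neg h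
    rw [this] at e1
    exact absurd e1 (by decide)

end abstract

/-! ## The hexagonal norm -/

theorem plh_N_le_iff (u : TV) (r : ℕ) : latN u ≤ r ↔
    (-(r : ℤ) ≤ u.1 ∧ u.1 ≤ r ∧ -(r : ℤ) ≤ u.2 ∧ u.2 ≤ r ∧ -(r : ℤ) ≤ u.1 + u.2 ∧ u.1 + u.2 ≤ r) := by
  unfold latN
  omega

theorem plh_N_adj {u v : TV} (h : triAdj u v) : latN v ≤ latN u + 1 := by
  rw [tsc_adj_iff] at h
  unfold latN
  omega

theorem plh_N_adj' {u v : TV} (h : triAdj u v) : latN u ≤ latN v + 1 := plh_N_adj (lat_adj_symm h)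

theorem plh_N_add (u v : TV) : latN (u + v) ≤ latN u + latN v := by
  have h1 := (plh_N_le_iff u (latN u)).1 le_rfl
  have h2 := (plh_N_le_iff v (latN v)).1 le_rfl
  rw [plh_N_le_iff]
  simp only [Prod.fst_add, Prod.snd_add]
  push_cast
  omega

theorem plh_N_neg (u : TV) : latN (-u) = latN u := by
  unfold latN
  simp only [Prod.fst_neg, Prod.snd_neg]
  omega

theorem plh_N_sub_comm (u v : TV) : latN (u - v) = latN (v - u) := by
  rw [← plh_N_neg (u - v), neg_sub]

theorem plh_N_eq_zero {u : TV} : latN u = 0 ↔ u = 0 := by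
  unfold latN
  rw [Prod.ext_iff]
  simp only [Prod.fst_zero, Prod.snd_zero]
  omega

theorem plh_N_zero : latN 0 = 0 := plh_N_eq_zero.2 rfl

theorem plh_N_tri (u v w : TV) : latN (u - w) ≤ latN (u - v) + latN (v - w) := by
  have := plh_N_add (u - v) (v - w)
  rwa [sub_add_sub_cancel] at this

theorem plh_N_rot (u : TV) : latN (latRot u) = latN u := by
  unfold latN latRot
  simp only
  omega

theorem plh_N_refl (u : TV) : latN (latRefl u) = latN u := by
  unfold latN latRefl
  simp only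
  omega

theorem plh_N_swap (u : TV) : latN (u.2, u.1) = latN u := by
  unfold latN
  simp only
  omega

theorem plh_N_dirs {d : TV} : d ∈ latDirs ↔ latN d = 1 := by
  have h := lat_adj_iff 0 d
  rw [sub_zero] at h
  rw [← h, tsc_adj_iff]
  unfold latN
  simp only [Prod.fst_zero, Prod.snd_zero]
  omega

theorem plh_N_adj_iff {u v : TV} : triAdj u v ↔ latN (v - u) = 1 := by
  rw [lat_adj_iff, plh_N_dirs]

theorem plh_N_hor (k : ℤ) : latN (k, 0) = k.natAbs := by
  unfold latN
  simp only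
  omega

theorem plh_N_ver (k : ℤ) : latN (0, k) = k.natAbs := by
  unfold latN
  simp only
  omega

theorem plh_N_fst (u : TV) : u.1.natAbs ≤ latN u := by
  unfold latN
  omega

theorem plh_N_snd (u : TV) : u.2.natAbs ≤ latN u := by
  unfold latN
  omega

theorem plh_N_le_sup (u : TV) : latN u ≤ u.1.natAbs + u.2.natAbs := by
  unfold latN
  omega

/-- a neighbour closer to the origin -/
theorem plh_desc {u : TV} (hu : u ≠ 0) : ∃ d ∈ latDirs, latN (u + d) + 1 = latN u := by
  obtain ⟨a, b⟩ := u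
  have h0 : a ≠ 0 ∨ b ≠ 0 := by
    by_contra h
    push Not at h
    exact hu (by rw [h.1, h.2]; rfl)
  have hd : ∀ d : TV, d ∈ latDirs → latN ((a, b) + d) + 1 = latN (a, b) → ∃ d ∈ latDirs, latN ((a, b) + d) + 1 = latN (a, b) :=
    fun d h1 h2 => ⟨d, h1, h2⟩
  by_cases h1 : 0 < a
  · by_cases h2 : 0 ≤ b
    · refine hd (-1, 0) (by decide) ?_
      simp only [latN, Prod.mk_add_mk]
      omega
    · by_cases h3 : a + b < 0
      · refine hd (0, 1) (by decide) ?_
        simp only [latN, Prod.mk_add_mk]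
        omega
      · refine hd (-1, 1) (by decide) ?_
        simp only [latN, Prod.mk_add_mk]
        omega
  · by_cases h2 : a = 0
    · by_cases h3 : 0 < b
      · refine hd (0, -1) (by decide) ?_
        simp only [latN, Prod.mk_add_mk]
        omega
      · refine hd (0, 1) (by decide) ?_
        simp only [latN, Prod.mk_add_mk]
        omega
    · by_cases h3 : b ≤ 0
      · refine hd (1, 0) (by decide) ?_
        simp only [latN, Prod.mk_add_mk]
        omega
      · by_cases h4 : 0 < a + b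
        · refine hd (0, -1) (by decide) ?_
          simp only [latN, Prod.mk_add_mk]
          omega
        · refine hd (1, -1) (by decide) ?_
          simp only [latN, Prod.mk_add_mk]
          omega

/-- a neighbour farther from the origin -/
theorem plh_asc (u : TV) : ∃ d ∈ latDirs, latN (u + d) = latN u + 1 := by
  obtain ⟨a, b⟩ := u
  have hd : ∀ d : TV, d ∈ latDirs → latN ((a, b) + d) = latN (a, b) + 1 → ∃ d ∈ latDirs, latN ((a, b) + d) = latN (a, b) + 1 :=
    fun d h1 h2 => ⟨d, h1, h2⟩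
  by_cases h1 : 0 ≤ a
  · by_cases h2 : 0 ≤ a + b
    · refine hd (1, 0) (by decide) ?_
      simp only [latN, Prod.mk_add_mk]
      omega
    · refine hd (0, -1) (by decide) ?_
      simp only [latN, Prod.mk_add_mk]
      omega
  · by_cases h2 : a + b ≤ 0
    · refine hd (-1, 0) (by decide) ?_
      simp only [latN, Prod.mk_add_mk]
      omega
    · refine hd (0, 1) (by decide) ?_
      simp only [latN, Prod.mk_add_mk]
      omega

/-! ## Hexagon balls -/

theorem plh_mem_ball {c u : TV} {r : ℕ} : u ∈ (↑(latBall c r) : Set TV) ↔ latN (u - c) ≤ r := by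
  rw [Finset.mem_coe, lat_mem_ball]

theorem plh_ball_self (c : TV) (r : ℕ) : c ∈ latBall c r := by
  rw [lat_mem_ball, sub_self, plh_N_zero]
  exact Nat.zero_le r

theorem plh_ball_mono (c : TV) {r R : ℕ} (h : r ≤ R) : latBall c r ⊆ latBall c R := by
  intro u hu
  rw [lat_mem_ball] at hu ⊢
  exact hu.trans h

theorem plh_ball_sub_ball {c c' : TV} {r R : ℕ} (h : r + latN (c - c') ≤ R) : latBall c r ⊆ latBall c' R := by
  intro u hu
  rw [lat_mem_ball] at hu ⊢
  have := plh_N_tri u c c'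
  omega

theorem plh_ball_shift (c a : TV) (r : ℕ) (u : TV) : u + a ∈ latBall (c + a) r ↔ u ∈ latBall c r := by
  rw [lat_mem_ball, lat_mem_ball, add_sub_add_right_eq_sub]

theorem plh_ball_eq_hex (c : TV) (r : ℕ) :
    (↑(latBall c r) : Set TV) = tscHex (c.1 - r) (c.1 + r) (c.2 - r) (c.2 + r) (c.1 + c.2 - r) (c.1 + c.2 + r) := by
  ext u
  rw [plh_mem_ball, plh_N_le_iff]
  simp only [tscHex, Set.mem_ofPred_eq, Prod.fst_sub, Prod.snd_sub]
  omega

theorem plh_ball_sc (A : Type*) [AddCommGroup A] (c : TV) (r : ℕ) : TriSCOn A tscG (↑(latBall c r) : Set TV) := by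
  rw [plh_ball_eq_hex]
  exact tsc_hex_sc A _ _ _ _ _ _

theorem plh_ball_sub_box (c : TV) (r : ℕ) : (↑(latBall c r) : Set TV) ⊆ tscBox (c.1 - r) (c.1 + r) (c.2 - r) (c.2 + r) := by
  rw [plh_ball_eq_hex]
  exact tsc_hex_sub_box _ _ _ _ _ _

theorem plh_box_sub_ball (c : TV) (r : ℕ) : tscBox (c.1 - r) (c.1 + r) (c.2 - r) (c.2 + r) ⊆ (↑(latBall c (2 * r)) : Set TV) := by
  intro u hu
  rw [plh_mem_ball, plh_N_le_iff]
  simp only [tscBox, Set.mem_ofPred_eq] at hu
  simp only [Prod.fst_sub, Prod.snd_sub]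
  push_cast
  omega

/-- every site of the ball is joined to the centre inside the ball -/
theorem plh_ball_R (c : TV) (r : ℕ) : ∀ (n : ℕ) (u : TV), latN (u - c) = n → n ≤ r → TscR tscG (↑(latBall c r) : Set TV) u c := by
  intro n
  induction n with
  | zero =>
    intro u hu _
    have : u = c := sub_eq_zero.1 (plh_N_eq_zero.1 hu)
    rw [this]
    exact tsc_R_refl _
  | succ n ih =>
    intro u hu hr
    have hne : u - c ≠ 0 := by
      intro h
      rw [h, plh_N_zero] at hu
      omega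
    obtain ⟨d, hd, hN⟩ := plh_desc hne
    have e : u + d - c = u - c + d := by abel
    have h1 : latN (u + d - c) = n := by
      rw [e]
      omega
    refine ReflTransGen.head ⟨lat_adj_add u hd, ?_, ?_⟩ (ih (u + d) h1 (by omega))
    · rw [plh_mem_ball]
      omega
    · rw [plh_mem_ball]
      omega

theorem plh_ball_conn (c : TV) (r : ℕ) : TscConn tscG (↑(latBall c r) : Set TV) := by
  intro u hu v hv
  rw [plh_mem_ball] at hu hv
  exact tsc_R_trans (plh_ball_R c r _ u rfl hu) (tsc_R_symm (plh_ball_R c r _ v rfl hv))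

/-- from a site off the ball one can walk away, off the ball, as far as one wishes -/
theorem plh_escape (c : TV) (r : ℕ) : ∀ (k : ℕ) (u : TV), r < latN (u - c) →
    ∃ w, latN (w - c) = latN (u - c) + k ∧ TscR tscG (↑(latBall c r) : Set TV)ᶜ u w := by
  intro k
  induction k with
  | zero =>
    intro u _
    exact ⟨u, rfl, tsc_R_refl _⟩
  | succ k ih =>
    intro u hu
    obtain ⟨d, hd, hN⟩ := plh_asc (u - c)
    have e : u + d - c = u - c + d := by abel
    have h1 : latN (u + d - c) = latN (u - c) + 1 := by rw [e, hN]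
    obtain ⟨w, hw, hR⟩ := ih (u + d) (by omega)
    refine ⟨w, by omega, ReflTransGen.head ⟨lat_adj_add u hd, ?_, ?_⟩ hR⟩
    · rw [Set.mem_compl_iff, plh_mem_ball]
      omega
    · rw [Set.mem_compl_iff, plh_mem_ball]
      omega

theorem plh_ball_compl_conn (c : TV) (r : ℕ) : TscConn tscG (↑(latBall c r) : Set TV)ᶜ := by
  have hsub : (tscBox (c.1 - r) (c.1 + r) (c.2 - r) (c.2 + r))ᶜ ⊆ (↑(latBall c r) : Set TV)ᶜ :=
    Set.compl_subset_compl.2 (plh_ball_sub_box c r)
  have far : ∀ u, u ∈ (↑(latBall c r) : Set TV)ᶜ → ∃ w, w ∈ (tscBox (c.1 - r) (c.1 + r) (c.2 - r) (c.2 + r))ᶜ ∧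
      TscR tscG (↑(latBall c r) : Set TV)ᶜ u w := by
    intro u hu
    rw [Set.mem_compl_iff, plh_mem_ball, not_le] at hu
    obtain ⟨w, hw, hR⟩ := plh_escape c r (2 * r) u hu
    refine ⟨w, fun hb => ?_, hR⟩
    have := plh_box_sub_ball c r hb
    rw [plh_mem_ball] at this
    omega
  intro u hu v hv
  obtain ⟨w, hw, hR⟩ := far u hu
  obtain ⟨w', hw', hR'⟩ := far v hv
  exact tsc_R_trans hR (tsc_R_trans (tsc_R_mono hsub (tsc_box_compl_conn _ _ _ _ w hw w' hw')) (tsc_R_symm hR'))

/-- the boundary layer of the ball is the sphere -/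
theorem plh_bd_ball {c u : TV} {r : ℕ} : u ∈ latBd (latBall c r) ↔ latN (u - c) = r := by
  rw [lat_mem_bd, lat_mem_ball]
  constructor
  · rintro ⟨h1, v, hv, h2⟩
    rw [lat_mem_ball] at h2
    have : triAdj (u - c) (v - c) := by
      have := (lat_adj_shift (-c) (u := u) (v := v)).2 hv
      simpa [sub_eq_add_neg] using this
    have := plh_N_adj this
    omega
  · intro h
    obtain ⟨d, hd, hN⟩ := plh_asc (u - c)
    refine ⟨h.le, u + d, lat_adj_add u hd, ?_⟩
    rw [lat_mem_ball]
    have e : u + d - c = u - c + d := by abel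
    rw [e]
    omega

theorem plh_int_ball (c : TV) (r : ℕ) : latInt (latBall c (r + 1)) = latBall c r := by
  ext u
  rw [lat_int_eq, Finset.mem_sdiff, plh_bd_ball, lat_mem_ball, lat_mem_ball]
  omega

theorem plh_int_ball_zero (c : TV) : latInt (latBall c 0) = ∅ := by
  ext u
  rw [lat_int_eq, Finset.mem_sdiff, plh_bd_ball, lat_mem_ball]
  simp only [Finset.notMem_empty, iff_false]
  omega

/-- the sphere is connected -/
theorem plh_sphere_conn (c : TV) (r : ℕ) : TscConn tscG {u : TV | latN (u - c) = r} := by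
  obtain ⟨x, hx, -⟩ := plh_escape c r 0 (c + ((r : ℤ) + 1, 0)) (by
    rw [add_sub_cancel_left, plh_N_hor]
    omega)
  have hx' : x ∈ (↑(latBall c r) : Set TV)ᶜ := by
    rw [Set.mem_compl_iff, plh_mem_ball, hx, add_sub_cancel_left, plh_N_hor]
    omega
  have h := tsc_plane_timar_in (plh_ball_conn c r) x
  rw [plh_comp_eq_of_conn (plh_ball_compl_conn c r) hx'] at h
  have hE : {u : TV | latN (u - c) = r} = {a | a ∈ (↑(latBall c r) : Set TV) ∧ ∃ d ∈ (↑(latBall c r) : Set TV)ᶜ, triAdj d a} := by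
    ext u
    have := plh_bd_ball (c := c) (u := u) (r := r)
    rw [lat_mem_bd] at this
    rw [Set.mem_ofPred_eq, ← this, Set.mem_ofPred_eq, Finset.mem_coe]
    refine and_congr_right fun _ => ⟨?_, ?_⟩
    · rintro ⟨v, hv, h2⟩
      exact ⟨v, by simpa using h2, lat_adj_symm hv⟩
    · rintro ⟨v, h2, hv⟩
      exact ⟨v, lat_adj_symm hv, by simpa using h2⟩
  rw [hE]
  exact h

/-- the layer in the language of cells: a site of `S` has a neighbour off `S` iff it lies in an up-cell which is not inside `S` -/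
theorem plh_lay_iff {S : Finset TV} {u : TV} : u ∈ latBd S ↔ u ∈ S ∧ ∃ y, u ∈ cellV y ∧ ¬ cellV y ⊆ S := by
  rw [lat_mem_bd]
  refine and_congr_right fun hu => ⟨?_, ?_⟩
  · rintro ⟨v, hv, hn⟩
    rw [tsc_adj_iff] at hv
    have hv' : v = u + (1, 0) ∨ v = u + (0, 1) ∨ v = u + (-1, 1) ∨ v = u + (-1, 0) ∨ v = u + (0, -1) ∨ v = u + (1, -1) := by
      simp only [Prod.ext_iff, Prod.fst_add, Prod.snd_add]
      omega
    rcases hv' with rfl | rfl | rfl | rfl | rfl | rfl
    · exact ⟨u, by simp [cellV], fun h => hn (h (by simp [cellV]))⟩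
    · exact ⟨u, by simp [cellV], fun h => hn (h (by simp [cellV]))⟩
    · exact ⟨u + (-1, 0), by simp [cellV, add_assoc], fun h => hn (h (by simp [cellV, add_assoc]))⟩
    · exact ⟨u + (-1, 0), by simp [cellV, add_assoc], fun h => hn (h (by simp [cellV, add_assoc]))⟩
    · exact ⟨u + (0, -1), by simp [cellV, add_assoc], fun h => hn (h (by simp [cellV, add_assoc]))⟩
    · exact ⟨u + (0, -1), by simp [cellV, add_assoc], fun h => hn (h (by simp [cellV, add_assoc]))⟩
  · rintro ⟨y, hy, hn⟩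
    rw [Finset.not_subset] at hn
    obtain ⟨v, hv, hvS⟩ := hn
    refine ⟨v, ?_, hvS⟩
    have hne : u ≠ v := fun h => hvS (h ▸ hu)
    simp only [cellV, Finset.mem_insert, Finset.mem_singleton] at hy hv
    rw [tsc_adj_iff]
    rw [Ne, Prod.ext_iff] at hne
    simp only [Prod.ext_iff, Prod.fst_add, Prod.snd_add] at hy hv
    omega

/-- a walk from `a` to `b` has at least `latN (b - a) + 1` sites -/
theorem plh_walk_len : ∀ (l : List TV) (a b : TV), (a :: l).IsChain triAdj → (a :: l).getLast (List.cons_ne_nil a l) = b →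
    latN (b - a) ≤ l.length := by
  intro l
  induction l with
  | nil =>
    intro a b _ h
    have : a = b := h
    rw [this, sub_self, plh_N_zero]
    exact Nat.zero_le _
  | cons c l ih =>
    intro a b h1 h2
    rw [List.isChain_cons_cons] at h1
    rw [List.getLast_cons (List.cons_ne_nil c l)] at h2
    have h3 := ih c b h1.2 h2
    have h4 := plh_N_tri b c a
    have h5 : latN (c - a) = 1 := plh_N_adj_iff.1 h1.1
    rw [List.length_cons]
    omega

/-! ## Nice sets and their cut cells -/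

theorem plh_plane_conn : TscConn tscG (Set.univ : Set TV) := by
  have := tsc_conn_prod (Set.univ : Set ℤ) (Set.univ : Set ℤ) Set.ordConnected_univ Set.ordConnected_univ
  rwa [Set.univ_prod_univ] at this

/-- NICE: connected with connected complement -/
def PlhNice (H : Set TV) : Prop := TscConn tscG H ∧ TscConn tscG Hᶜ

/-- **N1b in the plane** -/
theorem plh_plane_comp_compl_conn {K : Set TV} (hK : TscConn tscG K) (hne : K.Nonempty) (x : TV) :
    TscConn tscG (tscComp tscG Kᶜ x)ᶜ := by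
  have := plh_comp_compl_conn plh_plane_conn (Set.subset_univ K) hK hne x
  rwa [← Set.compl_eq_univ_sdiff, ← Set.compl_eq_univ_sdiff] at this

theorem plh_comp_nice {K : Set TV} (hK : TscConn tscG K) (hne : K.Nonempty) (x : TV) : PlhNice (tscComp tscG Kᶜ x) :=
  ⟨tsc_comp_conn x, plh_plane_comp_compl_conn hK hne x⟩

theorem plh_ball_nice (c : TV) (r : ℕ) : PlhNice (↑(latBall c r) : Set TV) := ⟨plh_ball_conn c r, plh_ball_compl_conn c r⟩

theorem plh_nice_compl {H : Set TV} (h : PlhNice H) : PlhNice Hᶜ := ⟨h.2, by rw [compl_compl]; exact h.1⟩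

/-- **N1 in the plane, edge form**: the edges leaving a nice set are connected through triangles -/
theorem plh_nice_edge {H : Set TV} (h : PlhNice H) {e e' : TV × TV} (he : PlhEdge tscG H Hᶜ e) (he' : PlhEdge tscG H Hᶜ e') :
    ReflTransGen (PlhEStep tscG H Hᶜ) e e' :=
  plh_timar_edge (X := H) (Y := Hᶜ) (tsc_plane (ZMod 2)) (Set.subset_univ _) (Set.subset_univ _) (fun a h1 h2 => h2 h1) h.1 h.2
    (fun _ _ _ _ c _ _ _ _ => Classical.em (c ∈ H)) he he'

/-- the up-cells cut by `H`: they meet `H` and its complement -/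
def plhCut (H : Set TV) : Set TV := {y | (∃ u ∈ cellV y, u ∈ H) ∧ ∃ u ∈ cellV y, u ∉ H}

/-- the up-cell containing an edge -/
def plhCellOf (e : TV × TV) : TV := (min e.1.1 e.2.1, min e.1.2 e.2.2)

theorem plh_cellOf_mem {e : TV × TV} (h : triAdj e.1 e.2) : e.1 ∈ cellV (plhCellOf e) ∧ e.2 ∈ cellV (plhCellOf e) := by
  obtain ⟨⟨a, b⟩, ⟨a', b'⟩⟩ := e
  rw [tsc_adj_iff] at h
  simp only at h
  simp only [cellV, plhCellOf, Finset.mem_insert, Finset.mem_singleton, Prod.ext_iff, Prod.fst_add, Prod.snd_add]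
  omega

theorem plh_cellOf_cut {H : Set TV} {e : TV × TV} (he : PlhEdge tscG H Hᶜ e) : plhCellOf e ∈ plhCut H :=
  ⟨⟨e.1, (plh_cellOf_mem he.2.2).1, he.1⟩, ⟨e.2, (plh_cellOf_mem he.2.2).2, he.2.1⟩⟩

theorem plh_cut_edge {H : Set TV} {y : TV} (hy : y ∈ plhCut H) : ∃ e, PlhEdge tscG H Hᶜ e ∧ plhCellOf e = y := by
  obtain ⟨⟨u, hu, huH⟩, ⟨v, hv, hvH⟩⟩ := hy
  have hne : u ≠ v := fun h => hvH (h ▸ huH)
  refine ⟨(u, v), ⟨huH, hvH, ?_⟩, ?_⟩
  · show triAdj u v
    simp only [cellV, Finset.mem_insert, Finset.mem_singleton] at hu hv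
    rw [tsc_adj_iff]
    rw [Ne, Prod.ext_iff] at hne
    simp only [Prod.ext_iff, Prod.fst_add, Prod.snd_add] at hu hv
    omega
  · simp only [cellV, Finset.mem_insert, Finset.mem_singleton] at hu hv
    rw [Ne, Prod.ext_iff] at hne
    simp only [Prod.ext_iff, Prod.fst_add, Prod.snd_add] at hu hv
    simp only [plhCellOf, Prod.ext_iff]
    omega

/-- two up-cells share a site iff their indices are equal or adjacent -/
theorem plh_cell_share {y z : TV} : (∃ u ∈ cellV y, u ∈ cellV z) ↔ (y = z ∨ triAdj y z) := by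
  rw [tsc_adj_iff]
  obtain ⟨a, b⟩ := y
  obtain ⟨a', b'⟩ := z
  simp only [cellV, Finset.mem_insert, Finset.mem_singleton, exists_eq_or_imp, exists_eq_left, Prod.ext_iff, Prod.fst_add, Prod.snd_add,
    Prod.mk_add_mk]
  constructor
  · rintro ⟨u, h1, h2⟩
    omega
  · intro h
    by_cases h1 : a' = a + 1
    · refine ⟨(a + 1, b), ?_, ?_⟩ <;> dsimp only <;> omega
    · by_cases h2 : b' = b + 1
      · refine ⟨(a, b + 1), ?_, ?_⟩ <;> dsimp only <;> omega
      · refine ⟨(a, b), ?_, ?_⟩ <;> dsimp only <;> omega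

theorem plh_estep_cell {X Y : Set TV} {e e' : TV × TV} (h : PlhEStep tscG X Y e e') :
    plhCellOf e = plhCellOf e' ∨ triAdj (plhCellOf e) (plhCellOf e') := by
  rw [← plh_cell_share]
  rcases h.2.2 with h1 | h1
  · exact ⟨e.1, (plh_cellOf_mem h.1.2.2).1, h1.1 ▸ (plh_cellOf_mem h.2.1.2.2).1⟩
  · exact ⟨e.2, (plh_cellOf_mem h.1.2.2).2, h1.1 ▸ (plh_cellOf_mem h.2.1.2.2).2⟩

/-- **N1 in the plane, cell form**: the cut cells of a nice set are chain connected (cells indexed by their lower left corner; two cells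
share a site iff their indices are equal or `triAdj`, `plh_cell_share`) -/
theorem plh_cut_conn {H : Set TV} (h : PlhNice H) : TscConn tscG (plhCut H) := by
  intro y hy z hz
  obtain ⟨e, he, rfl⟩ := plh_cut_edge hy
  obtain ⟨e', he', rfl⟩ := plh_cut_edge hz
  have := plh_nice_edge h he he'
  induction this with
  | refl => exact tsc_R_refl _
  | @tail b c _ hbc ih =>
    refine tsc_R_trans (ih hbc.1 (plh_cellOf_cut hbc.1)) ?_
    rcases plh_estep_cell hbc with h1 | h1
    · rw [h1]
      exact tsc_R_refl _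
    · exact tsc_R_step h1 (plh_cellOf_cut hbc.1) (plh_cellOf_cut hbc.2.1)

/-- unfolding equations of the definitions of this file -/
theorem plh_eqns_cite : True := by
  have := @PlhEdge.eq_1.{0}
  have := @PlhEStep.eq_1.{0}
  have := @PlhNice.eq_1
  have := @plhCut.eq_1
  have := @plhCellOf.eq_1
  trivial

end Claimed.Agent.R291
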