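import Claimed.Agent.R291.Defs.Cut
import Claimed.Agent.R291.Tool.TriSCLat
import Claimed.Agent.R291.Pl.Ball

/-!
# Row 291 (S0539), Pl/CellPath : THE DICTIONARY  cells <-> lattice  FOR THE PLANAR SYSTEMS      (owner helper206, unit PLA; prefix `pcp_` / `pcp`)      no sorry

Planar systems `S = clPl x A C` (`clAmb x A`, `clInn x A`) of `Defs/Cell`: sites `A ⊆ ℤ × ℤ`, cell `y` = up triangle `cellV y = {y, y + (1,0), y + (0,1)}` clipped to `A`.
The cells are indexed by the SAME lattice `ℤ × ℤ`, and two cells share a site iff their indices are equal or `triAdj` (`pcp_share`).  So every path / invasion / separation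
statement of `Dis/Base`, `Defs/Cut` (relation `CuStepG` on SITES) is a statement `TscR tscG N y y'` on ONE subset `N` of `ℤ × ℤ` (the CELLS which may be used), and J1-J7 of PLA apply.

* `pcp_share`, `pcp_share_site`      (1) two up cells share a site iff equal or adjacent
* `pcpN C fav`                       the cells of `C` which are not favourable
* `pcp_cells_of_path` (no hypothesis), `pcp_path_of_cells` (the cells used are inside `A`), `pcp_path_iff`      (2) site paths <-> cell paths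
* `pcpOff`, `pcpOn`                  cells NOT of sign `s` / cells of sign `s`
* `pcp_sep_iff` (`ClSep`), `pcp_con_iff` (`CuCon`), `pcp_sepO_iff` (`CuSepO`), `pcp_mem_inv` (`clInv`), `pcp_mem_invG` (`cuInvG`), `pcp_mem_clu` (`cuClu`)
* `pcpMeet O`                        the cells which have a site in `O`;  `pcp_meet_box`
* `pcp_amb_adj`, `pcp_inn_adj`       (3) the graph of the ambient system is the triangular lattice on `A`
* `pcp_sc_congr`, `pcp_amb_sc_iff`, `pcp_amb_sc_hex`, `pcp_amb_sc_ball`, `pcp_ball_coe`      `SC` of the ambient systems from `TriSCOn (ZMod 2) tscG A`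
* `pcp_amb_ok`, `pcp_inn_ok`, `pcp_pl_card`      sanity (`ClOk`) of the planar systems
* **`pcp_disk`** (= `cu_disk` of `Defs/Cut`)      ABSTRACT: `ClOk S`, cells of at most 3 sites, `S.SC`, `S.gr` connected on `S.A`  ⟹  `ClDisk S` (the only topological hypothesis of DIS)
* `pcp_amb_disk`, `pcp_amb_disk_box`, `pcp_amb_disk_ball`      `ClDisk (clAmb x A)`;      NOTE `ClDisk (clInn x A)` is FALSE for a box (the top right corner is in no cell inside)

WARNING (clipping): in `clAmb` a cell at the boundary is clipped; two adjacent cells whose common site is NOT in `A` are not linked by a step.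
So the direction "cell path ⟹ site path" needs `cellV y ⊆ A` for the cells used (always true in `clInn`).
-/

set_option autoImplicit false
set_option linter.unusedSectionVars false
set_option linter.unusedVariables false
set_option linter.unusedSimpArgs false

namespace Claimed.Agent.R291

open Relation Claims Claims.C0467

/-! ### (1) cells sharing a site -/

theorem pcp_mem_cell (y u : TV) : u ∈ cellV y ↔ u = y ∨ u = y + (1, 0) ∨ u = y + (0, 1) := by
  simp [cellV]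

theorem pcp_mem_cell' (y u : TV) : u ∈ cellV y ↔
    (u.1 = y.1 ∧ u.2 = y.2) ∨ (u.1 = y.1 + 1 ∧ u.2 = y.2) ∨ (u.1 = y.1 ∧ u.2 = y.2 + 1) := by
  rw [pcp_mem_cell]
  simp only [Prod.ext_iff, Prod.fst_add, Prod.snd_add, add_zero]

/-- **(1)** two up cells share a site iff their indices are equal or adjacent -/
theorem pcp_share (y y' : TV) : (∃ u, u ∈ cellV y ∧ u ∈ cellV y') ↔ y = y' ∨ triAdj y y' := by
  rw [tsc_adj_iff]
  constructor
  · rintro ⟨u, h1, h2⟩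
    rw [pcp_mem_cell'] at h1 h2
    rw [Prod.ext_iff]
    omega
  · intro h
    rw [Prod.ext_iff] at h
    have key : ∃ a b : ℤ, ((a = y.1 ∧ b = y.2) ∨ (a = y.1 + 1 ∧ b = y.2) ∨ (a = y.1 ∧ b = y.2 + 1)) ∧
        ((a = y'.1 ∧ b = y'.2) ∨ (a = y'.1 + 1 ∧ b = y'.2) ∨ (a = y'.1 ∧ b = y'.2 + 1)) := by
      rcases h with h | h | h | h | h | h | h
      · exact ⟨y.1, y.2, by omega, by omega⟩
      · exact ⟨y.1 + 1, y.2, by omega, by omega⟩
      · exact ⟨y.1, y.2 + 1, by omega, by omega⟩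
      · exact ⟨y.1, y.2 + 1, by omega, by omega⟩
      · exact ⟨y.1, y.2, by omega, by omega⟩
      · exact ⟨y.1, y.2, by omega, by omega⟩
      · exact ⟨y.1 + 1, y.2, by omega, by omega⟩
    obtain ⟨a, b, h1, h2⟩ := key
    exact ⟨(a, b), (pcp_mem_cell' y (a, b)).2 h1, (pcp_mem_cell' y' (a, b)).2 h2⟩

/-- two adjacent cells have a common site -/
theorem pcp_share_site {y y' : TV} (h : triAdj y y') : ∃ u, u ∈ cellV y ∧ u ∈ cellV y' :=
  (pcp_share y y').2 (Or.inr h)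

/-- two distinct sites of one up cell are adjacent -/
theorem pcp_cell_adj {y u v : TV} (hu : u ∈ cellV y) (hv : v ∈ cellV y) (huv : u ≠ v) : triAdj u v := by
  rw [pcp_mem_cell'] at hu hv
  rw [tsc_adj_iff]
  have : ¬ (u.1 = v.1 ∧ u.2 = v.2) := fun h => huv (Prod.ext h.1 h.2)
  omega

/-- every edge of the triangular lattice lies in an up cell -/
theorem pcp_adj_cell {u v : TV} (h : triAdj u v) : ∃ y, u ∈ cellV y ∧ v ∈ cellV y := by
  rw [tsc_adj_iff] at h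
  have key : ∃ a b : ℤ, ((u.1 = a ∧ u.2 = b) ∨ (u.1 = a + 1 ∧ u.2 = b) ∨ (u.1 = a ∧ u.2 = b + 1)) ∧
      ((v.1 = a ∧ v.2 = b) ∨ (v.1 = a + 1 ∧ v.2 = b) ∨ (v.1 = a ∧ v.2 = b + 1)) := by
    rcases h with h | h | h | h | h | h
    · exact ⟨u.1, u.2, by omega, by omega⟩
    · exact ⟨u.1, u.2, by omega, by omega⟩
    · exact ⟨u.1 - 1, u.2, by omega, by omega⟩
    · exact ⟨v.1, v.2, by omega, by omega⟩
    · exact ⟨v.1, v.2, by omega, by omega⟩
    · exact ⟨v.1 - 1, v.2, by omega, by omega⟩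
  obtain ⟨a, b, h1, h2⟩ := key
  exact ⟨(a, b), (pcp_mem_cell' (a, b) u).2 h1, (pcp_mem_cell' (a, b) v).2 h2⟩

theorem pcp_cell_card (y : TV) : (cellV y).card = 3 := by
  unfold cellV
  rw [Finset.card_insert_of_notMem, Finset.card_insert_of_notMem, Finset.card_singleton]
  · simp [Prod.ext_iff]
  · simp [Prod.ext_iff]

/-! ### (2) site paths and cell paths -/

/-- the cells of `C` which are not favourable -/
def pcpN (C : Finset TV) (fav : TV → Prop) : Set TV := {y | y ∈ C ∧ ¬ fav y}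

theorem pcp_sv (x : ℝ) (A C : Finset TV) (y : TV) : (clPl x A C).sv y = cellV y ∩ A := rfl

theorem pcp_step_iff (x : ℝ) (A C : Finset TV) (fav : TV → Prop) (u v : TV) :
    CuStepG (clPl x A C) fav ∅ u v ↔ ∃ y ∈ pcpN C fav, (u ∈ cellV y ∧ u ∈ A) ∧ (v ∈ cellV y ∧ v ∈ A) := by
  unfold CuStepG pcpN
  simp only [pcp_sv, Finset.mem_inter, Finset.notMem_empty, or_false, Set.mem_ofPred_eq]
  constructor
  · rintro ⟨y, hy, hu, hv, hf⟩; exact ⟨y, ⟨hy, hf⟩, hu, hv⟩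
  · rintro ⟨y, ⟨hy, hf⟩, hu, hv⟩; exact ⟨y, hy, hu, hv, hf⟩

/-- **(2), first half** (no hypothesis): a site path through non favourable cells gives a path of non favourable cells -/
theorem pcp_cells_of_path (x : ℝ) (A C : Finset TV) (fav : TV → Prop) {u v : TV}
    (h : ReflTransGen (CuStepG (clPl x A C) fav ∅) u v) (huv : u ≠ v) :
    ∃ y ∈ pcpN C fav, ∃ y' ∈ pcpN C fav, (u ∈ cellV y ∧ u ∈ A) ∧ (v ∈ cellV y' ∧ v ∈ A) ∧ TscR tscG (pcpN C fav) y y' := by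
  have main : u = v ∨ ∃ y ∈ pcpN C fav, ∃ y' ∈ pcpN C fav, (u ∈ cellV y ∧ u ∈ A) ∧ (v ∈ cellV y' ∧ v ∈ A) ∧
      TscR tscG (pcpN C fav) y y' := by
    clear huv
    induction h with
    | refl => exact Or.inl rfl
    | @tail b c _ hbc ih =>
      obtain ⟨z, hz, hb, hc⟩ := (pcp_step_iff x A C fav b c).1 hbc
      rcases ih with rfl | ⟨y, hy, y', hy', h1, h2, h3⟩
      · exact Or.inr ⟨z, hz, z, hz, hb, hc, tsc_R_refl z⟩
      · refine Or.inr ⟨y, hy, z, hz, h1, hc, ?_⟩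
        rcases (pcp_share y' z).1 ⟨b, h2.1, hb.1⟩ with rfl | hadj
        · exact h3
        · exact tsc_R_trans h3 (tsc_R_step hadj hy' hz)
  exact main.resolve_left huv

/-- **(2), second half**: a path of cells of `N` (non favourable cells INSIDE `A`) gives a site path -/
theorem pcp_path_of_cells (x : ℝ) (A C : Finset TV) (fav : TV → Prop) {N : Set TV}
    (hN : ∀ y ∈ N, y ∈ C ∧ ¬ fav y ∧ cellV y ⊆ A) {y y' : TV} (hy : y ∈ N) (h : TscR tscG N y y') {u v : TV}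
    (hu : u ∈ cellV y) (hv : v ∈ cellV y') : ReflTransGen (CuStepG (clPl x A C) fav ∅) u v := by
  induction h generalizing v with
  | refl =>
    obtain ⟨h1, h2, h3⟩ := hN y hy
    exact ReflTransGen.single ((pcp_step_iff x A C fav u v).2 ⟨y, ⟨h1, h2⟩, ⟨hu, h3 hu⟩, ⟨hv, h3 hv⟩⟩)
  | @tail b c _ hbc ih =>
    obtain ⟨w, hw1, hw2⟩ := pcp_share_site (show triAdj b c from hbc.1)
    obtain ⟨h1, h2, h3⟩ := hN c hbc.2.2
    exact (ih hw1).tail ((pcp_step_iff x A C fav w v).2 ⟨c, ⟨h1, h2⟩, ⟨hw2, h3 hw2⟩, ⟨hv, h3 hv⟩⟩)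

/-- **(2)** site paths = cell paths, when the non favourable cells are not clipped -/
theorem pcp_path_iff (x : ℝ) (A C : Finset TV) (fav : TV → Prop) (hA : ∀ y ∈ C, ¬ fav y → cellV y ⊆ A) {u v : TV} (huv : u ≠ v) :
    ReflTransGen (CuStepG (clPl x A C) fav ∅) u v ↔
      ∃ y y', u ∈ cellV y ∧ v ∈ cellV y' ∧ y ∈ pcpN C fav ∧ TscR tscG (pcpN C fav) y y' := by
  constructor
  · intro h
    obtain ⟨y, hy, y', _, h1, h2, h3⟩ := pcp_cells_of_path x A C fav h huv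
    exact ⟨y, y', h1.1, h2.1, hy, h3⟩
  · rintro ⟨y, y', h1, h2, hy, h3⟩
    exact pcp_path_of_cells x A C fav (fun z hz => ⟨hz.1, hz.2, hA z hz.1 hz.2⟩) hy h3 h1 h2

/-- the same, `u = v` allowed -/
theorem pcp_path_iff' (x : ℝ) (A C : Finset TV) (fav : TV → Prop) (hA : ∀ y ∈ C, ¬ fav y → cellV y ⊆ A) (u v : TV) :
    ReflTransGen (CuStepG (clPl x A C) fav ∅) u v ↔
      u = v ∨ ∃ y y', u ∈ cellV y ∧ v ∈ cellV y' ∧ y ∈ pcpN C fav ∧ TscR tscG (pcpN C fav) y y' := by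
  by_cases huv : u = v
  · subst huv; exact ⟨fun _ => Or.inl rfl, fun _ => ReflTransGen.refl⟩
  · rw [pcp_path_iff x A C fav hA huv]
    exact ⟨Or.inr, fun h => h.resolve_left huv⟩

/-- the cells which have a site in `O` -/
def pcpMeet (O : Set TV) : Set TV := {y | ∃ u ∈ cellV y, u ∈ O}

theorem pcp_mem_meet (O : Set TV) (y : TV) : y ∈ pcpMeet O ↔ y ∈ O ∨ y + (1, 0) ∈ O ∨ y + (0, 1) ∈ O := by
  unfold pcpMeet cellV
  simp

theorem pcp_meet_mono {O O' : Set TV} (h : O ⊆ O') : pcpMeet O ⊆ pcpMeet O' :=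
  fun _ ⟨u, hu, hO⟩ => ⟨u, hu, h hO⟩

/-- the cells meeting a box -/
theorem pcp_meet_box (a b c d : ℤ) (y : TV) : y ∈ pcpMeet (tscBox a b c d) ↔
    y ∈ tscBox (a - 1) b (c - 1) d ∧ (a ≤ y.1 ∨ c ≤ y.2) ∧ a ≤ b ∧ c ≤ d := by
  rw [pcp_mem_meet]
  unfold tscBox
  simp only [Set.mem_ofPred_eq, Prod.fst_add, Prod.snd_add, add_zero]
  omega

/-- general form of the dictionary for two sets of sites -/
theorem pcp_join_iff (x : ℝ) (A C : Finset TV) (fav : TV → Prop) (hA : ∀ y ∈ C, ¬ fav y → cellV y ⊆ A) (O Z : Finset TV) :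
    (∃ u ∈ O, ∃ v ∈ Z, ReflTransGen (CuStepG (clPl x A C) fav ∅) u v) ↔
      (O ∩ Z).Nonempty ∨ ∃ y ∈ pcpMeet ↑O, ∃ y' ∈ pcpMeet ↑Z, y ∈ pcpN C fav ∧ TscR tscG (pcpN C fav) y y' := by
  constructor
  · rintro ⟨u, hu, v, hv, h⟩
    rcases (pcp_path_iff' x A C fav hA u v).1 h with rfl | ⟨y, y', h1, h2, h3, h4⟩
    · exact Or.inl ⟨u, Finset.mem_inter.2 ⟨hu, hv⟩⟩
    · exact Or.inr ⟨y, ⟨u, h1, hu⟩, y', ⟨v, h2, hv⟩, h3, h4⟩
  · rintro (⟨u, hu⟩ | ⟨y, ⟨u, h1, hu⟩, y', ⟨v, h2, hv⟩, h3, h4⟩)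
    · exact ⟨u, (Finset.mem_inter.1 hu).1, u, (Finset.mem_inter.1 hu).2, ReflTransGen.refl⟩
    · exact ⟨u, hu, v, hv, (pcp_path_iff' x A C fav hA u v).2 (Or.inr ⟨y, y', h1, h2, h3, h4⟩)⟩

/-! ### the events of `Dis/Base` and `Defs/Cut` -/

/-- the cells which are NOT open of sign `s` -/
def pcpOff (x : ℝ) (A C : Finset TV) (ω : ClCfg TV TV) (s : Bool) : Set TV := {y | y ∈ C ∧ clTau (clPl x A C) ω y ≠ clSg s}

/-- the cells which are open of sign `s` -/
def pcpOn (x : ℝ) (A C : Finset TV) (ω : ClCfg TV TV) (s : Bool) : Set TV := {y | y ∈ C ∧ clTau (clPl x A C) ω y = clSg s}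

/-- the closed cells -/
def pcpCl (C : Finset TV) (ω : ClCfg TV TV) : Set TV := {y | y ∈ C ∧ y ∉ ω.O}

theorem pcp_off_eq (x : ℝ) (A C : Finset TV) (ω : ClCfg TV TV) (s : Bool) :
    pcpOff x A C ω s = pcpN C (fun y => clTau (clPl x A C) ω y = clSg s) := rfl

theorem pcp_on_eq (x : ℝ) (A C : Finset TV) (ω : ClCfg TV TV) (s : Bool) :
    pcpOn x A C ω s = pcpN C (fun y => clTau (clPl x A C) ω y ≠ clSg s) := by
  unfold pcpOn pcpN
  simp only [ne_eq, not_not]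

theorem pcp_cl_eq (C : Finset TV) (ω : ClCfg TV TV) : pcpCl C ω = pcpN C (fun y => y ∈ ω.O) := rfl

/-- `C` is the disjoint union of the cells of sign `s` and the others -/
theorem pcp_on_off (x : ℝ) (A C : Finset TV) (ω : ClCfg TV TV) (s : Bool) (y : TV) (hy : y ∈ C) :
    y ∈ pcpOn x A C ω s ↔ y ∉ pcpOff x A C ω s := by
  unfold pcpOn pcpOff
  simp only [Set.mem_ofPred_eq, hy, true_and, ne_eq, not_not]

/-- **`ClSep`** ("a good circuit of sign `s` separates `O` from `Z`") = no path of cells not of sign `s` from a cell meeting `O` to a cell meeting `Z` -/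
theorem pcp_sep_iff (x : ℝ) (A C : Finset TV) (hA : ∀ y ∈ C, cellV y ⊆ A) (s : Bool) (ω : ClCfg TV TV) (O Z : Finset TV) :
    ClSep (clPl x A C) s ∅ ω O Z ↔
      Disjoint O Z ∧ ∀ y ∈ pcpMeet ↑O, ∀ y' ∈ pcpMeet ↑Z, y ∈ pcpOff x A C ω s → ¬ TscR tscG (pcpOff x A C ω s) y y' := by
  have key := pcp_join_iff x A C (fun y => clTau (clPl x A C) ω y = clSg s) (fun y hy _ => hA y hy) O Z
  have h1 : ClSep (clPl x A C) s ∅ ω O Z ↔
      ¬ ∃ u ∈ O, ∃ v ∈ Z, ReflTransGen (CuStepG (clPl x A C) (fun y => clTau (clPl x A C) ω y = clSg s) ∅) u v := by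
    unfold ClSep
    push Not
    exact Iff.rfl
  rw [h1, key, pcp_off_eq, not_or, Finset.not_nonempty_iff_eq_empty, ← Finset.disjoint_iff_inter_eq_empty]
  push Not
  exact Iff.rfl

/-- **`CuCon`** ("a path of cells of sign `s` joins `O` to `Z`") -/
theorem pcp_con_iff (x : ℝ) (A C : Finset TV) (hA : ∀ y ∈ C, cellV y ⊆ A) (s : Bool) (ω : ClCfg TV TV) (O Z : Finset TV) :
    CuCon (clPl x A C) s ω O Z ↔
      (O ∩ Z).Nonempty ∨ ∃ y ∈ pcpMeet ↑O, ∃ y' ∈ pcpMeet ↑Z, y ∈ pcpOn x A C ω s ∧ TscR tscG (pcpOn x A C ω s) y y' := by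
  rw [pcp_on_eq]
  exact pcp_join_iff x A C (fun y => clTau (clPl x A C) ω y ≠ clSg s) (fun y hy _ => hA y hy) O Z

/-- **`CuSepO`** ("a circuit of open cells separates `O` from `Z`") -/
theorem pcp_sepO_iff (x : ℝ) (A C : Finset TV) (hA : ∀ y ∈ C, cellV y ⊆ A) (ω : ClCfg TV TV) (O Z : Finset TV) :
    CuSepO (clPl x A C) ∅ ω O Z ↔
      Disjoint O Z ∧ ∀ y ∈ pcpMeet ↑O, ∀ y' ∈ pcpMeet ↑Z, y ∈ pcpCl C ω → ¬ TscR tscG (pcpCl C ω) y y' := by
  have key := pcp_join_iff x A C (fun y => y ∈ ω.O) (fun y hy _ => hA y hy) O Z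
  have h1 : CuSepO (clPl x A C) ∅ ω O Z ↔
      ¬ ∃ u ∈ O, ∃ v ∈ Z, ReflTransGen (CuStepG (clPl x A C) (fun y => y ∈ ω.O) ∅) u v := by
    unfold CuSepO
    push Not
    exact Iff.rfl
  rw [h1, key, pcp_cl_eq, not_or, Finset.not_nonempty_iff_eq_empty, ← Finset.disjoint_iff_inter_eq_empty]
  push Not
  exact Iff.rfl

/-- **`cuInvG`**: the invaded set -/
theorem pcp_mem_invG (x : ℝ) (A C : Finset TV) (fav : TV → Prop) (hA : ∀ y ∈ C, ¬ fav y → cellV y ⊆ A) (O : Finset TV) (v : TV) :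
    v ∈ cuInvG (clPl x A C) fav ∅ O ↔
      v ∈ A ∧ (v ∈ O ∨ ∃ y ∈ pcpMeet ↑O, ∃ y', v ∈ cellV y' ∧ y ∈ pcpN C fav ∧ TscR tscG (pcpN C fav) y y') := by
  classical
  unfold cuInvG
  rw [Finset.mem_filter]
  refine and_congr Iff.rfl ?_
  constructor
  · rintro ⟨u, hu, h⟩
    rcases (pcp_path_iff' x A C fav hA u v).1 h with rfl | ⟨y, y', h1, h2, h3, h4⟩
    · exact Or.inl hu
    · exact Or.inr ⟨y, ⟨u, h1, hu⟩, y', h2, h3, h4⟩
  · rintro (hv | ⟨y, ⟨u, h1, hu⟩, y', h2, h3, h4⟩)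
    · exact ⟨v, hv, ReflTransGen.refl⟩
    · exact ⟨u, hu, (pcp_path_iff' x A C fav hA u v).2 (Or.inr ⟨y, y', h1, h2, h3, h4⟩)⟩

/-- **`clInv`** -/
theorem pcp_mem_inv (x : ℝ) (A C : Finset TV) (hA : ∀ y ∈ C, cellV y ⊆ A) (s : Bool) (ω : ClCfg TV TV) (O : Finset TV) (v : TV) :
    v ∈ clInv (clPl x A C) s ∅ ω O ↔
      v ∈ A ∧ (v ∈ O ∨ ∃ y ∈ pcpMeet ↑O, ∃ y', v ∈ cellV y' ∧ y ∈ pcpOff x A C ω s ∧ TscR tscG (pcpOff x A C ω s) y y') := by
  rw [cu_inv_eq, pcp_off_eq]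
  exact pcp_mem_invG x A C _ (fun y hy _ => hA y hy) O v

/-- **`cuClu`** -/
theorem pcp_mem_clu (x : ℝ) (A C : Finset TV) (hA : ∀ y ∈ C, cellV y ⊆ A) (s : Bool) (ω : ClCfg TV TV) (O : Finset TV) (v : TV) :
    v ∈ cuClu (clPl x A C) s ω O ↔
      v ∈ A ∧ (v ∈ O ∨ ∃ y ∈ pcpMeet ↑O, ∃ y', v ∈ cellV y' ∧ y ∈ pcpOn x A C ω s ∧ TscR tscG (pcpOn x A C ω s) y y') := by
  rw [pcp_on_eq]
  exact pcp_mem_invG x A C _ (fun y hy _ => hA y hy) O v

/-- the cells of `clInn` are not clipped -/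
theorem pcp_inn_sub (A : Finset TV) : ∀ y ∈ latCellsIn A, cellV y ⊆ A := fun _ hy => lat_mem_cellsIn.1 hy

/-! ### (3) the graph of the planar systems -/

/-- **(3)** the graph of the ambient system is the triangular lattice restricted to `A` -/
theorem pcp_amb_adj (x : ℝ) (A : Finset TV) (u v : TV) : (clAmb x A).gr.Adj u v ↔ triAdj u v ∧ u ∈ A ∧ v ∈ A := by
  show (u ≠ v ∧ ∃ y ∈ latCells A, u ∈ cellV y ∩ A ∧ v ∈ cellV y ∩ A) ↔ _
  simp only [Finset.mem_inter]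
  constructor
  · rintro ⟨huv, y, _, ⟨hu, huA⟩, hv, hvA⟩
    exact ⟨pcp_cell_adj hu hv huv, huA, hvA⟩
  · rintro ⟨h, huA, hvA⟩
    obtain ⟨y, hu, hv⟩ := pcp_adj_cell h
    exact ⟨lat_adj_ne h, y, lat_mem_cells.2 ⟨u, hu, huA⟩, ⟨hu, huA⟩, hv, hvA⟩

/-- the graph of the system with the boundary cells excluded -/
theorem pcp_inn_adj (x : ℝ) (A : Finset TV) (u v : TV) :
    (clInn x A).gr.Adj u v ↔ u ≠ v ∧ ∃ y, cellV y ⊆ A ∧ u ∈ cellV y ∧ v ∈ cellV y := by
  show (u ≠ v ∧ ∃ y ∈ latCellsIn A, u ∈ cellV y ∩ A ∧ v ∈ cellV y ∩ A) ↔ _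
  simp only [Finset.mem_inter, lat_mem_cellsIn]
  constructor
  · rintro ⟨huv, y, hy, ⟨hu, _⟩, hv, _⟩; exact ⟨huv, y, hy, hu, hv⟩
  · rintro ⟨huv, y, hy, hu, hv⟩; exact ⟨huv, y, hy, ⟨hu, hy hu⟩, hv, hy hv⟩

/-- `TriSCOn` sees only the edges inside the set -/
theorem pcp_sc_congr {V : Type*} (R : Type*) [AddCommGroup R] {G G' : SimpleGraph V} {s : Set V}
    (h : ∀ u ∈ s, ∀ v ∈ s, (G.Adj u v ↔ G'.Adj u v)) (hs : TriSCOn R G s) : TriSCOn R G' s := by
  intro ω hω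
  have hcl : TscClosed G s ω :=
    ⟨fun u hu v hv huv => hω.anti u hu v hv ((h u hu v hv).1 huv),
      fun u hu v hv w hw h1 h2 h3 => hω.tri u hu v hv w hw ((h u hu v hv).1 h1) ((h v hv w hw).1 h2) ((h u hu w hw).1 h3)⟩
  obtain ⟨f, hf⟩ := hs ω hcl
  exact ⟨f, fun u hu v hv huv => hf u hu v hv ((h u hu v hv).2 huv)⟩

/-- `SC` of the ambient system = `TriSCOn` of the triangular lattice on `A` -/
theorem pcp_amb_sc_iff (x : ℝ) (A : Finset TV) : (clAmb x A).SC ↔ TriSCOn (ZMod 2) tscG (↑A : Set TV) := by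
  have h : ∀ u ∈ (↑A : Set TV), ∀ v ∈ (↑A : Set TV), ((clAmb x A).gr.Adj u v ↔ tscG.Adj u v) := by
    intro u hu v hv
    rw [pcp_amb_adj]
    exact ⟨fun h => h.1, fun h => ⟨h, hu, hv⟩⟩
  exact ⟨fun hs => pcp_sc_congr (ZMod 2) h hs, fun hs => pcp_sc_congr (ZMod 2) (fun u hu v hv => (h u hu v hv).symm) hs⟩

/-- all parallelograms, trapezoids, hexagons -/
theorem pcp_amb_sc_hex (x : ℝ) {A : Finset TV} {a b c d e f : ℤ} (h : (↑A : Set TV) = tscHex a b c d e f) : (clAmb x A).SC := by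
  rw [pcp_amb_sc_iff, h]
  exact tsc_hex_sc (ZMod 2) a b c d e f

theorem pcp_amb_sc_box (x : ℝ) {A : Finset TV} {a b c d : ℤ} (h : (↑A : Set TV) = tscBox a b c d) : (clAmb x A).SC := by
  rw [pcp_amb_sc_iff, h]
  exact tsc_box_sc (ZMod 2) a b c d

/-- the ball of the graph metric is a hexagon -/
theorem pcp_ball_coe (c : TV) (r : ℕ) :
    (↑(latBall c r) : Set TV) = tscHex (c.1 - r) (c.1 + r) (c.2 - r) (c.2 + r) (c.1 + c.2 - r) (c.1 + c.2 + r) := by
  ext u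
  rw [Finset.mem_coe, lat_mem_ball]
  unfold latN tscHex
  simp only [Set.mem_ofPred_eq, Prod.fst_sub, Prod.snd_sub]
  omega

theorem pcp_amb_sc_ball (x : ℝ) (c : TV) (r : ℕ) : (clAmb x (latBall c r)).SC := pcp_amb_sc_hex x (pcp_ball_coe c r)

/-- the ball is `TriSCOn` for every coefficient group -/
theorem pcp_ball_sc (R : Type*) [AddCommGroup R] (c : TV) (r : ℕ) : TriSCOn R tscG (↑(latBall c r) : Set TV) := by
  rw [pcp_ball_coe]
  exact tsc_hex_sc R _ _ _ _ _ _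

/-! ### sanity of the planar systems -/

theorem pcp_pl_card (x : ℝ) (A C : Finset TV) (y : TV) : ((clPl x A C).sv y).card ≤ 3 := by
  rw [pcp_sv]
  exact (Finset.card_le_card Finset.inter_subset_left).trans (pcp_cell_card y).le

theorem pcp_pl_q (x : ℝ) (hx0 : 0 < x) (hx1 : x ≤ 1) (A C : Finset TV) (y : TV) : 0 < (clPl x A C).q y ∧ (clPl x A C).q y ≤ 1 := by
  show 0 < (if (cellV y ∩ A).card = 3 then x ^ 2 else x) ∧ (if (cellV y ∩ A).card = 3 then x ^ 2 else x) ≤ 1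
  split_ifs
  · exact ⟨by positivity, pow_le_one₀ hx0.le hx1⟩
  · exact ⟨hx0, hx1⟩

theorem pcp_amb_ok (x : ℝ) (hx0 : 0 < x) (hx1 : x ≤ 1) (A : Finset TV) : ClOk (clAmb x A) where
  sub := fun y _ => Finset.inter_subset_right
  ne := fun y hy => by
    obtain ⟨u, hu, huA⟩ := lat_mem_cells.1 hy
    exact ⟨u, Finset.mem_inter.2 ⟨hu, huA⟩⟩
  q0 := fun y _ => (pcp_pl_q x hx0 hx1 A _ y).1
  q1 := fun y _ => (pcp_pl_q x hx0 hx1 A _ y).2

theorem pcp_inn_ok (x : ℝ) (hx0 : 0 < x) (hx1 : x ≤ 1) (A : Finset TV) : ClOk (clInn x A) where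
  sub := fun y _ => Finset.inter_subset_right
  ne := fun y hy => ⟨y, Finset.mem_inter.2 ⟨by simp [cellV], pcp_inn_sub A y hy (by simp [cellV])⟩⟩
  q0 := fun y _ => (pcp_pl_q x hx0 hx1 A _ y).1
  q1 := fun y _ => (pcp_pl_q x hx0 hx1 A _ y).2

/-- in `clInn` every cell is a full triangle of parameter `x ^ 2` -/
theorem pcp_inn_sv (x : ℝ) (A : Finset TV) {y : TV} (hy : y ∈ latCellsIn A) :
    (clInn x A).sv y = cellV y ∧ (clInn x A).q y = x ^ 2 := by
  have h : cellV y ∩ A = cellV y := Finset.inter_eq_left.2 (pcp_inn_sub A y hy)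
  refine ⟨h, ?_⟩
  show (if (cellV y ∩ A).card = 3 then x ^ 2 else x) = x ^ 2
  rw [h, if_pos (pcp_cell_card y)]

/-! ### `SC` + connected ⟹ `ClDisk` -/

section disk

variable {V Y : Type} [DecidableEq V] [DecidableEq Y]

theorem pcp_const_iff (P s : Finset V) : ClConst P s ↔ ∀ u ∈ s, ∀ v ∈ s, (u ∈ P ↔ v ∈ P) := by
  unfold ClConst
  constructor
  · rintro (h | h) u hu v hv
    · exact ⟨fun _ => h hv, fun _ => h hu⟩
    · exact ⟨fun h' => absurd h' (h u hu), fun h' => absurd h' (h v hv)⟩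
  · intro h
    by_cases hex : ∃ u ∈ s, u ∈ P
    · obtain ⟨u, hu, huP⟩ := hex
      exact Or.inl fun v hv => (h u hu v hv).1 huP
    · exact Or.inr fun v hv hvP => hex ⟨v, hv, hvP⟩

/-- a spin which is constant on the cells is constant along the paths of the graph of the system -/
theorem pcp_const_path (S : ClSys V Y) (U : Finset V) (hU : ∀ y ∈ S.C, ClConst U (S.sv y)) {s : Set V} {a b : V}
    (h : TscR S.gr s a b) : a ∈ U ↔ b ∈ U := by
  have := tsc_R_const (G := S.gr) (s := s) (fun v => v ∈ U) (fun p q hpq => by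
    obtain ⟨_, y, hy, hp, hq⟩ := hpq.1
    exact propext ((pcp_const_iff U (S.sv y)).1 (hU y hy) p hp q hq)) h
  exact iff_of_eq this

/-- propositional core of the closedness of the plus part of a wall -/
theorem pcp_aux (bu bv bw wu wv ww : Prop) [Decidable bu] [Decidable bv] [Decidable bw] [Decidable wu] [Decidable wv] [Decidable ww]
    (e1 : (bu ↔ bv) ∨ (wu ↔ wv)) (e2 : (bv ↔ bw) ∨ (wv ↔ ww)) (e3 : (bu ↔ bw) ∨ (wu ↔ ww)) :
    (if bu ∧ bv ∧ ¬ (wu ↔ wv) then (1 : ZMod 2) else 0) + (if bv ∧ bw ∧ ¬ (wv ↔ ww) then 1 else 0)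
      + (if bu ∧ bw ∧ ¬ (wu ↔ ww) then 1 else 0) = 0 := by
  by_cases h1 : bu <;> by_cases h2 : bv <;> by_cases h3 : bw <;> by_cases h4 : wu <;> by_cases h5 : wv <;> by_cases h6 : ww <;>
    simp_all <;> decide

theorem pcp_z2 : ∀ a b : ZMod 2, ((a = 1 ↔ b = 1) ↔ a + b = 0) := by decide

/-- **`cu_disk`**: the topological hypothesis `ClDisk` of DIS follows from "the triangles generate the cycles" and connectedness -/
theorem pcp_disk (S : ClSys V Y) (hok : ClOk S) (hcard : ∀ y ∈ S.C, (S.sv y).card ≤ 3) (hsc : S.SC)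
    (hconn : TscConn S.gr (↑S.A : Set V)) : ClDisk S where
  toClOk := hok
  card := hcard
  conn := by
    intro U _ hU
    rw [pcp_const_iff]
    exact fun u hu v hv => pcp_const_path S U hU (hconn u hu v hv)
  split := by
    intro B _ W _ hBW
    have hE : ∀ u v, S.gr.Adj u v → ((u ∈ B ↔ v ∈ B) ∨ (u ∈ W ↔ v ∈ W)) := by
      rintro u v ⟨_, y, hy, hu, hv⟩
      by_cases hc : ClConst B (S.sv y)
      · exact Or.inl ((pcp_const_iff B _).1 hc u hu v hv)
      · exact Or.inr ((pcp_const_iff W _).1 (hBW y hy hc) u hu v hv)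
    obtain ⟨f, hf⟩ := tsc_mod2 hsc (fun u v => if u ∈ B ∧ v ∈ B ∧ ¬ (u ∈ W ↔ v ∈ W) then (1 : ZMod 2) else 0)
      (fun u _ v _ _ => by
        refine if_congr ?_ rfl rfl
        constructor
        · rintro ⟨h1, h2, h3⟩; exact ⟨h2, h1, fun h => h3 h.symm⟩
        · rintro ⟨h1, h2, h3⟩; exact ⟨h2, h1, fun h => h3 h.symm⟩)
      (fun u _ v _ w _ huv hvw huw => pcp_aux (u ∈ B) (v ∈ B) (w ∈ B) (u ∈ W) (v ∈ W) (w ∈ W) (hE u v huv) (hE v w hvw) (hE u w huw))
    refine ⟨S.A.filter (fun u => f u = 1), Finset.filter_subset _ _, fun y hy => ⟨?_, ?_⟩⟩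
    · intro hyB u hu v hv
      have huA := hok.sub y hy hu
      have hvA := hok.sub y hy hv
      simp only [Finset.mem_filter, huA, hvA, true_and]
      by_cases huv : u = v
      · subst huv; simp
      · have h := hf u huA v hvA ⟨huv, y, hy, hu, hv⟩
        rw [pcp_z2, ← h]
        by_cases hw : (u ∈ W ↔ v ∈ W)
        · simp [hw]
        · simp [hw, hyB hu, hyB hv]
    · intro hyB
      rw [pcp_const_iff]
      intro u hu v hv
      have huA := hok.sub y hy hu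
      have hvA := hok.sub y hy hv
      simp only [Finset.mem_filter, huA, hvA, true_and]
      by_cases huv : u = v
      · subst huv; exact Iff.rfl
      · have h := hf u huA v hvA ⟨huv, y, hy, hu, hv⟩
        rw [pcp_z2, ← h]
        refine if_neg ?_
        rintro ⟨h1, _, h3⟩
        obtain ⟨t, ht, htB⟩ := Finset.not_subset.1 hyB
        have hnc : ¬ ClConst B (S.sv y) := fun hc => htB (((pcp_const_iff B _).1 hc u hu t ht).1 h1)
        exact h3 ((pcp_const_iff W _).1 (hBW y hy hnc) u hu v hv)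

/-- paths see only the edges inside the set -/
theorem pcp_R_congr {V : Type*} {G G' : SimpleGraph V} {s : Set V} (h : ∀ u ∈ s, ∀ v ∈ s, G.Adj u v → G'.Adj u v) {a b : V}
    (hab : TscR G s a b) : TscR G' s a b := by
  induction hab with
  | refl => exact ReflTransGen.refl
  | tail _ hbc ih => exact ih.tail ⟨h _ hbc.2.1 _ hbc.2.2 hbc.1, hbc.2.1, hbc.2.2⟩

end disk

theorem pcp_amb_conn (x : ℝ) {A : Finset TV} (h : TscConn tscG (↑A : Set TV)) : TscConn (clAmb x A).gr (↑(clAmb x A).A : Set TV) :=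
  fun u hu v hv => pcp_R_congr (fun a ha b hb hab => (pcp_amb_adj x A a b).2 ⟨hab, ha, hb⟩) (h u hu v hv)

/-- **`ClDisk` of the ambient systems** -/
theorem pcp_amb_disk (x : ℝ) (hx0 : 0 < x) (hx1 : x ≤ 1) {A : Finset TV} (hsc : TriSCOn (ZMod 2) tscG (↑A : Set TV))
    (hc : TscConn tscG (↑A : Set TV)) : ClDisk (clAmb x A) :=
  pcp_disk _ (pcp_amb_ok x hx0 hx1 A) (fun y _ => pcp_pl_card x A _ y) ((pcp_amb_sc_iff x A).2 hsc) (pcp_amb_conn x hc)

theorem pcp_amb_disk_box (x : ℝ) (hx0 : 0 < x) (hx1 : x ≤ 1) {A : Finset TV} {a b c d : ℤ} (h : (↑A : Set TV) = tscBox a b c d) :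
    ClDisk (clAmb x A) :=
  pcp_amb_disk x hx0 hx1 (h ▸ tsc_box_sc (ZMod 2) a b c d) (h ▸ tsc_box_conn a b c d)

theorem pcp_amb_disk_ball (x : ℝ) (hx0 : 0 < x) (hx1 : x ≤ 1) (c : TV) (r : ℕ) : ClDisk (clAmb x (latBall c r)) :=
  pcp_amb_disk x hx0 hx1 (pcp_ball_sc (ZMod 2) c r) (plh_ball_conn c r)

/-- the equation lemmas of the definitions of this file are generated HERE -/
theorem pcp_defs_eqns_cite : True := by
  have := @pcpN.eq_1
  have := @pcpMeet.eq_1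
  have := @pcpOff.eq_1
  have := @pcpOn.eq_1
  have := @pcpCl.eq_1
  trivial

end Claimed.Agent.R291
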