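import Claimed.Agent.R291.Defs.Frozen

/-!
# Row 291 (S0539), unit PLA, file Pl/Wind      (owner: helper191; prefix `plf_` / `plf`)

FORCED INTERSECTION on the triangular lattice `ℤ × ℤ` with the frozen adjacency `triAdj` (the "Jordan direction" of planar duality), Mathlib only, model free.
Walks are lists of sites, consecutive sites adjacent (`List.IsChain triAdj`); no simple curves, no topology.

Method: the mod 2 index of a walk `p` at a site `v` = number of edges of `p` which join the column of `v` to the next column on the right and whose end in the column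
of `v` lies strictly below `v`.  For adjacent sites `v, v'` off the walk the two ray cochains differ by the coboundary of a half column.
-/

set_option autoImplicit false

namespace Claimed.Agent.R291

open Claims.C0467

/-- mod 2 sum of a 1-cochain along a walk -/
def plfSum (ω : ℤ × ℤ → ℤ × ℤ → ZMod 2) : List (ℤ × ℤ) → ZMod 2
  | [] => 0
  | [_] => 0
  | a :: b :: l => ω a b + plfSum ω (b :: l)

/-- the ray cochain of the site `v` -/
def plfRay (v a b : ℤ × ℤ) : ZMod 2 :=
  if (a.1 = v.1 ∧ b.1 = v.1 + 1 ∧ a.2 < v.2) ∨ (b.1 = v.1 ∧ a.1 = v.1 + 1 ∧ b.2 < v.2) then 1 else 0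

/-- the mod 2 index of the walk `p` at the site `v` -/
def plfIdx (p : List (ℤ × ℤ)) (v : ℤ × ℤ) : ZMod 2 := plfSum (plfRay v) p

/-- indicator of the half column strictly below `c` -/
def plfCol (c u : ℤ × ℤ) : ZMod 2 := if u.1 = c.1 ∧ u.2 < c.2 then 1 else 0

/-- indicator of the columns `≤ x` -/
def plfLeft (x : ℤ) (u : ℤ × ℤ) : ZMod 2 := if u.1 ≤ x then 1 else 0

theorem plf_defs_eqns_cite : True := by
  have := @plfSum.eq_1
  have := @plfSum.eq_2
  have := @plfSum.eq_3
  have := @plfRay.eq_1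
  have := @plfIdx.eq_1
  have := @plfCol.eq_1
  have := @plfLeft.eq_1
  trivial

theorem plf_two (z : ZMod 2) : z + z = 0 := CharTwo.add_self_eq_zero z

/-- a cochain which is a coboundary along the walk telescopes -/
theorem plf_sum_tel (ω : ℤ × ℤ → ℤ × ℤ → ZMod 2) (f : ℤ × ℤ → ZMod 2) :
    ∀ (p : List (ℤ × ℤ)) (a b : ℤ × ℤ), p.head? = some a → p.getLast? = some b →
      List.IsChain (fun x y => ω x y = f x + f y) p → plfSum ω p = f a + f b
  | [], a, b, h, _, _ => by simp at h
  | [c], a, b, h1, h2, _ => by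
      simp at h1 h2
      subst h1 h2
      simp [plfSum, plf_two]
  | c :: d :: l, a, b, h1, h2, h3 => by
      simp only [List.head?_cons, Option.some.injEq] at h1
      subst h1
      rw [List.isChain_cons_cons] at h3
      have ih := plf_sum_tel ω f (d :: l) d b rfl (by simpa [List.getLast?_cons_cons] using h2) h3.2
      simp only [plfSum]
      rw [ih, h3.1]
      have := plf_two (f d)
      linear_combination this

/-- two cochains which agree along the walk have the same sum -/
theorem plf_sum_congr (ω ω' : ℤ × ℤ → ℤ × ℤ → ZMod 2) :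
    ∀ (p : List (ℤ × ℤ)), List.IsChain (fun x y => ω x y = ω' x y) p → plfSum ω p = plfSum ω' p
  | [], _ => rfl
  | [_], _ => rfl
  | c :: d :: l, h => by
      rw [List.isChain_cons_cons] at h
      simp only [plfSum]
      rw [h.1, plf_sum_congr ω ω' (d :: l) h.2]

theorem plf_sum_add (ω ω' : ℤ × ℤ → ℤ × ℤ → ZMod 2) :
    ∀ (p : List (ℤ × ℤ)), plfSum (fun x y => ω x y + ω' x y) p = plfSum ω p + plfSum ω' p
  | [] => by simp [plfSum]
  | [_] => by simp [plfSum]
  | c :: d :: l => by
      simp only [plfSum]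
      rw [plf_sum_add ω ω' (d :: l)]
      ring

/-- a property of the edges of a walk -/
theorem plf_chain_of {R S : ℤ × ℤ → ℤ × ℤ → Prop} {p : List (ℤ × ℤ)} (h : List.IsChain R p)
    (H : ∀ x y, x ∈ p → y ∈ p → R x y → S x y) : List.IsChain S p :=
  List.IsChain.imp_of_mem_imp (fun x y hx hy hxy => H x y hx hy hxy) h

/-! ### the three local moves -/

theorem plf_move_v (v a b : ℤ × ℤ) (hab : triAdj a b) (ha : a ≠ v) (hb : b ≠ v) :
    plfRay v a b + plfRay (v + (0, 1)) a b = 0 := by
  obtain ⟨v1, v2⟩ := v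
  obtain ⟨a1, a2⟩ := a
  obtain ⟨b1, b2⟩ := b
  simp only [ne_eq, Prod.mk.injEq, not_and_or] at ha hb
  simp only [triAdj, Prod.mk_sub_mk, Prod.mk.injEq] at hab
  simp only [plfRay, Prod.mk_add_mk]
  split_ifs <;> first | rfl | (exfalso; omega)

theorem plf_move_h (v a b : ℤ × ℤ) (hab : triAdj a b) (ha : a ≠ v) (hb : b ≠ v) (ha' : a ≠ v + (1, 0)) (hb' : b ≠ v + (1, 0)) :
    plfRay v a b + plfRay (v + (1, 0)) a b = plfCol (v + (1, 0)) a + plfCol (v + (1, 0)) b := by
  obtain ⟨v1, v2⟩ := v
  obtain ⟨a1, a2⟩ := a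
  obtain ⟨b1, b2⟩ := b
  simp only [ne_eq, Prod.mk.injEq, not_and_or, Prod.mk_add_mk] at ha hb ha' hb'
  simp only [triAdj, Prod.mk_sub_mk, Prod.mk.injEq] at hab
  simp only [plfRay, plfCol, Prod.mk_add_mk]
  split_ifs <;> first | rfl | (exfalso; omega)

theorem plf_move_d (v a b : ℤ × ℤ) (hab : triAdj a b) (ha : a ≠ v) (hb : b ≠ v) (ha' : a ≠ v + (-1, 1)) (hb' : b ≠ v + (-1, 1)) :
    plfRay v a b + plfRay (v + (-1, 1)) a b = plfCol v a + plfCol v b := by
  obtain ⟨v1, v2⟩ := v
  obtain ⟨a1, a2⟩ := a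
  obtain ⟨b1, b2⟩ := b
  simp only [ne_eq, Prod.mk.injEq, not_and_or, Prod.mk_add_mk] at ha hb ha' hb'
  simp only [triAdj, Prod.mk_sub_mk, Prod.mk.injEq] at hab
  simp only [plfRay, plfCol, Prod.mk_add_mk]
  split_ifs <;> first | rfl | (exfalso; omega)

/-! ### the index along a step off the walk -/

theorem plf_adj_symm {u v : ℤ × ℤ} (h : triAdj u v) : triAdj v u := by
  obtain ⟨u1, u2⟩ := u
  obtain ⟨v1, v2⟩ := v
  simp only [triAdj, Prod.mk_sub_mk, Prod.mk.injEq] at h ⊢
  omega

/-- **one step**: for adjacent sites off the walk the indices differ by the values of a half column at the two ends of the walk -/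
theorem plf_step {p : List (ℤ × ℤ)} (hp : List.IsChain triAdj p) {a b v v' : ℤ × ℤ} (ha : p.head? = some a)
    (hb : p.getLast? = some b) (hv : v ∉ p) (hv' : v' ∉ p) (hvv : triAdj v v') :
    plfIdx p v + plfIdx p v' = 0 ∨ plfIdx p v + plfIdx p v' = plfCol v a + plfCol v b
      ∨ plfIdx p v + plfIdx p v' = plfCol v' a + plfCol v' b := by
  have ne : ∀ x, x ∈ p → x ≠ v := fun x hx h => hv (h ▸ hx)
  have ne' : ∀ x, x ∈ p → x ≠ v' := fun x hx h => hv' (h ▸ hx)
  have key0 : ∀ w w' : ℤ × ℤ, (∀ x y, x ∈ p → y ∈ p → triAdj x y → plfRay w x y + plfRay w' x y = 0) →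
      plfIdx p w + plfIdx p w' = 0 := by
    intro w w' H
    unfold plfIdx
    rw [← plf_sum_add, plf_sum_tel _ (fun _ => 0) p a b ha hb (plf_chain_of hp fun x y hx hy hxy => by simpa using H x y hx hy hxy)]
    simp
  have key1 : ∀ w w' c : ℤ × ℤ, (∀ x y, x ∈ p → y ∈ p → triAdj x y → plfRay w x y + plfRay w' x y = plfCol c x + plfCol c y) →
      plfIdx p w + plfIdx p w' = plfCol c a + plfCol c b := by
    intro w w' c H
    unfold plfIdx
    rw [← plf_sum_add, plf_sum_tel _ (plfCol c) p a b ha hb (plf_chain_of hp fun x y hx hy hxy => H x y hx hy hxy)]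
  have hd : v' = v + (v' - v) := by abel
  rcases hvv with h | h | h | h | h | h
  · -- (1, 0)
    rw [h] at hd
    right; right
    refine key1 v v' v' fun x y hx hy hxy => ?_
    have := plf_move_h v x y hxy (ne x hx) (ne y hy) (hd ▸ ne' x hx) (hd ▸ ne' y hy)
    rwa [← hd] at this
  · -- (0, 1)
    rw [h] at hd
    left
    refine key0 v v' fun x y hx hy hxy => ?_
    have := plf_move_v v x y hxy (ne x hx) (ne y hy)
    rwa [← hd] at this
  · -- (-1, 1)
    rw [h] at hd
    right; left
    refine key1 v v' v fun x y hx hy hxy => ?_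
    have := plf_move_d v x y hxy (ne x hx) (ne y hy) (hd ▸ ne' x hx) (hd ▸ ne' y hy)
    rwa [← hd] at this
  · -- (-1, 0)
    have hd' : v = v' + (1, 0) := by
      rw [hd, h]; ext <;> simp
    right; left
    rw [add_comm]
    refine key1 v' v v fun x y hx hy hxy => ?_
    have := plf_move_h v' x y hxy (ne' x hx) (ne' y hy) (hd' ▸ ne x hx) (hd' ▸ ne y hy)
    rwa [← hd'] at this
  · -- (0, -1)
    have hd' : v = v' + (0, 1) := by
      rw [hd, h]; ext <;> simp
    left
    rw [add_comm]
    refine key0 v' v fun x y hx hy hxy => ?_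
    have := plf_move_v v' x y hxy (ne' x hx) (ne' y hy)
    rwa [← hd'] at this
  · -- (1, -1)
    have hd' : v = v' + (-1, 1) := by
      rw [hd, h]; ext <;> simp
    right; right
    rw [add_comm]
    refine key1 v' v v' fun x y hx hy hxy => ?_
    have := plf_move_d v' x y hxy (ne' x hx) (ne' y hy) (hd' ▸ ne x hx) (hd' ▸ ne y hy)
    rwa [← hd'] at this

theorem plf_eq_of_add {x y : ZMod 2} (h : x + y = 0) : x = y := by
  have := plf_two y
  linear_combination h - this

/-- **transport**: the index of `p` is constant along a walk `p'` which misses `p` and the vertical half lines above the two ends of `p` -/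
theorem plf_transport {p : List (ℤ × ℤ)} (hp : List.IsChain triAdj p) {a b : ℤ × ℤ} (ha : p.head? = some a)
    (hb : p.getLast? = some b) :
    ∀ (p' : List (ℤ × ℤ)) (v w : ℤ × ℤ), List.IsChain triAdj p' → p'.head? = some v → p'.getLast? = some w →
      (∀ u ∈ p', u ∉ p) → (∀ u ∈ p', plfCol u a + plfCol u b = 0) → plfIdx p v = plfIdx p w
  | [], v, w, _, h, _, _, _ => by simp at h
  | [c], v, w, _, h1, h2, _, _ => by
      simp at h1 h2
      rw [← h1, ← h2]
  | c :: d :: l, v, w, h0, h1, h2, h3, h4 => by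
      simp only [List.head?_cons, Option.some.injEq] at h1
      subst h1
      rw [List.isChain_cons_cons] at h0
      have ih := plf_transport hp ha hb (d :: l) d w h0.2 rfl (by simpa [List.getLast?_cons_cons] using h2)
        (fun u hu => h3 u (List.mem_cons_of_mem _ hu)) (fun u hu => h4 u (List.mem_cons_of_mem _ hu))
      rw [← ih]
      have hc := h4 c (by simp)
      have hd := h4 d (by simp)
      rcases plf_step hp ha hb (h3 c (by simp)) (h3 d (by simp)) h0.1 with h | h | h
      · exact plf_eq_of_add h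
      · exact plf_eq_of_add (h.trans hc)
      · exact plf_eq_of_add (h.trans hd)

/-! ### evaluation of the index -/

/-- no site of the walk lies strictly below `v` in its column -/
theorem plf_idx_zero {p : List (ℤ × ℤ)} {v : ℤ × ℤ} (h : ∀ u ∈ p, u.1 = v.1 → v.2 ≤ u.2) : plfIdx p v = 0 := by
  unfold plfIdx
  induction p with
  | nil => rfl
  | cons c l ih =>
    cases l with
    | nil => rfl
    | cons d l =>
      simp only [plfSum]
      rw [ih fun u hu => h u (List.mem_cons_of_mem _ hu)]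
      have hc := h c (by simp)
      have hd := h d (by simp)
      unfold plfRay
      rw [if_neg (by omega)]
      simp

/-- all the sites of the walk in the column of `v` lie strictly below `v` -/
theorem plf_idx_top {p : List (ℤ × ℤ)} (hp : List.IsChain triAdj p) {a b v : ℤ × ℤ} (ha : p.head? = some a)
    (hb : p.getLast? = some b) (h : ∀ u ∈ p, u.1 = v.1 → u.2 < v.2) : plfIdx p v = plfLeft v.1 a + plfLeft v.1 b := by
  unfold plfIdx
  refine plf_sum_tel _ (plfLeft v.1) p a b ha hb (plf_chain_of hp fun x y hx hy hxy => ?_)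
  have h1 := h x hx
  have h2 := h y hy
  obtain ⟨v1, v2⟩ := v
  obtain ⟨x1, x2⟩ := x
  obtain ⟨y1, y2⟩ := y
  simp only [triAdj, Prod.mk_sub_mk, Prod.mk.injEq] at hxy
  simp only at h1 h2
  simp only [plfRay, plfLeft]
  split_ifs <;> first | rfl | (exfalso; omega)

/-- **FORCED INTERSECTION, general form.**  `p` goes from `a` to `b`, `p'` from `v` to `w`.  No site of `p` lies below `v` in the column of `v`, no site of `p` lies above `w`
in the column of `w`, exactly one end of `p` lies in the columns `≤ w.1`, and `p'` misses the vertical half lines above `a` and `b`.  Then the walks share a site. -/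
theorem plf_cross {p p' : List (ℤ × ℤ)} (hp : List.IsChain triAdj p) (hp' : List.IsChain triAdj p') {a b v w : ℤ × ℤ}
    (ha : p.head? = some a) (hb : p.getLast? = some b) (hv : p'.head? = some v) (hw : p'.getLast? = some w)
    (h0 : ∀ u ∈ p, u.1 = v.1 → v.2 ≤ u.2) (h1 : ∀ u ∈ p, u.1 = w.1 → u.2 ≤ w.2) (h2 : a.1 ≤ w.1) (h3 : w.1 < b.1)
    (h4 : ∀ u ∈ p', ¬ (u.1 = a.1 ∧ a.2 < u.2)) (h5 : ∀ u ∈ p', ¬ (u.1 = b.1 ∧ b.2 < u.2)) : ∃ u, u ∈ p ∧ u ∈ p' := by
  by_contra hcon
  have hdis : ∀ u ∈ p', u ∉ p := fun u hu hu' => hcon ⟨u, hu', hu⟩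
  have hwp : w ∈ p' := List.mem_of_getLast? hw
  have e := plf_transport hp ha hb p' v w hp' hv hw hdis fun u hu => by
    unfold plfCol
    rw [if_neg (fun hh => h4 u hu ⟨hh.1.symm, hh.2⟩), if_neg (fun hh => h5 u hu ⟨hh.1.symm, hh.2⟩)]
    simp
  rw [plf_idx_zero h0, plf_idx_top hp ha hb fun u hu hu1 => lt_of_le_of_ne (h1 u hu hu1) fun hh =>
    hdis w hwp (by rwa [show w = u from Prod.ext hu1.symm hh.symm])] at e
  unfold plfLeft at e
  rw [if_pos h2, if_neg (by omega)] at e
  simp at e

/-! ### horizontal half lines -/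

/-- the row segment `(x, y), (x + 1, y), .., (x + n, y)` -/
def plfRow (x y : ℤ) : ℕ → List (ℤ × ℤ)
  | 0 => [(x, y)]
  | n + 1 => (x, y) :: plfRow (x + 1) y n

theorem plf_row_head (x y : ℤ) (n : ℕ) : (plfRow x y n).head? = some (x, y) := by
  cases n <;> rfl

theorem plf_row_last (y : ℤ) : ∀ (n : ℕ) (x : ℤ), (plfRow x y n).getLast? = some (x + n, y)
  | 0, x => by simp [plfRow]
  | n + 1, x => by
      have ih := plf_row_last y n (x + 1)
      have hne : plfRow (x + 1) y n ≠ [] := by cases n <;> simp [plfRow]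
      obtain ⟨c, l, hcl⟩ := List.exists_cons_of_ne_nil hne
      simp only [plfRow]
      rw [hcl, List.getLast?_cons_cons, ← hcl, ih]
      push_cast
      congr 2
      ring

theorem plf_row_mem (y : ℤ) : ∀ (n : ℕ) (x : ℤ) (u : ℤ × ℤ), u ∈ plfRow x y n ↔ u.2 = y ∧ x ≤ u.1 ∧ u.1 ≤ x + n
  | 0, x, u => by
      obtain ⟨u1, u2⟩ := u
      simp only [plfRow, List.mem_singleton, Prod.mk.injEq]
      push_cast
      omega
  | n + 1, x, u => by
      have ih := plf_row_mem y n (x + 1) u
      obtain ⟨u1, u2⟩ := u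
      simp only [plfRow, List.mem_cons, Prod.mk.injEq, ih]
      push_cast
      omega

theorem plf_row_chain (y : ℤ) : ∀ (n : ℕ) (x : ℤ), List.IsChain triAdj (plfRow x y n)
  | 0, x => by simp [plfRow]
  | n + 1, x => by
      have ih := plf_row_chain y n (x + 1)
      have hh := plf_row_head (x + 1) y n
      have hne : plfRow (x + 1) y n ≠ [] := by cases n <;> simp [plfRow]
      obtain ⟨c, l, hcl⟩ := List.exists_cons_of_ne_nil hne
      simp only [plfRow]
      rw [hcl] at hh ih ⊢
      simp only [List.head?_cons, Option.some.injEq] at hh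
      rw [List.isChain_cons_cons]
      refine ⟨?_, ih⟩
      rw [hh]
      left
      ext <;> simp

theorem plf_bound (p : List (ℤ × ℤ)) : ∃ K : ℤ, ∀ u ∈ p, -K < u.1 ∧ u.1 < K ∧ -K < u.2 ∧ u.2 < K := by
  induction p with
  | nil => exact ⟨0, by simp⟩
  | cons c l ih =>
    obtain ⟨K, hK⟩ := ih
    refine ⟨max K (|c.1| + |c.2| + 1), fun u hu => ?_⟩
    rcases List.mem_cons.1 hu with rfl | hu
    · have h1 := le_max_right K (|u.1| + |u.2| + 1)
      have h2 := abs_nonneg u.1
      have h3 := abs_nonneg u.2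
      have h4 := le_abs_self u.1
      have h5 := neg_abs_le u.1
      have h6 := le_abs_self u.2
      have h7 := neg_abs_le u.2
      omega
    · have h1 := le_max_left K (|c.1| + |c.2| + 1)
      have := hK u hu
      omega

/-- **FORCED INTERSECTION, horizontal form.**  `p` goes from `a` to `b`, `p'` from `v` to `w`; the heights of `p` lie between those of `v` and `w`;
`p'` misses the horizontal half line on the left of `a` and the horizontal half line on the right of `b`.  Then the walks share a site.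
(Covers the left-right / bottom-top crossings of every row convex region.) -/
theorem plf_cross_h {p p' : List (ℤ × ℤ)} (hp : List.IsChain triAdj p) (hp' : List.IsChain triAdj p') {a b v w : ℤ × ℤ}
    (ha : p.head? = some a) (hb : p.getLast? = some b) (hv : p'.head? = some v) (hw : p'.getLast? = some w)
    (h0 : ∀ u ∈ p, v.2 ≤ u.2) (h1 : ∀ u ∈ p, u.2 ≤ w.2)
    (h4 : ∀ u ∈ p', ¬ (u.2 = a.2 ∧ u.1 < a.1)) (h5 : ∀ u ∈ p', ¬ (u.2 = b.2 ∧ b.1 < u.1)) : ∃ u, u ∈ p ∧ u ∈ p' := by
  obtain ⟨K, hK⟩ := plf_bound p'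
  have hap : a ∈ p := List.mem_of_head? ha
  have hbp : b ∈ p := List.mem_of_getLast? hb
  have hwp : w ∈ p' := List.mem_of_getLast? hw
  obtain ⟨n, hn⟩ : ∃ n : ℕ, a.1 + K ≤ n := ⟨(a.1 + K).toNat, Int.self_le_toNat _⟩
  obtain ⟨m, hm⟩ : ∃ m : ℕ, K - b.1 ≤ m := ⟨(K - b.1).toNat, Int.self_le_toNat _⟩
  obtain ⟨l1, hl1⟩ : ∃ l1, l1 = plfRow (a.1 - 1 - n) a.2 n := ⟨_, rfl⟩
  obtain ⟨l2, hl2⟩ : ∃ l2, l2 = plfRow (b.1 + 1) b.2 m := ⟨_, rfl⟩
  have c1 : List.IsChain triAdj l1 := hl1 ▸ plf_row_chain _ _ _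
  have c2 : List.IsChain triAdj l2 := hl2 ▸ plf_row_chain _ _ _
  have e1 : l1.getLast? = some (a.1 - 1, a.2) := by
    rw [hl1, plf_row_last]; congr 2; ring
  have e2 : l2.head? = some (b.1 + 1, b.2) := by rw [hl2, plf_row_head]
  have e3 : l1.head? = some (a.1 - 1 - n, a.2) := by rw [hl1, plf_row_head]
  have e4 : l2.getLast? = some (b.1 + 1 + m, b.2) := by rw [hl2, plf_row_last]
  have hch : List.IsChain triAdj (l1 ++ (p ++ l2)) := by
    rw [List.isChain_append, List.isChain_append]
    refine ⟨c1, ⟨hp, c2, ?_⟩, ?_⟩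
    · intro x hx y hy
      rw [hb] at hx
      rw [e2] at hy
      simp only [Option.mem_def, Option.some.injEq] at hx hy
      subst hx hy
      left
      ext <;> simp
    · intro x hx y hy
      rw [e1] at hx
      rw [List.head?_append, ha] at hy
      simp only [Option.mem_def, Option.some.injEq, Option.some_or] at hx hy
      subst hx hy
      left
      ext <;> simp
  have hhead : (l1 ++ (p ++ l2)).head? = some (a.1 - 1 - n, a.2) := by
    rw [List.head?_append, e3]; rfl
  have hlast : (l1 ++ (p ++ l2)).getLast? = some (b.1 + 1 + m, b.2) := by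
    rw [List.getLast?_append, List.getLast?_append, e4]; rfl
  have hmem : ∀ u, u ∈ l1 ++ (p ++ l2) → (u.2 = a.2 ∧ u.1 < a.1) ∨ u ∈ p ∨ (u.2 = b.2 ∧ b.1 < u.1) := by
    intro u hu
    rcases List.mem_append.1 hu with h | h
    · rw [hl1, plf_row_mem] at h
      left
      exact ⟨h.1, by omega⟩
    · rcases List.mem_append.1 h with h | h
      · exact Or.inr (Or.inl h)
      · rw [hl2, plf_row_mem] at h
        right; right
        exact ⟨h.1, by omega⟩
  have hWK := hK w hwp
  obtain ⟨u, hu, hu'⟩ := plf_cross hch hp' hhead hlast hv hw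
    (fun u hu _ => by
      rcases hmem u hu with h | h | h
      · rw [h.1]; exact h0 a hap
      · exact h0 u h
      · rw [h.1]; exact h0 b hbp)
    (fun u hu _ => by
      rcases hmem u hu with h | h | h
      · rw [h.1]; exact h1 a hap
      · exact h1 u h
      · rw [h.1]; exact h1 b hbp)
    (by show a.1 - 1 - n ≤ w.1; omega) (by show w.1 < b.1 + 1 + m; omega)
    (fun u hu hh => by
      have := hK u hu
      have h6 : u.1 = a.1 - 1 - n := hh.1
      omega)
    (fun u hu hh => by
      have := hK u hu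
      have h6 : u.1 = b.1 + 1 + m := hh.1
      omega)
  rcases hmem u hu with h | h | h
  · exact absurd h (h4 u hu')
  · exact ⟨u, h, hu'⟩
  · exact absurd h (h5 u hu')

/-- **parallelogram**: a left-right walk and a bottom-top walk of `[x0, x1] × [y0, y1]` share a site -/
theorem plf_rect {p p' : List (ℤ × ℤ)} (hp : List.IsChain triAdj p) (hp' : List.IsChain triAdj p') {x0 x1 y0 y1 : ℤ} {a b v w : ℤ × ℤ}
    (ha : p.head? = some a) (hb : p.getLast? = some b) (hv : p'.head? = some v) (hw : p'.getLast? = some w)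
    (hR : ∀ u ∈ p, y0 ≤ u.2 ∧ u.2 ≤ y1) (hR' : ∀ u ∈ p', x0 ≤ u.1 ∧ u.1 ≤ x1)
    (ha0 : a.1 = x0) (hb1 : b.1 = x1) (hv0 : v.2 = y0) (hw1 : w.2 = y1) : ∃ u, u ∈ p ∧ u ∈ p' :=
  plf_cross_h hp hp' ha hb hv hw (fun u hu => by rw [hv0]; exact (hR u hu).1) (fun u hu => by rw [hw1]; exact (hR u hu).2)
    (fun u hu hh => by have := (hR' u hu).1; omega) (fun u hu hh => by have := (hR' u hu).2; omega)

/-! ### transfer by lattice maps, the two other directions -/

theorem plf_map_chain {φ : ℤ × ℤ → ℤ × ℤ} (hφ : ∀ u v, triAdj u v → triAdj (φ u) (φ v)) {p : List (ℤ × ℤ)}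
    (hp : List.IsChain triAdj p) : List.IsChain triAdj (p.map φ) := by
  rw [List.isChain_map]
  exact hp.imp fun a b h => hφ a b h

theorem plf_map_head {φ : ℤ × ℤ → ℤ × ℤ} {p : List (ℤ × ℤ)} {a : ℤ × ℤ} (h : p.head? = some a) : (p.map φ).head? = some (φ a) := by
  rw [List.head?_map, h]; rfl

theorem plf_map_last {φ : ℤ × ℤ → ℤ × ℤ} {p : List (ℤ × ℤ)} {a : ℤ × ℤ} (h : p.getLast? = some a) :
    (p.map φ).getLast? = some (φ a) := by
  rw [List.getLast?_map, h]; rfl

/-- the exchange of the two coordinates -/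
def plfSwap (u : ℤ × ℤ) : ℤ × ℤ := (u.2, u.1)

/-- the rotation by 60 degrees -/
def plfRot (u : ℤ × ℤ) : ℤ × ℤ := (-u.2, u.1 + u.2)

/-- translation -/
def plfSh (d u : ℤ × ℤ) : ℤ × ℤ := u + d

theorem plf_swap_adj (u v : ℤ × ℤ) (h : triAdj u v) : triAdj (plfSwap u) (plfSwap v) := by
  obtain ⟨u1, u2⟩ := u
  obtain ⟨v1, v2⟩ := v
  simp only [triAdj, plfSwap, Prod.mk_sub_mk, Prod.mk.injEq] at h ⊢
  omega

theorem plf_rot_adj (u v : ℤ × ℤ) (h : triAdj u v) : triAdj (plfRot u) (plfRot v) := by
  obtain ⟨u1, u2⟩ := u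
  obtain ⟨v1, v2⟩ := v
  simp only [triAdj, plfRot, Prod.mk_sub_mk, Prod.mk.injEq] at h ⊢
  omega

theorem plf_sh_adj (d u v : ℤ × ℤ) (h : triAdj u v) : triAdj (plfSh d u) (plfSh d v) := by
  obtain ⟨u1, u2⟩ := u
  obtain ⟨v1, v2⟩ := v
  obtain ⟨d1, d2⟩ := d
  simp only [triAdj, plfSh, Prod.mk_sub_mk, Prod.mk_add_mk, Prod.mk.injEq] at h ⊢
  omega

theorem plf_swap_inj {u v : ℤ × ℤ} (h : plfSwap u = plfSwap v) : u = v := by
  obtain ⟨u1, u2⟩ := u
  obtain ⟨v1, v2⟩ := v
  simp only [plfSwap, Prod.mk.injEq] at h ⊢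
  omega

theorem plf_rot_inj {u v : ℤ × ℤ} (h : plfRot u = plfRot v) : u = v := by
  obtain ⟨u1, u2⟩ := u
  obtain ⟨v1, v2⟩ := v
  simp only [plfRot, Prod.mk.injEq] at h ⊢
  omega

/-- a common site of the images is the image of a common site -/
theorem plf_map_common {φ : ℤ × ℤ → ℤ × ℤ} (hinj : ∀ u v, φ u = φ v → u = v) {p p' : List (ℤ × ℤ)}
    (h : ∃ u, u ∈ p.map φ ∧ u ∈ p'.map φ) : ∃ u, u ∈ p ∧ u ∈ p' := by
  obtain ⟨u, h1, h2⟩ := h
  obtain ⟨x, hx, rfl⟩ := List.mem_map.1 h1
  obtain ⟨y, hy, hxy⟩ := List.mem_map.1 h2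
  exact ⟨x, hx, by rwa [← hinj y x hxy]⟩

/-- **FORCED INTERSECTION, vertical form**: the first coordinates of `p` lie between those of `v` and `w`; `p'` misses the vertical half line below `a` and the vertical half line
above `b`. -/
theorem plf_cross_v {p p' : List (ℤ × ℤ)} (hp : List.IsChain triAdj p) (hp' : List.IsChain triAdj p') {a b v w : ℤ × ℤ}
    (ha : p.head? = some a) (hb : p.getLast? = some b) (hv : p'.head? = some v) (hw : p'.getLast? = some w)
    (h0 : ∀ u ∈ p, v.1 ≤ u.1) (h1 : ∀ u ∈ p, u.1 ≤ w.1)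
    (h4 : ∀ u ∈ p', ¬ (u.1 = a.1 ∧ u.2 < a.2)) (h5 : ∀ u ∈ p', ¬ (u.1 = b.1 ∧ b.2 < u.2)) : ∃ u, u ∈ p ∧ u ∈ p' := by
  refine plf_map_common (φ := plfSwap) (fun _ _ => plf_swap_inj) ?_
  refine plf_cross_h (plf_map_chain plf_swap_adj hp) (plf_map_chain plf_swap_adj hp') (plf_map_head ha) (plf_map_last hb)
    (plf_map_head hv) (plf_map_last hw) ?_ ?_ ?_ ?_
  · intro u hu
    obtain ⟨x, hx, rfl⟩ := List.mem_map.1 hu
    exact h0 x hx
  · intro u hu
    obtain ⟨x, hx, rfl⟩ := List.mem_map.1 hu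
    exact h1 x hx
  · intro u hu
    obtain ⟨x, hx, rfl⟩ := List.mem_map.1 hu
    exact h4 x hx
  · intro u hu
    obtain ⟨x, hx, rfl⟩ := List.mem_map.1 hu
    exact h5 x hx

/-- **FORCED INTERSECTION, diagonal form**: the sums `u.1 + u.2` on `p` lie between those of `v` and `w`; `p'` misses the half antidiagonal above `a` and the half antidiagonal
below `b`. -/
theorem plf_cross_d {p p' : List (ℤ × ℤ)} (hp : List.IsChain triAdj p) (hp' : List.IsChain triAdj p') {a b v w : ℤ × ℤ}
    (ha : p.head? = some a) (hb : p.getLast? = some b) (hv : p'.head? = some v) (hw : p'.getLast? = some w)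
    (h0 : ∀ u ∈ p, v.1 + v.2 ≤ u.1 + u.2) (h1 : ∀ u ∈ p, u.1 + u.2 ≤ w.1 + w.2)
    (h4 : ∀ u ∈ p', ¬ (u.1 + u.2 = a.1 + a.2 ∧ a.2 < u.2)) (h5 : ∀ u ∈ p', ¬ (u.1 + u.2 = b.1 + b.2 ∧ u.2 < b.2)) :
    ∃ u, u ∈ p ∧ u ∈ p' := by
  refine plf_map_common (φ := plfRot) (fun _ _ => plf_rot_inj) ?_
  refine plf_cross_h (plf_map_chain plf_rot_adj hp) (plf_map_chain plf_rot_adj hp') (plf_map_head ha) (plf_map_last hb)
    (plf_map_head hv) (plf_map_last hw) ?_ ?_ ?_ ?_
  · intro u hu
    obtain ⟨x, hx, rfl⟩ := List.mem_map.1 hu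
    exact h0 x hx
  · intro u hu
    obtain ⟨x, hx, rfl⟩ := List.mem_map.1 hu
    exact h1 x hx
  · intro u hu
    obtain ⟨x, hx, rfl⟩ := List.mem_map.1 hu
    intro hh
    refine h4 x hx ⟨hh.1, ?_⟩
    have := hh.2
    simp only [plfRot] at this
    omega
  · intro u hu
    obtain ⟨x, hx, rfl⟩ := List.mem_map.1 hu
    intro hh
    refine h5 x hx ⟨hh.1, ?_⟩
    have := hh.2
    simp only [plfRot] at this
    omega

/-! ### interlaced end points in a band -/

/-- **band**: two bottom-top walks of the band `y0 ≤ y ≤ y1` with interlaced end points share a site -/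
theorem plf_interlace {p p' : List (ℤ × ℤ)} (hp : List.IsChain triAdj p) (hp' : List.IsChain triAdj p') {y0 y1 : ℤ} {a b v w : ℤ × ℤ}
    (ha : p.head? = some a) (hb : p.getLast? = some b) (hv : p'.head? = some v) (hw : p'.getLast? = some w)
    (hR : ∀ u ∈ p, y0 ≤ u.2 ∧ u.2 ≤ y1) (hR' : ∀ u ∈ p', y0 ≤ u.2 ∧ u.2 ≤ y1)
    (ha0 : a.2 = y0) (hb1 : b.2 = y1) (hv0 : v.2 = y0) (hw1 : w.2 = y1) (h1 : a.1 < v.1) (h2 : w.1 < b.1) :
    ∃ u, u ∈ p ∧ u ∈ p' := by
  have c1 : List.IsChain triAdj ([(a.1, y0 - 1)] ++ (p ++ [(b.1, y1 + 1)])) := by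
    rw [List.isChain_append, List.isChain_append]
    refine ⟨by simp, ⟨hp, by simp, ?_⟩, ?_⟩
    · intro x hx y hy
      rw [hb] at hx
      simp only [Option.mem_def, Option.some.injEq, List.head?_cons] at hx hy
      subst hx hy
      right; left
      ext <;> simp [hb1]
    · intro x hx y hy
      rw [List.head?_append, ha] at hy
      simp only [Option.mem_def, Option.some.injEq, Option.some_or, List.getLast?_singleton] at hx hy
      subst hx hy
      right; left
      ext <;> simp [ha0]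
  have c2 : List.IsChain triAdj ([(v.1, y0 - 2), (v.1, y0 - 1)] ++ (p' ++ [(w.1, y1 + 1), (w.1, y1 + 2)])) := by
    rw [List.isChain_append, List.isChain_append]
    refine ⟨?_, ⟨hp', ?_, ?_⟩, ?_⟩
    · rw [List.isChain_pair]
      right; left
      ext <;> simp
    · rw [List.isChain_pair]
      right; left
      ext <;> simp
    · intro x hx y hy
      rw [hw] at hx
      simp only [Option.mem_def, Option.some.injEq, List.head?_cons] at hx hy
      subst hx hy
      right; left
      ext <;> simp [hw1]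
    · intro x hx y hy
      rw [List.head?_append, hv] at hy
      simp only [Option.mem_def, Option.some.injEq, Option.some_or, List.getLast?_cons_cons, List.getLast?_singleton] at hx hy
      subst hx hy
      right; left
      ext <;> simp [hv0]
  have m1 : ∀ u, u ∈ [(a.1, y0 - 1)] ++ (p ++ [(b.1, y1 + 1)]) → u = (a.1, y0 - 1) ∨ u ∈ p ∨ u = (b.1, y1 + 1) := by
    intro u hu
    simpa using hu
  have m2 : ∀ u, u ∈ [(v.1, y0 - 2), (v.1, y0 - 1)] ++ (p' ++ [(w.1, y1 + 1), (w.1, y1 + 2)]) →
      u = (v.1, y0 - 2) ∨ u = (v.1, y0 - 1) ∨ u ∈ p' ∨ u = (w.1, y1 + 1) ∨ u = (w.1, y1 + 2) := by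
    intro u hu
    simpa [or_assoc] using hu
  obtain ⟨u, hu, hu'⟩ := plf_cross_h c1 c2 (a := (a.1, y0 - 1)) (b := (b.1, y1 + 1)) (v := (v.1, y0 - 2)) (w := (w.1, y1 + 2))
    (by simp) (by rw [List.getLast?_append, List.getLast?_append]; rfl) (by simp)
    (by rw [List.getLast?_append, List.getLast?_append]; rfl)
    (fun u hu => by
      rcases m1 u hu with rfl | h | rfl
      · simp
      · have := (hR u h).1
        show y0 - 2 ≤ u.2
        omega
      · have := hR a (List.mem_of_head? ha)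
        show y0 - 2 ≤ y1 + 1
        omega)
    (fun u hu => by
      rcases m1 u hu with rfl | h | rfl
      · have := hR a (List.mem_of_head? ha)
        show y0 - 1 ≤ y1 + 2
        omega
      · have := (hR u h).2
        show u.2 ≤ y1 + 2
        omega
      · simp)
    (fun u hu hh => by
      have hab := hR a (List.mem_of_head? ha)
      obtain ⟨g1, g2⟩ := hh
      simp only at g1 g2
      rcases m2 u hu with rfl | rfl | h | rfl | rfl
      · simp at g1
      · simp only at g2; omega
      · have := (hR' u h).1; omega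
      · simp only at g1; omega
      · simp only at g1; omega)
    (fun u hu hh => by
      have hab := hR a (List.mem_of_head? ha)
      obtain ⟨g1, g2⟩ := hh
      simp only at g1 g2
      rcases m2 u hu with rfl | rfl | h | rfl | rfl
      · simp only at g1; omega
      · simp only at g1; omega
      · have := (hR' u h).2; omega
      · simp only at g2; omega
      · simp at g1)
  have hab := hR a (List.mem_of_head? ha)
  rcases m1 u hu with rfl | h | rfl
  · rcases m2 _ hu' with h' | h' | h' | h' | h'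
    · simp only [Prod.mk.injEq] at h'; omega
    · simp only [Prod.mk.injEq] at h'; omega
    · have := (hR' _ h').1; simp only at this; omega
    · simp only [Prod.mk.injEq] at h'; omega
    · simp only [Prod.mk.injEq] at h'; omega
  · rcases m2 _ hu' with rfl | rfl | h' | rfl | rfl
    · have := (hR _ h).1; simp only at this; omega
    · have := (hR _ h).1; simp only at this; omega
    · exact ⟨u, h, h'⟩
    · have := (hR _ h).2; simp only at this; omega
    · have := (hR _ h).2; simp only at this; omega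
  · rcases m2 _ hu' with h' | h' | h' | h' | h'
    · simp only [Prod.mk.injEq] at h'; omega
    · simp only [Prod.mk.injEq] at h'; omega
    · have := (hR' _ h').2; simp only at this; omega
    · simp only [Prod.mk.injEq] at h'; omega
    · simp only [Prod.mk.injEq] at h'; omega

/-! ### periodic walks (cylinders, read on the cover) -/

/-- `n` consecutive horizontal translates (period `L`) of the walk `ys ++ [a + (L, 0)]`, `ys` starting at `a` -/
def plfPer (L : ℤ) (a : ℤ × ℤ) (ys : List (ℤ × ℤ)) : ℤ → ℕ → List (ℤ × ℤ)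
  | j, 0 => [plfSh (j * L, 0) a]
  | j, n + 1 => ys.map (plfSh (j * L, 0)) ++ plfPer L a ys (j + 1) n

theorem plf_per_head {L : ℤ} {a : ℤ × ℤ} {ys : List (ℤ × ℤ)} (hy : ys.head? = some a) (j : ℤ) (n : ℕ) :
    (plfPer L a ys j n).head? = some (plfSh (j * L, 0) a) := by
  cases n with
  | zero => rfl
  | succ n =>
    simp only [plfPer]
    rw [List.head?_append, plf_map_head hy]
    rfl

theorem plf_per_last {L : ℤ} {a : ℤ × ℤ} {ys : List (ℤ × ℤ)} : ∀ (n : ℕ) (j : ℤ),
    (plfPer L a ys j n).getLast? = some (plfSh ((j + n) * L, 0) a)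
  | 0, j => by simp [plfPer]
  | n + 1, j => by
      simp only [plfPer]
      rw [List.getLast?_append, plf_per_last n (j + 1)]
      simp only [Option.some_or, Option.some.injEq]
      push_cast
      congr 3
      ring

theorem plf_per_mem {L : ℤ} {a : ℤ × ℤ} {ys : List (ℤ × ℤ)} (hy : ys.head? = some a) : ∀ (n : ℕ) (j : ℤ) (u : ℤ × ℤ),
    u ∈ plfPer L a ys j n → ∃ i : ℤ, ∃ u0 ∈ ys, u = plfSh (i * L, 0) u0
  | 0, j, u, h => by
      simp only [plfPer, List.mem_singleton] at h
      exact ⟨j, a, List.mem_of_head? hy, h⟩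
  | n + 1, j, u, h => by
      simp only [plfPer] at h
      rcases List.mem_append.1 h with h | h
      · obtain ⟨x, hx, rfl⟩ := List.mem_map.1 h
        exact ⟨j, x, hx, rfl⟩
      · exact plf_per_mem hy n (j + 1) u h

theorem plf_per_chain {L : ℤ} {a : ℤ × ℤ} {ys : List (ℤ × ℤ)} (hy : ys.head? = some a)
    (hc : List.IsChain triAdj (ys ++ [plfSh (L, 0) a])) : ∀ (n : ℕ) (j : ℤ), List.IsChain triAdj (plfPer L a ys j n)
  | 0, j => by simp [plfPer]
  | n + 1, j => by
      have ih := plf_per_chain hy hc n (j + 1)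
      have hh := plf_per_head (L := L) hy (j + 1) n
      obtain ⟨c, l, hcl⟩ : ∃ c l, plfPer L a ys (j + 1) n = c :: l := by
        cases hP : plfPer L a ys (j + 1) n with
        | nil => rw [hP] at hh; simp at hh
        | cons c l => exact ⟨c, l, rfl⟩
      simp only [plfPer]
      rw [hcl] at hh ih ⊢
      simp only [List.head?_cons, Option.some.injEq] at hh
      rw [List.isChain_split]
      refine ⟨?_, ih⟩
      have := plf_map_chain (plf_sh_adj (j * L, 0)) hc
      rw [List.map_append] at this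
      have e : [plfSh (L, 0) a].map (plfSh (j * L, 0)) = [c] := by
        rw [hh]
        simp only [List.map_cons, List.map_nil, plfSh]
        congr 1
        ext <;> simp <;> ring
      rwa [e] at this

/-- **cylinder (on the cover)**: a walk from `a` to `a + (L, 0)`, `L > 0`, meets, up to a horizontal translation by a multiple of `L`, every walk which starts below it and ends above it -/
theorem plf_cyl {L : ℤ} (hL : 0 < L) {p p' : List (ℤ × ℤ)} (hp : List.IsChain triAdj p) (hp' : List.IsChain triAdj p') {a v w : ℤ × ℤ}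
    (ha : p.head? = some a) (hb : p.getLast? = some (a + (L, 0))) (hv : p'.head? = some v) (hw : p'.getLast? = some w)
    (h0 : ∀ u ∈ p, v.2 ≤ u.2) (h1 : ∀ u ∈ p, u.2 ≤ w.2) : ∃ j : ℤ, ∃ u ∈ p, u + (j * L, 0) ∈ p' := by
  obtain ⟨ys, hys⟩ := List.getLast?_eq_some_iff.1 hb
  have hy : ys.head? = some a := by
    cases ys with
    | nil =>
      rw [hys] at ha
      simp only [List.nil_append, List.head?_cons, Option.some.injEq] at ha
      have := congrArg Prod.fst ha
      simp at this
      omega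
    | cons c l =>
      rw [hys] at ha
      simpa using ha
  have hc : List.IsChain triAdj (ys ++ [plfSh (L, 0) a]) := by
    rw [hys] at hp
    exact hp
  obtain ⟨K, hK⟩ := plf_bound p'
  have hwp : w ∈ p' := List.mem_of_getLast? hw
  obtain ⟨J, hJ⟩ : ∃ J : ℕ, |a.1| + K + 1 ≤ J := ⟨(|a.1| + K + 1).toNat, Int.self_le_toNat _⟩
  have hJL : (J : ℤ) ≤ J * L := by nlinarith [Int.natCast_nonneg J]
  have habs1 := le_abs_self a.1
  have habs2 := neg_abs_le a.1
  have hmemp : ∀ u0 ∈ ys, u0 ∈ p := fun u0 h => by rw [hys]; exact List.mem_append_left _ h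
  have hWK := hK w hwp
  obtain ⟨u, hu, hu'⟩ := plf_cross (plf_per_chain hy hc (2 * J) (-(J : ℤ))) hp' (plf_per_head hy _ _) (plf_per_last _ _) hv hw
    (fun u hu _ => by
      obtain ⟨i, u0, hu0, rfl⟩ := plf_per_mem hy _ _ u hu
      simpa [plfSh] using h0 u0 (hmemp u0 hu0))
    (fun u hu _ => by
      obtain ⟨i, u0, hu0, rfl⟩ := plf_per_mem hy _ _ u hu
      simpa [plfSh] using h1 u0 (hmemp u0 hu0))
    (by simp only [plfSh, Prod.fst_add]; nlinarith)
    (by simp only [plfSh, Prod.fst_add]; push_cast; nlinarith)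
    (fun u hu hh => by
      have := hK u hu
      have h6 := hh.1
      simp only [plfSh, Prod.fst_add] at h6
      nlinarith)
    (fun u hu hh => by
      have := hK u hu
      have h6 := hh.1
      simp only [plfSh, Prod.fst_add] at h6
      push_cast at h6
      nlinarith)
  obtain ⟨i, u0, hu0, rfl⟩ := plf_per_mem hy _ _ u hu
  exact ⟨i, u0, hmemp u0 hu0, hu'⟩

/-! ### closed walks -/

/-- the index of a closed walk is constant along every walk which misses it -/
theorem plf_circuit_const {c p' : List (ℤ × ℤ)} (hc : List.IsChain triAdj c) (hp' : List.IsChain triAdj p') {a v w : ℤ × ℤ}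
    (ha : c.head? = some a) (hb : c.getLast? = some a) (hv : p'.head? = some v) (hw : p'.getLast? = some w)
    (hdis : ∀ u ∈ p', u ∉ c) : plfIdx c v = plfIdx c w :=
  plf_transport hc ha hb p' v w hp' hv hw hdis fun u _ => plf_two _

/-- the index of a closed walk vanishes at a site which has no site of the walk below it, or none above it, in its column -/
theorem plf_circuit_far {c : List (ℤ × ℤ)} (hc : List.IsChain triAdj c) {a v : ℤ × ℤ} (ha : c.head? = some a)
    (hb : c.getLast? = some a) (h : (∀ u ∈ c, u.1 = v.1 → v.2 ≤ u.2) ∨ (∀ u ∈ c, u.1 = v.1 → u.2 < v.2)) : plfIdx c v = 0 := by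
  rcases h with h | h
  · exact plf_idx_zero h
  · rw [plf_idx_top hc ha hb h]
    exact plf_two _

/-- **a closed walk of index one blocks**: every walk from `v` to a site `w` which is free from below or from above meets it -/
theorem plf_circuit_block {c p' : List (ℤ × ℤ)} (hc : List.IsChain triAdj c) (hp' : List.IsChain triAdj p') {a v w : ℤ × ℤ}
    (ha : c.head? = some a) (hb : c.getLast? = some a) (hv : p'.head? = some v) (hw : p'.getLast? = some w)
    (h1 : plfIdx c v = 1) (h : (∀ u ∈ c, u.1 = w.1 → w.2 ≤ u.2) ∨ (∀ u ∈ c, u.1 = w.1 → u.2 < w.2)) : ∃ u, u ∈ c ∧ u ∈ p' := by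
  by_contra hcon
  have e := plf_circuit_const hc hp' ha hb hv hw fun u hu hu' => hcon ⟨u, hu', hu⟩
  rw [h1, plf_circuit_far hc ha hb h] at e
  simp at e

end Claimed.Agent.R291
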