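import Mathlib
import Claimed.Agent.R291.Defs.Frozen
import Claimed.Agent.R291.Tool.TriSCLat
import Claimed.Agent.R291.Pl.Wind

/-!
# Row 291 (S0539), Pl/SetForm : CUSTOMER-FACING SET FORMS OF THE PLANAR KIT      (owner helper112; prefix `pls_`)      no sorry

Order of 269 (head of PLA), registry `origin/helper269:notes/R291/pla_269.md` Sec. 2.   Language: `TscR tscG s u v` (path inside `s`), `TscConn`, `tscComp`.
Engines: `Tool/TriSCLat` (147: `tsc_hex_box`), `Pl/Wind` (191: `plf_cross_h`, `plf_interlace`, `plf_cyl`).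

* `plsBand c d`, `PlsPer L P` (periodic sets = sets of sites of the cylinder `Z/L x Z`), `pls_per_*`, `pls_R_shift`, `pls_R_iter`
* `pls_ivt_fst`, `pls_ivt_snd`      discrete intermediate value theorem along `TscR`
* `pls_R_list`, `pls_list_R`, `pls_list_mem_R`      bridge to walks with `head?` / `getLast?`
* `pls_cross_h`, `pls_rect` (J1), `pls_box_iff`, `pls_box_iff'` (J1 + J2: box duality), `pls_interlace` (J7)
* `pls_cyl_block`, `pls_cyl_block_per` (J3, Jordan half)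
* `pls_hex_raw` (any `P`: path joining `a` to `a + (j L, 0)`, `j ≥ 1`, or vertical path off `P`)
* `pls_cyl_one`      ONE TURN IS ENOUGH: in a periodic subset of a band, `a ~ a + (j L, 0)`, `j ≥ 1`  ⟹  `a ~ a + (L, 0)`
* `pls_cyl_hex` (J3', with `k = 1`), `pls_cyl_iff` (cylinder duality), `pls_comp_per`, `pls_cyl_set` (connected periodic blocking set)
-/

set_option autoImplicit false
set_option linter.unnecessarySeqFocus false

namespace Claimed.Agent.R291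

open Claims Claims.C0467 Relation

/-- the horizontal band `c ≤ y ≤ d` -/
def plsBand (c d : ℤ) : Set (ℤ × ℤ) := {p | c ≤ p.2 ∧ p.2 ≤ d}

/-- `(L, 0)`-periodic sets of sites = sets of sites of the cylinder of circumference `L` -/
def PlsPer (L : ℤ) (P : Set (ℤ × ℤ)) : Prop := ∀ u : ℤ × ℤ, u + (L, 0) ∈ P ↔ u ∈ P

/-- the equation lemmas of the definitions are generated HERE -/
theorem pls_eqns_cite : True := by
  have := @plsBand.eq_1
  have := @PlsPer.eq_1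
  trivial

theorem pls_per_mul {L : ℤ} {P : Set (ℤ × ℤ)} (hP : PlsPer L P) (k : ℤ) (u : ℤ × ℤ) : u + (k * L, 0) ∈ P ↔ u ∈ P := by
  induction k using Int.induction_on with
  | zero =>
    have e : u + ((0 : ℤ) * L, 0) = u := by ext <;> simp
    rw [e]
  | succ i ih =>
    have h := hP (u + ((i : ℤ) * L, 0))
    have e : u + ((i : ℤ) * L, 0) + (L, 0) = u + (((i : ℤ) + 1) * L, 0) := by
      ext <;> simp <;> ring
    rw [e] at h
    exact h.trans ih
  | pred i ih =>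
    have h := hP (u + ((-(i : ℤ) - 1) * L, 0))
    have e : u + ((-(i : ℤ) - 1) * L, 0) + (L, 0) = u + (-(i : ℤ) * L, 0) := by
      ext <;> simp <;> ring
    rw [e] at h
    exact h.symm.trans ih

theorem pls_per_compl {L : ℤ} {P : Set (ℤ × ℤ)} (hP : PlsPer L P) : PlsPer L Pᶜ := fun u => not_congr (hP u)

theorem pls_per_inter {L : ℤ} {P Q : Set (ℤ × ℤ)} (hP : PlsPer L P) (hQ : PlsPer L Q) : PlsPer L (P ∩ Q) :=
  fun u => and_congr (hP u) (hQ u)

theorem pls_per_diff {L : ℤ} {P Q : Set (ℤ × ℤ)} (hP : PlsPer L P) (hQ : PlsPer L Q) : PlsPer L (P \ Q) :=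
  pls_per_inter hP (pls_per_compl hQ)

theorem pls_per_band (L c d : ℤ) : PlsPer L (plsBand c d) := fun u => by simp [plsBand]

theorem pls_per_of_mul {L : ℤ} {P : Set (ℤ × ℤ)} (hP : PlsPer L P) (j : ℤ) : PlsPer (j * L) P := fun u => pls_per_mul hP j u

/-- translation of paths -/
theorem pls_R_shift {L : ℤ} {s : Set (ℤ × ℤ)} (hs : PlsPer L s) (k : ℤ) {x y : ℤ × ℤ} (h : TscR tscG s x y) :
    TscR tscG s (x + (k * L, 0)) (y + (k * L, 0)) := by
  induction h with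
  | refl => exact ReflTransGen.refl
  | tail _ hbc ih =>
    exact ih.tail ⟨plf_sh_adj (k * L, 0) _ _ hbc.1, (pls_per_mul hs k _).2 hbc.2.1, (pls_per_mul hs k _).2 hbc.2.2⟩

/-- a path which winds `j` times can be iterated -/
theorem pls_R_iter {L : ℤ} {s : Set (ℤ × ℤ)} (hs : PlsPer L s) {a : ℤ × ℤ} (h : TscR tscG s a (a + (L, 0))) (i : ℤ) :
    TscR tscG s a (a + (i * L, 0)) := by
  induction i using Int.induction_on with
  | zero =>
    have e : a + ((0 : ℤ) * L, 0) = a := by ext <;> simp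
    rw [e]
    exact tsc_R_refl _
  | succ i ih =>
    have h2 := pls_R_shift hs i h
    have e : a + (L, 0) + ((i : ℤ) * L, 0) = a + (((i : ℤ) + 1) * L, 0) := by
      ext <;> simp <;> ring
    rw [e] at h2
    exact tsc_R_trans ih h2
  | pred i ih =>
    have h2 := pls_R_shift hs (-(i : ℤ) - 1) h
    have e : a + (L, 0) + ((-(i : ℤ) - 1) * L, 0) = a + (-(i : ℤ) * L, 0) := by
      ext <;> simp <;> ring
    rw [e] at h2
    exact tsc_R_trans ih (tsc_R_symm h2)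

/-- discrete intermediate value theorem for the first coordinate along a path -/
theorem pls_ivt_fst {s : Set (ℤ × ℤ)} {l r : ℤ × ℤ} (h : TscR tscG s l r) {x : ℤ} (h1 : l.1 ≤ x) (h2 : x ≤ r.1) :
    ∃ w : ℤ × ℤ, w.1 = x ∧ TscR tscG s l w ∧ TscR tscG s w r := by
  induction h with
  | refl => exact ⟨l, le_antisymm h1 h2, tsc_R_refl _, tsc_R_refl _⟩
  | @tail b c hlb hbc ih =>
    by_cases hx : x ≤ b.1
    · obtain ⟨w, hw, hlw, hwb⟩ := ih hx
      exact ⟨w, hw, hlw, hwb.tail hbc⟩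
    · have := tsc_adj_fst hbc.1
      exact ⟨c, by omega, hlb.tail hbc, tsc_R_refl _⟩

/-- discrete intermediate value theorem for the second coordinate along a path -/
theorem pls_ivt_snd {s : Set (ℤ × ℤ)} {l r : ℤ × ℤ} (h : TscR tscG s l r) {y : ℤ} (h1 : l.2 ≤ y) (h2 : y ≤ r.2) :
    ∃ w : ℤ × ℤ, w.2 = y ∧ TscR tscG s l w ∧ TscR tscG s w r := by
  induction h with
  | refl => exact ⟨l, le_antisymm h1 h2, tsc_R_refl _, tsc_R_refl _⟩
  | @tail b c hlb hbc ih =>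
    by_cases hx : y ≤ b.2
    · obtain ⟨w, hw, hlw, hwb⟩ := ih hx
      exact ⟨w, hw, hlw, hwb.tail hbc⟩
    · have := tsc_adj_snd hbc.1
      exact ⟨c, by omega, hlb.tail hbc, tsc_R_refl _⟩

/-- bridge: paths as lists with `head?` / `getLast?` (the carrier of `Pl/Wind.lean`) -/
theorem pls_R_list {s : Set (ℤ × ℤ)} {u v : ℤ × ℤ} (hu : u ∈ s) (h : TscR tscG s u v) :
    ∃ p : List (ℤ × ℤ), p.IsChain triAdj ∧ p.head? = some u ∧ p.getLast? = some v ∧ ∀ z ∈ p, z ∈ s := by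
  obtain ⟨l, h1, h2, h3⟩ := tsc_R_iff_chain.1 ⟨hu, h⟩
  exact ⟨u :: l, h1, rfl, by rw [List.getLast?_eq_some_getLast (List.cons_ne_nil u l), h2], h3⟩

theorem pls_list_R {s : Set (ℤ × ℤ)} {u v : ℤ × ℤ} {p : List (ℤ × ℤ)} (hp : p.IsChain triAdj) (hu : p.head? = some u)
    (hv : p.getLast? = some v) (hs : ∀ z ∈ p, z ∈ s) : u ∈ s ∧ TscR tscG s u v := by
  cases p with
  | nil => simp at hu
  | cons c l =>
    simp only [List.head?_cons, Option.some.injEq] at hu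
    subst hu
    refine tsc_R_iff_chain.2 ⟨l, hp, ?_, hs⟩
    rw [List.getLast?_eq_some_getLast (List.cons_ne_nil c l)] at hv
    exact Option.some.inj hv

/-- every site of a walk inside `s` is joined to its first site inside `s` -/
theorem pls_list_mem_R {s : Set (ℤ × ℤ)} {u : ℤ × ℤ} {p : List (ℤ × ℤ)} (hp : p.IsChain triAdj) (hu : p.head? = some u)
    (hs : ∀ z ∈ p, z ∈ s) : ∀ z ∈ p, TscR tscG s u z := by
  induction p generalizing u with
  | nil => simp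
  | cons c l ih =>
    simp only [List.head?_cons, Option.some.injEq] at hu
    subst hu
    intro z hz
    rcases List.mem_cons.1 hz with rfl | hz
    · exact tsc_R_refl _
    · cases l with
      | nil => simp at hz
      | cons e l' =>
        rw [List.isChain_cons_cons] at hp
        exact ReflTransGen.head ⟨hp.1, hs _ (by simp), hs _ (by simp)⟩
          (ih hp.2 rfl (fun z hz => hs z (List.mem_cons_of_mem _ hz)) z hz)

/-- **Hex existence in a band, raw form** (no periodicity needed): a path inside `P` between two sites which differ by a positive multiple of `(L, 0)`,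
or a bottom-top path off `P` -/
theorem pls_hex_raw {L : ℤ} (hL : 0 < L) {c d : ℤ} (hcd : c ≤ d) (P : Set (ℤ × ℤ)) :
    (∃ a : ℤ × ℤ, ∃ j : ℤ, 0 < j ∧ a ∈ plsBand c d ∩ P ∧ TscR tscG (plsBand c d ∩ P) a (a + (j * L, 0))) ∨
    (∃ u v : ℤ × ℤ, u ∈ plsBand c d \ P ∧ u.2 = c ∧ v.2 = d ∧ TscR tscG (plsBand c d \ P) u v) := by
  obtain ⟨n, hn⟩ : ∃ n : ℕ, (n : ℤ) = d - c + 1 := ⟨(d - c + 1).toNat, Int.toNat_of_nonneg (by omega)⟩
  have hb : (0 : ℤ) ≤ n * L := by positivity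
  have hsub : tscBox 0 (n * L) c d ⊆ plsBand c d := fun p hp => ⟨hp.2.2.1, hp.2.2.2⟩
  rcases tsc_hex_box hb hcd P with ⟨l, r, hl, hl0, hr, hlr⟩ | ⟨u, v, hu, huc, hvd, huv⟩
  · left
    have key : ∀ k : ℕ, k ≤ n → ∃ w : ℤ × ℤ, w.1 = k * L ∧ TscR tscG (tscBox 0 (n * L) c d ∩ P) l w := by
      intro k hk
      have hk' : (k : ℤ) ≤ n := by exact_mod_cast hk
      obtain ⟨w, hw, hlw, _⟩ := pls_ivt_fst hlr (x := k * L) (by rw [hl0]; positivity) (by rw [hr]; nlinarith)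
      exact ⟨w, hw, hlw⟩
    choose! w hw1 hw2 using key
    have hmem : ∀ k ≤ n, w k ∈ tscBox 0 (n * L) c d ∩ P := fun k hk => tsc_R_mem (hw2 k hk) hl
    obtain ⟨k, hk, k', hk', hne, heq⟩ := Finset.exists_ne_map_eq_of_card_lt_of_maps_to (s := Finset.range (n + 1))
      (t := Finset.Icc c d) (f := fun k => (w k).2) (by simp only [Finset.card_range, Int.card_Icc]; omega)
      (fun k hk => by
        have hk2 : k ≤ n := by
          have := Finset.mem_range.1 (Finset.mem_coe.1 hk)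
          omega
        have := (hmem k hk2).1
        exact Finset.mem_coe.2 (Finset.mem_Icc.2 ⟨this.2.2.1, this.2.2.2⟩))
    have hk2 : k ≤ n := by have := Finset.mem_range.1 hk; omega
    have hk2' : k' ≤ n := by have := Finset.mem_range.1 hk'; omega
    have main : ∀ k k' : ℕ, k ≤ n → k' ≤ n → k < k' → (w k).2 = (w k').2 →
        ∃ a : ℤ × ℤ, ∃ j : ℤ, 0 < j ∧ a ∈ plsBand c d ∩ P ∧ TscR tscG (plsBand c d ∩ P) a (a + (j * L, 0)) := by
      intro k k' hk hk' hlt heq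
      refine ⟨w k, (k' : ℤ) - k, by omega, ⟨hsub (hmem k hk).1, (hmem k hk).2⟩, ?_⟩
      have e : w k + (((k' : ℤ) - k) * L, 0) = w k' := by
        ext
        · simp only [Prod.fst_add, hw1 k hk, hw1 k' hk']; ring
        · simp only [Prod.snd_add, add_zero, heq]
      rw [e]
      exact tsc_R_mono (Set.inter_subset_inter_left _ hsub) (tsc_R_trans (tsc_R_symm (hw2 k hk)) (hw2 k' hk'))
    rcases lt_or_gt_of_ne hne with h | h
    · exact main k k' hk2 hk2' h heq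
    · exact main k' k hk2' hk2 h heq.symm
  · right
    exact ⟨u, v, ⟨hsub hu.1, hu.2⟩, huc, hvd, tsc_R_mono (Set.sdiff_subset_sdiff_left hsub) huv⟩

/-! ### forced intersections, set forms -/

/-- set form of `plf_cross_h` -/
theorem pls_cross_h {S T : Set (ℤ × ℤ)} {p q u v : ℤ × ℤ} (hp : p ∈ S) (hpq : TscR tscG S p q) (hu : u ∈ T) (huv : TscR tscG T u v)
    (h0 : ∀ z ∈ S, u.2 ≤ z.2) (h1 : ∀ z ∈ S, z.2 ≤ v.2) (h4 : ∀ z ∈ T, ¬ (z.2 = p.2 ∧ z.1 < p.1)) (h5 : ∀ z ∈ T, ¬ (z.2 = q.2 ∧ q.1 < z.1)) :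
    (S ∩ T).Nonempty := by
  obtain ⟨l, hl1, hl2, hl3, hl4⟩ := pls_R_list hp hpq
  obtain ⟨l', hl1', hl2', hl3', hl4'⟩ := pls_R_list hu huv
  obtain ⟨z, hz, hz'⟩ := plf_cross_h hl1 hl1' hl2 hl3 hl2' hl3' (fun z hz => h0 z (hl4 z hz)) (fun z hz => h1 z (hl4 z hz))
    (fun z hz => h4 z (hl4' z hz)) (fun z hz => h5 z (hl4' z hz))
  exact ⟨z, hl4 z hz, hl4' z hz'⟩

/-- set form of `plf_cross_v` is obtained from `pls_cross_h` by `plfSwap`; here the box form: **J1**, a left-right path inside the strip `c ≤ y ≤ d` and a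
bottom-top path inside the strip `a ≤ x ≤ b` meet -/
theorem pls_rect {S T : Set (ℤ × ℤ)} {a b c d : ℤ} {p q u v : ℤ × ℤ} (hp : p ∈ S) (hpq : TscR tscG S p q)
    (hS : ∀ z ∈ S, c ≤ z.2 ∧ z.2 ≤ d) (hpa : p.1 ≤ a) (hqb : b ≤ q.1) (hu : u ∈ T) (huv : TscR tscG T u v)
    (hT : ∀ z ∈ T, a ≤ z.1 ∧ z.1 ≤ b) (huc : u.2 ≤ c) (hvd : d ≤ v.2) : (S ∩ T).Nonempty :=
  pls_cross_h hp hpq hu huv (fun z hz => huc.trans (hS z hz).1) (fun z hz => (hS z hz).2.trans hvd)
    (fun z hz hh => by have := (hT z hz).1; omega) (fun z hz hh => by have := (hT z hz).2; omega)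

/-- **box duality**: a left-right path inside `Box ∩ P` exists iff no bottom-top path inside `Box \ P` exists -/
theorem pls_box_iff {a b c d : ℤ} (hab : a ≤ b) (hcd : c ≤ d) (P : Set (ℤ × ℤ)) :
    (∃ l r, l ∈ tscBox a b c d ∩ P ∧ l.1 = a ∧ r.1 = b ∧ TscR tscG (tscBox a b c d ∩ P) l r) ↔
    ¬ (∃ u v, u ∈ tscBox a b c d \ P ∧ u.2 = c ∧ v.2 = d ∧ TscR tscG (tscBox a b c d \ P) u v) := by
  constructor
  · rintro ⟨l, r, hl, hla, hrb, hlr⟩ ⟨u, v, hu, huc, hvd, huv⟩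
    obtain ⟨z, hz1, hz2⟩ := pls_rect (a := a) (b := b) (c := c) (d := d) hl hlr (fun z hz => ⟨hz.1.2.2.1, hz.1.2.2.2⟩) hla.le hrb.ge hu huv
      (fun z hz => ⟨hz.1.1, hz.1.2.1⟩) huc.le hvd.ge
    exact hz2.2 hz1.2
  · intro h
    rcases tsc_hex_box hab hcd P with h1 | h1
    · exact h1
    · exact absurd h1 h

/-- **box duality**, the other colour: a bottom-top path inside `Box ∩ P` exists iff no left-right path inside `Box \ P` exists -/
theorem pls_box_iff' {a b c d : ℤ} (hab : a ≤ b) (hcd : c ≤ d) (P : Set (ℤ × ℤ)) :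
    (∃ u v, u ∈ tscBox a b c d ∩ P ∧ u.2 = c ∧ v.2 = d ∧ TscR tscG (tscBox a b c d ∩ P) u v) ↔
    ¬ (∃ l r, l ∈ tscBox a b c d \ P ∧ l.1 = a ∧ r.1 = b ∧ TscR tscG (tscBox a b c d \ P) l r) := by
  have h := pls_box_iff hab hcd Pᶜ
  have e1 : tscBox a b c d ∩ Pᶜ = tscBox a b c d \ P := rfl
  have e2 : tscBox a b c d \ Pᶜ = tscBox a b c d ∩ P := by
    ext z; simp
  rw [e1, e2] at h
  rw [h, not_not]

/-- **J7**, set form of `plf_interlace`: two bottom-top paths of the band with interlaced end points meet -/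
theorem pls_interlace {S T : Set (ℤ × ℤ)} {c d : ℤ} {p q u v : ℤ × ℤ} (hp : p ∈ S) (hpq : TscR tscG S p q) (hu : u ∈ T) (huv : TscR tscG T u v)
    (hS : S ⊆ plsBand c d) (hT : T ⊆ plsBand c d) (hpc : p.2 = c) (hqd : q.2 = d) (huc : u.2 = c) (hvd : v.2 = d)
    (h1 : p.1 < u.1) (h2 : v.1 < q.1) : (S ∩ T).Nonempty := by
  obtain ⟨l, hl1, hl2, hl3, hl4⟩ := pls_R_list hp hpq
  obtain ⟨l', hl1', hl2', hl3', hl4'⟩ := pls_R_list hu huv
  obtain ⟨z, hz, hz'⟩ := plf_interlace hl1 hl1' hl2 hl3 hl2' hl3' (fun z hz => hS (hl4 z hz)) (fun z hz => hT (hl4' z hz)) hpc hqd huc hvd h1 h2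
  exact ⟨z, hl4 z hz, hl4' z hz'⟩

/-! ### the cylinder -/

/-- **J3, Jordan half**: a path which winds once blocks, up to translations, every path from below to above -/
theorem pls_cyl_block {L : ℤ} (hL : 0 < L) {S T : Set (ℤ × ℤ)} {c d : ℤ} {z u v : ℤ × ℤ} (hS : S ⊆ plsBand c d) (hz : z ∈ S)
    (hzz : TscR tscG S z (z + (L, 0))) (hu : u ∈ T) (huv : TscR tscG T u v) (huc : u.2 ≤ c) (hvd : d ≤ v.2) :
    ∃ j : ℤ, ∃ w ∈ S, w + (j * L, 0) ∈ T := by
  obtain ⟨l, hl1, hl2, hl3, hl4⟩ := pls_R_list hz hzz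
  obtain ⟨l', hl1', hl2', hl3', hl4'⟩ := pls_R_list hu huv
  obtain ⟨j, w, hw, hw'⟩ := plf_cyl hL hl1 hl1' hl2 hl3 hl2' hl3' (fun w hw => huc.trans (hS (hl4 w hw)).1) (fun w hw => (hS (hl4 w hw)).2.trans hvd)
  exact ⟨j, w, hl4 w hw, hl4' _ hw'⟩

/-- the same for a periodic set -/
theorem pls_cyl_block_per {L : ℤ} (hL : 0 < L) {S T : Set (ℤ × ℤ)} (hper : PlsPer L S) {c d : ℤ} {z u v : ℤ × ℤ} (hS : S ⊆ plsBand c d) (hz : z ∈ S)
    (hzz : TscR tscG S z (z + (L, 0))) (hu : u ∈ T) (huv : TscR tscG T u v) (huc : u.2 ≤ c) (hvd : d ≤ v.2) : (S ∩ T).Nonempty := by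
  obtain ⟨j, w, hw, hw'⟩ := pls_cyl_block hL hS hz hzz hu huv huc hvd
  exact ⟨_, (pls_per_mul hper j w).2 hw, hw'⟩

/-- **one turn is enough**: in a periodic subset of a band, a site which is joined to its translate by `(j L, 0)`, `j ≥ 1`, is joined to its translate by `(L, 0)` -/
theorem pls_cyl_one {L : ℤ} (hL : 0 < L) {s : Set (ℤ × ℤ)} (hs : PlsPer L s) {c d : ℤ} (hsb : s ⊆ plsBand c d) {a : ℤ × ℤ} {j : ℤ} (hj : 0 < j)
    (ha : a ∈ s) (h : TscR tscG s a (a + (j * L, 0))) : TscR tscG s a (a + (L, 0)) := by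
  obtain ⟨y0, ⟨m, hm, rfl⟩, hmin⟩ := Int.exists_least_of_bdd (P := fun y => ∃ z, TscR tscG s a z ∧ z.2 = y)
    ⟨c, by rintro y ⟨z, hz, rfl⟩; exact (hsb (tsc_R_mem hz ha)).1⟩ ⟨a.2, a, tsc_R_refl _, rfl⟩
  obtain ⟨y1, ⟨M, hM, rfl⟩, hmax⟩ := Int.exists_greatest_of_bdd (P := fun y => ∃ z, TscR tscG s a z ∧ z.2 = y)
    ⟨d, by rintro y ⟨z, hz, rfl⟩; exact (hsb (tsc_R_mem hz ha)).2⟩ ⟨a.2, a, tsc_R_refl _, rfl⟩
  have hmM : TscR tscG s (m + (1 * L, 0)) (M + (1 * L, 0)) := pls_R_shift hs 1 (tsc_R_trans (tsc_R_symm hm) hM)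
  have hms : m + (1 * L, 0) ∈ s := (pls_per_mul hs 1 m).2 (tsc_R_mem hm ha)
  obtain ⟨l, hl1, hl2, hl3, hl4⟩ := pls_R_list ha h
  obtain ⟨l', hl1', hl2', hl3', hl4'⟩ := pls_R_list hms hmM
  have hjL : 0 < j * L := mul_pos hj hL
  have hal : ∀ w ∈ l, TscR tscG s a w := pls_list_mem_R hl1 hl2 hl4
  obtain ⟨i, w, hw, hw'⟩ := plf_cyl hjL hl1 hl1' hl2 hl3 hl2' hl3'
    (fun w hw => by simpa using hmin w.2 ⟨w, hal w hw, rfl⟩) (fun w hw => by simpa using hmax w.2 ⟨w, hal w hw, rfl⟩)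
  have hs' := pls_per_of_mul hs j
  have R1 := pls_R_shift hs' i (hal w hw)
  have R2 := pls_R_iter hs' h i
  have R3 := pls_list_mem_R hl1' hl2' hl4' _ hw'
  have R4 := pls_R_shift hs 1 hm
  have := tsc_R_trans (tsc_R_trans R2 R1) (tsc_R_symm (tsc_R_trans R4 R3))
  rwa [one_mul] at this

/-- **J3', Hex existence on the cylinder**: `P` periodic: a bottom-top path of the band inside `P`, or a path off `P` which winds exactly once -/
theorem pls_cyl_hex {L : ℤ} (hL : 0 < L) {c d : ℤ} (hcd : c ≤ d) {P : Set (ℤ × ℤ)} (hP : PlsPer L P) :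
    (∃ u v : ℤ × ℤ, u ∈ plsBand c d ∩ P ∧ u.2 = c ∧ v.2 = d ∧ TscR tscG (plsBand c d ∩ P) u v) ∨
    (∃ z : ℤ × ℤ, z ∈ plsBand c d \ P ∧ TscR tscG (plsBand c d \ P) z (z + (L, 0))) := by
  have e1 : plsBand c d ∩ Pᶜ = plsBand c d \ P := rfl
  have e2 : plsBand c d \ Pᶜ = plsBand c d ∩ P := by
    ext z; simp
  rcases pls_hex_raw hL hcd Pᶜ with ⟨a, j, hj, ha, h⟩ | h
  · right
    rw [e1] at ha h
    exact ⟨a, ha, pls_cyl_one hL (pls_per_diff (pls_per_band L c d) hP) Set.sdiff_subset hj ha h⟩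
  · left
    rw [e2] at h
    exact h

/-- **cylinder duality**: a path off `P` winds once around the band iff no bottom-top path of the band inside `P` exists -/
theorem pls_cyl_iff {L : ℤ} (hL : 0 < L) {c d : ℤ} (hcd : c ≤ d) {P : Set (ℤ × ℤ)} (hP : PlsPer L P) :
    (∃ z : ℤ × ℤ, z ∈ plsBand c d \ P ∧ TscR tscG (plsBand c d \ P) z (z + (L, 0))) ↔
    ¬ (∃ u v : ℤ × ℤ, u ∈ plsBand c d ∩ P ∧ u.2 = c ∧ v.2 = d ∧ TscR tscG (plsBand c d ∩ P) u v) := by
  constructor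
  · rintro ⟨z, hz, hzz⟩ ⟨u, v, hu, huc, hvd, huv⟩
    obtain ⟨w, hw1, hw2⟩ := pls_cyl_block_per hL (pls_per_diff (pls_per_band L c d) hP) Set.sdiff_subset hz hzz hu huv huc.le hvd.ge
    exact hw1.2 hw2.2
  · intro h
    rcases pls_cyl_hex hL hcd hP with h1 | h1
    · exact absurd h1 h
    · exact h1

/-- the component of a site which is joined to its translate is periodic -/
theorem pls_comp_per {L : ℤ} {s : Set (ℤ × ℤ)} (hs : PlsPer L s) {z : ℤ × ℤ} (hzz : TscR tscG s z (z + (L, 0))) : PlsPer L (tscComp tscG s z) := by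
  intro w
  constructor
  · rintro ⟨hw, hzw⟩
    refine ⟨(hs w).1 hw, ?_⟩
    have h1 := pls_R_shift hs (-1) (tsc_R_trans (tsc_R_symm hzz) hzw)
    have e1 : z + (L, 0) + (-1 * L, 0) = z := by ext <;> simp
    have e2 : w + (L, 0) + (-1 * L, 0) = w := by ext <;> simp
    rwa [e1, e2] at h1
  · rintro ⟨hw, hzw⟩
    refine ⟨(hs w).2 hw, ?_⟩
    have h1 := pls_R_shift hs 1 hzw
    rw [one_mul] at h1
    exact tsc_R_trans hzz h1

/-- **J3 in the form of 121**: no bottom-top path of the band inside `P`  ⟹  a CONNECTED PERIODIC set off `P`, inside the band, which meets every path from below the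
band to above the band -/
theorem pls_cyl_set {L : ℤ} (hL : 0 < L) {c d : ℤ} (hcd : c ≤ d) {P : Set (ℤ × ℤ)} (hP : PlsPer L P)
    (h : ¬ (∃ u v : ℤ × ℤ, u ∈ plsBand c d ∩ P ∧ u.2 = c ∧ v.2 = d ∧ TscR tscG (plsBand c d ∩ P) u v)) :
    ∃ M : Set (ℤ × ℤ), M ⊆ plsBand c d \ P ∧ M.Nonempty ∧ TscConn tscG M ∧ PlsPer L M ∧
      ∀ (T : Set (ℤ × ℤ)) (u v : ℤ × ℤ), u ∈ T → TscR tscG T u v → u.2 ≤ c → d ≤ v.2 → (M ∩ T).Nonempty := by
  obtain ⟨z, hz, hzz⟩ := (pls_cyl_iff hL hcd hP).2 h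
  have hper := pls_per_diff (pls_per_band L c d) hP
  have hzM := tsc_comp_self (G := tscG) hz
  refine ⟨tscComp tscG (plsBand c d \ P) z, tsc_comp_sub z, ⟨z, hzM⟩, tsc_comp_conn z, pls_comp_per hper hzz, ?_⟩
  intro T u v hu huv huc hvd
  exact pls_cyl_block_per hL (pls_comp_per hper hzz) ((tsc_comp_sub z).trans Set.sdiff_subset) hzM (tsc_comp_R hzM hzz) hu huv huc hvd

end Claimed.Agent.R291
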