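import Claimed.Agent.R291.Pl.Extr

/-!
# Row 291 (S0539), Pl/ExtrArc : EXTREMAL CROSSINGS WITH LANDING INTERVALS IN STAIRCASE REGIONS      (owner helper112; prefix `pla_`, `Pla`)      no sorry

Order of 187 (A3, G1 step 3: "LEFTMOST crossing I* -> J* inside a box", "RIGHTMOST crossing"), customers 36, 1 (`Ann/RswGlue`).   Everything of `Pl/Extr` (`ple_layer`, `ple_gam_*`, `ple_I_local_P`, `pleMid`, `ple_mid_*`)
applies to every `PleQuad`;  this file PRODUCES the `PleQuad`s.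

* A. abstract: `ple_quad_dual` (HEX + JORDAN in a quadrilateral: `lam`-`rho` path inside `R ∩ P` iff no `σ'`-`σ` path inside `R \ P`), `ple_quad_congr` (only the traces of the sides on `R` matter)
* `PlaStair f` (steps `0` or `-1`), `plaReg l r c d = {c ≤ y ≤ d, l y ≤ x ≤ r y}`: parallelograms, Euclidean rectangles, trapezoids, hexagons
* `plaSeg y x1 x2` landing interval;  `plaArcL l c d x1 x1'` = left side + bottom row up to `x1` + top row up to `x1'`;  `plaArcR r c d x2 x2'`   (the arcs SHARE the end sites of the landing intervals, as the corners of a Hex board)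
* `pla_shell_neg` (mirror image of the shell criterion of 147), `pla_sc_L`, `pla_sc_R` (region + cone is simply connected), `pla_side_L`, `pla_side_R`, `pla_arcL_conn`, `pla_arcR_conn`
* `pla_jordan`   JORDAN WITH LANDING INTERVALS
* `PlaData`, **`pla_quad_L`** (LEFTMOST crossing from the bottom interval to the top interval), **`pla_quad_R`** (RIGHTMOST)
* `pla_reg_conn`, `pla_reg_sc` (the region is connected, simply connected), `pla_solid_L_conn`, `pla_solid_R_conn` (the solid sides behind the extremal crossings are connected)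
* instances: `pla_quad_box_L/_R` (`tscBox`),  **`pla_quad_rect_L/_R`** (`plaRect A B c d` = `rswRect A B c d` by `rfl`; sides in the doubled abscissa `X = 2 x + y`: `plaXSeg`, `plaXArcL`, `plaXArcR`)
-/

set_option autoImplicit false

namespace Claimed.Agent.R291

open Claims Claims.C0467 Relation

/-! ## A. two abstract complements to `Pl/Extr` -/

section abs
variable {V : Type*} {G : SimpleGraph V} {R σ σ' lam rho σ₂ σ₂' lam₂ rho₂ : Set V}

/-- **Hex + Jordan in a quadrilateral**: a path inside `R ∩ P` from `lam` to `rho` exists iff no path inside `R \\ P` from `σ'` to `σ` exists -/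
theorem ple_quad_dual (hq : PleQuad G R σ σ' lam rho) (P : Set V) :
    (∃ p q, p ∈ R ∩ P ∧ p ∈ lam ∧ q ∈ rho ∧ TscR G (R ∩ P) p q) ↔ ¬ ∃ u v, u ∈ R \ P ∧ u ∈ σ' ∧ v ∈ σ ∧ TscR G (R \ P) u v := by
  constructor
  · rintro ⟨p, q, hp, hpl, hqr, hpq⟩ ⟨u, v, hu, huσ, hvσ, huv⟩
    obtain ⟨w, h1, h2⟩ := hq.jordan (R ∩ P) (R \ P) Set.inter_subset_left Set.sdiff_subset p q u v hp hpl hqr hpq hu huσ hvσ huv
    exact h2.2 h1.2
  · intro h
    obtain ⟨l, r, hl, hl', hr', hlr⟩ := ple_gam_cross hq (ple_hyp h)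
    exact ⟨l, r, ple_gam_sub hl, hl', hr', tsc_R_mono ple_gam_sub hlr⟩

/-- only the traces of the four sides on `R` matter -/
theorem ple_quad_congr (hq : PleQuad G R σ σ' lam rho) (h1 : ∀ z ∈ R, z ∈ σ ↔ z ∈ σ₂) (h2 : ∀ z ∈ R, z ∈ σ' ↔ z ∈ σ₂')
    (h3 : ∀ z ∈ R, z ∈ lam ↔ z ∈ lam₂) (h4 : ∀ z ∈ R, z ∈ rho ↔ z ∈ rho₂) : PleQuad G R σ₂ σ₂' lam₂ rho₂ where
  side := by
    obtain ⟨A, hA1, hA2, hA3, hA4⟩ := hq.side
    exact ⟨A, hA1, hA2, hA3, fun z hz => (hA4 z hz).trans (h1 z hz)⟩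
  opp := by
    have e : R ∩ σ₂' = R ∩ σ' := by
      ext z
      exact ⟨fun h => ⟨h.1, (h2 z h.1).2 h.2⟩, fun h => ⟨h.1, (h2 z h.1).1 h.2⟩⟩
    rw [e]
    exact hq.opp
  lpath := by
    obtain ⟨u, v, hu, huσ, hvσ, huv⟩ := hq.lpath
    have e : R ∩ lam₂ = R ∩ lam := by
      ext z
      exact ⟨fun h => ⟨h.1, (h3 z h.1).2 h.2⟩, fun h => ⟨h.1, (h3 z h.1).1 h.2⟩⟩
    rw [e]
    exact ⟨u, v, hu, (h2 u hu.1).1 huσ, (h1 v (tsc_R_mem huv hu).1).1 hvσ, huv⟩
  rpath := by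
    obtain ⟨u, v, hu, huσ, hvσ, huv⟩ := hq.rpath
    have e : R ∩ rho₂ = R ∩ rho := by
      ext z
      exact ⟨fun h => ⟨h.1, (h4 z h.1).2 h.2⟩, fun h => ⟨h.1, (h4 z h.1).1 h.2⟩⟩
    rw [e]
    exact ⟨u, v, hu, (h2 u hu.1).1 huσ, (h1 v (tsc_R_mem huv hu).1).1 hvσ, huv⟩
  jordan := fun S T hS hT p q u v hp hpl hqr hpq hu huσ hvσ huv =>
    hq.jordan S T hS hT p q u v hp ((h3 p (hS hp)).2 hpl) ((h4 q (hS (tsc_R_mem hpq hp))).2 hqr) hpq hu ((h2 u (hT hu)).2 huσ)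
      ((h1 v (hT (tsc_R_mem huv hu))).2 hvσ) huv

end abs

/-! ## 0. definitions -/

/-- lattice staircase: steps `0` or `-1` -/
def PlaStair (f : ℤ → ℤ) : Prop := ∀ y, f (y + 1) ≤ f y ∧ f y ≤ f (y + 1) + 1

/-- staircase region -/
def plaReg (l r : ℤ → ℤ) (c d : ℤ) : Set (ℤ × ℤ) := {z | c ≤ z.2 ∧ z.2 ≤ d ∧ l z.2 ≤ z.1 ∧ z.1 ≤ r z.2}

/-- horizontal segment -/
def plaSeg (y x1 x2 : ℤ) : Set (ℤ × ℤ) := {z | z.2 = y ∧ x1 ≤ z.1 ∧ z.1 ≤ x2}

/-- the left arc: left side, bottom row up to `x1`, top row up to `x1'` -/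
def plaArcL (l : ℤ → ℤ) (c d x1 x1' : ℤ) : Set (ℤ × ℤ) := {z | z.1 = l z.2 ∨ (z.2 = c ∧ z.1 ≤ x1) ∨ (z.2 = d ∧ z.1 ≤ x1')}

/-- the right arc: right side, bottom row from `x2`, top row from `x2'` -/
def plaArcR (r : ℤ → ℤ) (c d x2 x2' : ℤ) : Set (ℤ × ℤ) := {z | z.1 = r z.2 ∨ (z.2 = c ∧ x2 ≤ z.1) ∨ (z.2 = d ∧ x2' ≤ z.1)}

/-- the cone behind the left arc -/
def plaConeL (l : ℤ → ℤ) (c d x1 x1' : ℤ) : Set (ℤ × ℤ) :=
  {z | (z.2 = c - 1 ∧ l z.2 - 1 ≤ z.1 ∧ z.1 ≤ x1) ∨ (z.2 = d + 1 ∧ l z.2 - 1 ≤ z.1 ∧ z.1 ≤ x1' - 1) ∨ (c ≤ z.2 ∧ z.2 ≤ d ∧ z.1 = l z.2 - 1)}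

/-- the cone behind the right arc -/
def plaConeR (r : ℤ → ℤ) (c d x2 x2' : ℤ) : Set (ℤ × ℤ) :=
  {z | (z.2 = c - 1 ∧ x2 + 1 ≤ z.1 ∧ z.1 ≤ r z.2 + 1) ∨ (z.2 = d + 1 ∧ x2' ≤ z.1 ∧ z.1 ≤ r z.2 + 1) ∨ (c ≤ z.2 ∧ z.2 ≤ d ∧ z.1 = r z.2 + 1)}

/-- the equation lemmas of the definitions are generated HERE -/
theorem pla_eqns_cite : True := by
  have := @PlaStair.eq_1
  have := @plaReg.eq_1
  have := @plaSeg.eq_1
  have := @plaArcL.eq_1
  have := @plaArcR.eq_1
  have := @plaConeL.eq_1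
  have := @plaConeR.eq_1
  trivial

theorem pla_stair_pred {f : ℤ → ℤ} (h : PlaStair f) (y : ℤ) : f y ≤ f (y - 1) ∧ f (y - 1) ≤ f y + 1 := by
  have := h (y - 1)
  rwa [sub_add_cancel] at this

/-! ## 1. simple connectivity of the region with a cone -/

/-- the mirror image (point reflection) of the shell criterion of 147 -/
theorem pla_shell_neg (A : Type*) [AddCommGroup A] {s : Set (ℤ × ℤ)} (hfin : s.Finite)
    (h : ∀ x y : ℤ, (x, y) ∈ s → (x + 1, y) ∈ s → (x - 1, y + 1) ∈ s → (x, y + 1) ∈ s) : TriSCOn A tscG s := by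
  have hfin' : ((Equiv.neg (ℤ × ℤ)) '' s).Finite := hfin.image _
  have hmem : ∀ x y : ℤ, (x, y) ∈ (Equiv.neg (ℤ × ℤ)) '' s ↔ (-x, -y) ∈ s := by
    intro x y
    constructor
    · rintro ⟨z, hz, hzz⟩
      have : z = (-x, -y) := by
        have h1 : -z = (x, y) := hzz
        rw [← neg_neg z, h1]
        rfl
      rwa [← this]
    · intro hz
      exact ⟨(-x, -y), hz, by simp [Equiv.neg_apply]⟩
  have hsh : TscShell ((Equiv.neg (ℤ × ℤ)) '' s) := by
    intro x y h1 h2 h3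
    rw [hmem] at h1 h2 h3 ⊢
    have e2 : -(x - 1) = -x + 1 := by ring
    have e3 : -(x + 1) = -x - 1 := by ring
    have e4 : -(y - 1) = -y + 1 := by ring
    rw [e2] at h2
    rw [e3, e4] at h3
    rw [e4]
    exact h _ _ h1 h2 h3
  have := tsc_map (G := tscG) (G' := tscG) (Equiv.neg (ℤ × ℤ)) (fun a b => by
    show triAdj a b ↔ triAdj (-a) (-b)
    rw [tsc_adj_iff, tsc_adj_iff]
    simp only [Prod.fst_neg, Prod.snd_neg]
    omega) (tsc_shell_set A hfin' hsh)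
  have e : (Equiv.neg (ℤ × ℤ)) '' ((Equiv.neg (ℤ × ℤ)) '' s) = s := by
    rw [← Set.image_comp]
    convert Set.image_id s using 2
    ext <;> simp
  rwa [e] at this

theorem pla_rows_finite {s : Set (ℤ × ℤ)} (c d : ℤ) (lo hi : ℤ → ℤ) (h : ∀ z ∈ s, c ≤ z.2 ∧ z.2 ≤ d ∧ lo z.2 ≤ z.1 ∧ z.1 ≤ hi z.2) : s.Finite := by
  refine ((Set.finite_Icc c d).biUnion fun y _ => (Set.finite_Icc (lo y) (hi y)).prod (Set.finite_singleton y)).subset ?_
  intro z hz
  obtain ⟨h1, h2, h3, h4⟩ := h z hz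
  exact Set.mem_biUnion (x := z.2) ⟨h1, h2⟩ ⟨⟨h3, h4⟩, rfl⟩

variable {l r : ℤ → ℤ} {c d x1 x2 x1' x2' : ℤ}

theorem pla_sc_L (A : Type*) [AddCommGroup A] (hl : PlaStair l) (hcd : c ≤ d) : TriSCOn A tscG (plaReg l r c d ∪ plaConeL l c d x1 x1') := by
  refine tsc_shell_set A (pla_rows_finite (c - 1) (d + 1) (fun y => l y - 1) (fun y => max (l y) (max (r y) (max x1 x1'))) ?_) ?_
  · intro z hz
    have h0 := le_max_left (l z.2) (max (r z.2) (max x1 x1'))
    have h0' := le_max_right (l z.2) (max (r z.2) (max x1 x1'))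
    have h1 := le_max_left (r z.2) (max x1 x1')
    have h2 := le_max_right (r z.2) (max x1 x1')
    have h3 := le_max_left x1 x1'
    have h4 := le_max_right x1 x1'
    simp only [Set.mem_union, plaReg, plaConeL, Set.mem_ofPred_eq] at hz
    omega
  · intro x y h1 h2 h3
    have := pla_stair_pred hl y
    simp only [Set.mem_union, plaReg, plaConeL, Set.mem_ofPred_eq] at *
    omega

theorem pla_sc_R (A : Type*) [AddCommGroup A] (hr : PlaStair r) (hcd : c ≤ d) : TriSCOn A tscG (plaReg l r c d ∪ plaConeR r c d x2 x2') := by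
  refine pla_shell_neg A (pla_rows_finite (c - 1) (d + 1) (fun y => min (r y) (min (l y) (min x2 x2'))) (fun y => r y + 1) ?_) ?_
  · intro z hz
    have h0 := min_le_left (r z.2) (min (l z.2) (min x2 x2'))
    have h0' := min_le_right (r z.2) (min (l z.2) (min x2 x2'))
    have h1 := min_le_left (l z.2) (min x2 x2')
    have h2 := min_le_right (l z.2) (min x2 x2')
    have h3 := min_le_left x2 x2'
    have h4 := min_le_right x2 x2'
    simp only [Set.mem_union, plaReg, plaConeR, Set.mem_ofPred_eq] at hz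
    omega
  · intro x y h1 h2 h3
    have := hr y
    simp only [Set.mem_union, plaReg, plaConeR, Set.mem_ofPred_eq] at *
    omega

/-! ## 2. the cones are connected and touch exactly the arcs -/

theorem pla_adj_mk {x y x' y' : ℤ} (h : (x' = x + 1 ∧ y' = y) ∨ (x' = x ∧ y' = y + 1) ∨ (x' = x - 1 ∧ y' = y + 1) ∨
    (x' = x - 1 ∧ y' = y) ∨ (x' = x ∧ y' = y - 1) ∨ (x' = x + 1 ∧ y' = y - 1)) : tscG.Adj (x, y) (x', y') :=
  (tsc_adj_iff _ _).2 h

/-- along a staircase shifted by `k` -/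
theorem pla_stair_R {f : ℤ → ℤ} (hf : PlaStair f) {s : Set (ℤ × ℤ)} {c d k : ℤ} (hs : ∀ y, c ≤ y → y ≤ d → (f y + k, y) ∈ s) {y : ℤ} (hy : c ≤ y)
    (hyd : y ≤ d) : TscR tscG s (f c + k, c) (f y + k, y) := by
  induction y, hy using Int.leInduction with
  | base => exact tsc_R_refl _
  | succ y hy ih =>
    refine (ih (by omega)).tail ⟨pla_adj_mk ?_, hs y hy (by omega), hs (y + 1) (by omega) hyd⟩
    have := hf y
    omega

theorem pla_coneL_conn (hl : PlaStair l) (hcd : c ≤ d) (h1 : l c ≤ x1) (h1' : l d ≤ x1') : TscConn tscG (plaConeL l c d x1 x1') := by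
  have key : ∀ z ∈ plaConeL l c d x1 x1', TscR tscG (plaConeL l c d x1 x1') (l c + -1, c) z := by
    have side : ∀ y, c ≤ y → y ≤ d → TscR tscG (plaConeL l c d x1 x1') (l c + -1, c) (l y + -1, y) := fun y hy hyd =>
      pla_stair_R hl (fun y h1 h2 => Or.inr (Or.inr ⟨h1, h2, by simp only; ring⟩)) hy hyd
    rintro ⟨x, y⟩ (⟨h2, h3, h4⟩ | ⟨h2, h3, h4⟩ | ⟨h2, h3, h4⟩)
    · -- bottom row of the cone
      simp only at h2 h3 h4
      subst h2
      have hs := pla_stair_pred hl c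
      have hb : ((l c, c - 1) : ℤ × ℤ) ∈ plaConeL l c d x1 x1' := Or.inl ⟨rfl, by simp only; omega, h1⟩
      refine (ReflTransGen.single ⟨pla_adj_mk (by omega), Or.inr (Or.inr ⟨le_rfl, hcd, by simp only; ring⟩), hb⟩).trans ?_
      refine tsc_R_hseg fun z hz1 hz2 => Or.inl ⟨rfl, ?_, ?_⟩
      · simp only
        rcases min_le_iff.1 hz1 with h | h <;> omega
      · simp only
        rcases le_max_iff.1 hz2 with h | h <;> omega
    · -- top row of the cone
      simp only at h2 h3 h4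
      subst h2
      have hs := hl d
      have hb : ((l d - 1, d + 1) : ℤ × ℤ) ∈ plaConeL l c d x1 x1' := Or.inr (Or.inl ⟨rfl, by simp only; omega, by simp only; omega⟩)
      refine (side d hcd le_rfl).trans ((ReflTransGen.single ⟨pla_adj_mk (by omega), Or.inr (Or.inr ⟨hcd, le_rfl, by simp only; ring⟩), hb⟩).trans ?_)
      refine tsc_R_hseg fun z hz1 hz2 => Or.inr (Or.inl ⟨rfl, ?_, ?_⟩)
      · simp only
        rcases min_le_iff.1 hz1 with h | h <;> omega
      · simp only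
        rcases le_max_iff.1 hz2 with h | h <;> omega
    · simp only at h2 h3 h4
      subst h4
      exact side y h2 h3
  exact fun u hu v hv => tsc_R_trans (tsc_R_symm (key u hu)) (key v hv)

theorem pla_coneL_touch (hl : PlaStair l) {z : ℤ × ℤ} (hz : z ∈ plaReg l r c d) :
    (∃ α ∈ plaConeL l c d x1 x1', tscG.Adj α z) ↔ z ∈ plaArcL l c d x1 x1' := by
  obtain ⟨x, y⟩ := z
  obtain ⟨hz1, hz2, hz3, hz4⟩ := hz
  simp only at hz1 hz2 hz3 hz4
  have s1 := hl y
  have s2 := pla_stair_pred hl y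
  constructor
  · rintro ⟨⟨ax, ay⟩, hα, hadj⟩
    have hadj' := (tsc_adj_iff _ _).1 hadj
    simp only [plaConeL, plaArcL, Set.mem_ofPred_eq] at *
    rcases hadj' with ⟨e1, e2⟩ | ⟨e1, e2⟩ | ⟨e1, e2⟩ | ⟨e1, e2⟩ | ⟨e1, e2⟩ | ⟨e1, e2⟩
    · obtain rfl : ay = y := e2.symm
      omega
    · obtain rfl : ay = y - 1 := by omega
      omega
    · obtain rfl : ay = y - 1 := by omega
      omega
    · obtain rfl : ay = y := e2.symm
      omega
    · obtain rfl : ay = y + 1 := by omega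
      omega
    · obtain rfl : ay = y + 1 := by omega
      omega
  · rintro (h | ⟨h, h'⟩ | ⟨h, h'⟩)
    · simp only at h
      exact ⟨(x - 1, y), Or.inr (Or.inr ⟨hz1, hz2, by simp only; omega⟩), pla_adj_mk (by omega)⟩
    · simp only at h h'
      subst h
      exact ⟨(x, y - 1), Or.inl ⟨rfl, by simp only; omega, h'⟩, pla_adj_mk (by omega)⟩
    · simp only at h h'
      subst h
      exact ⟨(x - 1, y + 1), Or.inr (Or.inl ⟨rfl, by simp only; omega, by simp only; omega⟩), pla_adj_mk (by omega)⟩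

theorem pla_coneL_disj {z : ℤ × ℤ} (hz : z ∈ plaConeL l c d x1 x1') : z ∉ plaReg l r c d := by
  intro h
  simp only [plaConeL, plaReg, Set.mem_ofPred_eq] at *
  omega

/-- **the left arc is a side** -/
theorem pla_side_L (hl : PlaStair l) (hcd : c ≤ d) (h1 : l c ≤ x1) (h1' : l d ≤ x1') :
    PleSide tscG (plaReg l r c d) (plaArcL l c d x1 x1') :=
  ⟨plaConeL l c d x1 x1', fun _ hz => pla_coneL_disj hz, pla_coneL_conn hl hcd h1 h1', pla_sc_L _ hl hcd, fun _ hz => pla_coneL_touch hl hz⟩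

theorem pla_coneR_conn (hr : PlaStair r) (hcd : c ≤ d) (h2 : x2 ≤ r c) (h2' : x2' ≤ r d) : TscConn tscG (plaConeR r c d x2 x2') := by
  have key : ∀ z ∈ plaConeR r c d x2 x2', TscR tscG (plaConeR r c d x2 x2') (r c + 1, c) z := by
    have side : ∀ y, c ≤ y → y ≤ d → TscR tscG (plaConeR r c d x2 x2') (r c + 1, c) (r y + 1, y) := fun y hy hyd =>
      pla_stair_R hr (fun y h1 h2 => Or.inr (Or.inr ⟨h1, h2, rfl⟩)) hy hyd
    rintro ⟨x, y⟩ (⟨h3, h4, h5⟩ | ⟨h3, h4, h5⟩ | ⟨h3, h4, h5⟩)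
    · simp only at h3 h4 h5
      subst h3
      have hs := pla_stair_pred hr c
      have hb : ((r c + 1, c - 1) : ℤ × ℤ) ∈ plaConeR r c d x2 x2' := Or.inl ⟨rfl, by simp only; omega, by simp only; omega⟩
      refine (ReflTransGen.single ⟨pla_adj_mk (by omega), Or.inr (Or.inr ⟨le_rfl, hcd, rfl⟩), hb⟩).trans ?_
      refine tsc_R_hseg fun z hz1 hz2 => Or.inl ⟨rfl, ?_, ?_⟩
      · simp only
        rcases min_le_iff.1 hz1 with h | h <;> omega
      · simp only
        rcases le_max_iff.1 hz2 with h | h <;> omega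
    · simp only at h3 h4 h5
      subst h3
      have hs := hr d
      have hb : ((r d, d + 1) : ℤ × ℤ) ∈ plaConeR r c d x2 x2' := Or.inr (Or.inl ⟨rfl, h2', by simp only; omega⟩)
      refine (side d hcd le_rfl).trans ((ReflTransGen.single ⟨pla_adj_mk (by omega), Or.inr (Or.inr ⟨hcd, le_rfl, rfl⟩), hb⟩).trans ?_)
      refine tsc_R_hseg fun z hz1 hz2 => Or.inr (Or.inl ⟨rfl, ?_, ?_⟩)
      · simp only
        rcases min_le_iff.1 hz1 with h | h <;> omega
      · simp only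
        rcases le_max_iff.1 hz2 with h | h <;> omega
    · simp only at h3 h4 h5
      subst h5
      exact side y h3 h4
  exact fun u hu v hv => tsc_R_trans (tsc_R_symm (key u hu)) (key v hv)

theorem pla_coneR_touch (hr : PlaStair r) {z : ℤ × ℤ} (hz : z ∈ plaReg l r c d) :
    (∃ α ∈ plaConeR r c d x2 x2', tscG.Adj α z) ↔ z ∈ plaArcR r c d x2 x2' := by
  obtain ⟨x, y⟩ := z
  obtain ⟨hz1, hz2, hz3, hz4⟩ := hz
  simp only at hz1 hz2 hz3 hz4
  have s1 := hr y
  have s2 := pla_stair_pred hr y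
  constructor
  · rintro ⟨⟨ax, ay⟩, hα, hadj⟩
    have hadj' := (tsc_adj_iff _ _).1 hadj
    simp only [plaConeR, plaArcR, Set.mem_ofPred_eq] at *
    rcases hadj' with ⟨e1, e2⟩ | ⟨e1, e2⟩ | ⟨e1, e2⟩ | ⟨e1, e2⟩ | ⟨e1, e2⟩ | ⟨e1, e2⟩
    · obtain rfl : ay = y := e2.symm
      omega
    · obtain rfl : ay = y - 1 := by omega
      omega
    · obtain rfl : ay = y - 1 := by omega
      omega
    · obtain rfl : ay = y := e2.symm
      omega
    · obtain rfl : ay = y + 1 := by omega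
      omega
    · obtain rfl : ay = y + 1 := by omega
      omega
  · rintro (h | ⟨h, h'⟩ | ⟨h, h'⟩)
    · simp only at h
      exact ⟨(x + 1, y), Or.inr (Or.inr ⟨hz1, hz2, by simp only; omega⟩), pla_adj_mk (by omega)⟩
    · simp only at h h'
      subst h
      exact ⟨(x + 1, y - 1), Or.inl ⟨rfl, by simp only; omega, by simp only; omega⟩, pla_adj_mk (by omega)⟩
    · simp only at h h'
      subst h
      exact ⟨(x, y + 1), Or.inr (Or.inl ⟨rfl, h', by simp only; omega⟩), pla_adj_mk (by omega)⟩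

theorem pla_coneR_disj {z : ℤ × ℤ} (hz : z ∈ plaConeR r c d x2 x2') : z ∉ plaReg l r c d := by
  intro h
  simp only [plaConeR, plaReg, Set.mem_ofPred_eq] at *
  omega

/-- **the right arc is a side** -/
theorem pla_side_R (hr : PlaStair r) (hcd : c ≤ d) (h2 : x2 ≤ r c) (h2' : x2' ≤ r d) :
    PleSide tscG (plaReg l r c d) (plaArcR r c d x2 x2') :=
  ⟨plaConeR r c d x2 x2', fun _ hz => pla_coneR_disj hz, pla_coneR_conn hr hcd h2 h2', pla_sc_R _ hr hcd, fun _ hz => pla_coneR_touch hr hz⟩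

/-! ## 3. the arcs are connected -/

theorem pla_arcL_conn (hl : PlaStair l) (hcd : c ≤ d) (hlr : ∀ y, c ≤ y → y ≤ d → l y ≤ r y) :
    TscConn tscG (plaReg l r c d ∩ plaArcL l c d x1 x1') := by
  have key : ∀ z ∈ plaReg l r c d ∩ plaArcL l c d x1 x1', TscR tscG (plaReg l r c d ∩ plaArcL l c d x1 x1') (l c + 0, c) z := by
    have hmem : ∀ y, c ≤ y → y ≤ d → ((l y + 0, y) : ℤ × ℤ) ∈ plaReg l r c d ∩ plaArcL l c d x1 x1' := fun y h1 h2 =>
      ⟨⟨h1, h2, by simp only; omega, by simp only; have := hlr y h1 h2; omega⟩, Or.inl (by simp only; omega)⟩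
    have side : ∀ y, c ≤ y → y ≤ d → TscR tscG (plaReg l r c d ∩ plaArcL l c d x1 x1') (l c + 0, c) (l y + 0, y) := fun y hy hyd =>
      pla_stair_R hl hmem hy hyd
    rintro ⟨x, y⟩ ⟨⟨h1, h2, h3, h4⟩, h | ⟨h, h'⟩ | ⟨h, h'⟩⟩
    · simp only at h
      subst h
      simpa using side y h1 h2
    · simp only at h h' h1 h2 h3 h4
      subst h
      refine tsc_R_hseg fun z hz1 hz2 => ⟨⟨le_rfl, hcd, ?_, ?_⟩, Or.inr (Or.inl ⟨rfl, ?_⟩)⟩
      · simp only
        rcases min_le_iff.1 hz1 with h | h <;> omega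
      · simp only
        rcases le_max_iff.1 hz2 with h | h <;> omega
      · simp only
        rcases le_max_iff.1 hz2 with h | h <;> omega
    · simp only at h h' h1 h2 h3 h4
      subst h
      refine (side y hcd le_rfl).trans (tsc_R_hseg fun z hz1 hz2 => ⟨⟨hcd, le_rfl, ?_, ?_⟩, Or.inr (Or.inr ⟨rfl, ?_⟩)⟩)
      · simp only
        rcases min_le_iff.1 hz1 with h | h <;> omega
      · simp only
        rcases le_max_iff.1 hz2 with h | h <;> omega
      · simp only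
        rcases le_max_iff.1 hz2 with h | h <;> omega
  exact fun u hu v hv => tsc_R_trans (tsc_R_symm (key u hu)) (key v hv)

theorem pla_arcR_conn (hr : PlaStair r) (hcd : c ≤ d) (hlr : ∀ y, c ≤ y → y ≤ d → l y ≤ r y) :
    TscConn tscG (plaReg l r c d ∩ plaArcR r c d x2 x2') := by
  have key : ∀ z ∈ plaReg l r c d ∩ plaArcR r c d x2 x2', TscR tscG (plaReg l r c d ∩ plaArcR r c d x2 x2') (r c + 0, c) z := by
    have hmem : ∀ y, c ≤ y → y ≤ d → ((r y + 0, y) : ℤ × ℤ) ∈ plaReg l r c d ∩ plaArcR r c d x2 x2' := fun y h1 h2 =>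
      ⟨⟨h1, h2, by simp only; have := hlr y h1 h2; omega, by simp only; omega⟩, Or.inl (by simp only; omega)⟩
    have side : ∀ y, c ≤ y → y ≤ d → TscR tscG (plaReg l r c d ∩ plaArcR r c d x2 x2') (r c + 0, c) (r y + 0, y) := fun y hy hyd =>
      pla_stair_R hr hmem hy hyd
    rintro ⟨x, y⟩ ⟨⟨h1, h2, h3, h4⟩, h | ⟨h, h'⟩ | ⟨h, h'⟩⟩
    · simp only at h
      subst h
      simpa using side y h1 h2
    · simp only at h h' h1 h2 h3 h4
      subst h
      refine tsc_R_hseg fun z hz1 hz2 => ⟨⟨le_rfl, hcd, ?_, ?_⟩, Or.inr (Or.inl ⟨rfl, ?_⟩)⟩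
      · simp only
        rcases min_le_iff.1 hz1 with h | h <;> omega
      · simp only
        rcases le_max_iff.1 hz2 with h | h <;> omega
      · simp only
        rcases min_le_iff.1 hz1 with h | h <;> omega
    · simp only at h h' h1 h2 h3 h4
      subst h
      refine (side y hcd le_rfl).trans (tsc_R_hseg fun z hz1 hz2 => ⟨⟨hcd, le_rfl, ?_, ?_⟩, Or.inr (Or.inr ⟨rfl, ?_⟩)⟩)
      · simp only
        rcases min_le_iff.1 hz1 with h | h <;> omega
      · simp only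
        rcases le_max_iff.1 hz2 with h | h <;> omega
      · simp only
        rcases min_le_iff.1 hz1 with h | h <;> omega
  exact fun u hu v hv => tsc_R_trans (tsc_R_symm (key u hu)) (key v hv)

/-! ## 4. Jordan with landing intervals -/

/-- one step out of the region behind the left arc -/
theorem pla_extL (hcd : c ≤ d) {v : ℤ × ℤ} (hv : v ∈ plaReg l r c d) (hvσ : v ∈ plaArcL l c d x1 x1') :
    ∃ a : ℤ × ℤ, tscG.Adj a v ∧ a ∉ plaReg l r c d ∧ c - 1 ≤ a.2 ∧ a.2 ≤ d + 1 ∧ (∀ z ∈ plaReg l r c d, ¬ (z.2 = a.2 ∧ z.1 < a.1)) ∧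
      (∀ px, x1 ≤ px → ¬ (c - 1 = a.2 ∧ px < a.1)) ∧ (∀ qx, x1' ≤ qx → ¬ (d + 1 = a.2 ∧ qx < a.1)) ∧
      (∀ px, x1 ≤ px → a = (px, c - 1) → v = (px, c)) ∧ (∀ qx, x1' ≤ qx → a = (qx, d + 1) → v = (qx, d)) := by
  obtain ⟨x, y⟩ := v
  obtain ⟨h1, h2, h3, h4⟩ := hv
  simp only at h1 h2 h3 h4
  rcases hvσ with h | ⟨h, h'⟩ | ⟨h, h'⟩
  · simp only at h
    refine ⟨(x - 1, y), pla_adj_mk (by omega), ?_, by simp only; omega, by simp only; omega, ?_, ?_, ?_, ?_, ?_⟩
    · rintro ⟨_, _, h5, _⟩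
      simp only at h5
      omega
    · rintro z ⟨_, _, h5, _⟩ ⟨e, h6⟩
      simp only at e h6
      rw [e] at h5
      omega
    · intro px _ h5
      simp only at h5
      omega
    · intro qx _ h5
      simp only at h5
      omega
    · intro px _ e
      have := congrArg Prod.snd e
      simp only at this
      omega
    · intro qx _ e
      have := congrArg Prod.snd e
      simp only at this
      omega
  · simp only at h h'
    subst h
    refine ⟨(x, y - 1), pla_adj_mk (by omega), ?_, by simp only; omega, by simp only; omega, ?_, ?_, ?_, ?_, ?_⟩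
    · rintro ⟨h5, _, _, _⟩
      simp only at h5
      omega
    · rintro z ⟨h5, _, _, _⟩ ⟨e, _⟩
      simp only at e
      omega
    · intro px _ h5
      simp only at h5
      omega
    · intro qx _ h5
      simp only at h5
      omega
    · intro px _ e
      have := congrArg Prod.fst e
      simp only at this
      rw [this]
    · intro qx _ e
      have := congrArg Prod.snd e
      simp only at this
      omega
  · simp only at h h'
    subst h
    refine ⟨(x, y + 1), pla_adj_mk (by omega), ?_, by simp only; omega, by simp only; omega, ?_, ?_, ?_, ?_, ?_⟩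
    · rintro ⟨_, h5, _, _⟩
      simp only at h5
      omega
    · rintro z ⟨_, h5, _, _⟩ ⟨e, _⟩
      simp only at e
      omega
    · intro px _ h5
      simp only at h5
      omega
    · intro qx _ h5
      simp only at h5
      omega
    · intro px _ e
      have := congrArg Prod.snd e
      simp only at this
      omega
    · intro qx _ e
      have := congrArg Prod.fst e
      simp only at this
      rw [this]

/-- one step out of the region behind the right arc -/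
theorem pla_extR (hcd : c ≤ d) {v : ℤ × ℤ} (hv : v ∈ plaReg l r c d) (hvσ : v ∈ plaArcR r c d x2 x2') :
    ∃ a : ℤ × ℤ, tscG.Adj v a ∧ a ∉ plaReg l r c d ∧ c - 1 ≤ a.2 ∧ a.2 ≤ d + 1 ∧ (∀ z ∈ plaReg l r c d, ¬ (z.2 = a.2 ∧ a.1 < z.1)) ∧
      (∀ px, px ≤ x2 → ¬ (c - 1 = a.2 ∧ a.1 < px)) ∧ (∀ qx, qx ≤ x2' → ¬ (d + 1 = a.2 ∧ a.1 < qx)) ∧
      (∀ px, px ≤ x2 → a = (px, c - 1) → v = (px, c)) ∧ (∀ qx, qx ≤ x2' → a = (qx, d + 1) → v = (qx, d)) := by
  obtain ⟨x, y⟩ := v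
  obtain ⟨h1, h2, h3, h4⟩ := hv
  simp only at h1 h2 h3 h4
  rcases hvσ with h | ⟨h, h'⟩ | ⟨h, h'⟩
  · simp only at h
    refine ⟨(x + 1, y), pla_adj_mk (by omega), ?_, by simp only; omega, by simp only; omega, ?_, ?_, ?_, ?_, ?_⟩
    · rintro ⟨_, _, _, h5⟩
      simp only at h5
      omega
    · rintro z ⟨_, _, _, h5⟩ ⟨e, h6⟩
      simp only at e h6
      rw [e] at h5
      omega
    · intro px _ h5
      simp only at h5
      omega
    · intro qx _ h5
      simp only at h5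
      omega
    · intro px _ e
      have := congrArg Prod.snd e
      simp only at this
      omega
    · intro qx _ e
      have := congrArg Prod.snd e
      simp only at this
      omega
  · simp only at h h'
    subst h
    refine ⟨(x, y - 1), pla_adj_mk (by omega), ?_, by simp only; omega, by simp only; omega, ?_, ?_, ?_, ?_, ?_⟩
    · rintro ⟨h5, _, _, _⟩
      simp only at h5
      omega
    · rintro z ⟨h5, _, _, _⟩ ⟨e, _⟩
      simp only at e
      omega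
    · intro px _ h5
      simp only at h5
      omega
    · intro qx _ h5
      simp only at h5
      omega
    · intro px _ e
      have := congrArg Prod.fst e
      simp only at this
      rw [this]
    · intro qx _ e
      have := congrArg Prod.snd e
      simp only at this
      omega
  · simp only at h h'
    subst h
    refine ⟨(x, y + 1), pla_adj_mk (by omega), ?_, by simp only; omega, by simp only; omega, ?_, ?_, ?_, ?_, ?_⟩
    · rintro ⟨_, h5, _, _⟩
      simp only at h5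
      omega
    · rintro z ⟨_, h5, _, _⟩ ⟨e, _⟩
      simp only at e
      omega
    · intro px _ h5
      simp only at h5
      omega
    · intro qx _ h5
      simp only at h5
      omega
    · intro px _ e
      have := congrArg Prod.snd e
      simp only at this
      omega
    · intro qx _ e
      have := congrArg Prod.fst e
      simp only at this
      rw [this]

/-- **Jordan with landing intervals**: a path inside the region from the bottom interval `[x1, x2]` to the top interval `[x1', x2']` meets every path inside the region from the left arc to the right arc -/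
theorem pla_jordan (hcd : c ≤ d) {S T : Set (ℤ × ℤ)} (hS : S ⊆ plaReg l r c d) (hT : T ⊆ plaReg l r c d) {p q u v : ℤ × ℤ}
    (hp : p ∈ S) (hpl : p ∈ plaSeg c x1 x2) (hqr : q ∈ plaSeg d x1' x2') (hpq : TscR tscG S p q)
    (hv : v ∈ T) (hvσ : v ∈ plaArcL l c d x1 x1') (huσ : u ∈ plaArcR r c d x2 x2') (hvu : TscR tscG T v u) : (S ∩ T).Nonempty := by
  have hq : q ∈ S := tsc_R_mem hpq hp
  have hu : u ∈ T := tsc_R_mem hvu hv
  obtain ⟨a, ha1, ha2, ha3, ha4, ha5, ha6, ha7, ha8, ha9⟩ := pla_extL hcd (hT hv) hvσ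
  obtain ⟨b, hb1, hb2, hb3, hb4, hb5, hb6, hb7, hb8, hb9⟩ := pla_extR hcd (hT hu) huσ
  obtain ⟨px, py⟩ := p
  obtain ⟨qx, qy⟩ := q
  obtain ⟨e1, hp1, hp2⟩ := hpl
  obtain ⟨e2, hq1, hq2⟩ := hqr
  simp only at e1 e2 hp1 hp2 hq1 hq2
  subst e1 e2
  set H : Set (ℤ × ℤ) := insert a (insert b T) with hH
  set W : Set (ℤ × ℤ) := insert (px, py - 1) (insert (qx, qy + 1) S) with hW
  have hTH : T ⊆ H := fun z hz => Or.inr (Or.inr hz)
  have hSW : S ⊆ W := fun z hz => Or.inr (Or.inr hz)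
  have hab : TscR tscG H a b :=
    ReflTransGen.head ⟨ha1, Or.inl rfl, hTH hv⟩ ((tsc_R_mono hTH hvu).tail ⟨hb1, hTH hu, Or.inr (Or.inl rfl)⟩)
  have hpq' : TscR tscG W (px, py - 1) (qx, qy + 1) :=
    ReflTransGen.head ⟨pla_adj_mk (by omega), Or.inl rfl, hSW hp⟩
      ((tsc_R_mono hSW hpq).tail ⟨pla_adj_mk (by omega), hSW hq, Or.inr (Or.inl rfl)⟩)
  have hdn : ((px, py - 1) : ℤ × ℤ) ∉ plaReg l r py qy := by
    rintro ⟨h, _⟩
    simp only at h
    omega
  have hup : ((qx, qy + 1) : ℤ × ℤ) ∉ plaReg l r py qy := by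
    rintro ⟨_, h, _⟩
    simp only at h
    omega
  obtain ⟨z, hzH, hzW⟩ := pls_cross_h (S := H) (T := W) (Or.inl rfl) hab (Or.inl rfl) hpq'
    (by
      rintro z (rfl | rfl | hz)
      · exact ha3
      · exact hb3
      · have := (hT hz).1
        simp only
        omega)
    (by
      rintro z (rfl | rfl | hz)
      · exact ha4
      · exact hb4
      · have := (hT hz).2.1
        simp only
        omega)
    (by
      rintro z (rfl | rfl | hz)
      · exact ha6 px hp1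
      · exact ha7 qx hq1
      · exact ha5 z (hS hz))
    (by
      rintro z (rfl | rfl | hz)
      · exact hb6 px hp2
      · exact hb7 qx hq2
      · exact hb5 z (hS hz))
  rcases hzH with rfl | rfl | hzT
  · rcases hzW with h | h | h
    · exact ⟨_, hp, (ha8 px hp1 h) ▸ hv⟩
    · exact ⟨_, hq, (ha9 qx hq1 h) ▸ hv⟩
    · exact absurd (hS h) ha2
  · rcases hzW with h | h | h
    · exact ⟨_, hp, (hb8 px hp2 h) ▸ hu⟩
    · exact ⟨_, hq, (hb9 qx hq2 h) ▸ hu⟩
    · exact absurd (hS h) hb2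
  · rcases hzW with rfl | rfl | h
    · exact absurd (hT hzT) hdn
    · exact absurd (hT hzT) hup
    · exact ⟨z, h, hzT⟩

/-! ## 5. the quadrilaterals -/

/-- the data of a staircase region with landing intervals -/
structure PlaData (l r : ℤ → ℤ) (c d x1 x2 x1' x2' : ℤ) : Prop where
  hl : PlaStair l
  hr : PlaStair r
  hcd : c ≤ d
  hlr : ∀ y, c ≤ y → y ≤ d → l y ≤ r y
  b1 : l c ≤ x1
  b12 : x1 ≤ x2
  b2 : x2 ≤ r c
  t1 : l d ≤ x1'
  t12 : x1' ≤ x2'
  t2 : x2' ≤ r d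

theorem pla_seg_R {y a b x x' : ℤ} (hy : c ≤ y ∧ y ≤ d) (ha : l y ≤ a) (hb : b ≤ r y) (hx : a ≤ x ∧ x ≤ b) (hx' : a ≤ x' ∧ x' ≤ b) :
    TscR tscG (plaReg l r c d ∩ plaSeg y a b) (x, y) (x', y) := by
  refine tsc_R_hseg fun z h1 h2 => ⟨⟨hy.1, hy.2, ?_, ?_⟩, rfl, ?_, ?_⟩
  · simp only
    rcases min_le_iff.1 h1 with h | h <;> omega
  · simp only
    rcases le_max_iff.1 h2 with h | h <;> omega
  · simp only
    rcases min_le_iff.1 h1 with h | h <;> omega
  · simp only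
    rcases le_max_iff.1 h2 with h | h <;> omega

/-- exploration from the LEFT arc: the layer is the LEFTMOST crossing from the bottom interval to the top interval -/
theorem pla_quad_L (D : PlaData l r c d x1 x2 x1' x2') :
    PleQuad tscG (plaReg l r c d) (plaArcL l c d x1 x1') (plaArcR r c d x2 x2') (plaSeg c x1 x2) (plaSeg d x1' x2') where
  side := pla_side_L D.hl D.hcd D.b1 D.t1
  opp := pla_arcR_conn D.hr D.hcd D.hlr
  lpath := ⟨(x2, c), (x1, c), ⟨⟨le_rfl, D.hcd, D.b1.trans D.b12, D.b2⟩, rfl, D.b12, le_rfl⟩, Or.inr (Or.inl ⟨rfl, le_rfl⟩), Or.inr (Or.inl ⟨rfl, le_rfl⟩),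
    pla_seg_R ⟨le_rfl, D.hcd⟩ D.b1 D.b2 ⟨D.b12, le_rfl⟩ ⟨le_rfl, D.b12⟩⟩
  rpath := ⟨(x2', d), (x1', d), ⟨⟨D.hcd, le_rfl, D.t1.trans D.t12, D.t2⟩, rfl, D.t12, le_rfl⟩, Or.inr (Or.inr ⟨rfl, le_rfl⟩), Or.inr (Or.inr ⟨rfl, le_rfl⟩),
    pla_seg_R ⟨D.hcd, le_rfl⟩ D.t1 D.t2 ⟨D.t12, le_rfl⟩ ⟨le_rfl, D.t12⟩⟩
  jordan := fun _ _ hS hT _ _ _ _ hp hpl hqr hpq hu huσ hvσ huv =>
    pla_jordan D.hcd hS hT hp hpl hqr hpq (tsc_R_mem huv hu) hvσ huσ (tsc_R_symm huv)

/-- exploration from the RIGHT arc: the layer is the RIGHTMOST crossing from the bottom interval to the top interval -/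
theorem pla_quad_R (D : PlaData l r c d x1 x2 x1' x2') :
    PleQuad tscG (plaReg l r c d) (plaArcR r c d x2 x2') (plaArcL l c d x1 x1') (plaSeg c x1 x2) (plaSeg d x1' x2') where
  side := pla_side_R D.hr D.hcd D.b2 D.t2
  opp := pla_arcL_conn D.hl D.hcd D.hlr
  lpath := ⟨(x1, c), (x2, c), ⟨⟨le_rfl, D.hcd, D.b1, D.b12.trans D.b2⟩, rfl, le_rfl, D.b12⟩, Or.inr (Or.inl ⟨rfl, le_rfl⟩), Or.inr (Or.inl ⟨rfl, le_rfl⟩),
    pla_seg_R ⟨le_rfl, D.hcd⟩ D.b1 D.b2 ⟨le_rfl, D.b12⟩ ⟨D.b12, le_rfl⟩⟩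
  rpath := ⟨(x1', d), (x2', d), ⟨⟨D.hcd, le_rfl, D.t1, D.t12.trans D.t2⟩, rfl, le_rfl, D.t12⟩, Or.inr (Or.inr ⟨rfl, le_rfl⟩), Or.inr (Or.inr ⟨rfl, le_rfl⟩),
    pla_seg_R ⟨D.hcd, le_rfl⟩ D.t1 D.t2 ⟨le_rfl, D.t12⟩ ⟨D.t12, le_rfl⟩⟩
  jordan := fun _ _ hS hT _ _ _ _ hp hpl hqr hpq hu huσ hvσ huv => pla_jordan D.hcd hS hT hp hpl hqr hpq hu huσ hvσ huv

/-- the region is connected -/
theorem pla_reg_conn (hl : PlaStair l) (hlr : ∀ y, c ≤ y → y ≤ d → l y ≤ r y) : TscConn tscG (plaReg l r c d) := by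
  have key : ∀ z ∈ plaReg l r c d, TscR tscG (plaReg l r c d) (l c + 0, c) z := by
    have hmem : ∀ y, c ≤ y → y ≤ d → ((l y + 0, y) : ℤ × ℤ) ∈ plaReg l r c d := fun y h1 h2 =>
      ⟨h1, h2, by simp only; omega, by simp only; have := hlr y h1 h2; omega⟩
    rintro ⟨x, y⟩ ⟨h1, h2, h3, h4⟩
    simp only at h1 h2 h3 h4
    refine (pla_stair_R hl hmem h1 h2).trans (tsc_R_hseg fun z hz1 hz2 => ⟨h1, h2, ?_, ?_⟩)
    · simp only
      rcases min_le_iff.1 hz1 with h | h <;> omega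
    · simp only
      rcases le_max_iff.1 hz2 with h | h <;> omega
  exact fun u hu v hv => tsc_R_trans (tsc_R_symm (key u hu)) (key v hv)

/-- the region is simply connected -/
theorem pla_reg_sc (A : Type*) [AddCommGroup A] (hl : PlaStair l) : TriSCOn A tscG (plaReg l r c d) := by
  refine tsc_shell_set A (pla_rows_finite c d l r fun z hz => hz) ?_
  intro x y h1 h2 h3
  have := pla_stair_pred hl y
  simp only [plaReg, Set.mem_ofPred_eq] at *
  omega

/-- the solid side on the left of the leftmost crossing is connected -/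
theorem pla_solid_L_conn (D : PlaData l r c d x1 x2 x1' x2') {P : Set (ℤ × ℤ)}
    (h : ¬ ∃ u v, u ∈ plaReg l r c d \ P ∧ u ∈ plaArcR r c d x2 x2' ∧ v ∈ plaArcL l c d x1 x1' ∧ TscR tscG (plaReg l r c d \ P) u v) :
    TscConn tscG (pleSolid tscG (plaReg l r c d) (plaArcL l c d x1 x1') (plaArcR r c d x2 x2')
      (pleI tscG (plaReg l r c d \ P) (plaArcL l c d x1 x1'))) :=
  ple_solid_conn (pla_quad_L D) (ple_hyp h) (pla_reg_conn D.hl D.hlr) (pla_arcL_conn D.hl D.hcd D.hlr)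

/-- the solid side on the right of the rightmost crossing is connected -/
theorem pla_solid_R_conn (D : PlaData l r c d x1 x2 x1' x2') {P : Set (ℤ × ℤ)}
    (h : ¬ ∃ u v, u ∈ plaReg l r c d \ P ∧ u ∈ plaArcL l c d x1 x1' ∧ v ∈ plaArcR r c d x2 x2' ∧ TscR tscG (plaReg l r c d \ P) u v) :
    TscConn tscG (pleSolid tscG (plaReg l r c d) (plaArcR r c d x2 x2') (plaArcL l c d x1 x1')
      (pleI tscG (plaReg l r c d \ P) (plaArcR r c d x2 x2'))) :=
  ple_solid_conn (pla_quad_R D) (ple_hyp h) (pla_reg_conn D.hl D.hlr) (pla_arcR_conn D.hr D.hcd D.hlr)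

/-! ## 6. instances: lattice parallelograms, Euclidean rectangles -/

theorem pla_stair_const (a : ℤ) : PlaStair (fun _ => a) := fun _ => ⟨le_rfl, by dsimp only; omega⟩

theorem pla_reg_box (a b c d : ℤ) : plaReg (fun _ => a) (fun _ => b) c d = tscBox a b c d := by
  ext z
  simp only [plaReg, tscBox, Set.mem_ofPred_eq]
  omega

theorem pla_data_box {a b : ℤ} (hcd : c ≤ d) (b1 : a ≤ x1) (b12 : x1 ≤ x2) (b2 : x2 ≤ b) (t1 : a ≤ x1') (t12 : x1' ≤ x2') (t2 : x2' ≤ b) :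
    PlaData (fun _ => a) (fun _ => b) c d x1 x2 x1' x2' :=
  ⟨pla_stair_const a, pla_stair_const b, hcd, fun _ _ _ => b1.trans (b12.trans b2), b1, b12, b2, t1, t12, t2⟩

/-- lattice parallelogram, LEFTMOST crossing from `[x1, x2] × {c}` to `[x1', x2'] × {d}` -/
theorem pla_quad_box_L {a b : ℤ} (hcd : c ≤ d) (b1 : a ≤ x1) (b12 : x1 ≤ x2) (b2 : x2 ≤ b) (t1 : a ≤ x1') (t12 : x1' ≤ x2') (t2 : x2' ≤ b) :
    PleQuad tscG (tscBox a b c d) (plaArcL (fun _ => a) c d x1 x1') (plaArcR (fun _ => b) c d x2 x2') (plaSeg c x1 x2) (plaSeg d x1' x2') := by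
  rw [← pla_reg_box]
  exact pla_quad_L (pla_data_box hcd b1 b12 b2 t1 t12 t2)

/-- lattice parallelogram, RIGHTMOST crossing from `[x1, x2] × {c}` to `[x1', x2'] × {d}` -/
theorem pla_quad_box_R {a b : ℤ} (hcd : c ≤ d) (b1 : a ≤ x1) (b12 : x1 ≤ x2) (b2 : x2 ≤ b) (t1 : a ≤ x1') (t12 : x1' ≤ x2') (t2 : x2' ≤ b) :
    PleQuad tscG (tscBox a b c d) (plaArcR (fun _ => b) c d x2 x2') (plaArcL (fun _ => a) c d x1 x1') (plaSeg c x1 x2) (plaSeg d x1' x2') := by
  rw [← pla_reg_box]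
  exact pla_quad_R (pla_data_box hcd b1 b12 b2 t1 t12 t2)

/-- least `x` with `A ≤ 2 x + y` -/
def plaXl (A y : ℤ) : ℤ := -((y - A) / 2)

/-- greatest `x` with `2 x + y ≤ B` -/
def plaXr (B y : ℤ) : ℤ := (B - y) / 2

/-- Euclidean rectangle in the doubled abscissa `X = 2 x + y` (`= rswRect` of `Ann/Rsw`, by `rfl`) -/
def plaRect (A B c d : ℤ) : Set (ℤ × ℤ) := {p | A ≤ 2 * p.1 + p.2 ∧ 2 * p.1 + p.2 ≤ B ∧ c ≤ p.2 ∧ p.2 ≤ d}

/-- the sites of the row `y` with `i1 ≤ X ≤ i2` -/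
def plaXSeg (y i1 i2 : ℤ) : Set (ℤ × ℤ) := {z | z.2 = y ∧ i1 ≤ 2 * z.1 + z.2 ∧ 2 * z.1 + z.2 ≤ i2}

/-- left arc in the doubled abscissa: left side `X ≤ A + 1`, bottom row `X ≤ i1 + 1`, top row `X ≤ j1 + 1` -/
def plaXArcL (A c d i1 j1 : ℤ) : Set (ℤ × ℤ) :=
  {z | 2 * z.1 + z.2 ≤ A + 1 ∨ (z.2 = c ∧ 2 * z.1 + z.2 ≤ i1 + 1) ∨ (z.2 = d ∧ 2 * z.1 + z.2 ≤ j1 + 1)}

/-- right arc in the doubled abscissa: right side `B - 1 ≤ X`, bottom row `i2 - 1 ≤ X`, top row `j2 - 1 ≤ X` -/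
def plaXArcR (B c d i2 j2 : ℤ) : Set (ℤ × ℤ) :=
  {z | B - 1 ≤ 2 * z.1 + z.2 ∨ (z.2 = c ∧ i2 - 1 ≤ 2 * z.1 + z.2) ∨ (z.2 = d ∧ j2 - 1 ≤ 2 * z.1 + z.2)}

theorem pla_X_eqns_cite : True := by
  have := @plaXl.eq_1
  have := @plaXr.eq_1
  have := @plaRect.eq_1
  have := @plaXSeg.eq_1
  have := @plaXArcL.eq_1
  have := @plaXArcR.eq_1
  trivial

theorem pla_Xl_le (A y x : ℤ) : plaXl A y ≤ x ↔ A ≤ 2 * x + y := by
  unfold plaXl
  omega

theorem pla_le_Xr (B y x : ℤ) : x ≤ plaXr B y ↔ 2 * x + y ≤ B := by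
  unfold plaXr
  omega

theorem pla_stair_Xl (A : ℤ) : PlaStair (plaXl A) := fun y => by
  unfold plaXl
  omega

theorem pla_stair_Xr (B : ℤ) : PlaStair (plaXr B) := fun y => by
  unfold plaXr
  omega

theorem pla_reg_rect (A B c d : ℤ) : plaReg (plaXl A) (plaXr B) c d = plaRect A B c d := by
  ext z
  simp only [plaReg, plaRect, Set.mem_ofPred_eq, pla_Xl_le, pla_le_Xr]
  omega

variable {A B i1 i2 j1 j2 : ℤ}

theorem pla_data_rect (hcd : c ≤ d) (b1 : A ≤ i1) (b12 : i1 + 1 ≤ i2) (b2 : i2 ≤ B) (t1 : A ≤ j1) (t12 : j1 + 1 ≤ j2)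
    (t2 : j2 ≤ B) : PlaData (plaXl A) (plaXr B) c d (plaXl i1 c) (plaXr i2 c) (plaXl j1 d) (plaXr j2 d) where
  hl := pla_stair_Xl A
  hr := pla_stair_Xr B
  hcd := hcd
  hlr := fun y _ _ => by unfold plaXl plaXr; omega
  b1 := by unfold plaXl; omega
  b12 := by unfold plaXl plaXr; omega
  b2 := by unfold plaXr; omega
  t1 := by unfold plaXl; omega
  t12 := by unfold plaXl plaXr; omega
  t2 := by unfold plaXr; omega

theorem pla_rect_arcL {z : ℤ × ℤ} (hz : z ∈ plaRect A B c d) : z ∈ plaArcL (plaXl A) c d (plaXl i1 c) (plaXl j1 d) ↔ z ∈ plaXArcL A c d i1 j1 := by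
  simp only [plaRect, plaArcL, plaXArcL, plaXl, Set.mem_ofPred_eq] at *
  omega

theorem pla_rect_arcR {z : ℤ × ℤ} (hz : z ∈ plaRect A B c d) : z ∈ plaArcR (plaXr B) c d (plaXr i2 c) (plaXr j2 d) ↔ z ∈ plaXArcR B c d i2 j2 := by
  simp only [plaRect, plaArcR, plaXArcR, plaXr, Set.mem_ofPred_eq] at *
  omega

theorem pla_rect_seg (y : ℤ) (z : ℤ × ℤ) : z ∈ plaSeg y (plaXl i1 y) (plaXr i2 y) ↔ z ∈ plaXSeg y i1 i2 := by
  simp only [plaSeg, plaXSeg, plaXl, plaXr, Set.mem_ofPred_eq]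
  omega

/-- **Euclidean rectangle, LEFTMOST crossing** from the bottom interval `i1 ≤ X ≤ i2` to the top interval `j1 ≤ X ≤ j2` -/
theorem pla_quad_rect_L (hcd : c ≤ d) (b1 : A ≤ i1) (b12 : i1 + 1 ≤ i2) (b2 : i2 ≤ B) (t1 : A ≤ j1) (t12 : j1 + 1 ≤ j2)
    (t2 : j2 ≤ B) : PleQuad tscG (plaRect A B c d) (plaXArcL A c d i1 j1) (plaXArcR B c d i2 j2) (plaXSeg c i1 i2) (plaXSeg d j1 j2) := by
  have h := pla_quad_L (pla_data_rect hcd b1 b12 b2 t1 t12 t2)
  rw [pla_reg_rect] at h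
  exact ple_quad_congr h (fun _ hz => pla_rect_arcL hz) (fun _ hz => pla_rect_arcR hz) (fun z _ => pla_rect_seg c z) (fun z _ => pla_rect_seg d z)

/-- **Euclidean rectangle, RIGHTMOST crossing** from the bottom interval `i1 ≤ X ≤ i2` to the top interval `j1 ≤ X ≤ j2` -/
theorem pla_quad_rect_R (hcd : c ≤ d) (b1 : A ≤ i1) (b12 : i1 + 1 ≤ i2) (b2 : i2 ≤ B) (t1 : A ≤ j1) (t12 : j1 + 1 ≤ j2)
    (t2 : j2 ≤ B) : PleQuad tscG (plaRect A B c d) (plaXArcR B c d i2 j2) (plaXArcL A c d i1 j1) (plaXSeg c i1 i2) (plaXSeg d j1 j2) := by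
  have h := pla_quad_R (pla_data_rect hcd b1 b12 b2 t1 t12 t2)
  rw [pla_reg_rect] at h
  exact ple_quad_congr h (fun _ hz => pla_rect_arcR hz) (fun _ hz => pla_rect_arcL hz) (fun z _ => pla_rect_seg c z) (fun z _ => pla_rect_seg d z)

/-! ### the arcs of the Euclidean rectangle: connectedness, outer neighbours (asked by 182) -/

/-- the left arc of the Euclidean rectangle is connected -/
theorem pla_rect_arcL_conn (hcd : c ≤ d) (hAB : A + 1 ≤ B) : TscConn tscG (plaRect A B c d ∩ plaXArcL A c d i1 j1) := by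
  have h := pla_arcL_conn (l := plaXl A) (r := plaXr B) (c := c) (d := d) (x1 := plaXl i1 c) (x1' := plaXl j1 d) (pla_stair_Xl A) hcd
    (fun y _ _ => by unfold plaXl plaXr; omega)
  rw [pla_reg_rect] at h
  have e : plaRect A B c d ∩ plaArcL (plaXl A) c d (plaXl i1 c) (plaXl j1 d) = plaRect A B c d ∩ plaXArcL A c d i1 j1 := by
    ext z
    exact and_congr_right fun hz => pla_rect_arcL hz
  rwa [e] at h

/-- the right arc of the Euclidean rectangle is connected -/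
theorem pla_rect_arcR_conn (hcd : c ≤ d) (hAB : A + 1 ≤ B) : TscConn tscG (plaRect A B c d ∩ plaXArcR B c d i2 j2) := by
  have h := pla_arcR_conn (l := plaXl A) (r := plaXr B) (c := c) (d := d) (x2 := plaXr i2 c) (x2' := plaXr j2 d) (pla_stair_Xr B) hcd
    (fun y _ _ => by unfold plaXl plaXr; omega)
  rw [pla_reg_rect] at h
  have e : plaRect A B c d ∩ plaArcR (plaXr B) c d (plaXr i2 c) (plaXr j2 d) = plaRect A B c d ∩ plaXArcR B c d i2 j2 := by
    ext z
    exact and_congr_right fun hz => pla_rect_arcR hz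
  rwa [e] at h

/-- every cell of the left arc has a neighbour outside the rectangle all of whose neighbours in the rectangle lie in the left arc -/
theorem pla_rect_outL {z : ℤ × ℤ} (hz : z ∈ plaRect A B c d) (hzσ : z ∈ plaXArcL A c d i1 j1) :
    ∃ o : ℤ × ℤ, tscG.Adj z o ∧ o ∉ plaRect A B c d ∧ ∀ u ∈ plaRect A B c d, tscG.Adj o u → u ∈ plaXArcL A c d i1 j1 := by
  obtain ⟨x, y⟩ := z
  simp only [plaRect, plaXArcL, Set.mem_ofPred_eq] at hz hzσ
  rcases hzσ with h | ⟨h, h'⟩ | ⟨h, h'⟩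
  · refine ⟨(x - 1, y), pla_adj_mk (by omega), ?_, ?_⟩
    · simp only [plaRect, Set.mem_ofPred_eq]; omega
    · rintro ⟨p, q⟩ hu hadj
      have hadj' : triAdj (x - 1, y) (p, q) := hadj
      rw [tsc_adj_iff] at hadj'
      simp only [plaRect, plaXArcL, Set.mem_ofPred_eq] at hu hadj' ⊢
      omega
  · refine ⟨(x, y - 1), pla_adj_mk (by omega), ?_, ?_⟩
    · simp only [plaRect, Set.mem_ofPred_eq]; omega
    · rintro ⟨p, q⟩ hu hadj
      have hadj' : triAdj (x, y - 1) (p, q) := hadj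
      rw [tsc_adj_iff] at hadj'
      simp only [plaRect, plaXArcL, Set.mem_ofPred_eq] at hu hadj' ⊢
      omega
  · refine ⟨(x - 1, y + 1), pla_adj_mk (by omega), ?_, ?_⟩
    · simp only [plaRect, Set.mem_ofPred_eq]; omega
    · rintro ⟨p, q⟩ hu hadj
      have hadj' : triAdj (x - 1, y + 1) (p, q) := hadj
      rw [tsc_adj_iff] at hadj'
      simp only [plaRect, plaXArcL, Set.mem_ofPred_eq] at hu hadj' ⊢
      omega

/-- every cell of the right arc has a neighbour outside the rectangle all of whose neighbours in the rectangle lie in the right arc -/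
theorem pla_rect_outR {z : ℤ × ℤ} (hz : z ∈ plaRect A B c d) (hzσ : z ∈ plaXArcR B c d i2 j2) :
    ∃ o : ℤ × ℤ, tscG.Adj z o ∧ o ∉ plaRect A B c d ∧ ∀ u ∈ plaRect A B c d, tscG.Adj o u → u ∈ plaXArcR B c d i2 j2 := by
  obtain ⟨x, y⟩ := z
  simp only [plaRect, plaXArcR, Set.mem_ofPred_eq] at hz hzσ
  rcases hzσ with h | ⟨h, h'⟩ | ⟨h, h'⟩
  · refine ⟨(x + 1, y), pla_adj_mk (by omega), ?_, ?_⟩
    · simp only [plaRect, Set.mem_ofPred_eq]; omega
    · rintro ⟨p, q⟩ hu hadj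
      have hadj' : triAdj (x + 1, y) (p, q) := hadj
      rw [tsc_adj_iff] at hadj'
      simp only [plaRect, plaXArcR, Set.mem_ofPred_eq] at hu hadj' ⊢
      omega
  · refine ⟨(x + 1, y - 1), pla_adj_mk (by omega), ?_, ?_⟩
    · simp only [plaRect, Set.mem_ofPred_eq]; omega
    · rintro ⟨p, q⟩ hu hadj
      have hadj' : triAdj (x + 1, y - 1) (p, q) := hadj
      rw [tsc_adj_iff] at hadj'
      simp only [plaRect, plaXArcR, Set.mem_ofPred_eq] at hu hadj' ⊢
      omega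
  · refine ⟨(x, y + 1), pla_adj_mk (by omega), ?_, ?_⟩
    · simp only [plaRect, Set.mem_ofPred_eq]; omega
    · rintro ⟨p, q⟩ hu hadj
      have hadj' : triAdj (x, y + 1) (p, q) := hadj
      rw [tsc_adj_iff] at hadj'
      simp only [plaRect, plaXArcR, Set.mem_ofPred_eq] at hu hadj' ⊢
      omega

end Claimed.Agent.R291
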