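import Claimed.Agent.R291.Pl.Strip
import Claimed.Agent.R291.Pl.ExtrArc
import Claimed.Agent.R291.Ann.Place

/-!
# Row 291 (S0539), unit PLA / ANN A3-II (b), Pl/Record : TWO CROSSINGS OF A BAND ⟹ STRIP + THREE PLACES IN ORDER      (owner helper105; prefix `hxr_`, `Hxr`, `hxr`)

Ruling of 187 (06:20Z): PART II (b) = "RECORD ⟹ (`a` touches `c`) or STRIP + places in order".   ONE lattice: in the application the sites of this file are the INDICES OF THE CELLS of one class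
(two cells share a site iff their indices are `triAdj`), `a`, `c` = the layers `rsrGa`, `rsrGc` of 269 (`Ann/RswRec`).   The adapter record ⟹ `HxrPair` is `Ann/RswPl`.

* `hxrSol G Bd a T`      SOLID SIDE: the sites of `Bd` which are NOT joined to `T` off `a`  (`a` + everything behind it + the pockets)
* `hxrAA y0 y1 xM a`     solid left side of `a` in the band (`T` = far right), `hxrCC y0 y1 xm c` solid right side of `c`, `hxrQ` = the strip, `hxrD`, `hxrB` = its bottom / top row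
* `HxrPair`              two disjoint, non adjacent crossings of the band, `a` on the left of `c`
* `hxr_AA_bd`            a site of `AA` next to a site of the band off `AA` belongs to `a`;   `hxr_AA_far/bot/top` what `AA` contains;   `hxr_sep`  `AA ∥ CC`;   `hxr_strip` `PlcStrip Q D B`;   `hxr_Q_sep` (JQ)
* `HxrPlace y0 y1 AA CC ρ K`    everything a customer needs of a place (no frame, no rectangle): in particular `dich : ∀ P, HxEK AA CC K P ∨ HxEK AA CC K {v | ρ v ∉ P}`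
* `HxrThree`             three places in order + blocking
* **`hxr_tip`** (C3 of G1, twice) and **`hxr_tube`** (C4)

USE WITH THE MODEL (message of 105, 07:00Z): `P ω` := the MAJORITY-PLUS cells.   `T = ρ ∘ flip` maps `P` to `{y | ρ y ∉ P}`; adjacent majority-plus cells have connected plus sites; the cells of the edges of a minus site
path are majority-minus, so they form a path of cells off `P`.
-/

set_option autoImplicit false
set_option linter.unusedSectionVars false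
set_option linter.unusedVariables false
set_option linter.unusedSimpArgs false

namespace Claimed.Agent.R291

open Relation Claims.C0467

/-! ## §1 solid sides, abstract -/

section abs

variable {V : Type*} {G : SimpleGraph V}

/-- the sites of `Bd` which are not joined to `T` off `a` -/
def hxrSol (G : SimpleGraph V) (Bd a T : Set V) : Set V := {z | z ∈ Bd ∧ ∀ t ∈ T, ¬ TscR G (Bd \ a) z t}

theorem hxr_R_head {s : Set V} {z t : V} (h : TscR G s z t) : z = t ∨ z ∈ s := by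
  induction h with
  | refl => exact Or.inl rfl
  | @tail b c _ hbc ih =>
    rcases ih with rfl | h
    · exact Or.inr hbc.2.1
    · exact Or.inr h

theorem hxr_sol_sub (Bd a T : Set V) : hxrSol G Bd a T ⊆ Bd := fun _ h => h.1

theorem hxr_sol_self {Bd a T : Set V} (haB : a ⊆ Bd) (haT : ∀ t ∈ T, t ∉ a) : a ⊆ hxrSol G Bd a T := by
  intro z hz
  refine ⟨haB hz, fun t ht h => ?_⟩
  rcases hxr_R_head h with rfl | h'
  · exact haT _ ht hz
  · exact h'.2 hz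

/-- the solid side is closed under paths off `a` -/
theorem hxr_sol_R {Bd a T : Set V} {z w : V} (hz : z ∈ hxrSol G Bd a T) (h : TscR G (Bd \ a) z w) : w ∈ hxrSol G Bd a T := by
  refine ⟨?_, fun t ht h' => hz.2 t ht (tsc_R_trans h h')⟩
  rcases hxr_R_head (tsc_R_symm h) with rfl | h'
  · exact hz.1
  · exact h'.1

/-- **the boundary of the solid side is `a`** -/
theorem hxr_sol_bd {Bd a T : Set V} (haT : ∀ t ∈ T, t ∉ a) {z w : V} (hz : z ∈ Bd) (hz' : z ∉ hxrSol G Bd a T)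
    (hw : w ∈ hxrSol G Bd a T) (h : G.Adj z w) : w ∈ a := by
  by_contra hwa
  apply hz'
  have hza : z ∉ a := by
    intro hza
    apply hz'
    refine ⟨hz, fun t ht h' => ?_⟩
    rcases hxr_R_head h' with rfl | h''
    · exact haT _ ht hza
    · exact h''.2 hza
  exact hxr_sol_R hw (tsc_R_step h.symm ⟨hw.1, hwa⟩ ⟨hz, hza⟩)

/-- a path off `a` which starts in the solid side is a path inside the solid side -/
theorem hxr_sol_path {Bd Bd' a T : Set V} (hB : Bd' ⊆ Bd) {z w : V} (hz : z ∈ hxrSol G Bd a T) (h : TscR G (Bd' \ a) z w) :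
    TscR G (hxrSol G Bd a T ∩ Bd') z w := by
  induction h with
  | refl => exact ReflTransGen.refl
  | @tail b c hzb hbc ih =>
    have hmono : Bd' \ a ⊆ Bd \ a := fun x hx => ⟨hB hx.1, hx.2⟩
    have hb := hxr_sol_R hz (tsc_R_mono hmono hzb)
    have hc := hxr_sol_R hb (tsc_R_step hbc.1 (hmono hbc.2.1) (hmono hbc.2.2))
    exact ih.tail ⟨hbc.1, ⟨hb, hbc.2.1.1⟩, ⟨hc, hbc.2.2.1⟩⟩

/-- every site of the solid side is joined to `a` inside the solid side (inside any connected window `Bd'` which contains `a`) -/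
theorem hxr_sol_to {Bd Bd' a T : Set V} (hB : Bd' ⊆ Bd) (hc : TscConn G Bd') (ha : a ⊆ Bd') (hne : a.Nonempty) (haT : ∀ t ∈ T, t ∉ a)
    {z : V} (hz : z ∈ hxrSol G Bd a T) (hzB : z ∈ Bd') : ∃ k ∈ a, TscR G (hxrSol G Bd a T ∩ Bd') z k := by
  by_cases hza : z ∈ a
  · exact ⟨z, hza, ReflTransGen.refl⟩
  obtain ⟨a0, ha0⟩ := hne
  rcases plc_first_hit (hc z hzB a0 (ha ha0)) hza with h | ⟨v, k, hp, hv, _, hk, hkB, hvk⟩
  · exact (plc_R_not_mem h hza ha0).elim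
  · have h1 := hxr_sol_path hB hz hp
    have hvS : v ∈ hxrSol G Bd a T := hxr_sol_R hz (tsc_R_mono (s := Bd' \ a) (t := Bd \ a) (fun x hx => ⟨hB hx.1, hx.2⟩) hp)
    exact ⟨k, hk, h1.tail ⟨hvk, ⟨hvS, hv⟩, ⟨hxr_sol_self (ha.trans hB) haT hk, hkB⟩⟩⟩

/-- **the solid side is connected** (inside any connected window which contains `a`) -/
theorem hxr_sol_conn {Bd Bd' a T : Set V} (hB : Bd' ⊆ Bd) (hc : TscConn G Bd') (ha : a ⊆ Bd') (hac : TscConn G a) (hne : a.Nonempty)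
    (haT : ∀ t ∈ T, t ∉ a) : TscConn G (hxrSol G Bd a T ∩ Bd') := by
  intro u hu v hv
  obtain ⟨k, hk, h1⟩ := hxr_sol_to hB hc ha hne haT hu.1 hu.2
  obtain ⟨k', hk', h2⟩ := hxr_sol_to hB hc ha hne haT hv.1 hv.2
  have hsub : a ⊆ hxrSol G Bd a T ∩ Bd' := fun x hx => ⟨hxr_sol_self (ha.trans hB) haT hx, ha hx⟩
  exact tsc_R_trans h1 (tsc_R_trans (tsc_R_mono hsub (hac k hk k' hk')) (tsc_R_symm h2))

/-- the complement of the solid side is connected -/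
theorem hxr_sol_compl_conn {Bd a T : Set V} (hT : ∀ t ∈ T, ∀ t' ∈ T, TscR G (Bd \ a) t t') (hTB : ∀ t ∈ T, t ∈ Bd \ a) :
    TscConn G (Bd \ hxrSol G Bd a T) := by
  have key : ∀ t ∈ T, ∀ w, TscR G (Bd \ a) t w → TscR G (Bd \ hxrSol G Bd a T) t w := by
    intro t ht w h
    induction h with
    | refl => exact ReflTransGen.refl
    | @tail b c htb hbc ih =>
      have hb : b ∉ hxrSol G Bd a T := fun hb => hb.2 t ht (tsc_R_symm htb)
      have hc : c ∉ hxrSol G Bd a T := fun hc => hc.2 t ht (tsc_R_symm (htb.tail hbc))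
      exact ih.tail ⟨hbc.1, ⟨hbc.2.1.1, hb⟩, ⟨hbc.2.2.1, hc⟩⟩
  have ex : ∀ u ∈ Bd \ hxrSol G Bd a T, ∃ t ∈ T, TscR G (Bd \ a) t u := by
    rintro u ⟨hu, hu'⟩
    by_contra hcon
    exact hu' ⟨hu, fun t ht h => hcon ⟨t, ht, tsc_R_symm h⟩⟩
  intro u hu v hv
  obtain ⟨t, ht, h1⟩ := ex u hu
  obtain ⟨t', ht', h2⟩ := ex v hv
  exact tsc_R_trans (tsc_R_symm (key t ht u h1)) (tsc_R_trans (key t ht t' (hT t ht t' ht')) (key t' ht' v h2))

/-- **two solid sides are disjoint and not adjacent** -/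
theorem hxr_sol_sep {Bd a c Ta Tc : Set V} (hBd : TscConn G Bd) (haB : a ⊆ Bd) (hcB : c ⊆ Bd) (hane : a.Nonempty) (hcne : c.Nonempty)
    (haT : ∀ t ∈ Ta, t ∉ a) (hcT : ∀ t ∈ Tc, t ∉ c) (hac : ∀ u ∈ a, ∀ v ∈ c, u ≠ v ∧ ¬ G.Adj u v)
    (hc_off : ∀ z ∈ c, z ∉ hxrSol G Bd a Ta) (ha_off : ∀ z ∈ a, z ∉ hxrSol G Bd c Tc) :
    ∀ u ∈ hxrSol G Bd a Ta, ∀ v ∈ hxrSol G Bd c Tc, u ≠ v ∧ ¬ G.Adj u v := by
  have hdis : ∀ u, u ∈ hxrSol G Bd a Ta → u ∈ hxrSol G Bd c Tc → False := by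
    intro u hu hu'
    obtain ⟨k, hk, h1⟩ := hxr_sol_to (subset_refl Bd) hBd haB hane haT hu hu.1
    have h2 : TscR G (Bd \ c) u k :=
      tsc_R_mono (s := hxrSol G Bd a Ta ∩ Bd) (t := Bd \ c) (fun x hx => ⟨hx.2, fun hxc => hc_off x hxc hx.1⟩) h1
    exact ha_off k hk (hxr_sol_R hu' h2)
  intro u hu v hv
  refine ⟨fun h => hdis u hu (h ▸ hv), fun h => ?_⟩
  have h1 : u ∈ a := hxr_sol_bd haT hv.1 (fun hv' => hdis v hv' hv) hu h.symm
  have h2 : v ∈ c := hxr_sol_bd hcT hu.1 (fun hu' => hdis u hu hu') hv h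
  exact (hac u h1 v h2).2 h

/-- **the strip between two solid sides is connected** -/
theorem hxr_mid_conn {Bd A C : Set V} (hs : TriSCOn (ZMod 2) G Bd) (hA : TscConn G (Bd \ A)) (hC : TscConn G (Bd \ C))
    (hsep : ∀ u ∈ A, ∀ v ∈ C, u ≠ v ∧ ¬ G.Adj u v) : TscConn G (Bd \ (A ∪ C)) := by
  intro t ht b hb
  by_contra hno
  obtain ⟨M, hM, hMc, hmeet⟩ := tsc_hex hs (P := Bd \ (A ∪ C)) Set.sdiff_subset ht hb hno
  have hMAC : ∀ x ∈ M, x ∈ A ∨ x ∈ C := by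
    intro x hx
    by_contra hcon
    exact (hM hx).2 ⟨(hM hx).1, hcon⟩
  obtain ⟨x, hx1, hxM⟩ := hmeet (Bd \ A) Set.sdiff_subset (hA t ⟨ht.1, fun h => ht.2 (Or.inl h)⟩ b ⟨hb.1, fun h => hb.2 (Or.inl h)⟩)
  obtain ⟨y, hy1, hyM⟩ := hmeet (Bd \ C) Set.sdiff_subset (hC t ⟨ht.1, fun h => ht.2 (Or.inr h)⟩ b ⟨hb.1, fun h => hb.2 (Or.inr h)⟩)
  have hxC : x ∈ C := (hMAC x hxM).resolve_left hx1.2
  have hyA : y ∈ A := (hMAC y hyM).resolve_right hy1.2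
  -- a path inside `M` from `C` to `A` has a step from `C` to `A`
  have claim : ∀ w, TscR G M x w → w ∈ C := by
    intro w h
    induction h with
    | refl => exact hxC
    | @tail p q _ hpq ih =>
      rcases hMAC q hpq.2.2 with h | h
      · exact ((hsep q h p ih).2 hpq.1.symm).elim
      · exact h
  exact (hsep y hyA y (claim y (hMc x hxM y hyM))).1 rfl

end abs

/-! ## §2 the band: definitions -/

/-- the far right of the band -/
def hxrFarR (y0 y1 x : ℤ) : Set (ℤ × ℤ) := {t | t ∈ plsBand y0 y1 ∧ x < hxsX t}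

/-- the far left of the band -/
def hxrFarL (y0 y1 x : ℤ) : Set (ℤ × ℤ) := {t | t ∈ plsBand y0 y1 ∧ hxsX t < x}

/-- the solid LEFT side of `a`: the sites of the band which are not joined to the far right off `a` -/
def hxrAA (y0 y1 xM : ℤ) (a : Set (ℤ × ℤ)) : Set (ℤ × ℤ) := hxrSol tscG (plsBand y0 y1) a (hxrFarR y0 y1 xM)

/-- the solid RIGHT side of `c` -/
def hxrCC (y0 y1 xm : ℤ) (c : Set (ℤ × ℤ)) : Set (ℤ × ℤ) := hxrSol tscG (plsBand y0 y1) c (hxrFarL y0 y1 xm)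

/-- the strip between `a` and `c` -/
def hxrQ (y0 y1 xm xM : ℤ) (a c : Set (ℤ × ℤ)) : Set (ℤ × ℤ) := plsBand y0 y1 \ (hxrAA y0 y1 xM a ∪ hxrCC y0 y1 xm c)

/-- the bottom end of the strip -/
def hxrD (y0 y1 xm xM : ℤ) (a c : Set (ℤ × ℤ)) : Set (ℤ × ℤ) := {z | z ∈ hxrQ y0 y1 xm xM a c ∧ z.2 = y0}

/-- the top end of the strip -/
def hxrB (y0 y1 xm xM : ℤ) (a c : Set (ℤ × ℤ)) : Set (ℤ × ℤ) := {z | z ∈ hxrQ y0 y1 xm xM a c ∧ z.2 = y1}

/-- a connected set which crosses the band from `p` (bottom row) to `q` (top row), inside `xm ≤ X ≤ xM` -/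
structure HxrCr (y0 y1 xm xM : ℤ) (a : Set (ℤ × ℤ)) (p q : ℤ × ℤ) : Prop where
  sub : a ⊆ plsBand y0 y1
  conn : TscConn tscG a
  box : ∀ z ∈ a, xm ≤ hxsX z ∧ hxsX z ≤ xM
  pa : p ∈ a
  qa : q ∈ a
  p0 : p.2 = y0
  q1 : q.2 = y1

/-- two crossings, disjoint and not adjacent, `a` on the left of `c` -/
structure HxrPair (y0 y1 xm xM : ℤ) (a c : Set (ℤ × ℤ)) (pa qa pc qc : ℤ × ℤ) : Prop where
  A : HxrCr y0 y1 xm xM a pa qa
  C : HxrCr y0 y1 xm xM c pc qc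
  feet : pa.1 < pc.1
  heads : qa.1 < qc.1
  sep : ∀ u ∈ a, ∀ v ∈ c, u ≠ v ∧ ¬ triAdj u v

/-- **a place**, as seen by the customer -/
structure HxrPlace (y0 y1 : ℤ) (AA CC : Set (ℤ × ℤ)) (ρ : ℤ × ℤ → ℤ × ℤ) (K : Set (ℤ × ℤ)) : Prop where
  invol : ∀ v, ρ (ρ v) = v
  adj : ∀ u v, triAdj u v → triAdj (ρ u) (ρ v)
  conn : TscConn tscG K
  rows : ∀ k ∈ K, y0 < k.2 ∧ k.2 < y1
  free : ∀ k ∈ K, k ∉ AA ∧ k ∉ CC ∧ ρ k ∉ AA ∧ ρ k ∉ CC
  max : ∀ k ∈ K, ∀ v, triAdj k v → v ∈ K ∨ v ∈ AA ∨ v ∈ CC ∨ ρ v ∈ AA ∨ ρ v ∈ CC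
  inv : ∀ k ∈ K, ρ k ∈ K
  cross : HxEK AA CC K Set.univ
  dich : ∀ P : Set (ℤ × ℤ), HxEK AA CC K P ∨ HxEK AA CC K {v | ρ v ∉ P}

/-- **three places in order**: `K 0` on the side of `D`, `K 1` in the middle, `K 2` on the side of `B`; blocking -/
structure HxrThree (y0 y1 : ℤ) (AA CC Q D B : Set (ℤ × ℤ)) (ρ : Fin 3 → ℤ × ℤ → ℤ × ℤ) (K : Fin 3 → Set (ℤ × ℤ)) : Prop where
  place : ∀ i, HxrPlace y0 y1 AA CC (ρ i) (K i)
  cut : ∀ i, PlcCutset tscG Q D B (K i)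
  far : ∀ i j, i ≠ j → ∀ u ∈ K i, ∀ v ∈ K j, u ≠ v ∧ ¬ triAdj u v
  below : K 0 ⊆ plcSide tscG Q (K 1) D
  above : K 2 ⊆ plcSide tscG Q (K 1) B
  blkD : ∀ P : Set (ℤ × ℤ), HxEK AA CC (K 0) P → ∀ d ∈ D, ∀ z, TscR tscG (Q \ (K 0 ∩ P)) d z → z ∉ K 1 ∧ ∀ w ∈ K 1, ¬ triAdj z w
  blkB : ∀ P : Set (ℤ × ℤ), HxEK AA CC (K 2) P → ∀ b ∈ B, ∀ z, TscR tscG (Q \ (K 2 ∩ P)) b z → z ∉ K 1 ∧ ∀ w ∈ K 1, ¬ triAdj z w

/-- the mirror at 30 degrees: `(u, v) ↦ (v + t, u - t)` (axis `u - v = t`) -/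
def hxrSw (t : ℤ) (v : ℤ × ℤ) : ℤ × ℤ := (v.2 + t, v.1 - t)

theorem hxr_eqns_cite : True := by
  have := @hxrSol.eq_1.{0}
  have := @hxrFarR.eq_1
  have := @hxrFarL.eq_1
  have := @hxrAA.eq_1
  have := @hxrCC.eq_1
  have := @hxrQ.eq_1
  have := @hxrD.eq_1
  have := @hxrB.eq_1
  have := @hxrSw.eq_1
  trivial

/-! ## §3 the band: one crossing      (LEAVES: owner 112) -/

section band

variable {y0 y1 xm xM : ℤ} {a c : Set (ℤ × ℤ)} {p q pa qa pc qc : ℤ × ℤ}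

/-- the band is connected -/
theorem hxr_band_conn (y0 y1 : ℤ) : TscConn tscG (plsBand y0 y1) := by
  have e : plsBand y0 y1 = Set.univ ×ˢ Set.Icc y0 y1 := by
    ext z
    simp [plsBand]
  rw [e]
  exact tsc_conn_prod _ _ Set.ordConnected_univ Set.ordConnected_Icc

/-- the band is simply connected.      PLAN: `tsc_iUnion` with `tscBox (-n) n y0 y1`, `tsc_box_sc`, `tsc_box_conn`. -/
theorem hxr_band_sc (h : y0 ≤ y1) : TriSCOn (ZMod 2) tscG (plsBand y0 y1) := by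
  have h' := tsc_iUnion (A := ZMod 2) (G := tscG) (fun n : ℕ => tscBox (-n) n y0 y1) ?_ (0, y0) ?_ (fun n => tsc_box_conn _ _ _ _)
    (fun n => tsc_box_sc (ZMod 2) _ _ _ _)
  · have hU : (⋃ n : ℕ, tscBox (-n) n y0 y1) = plsBand y0 y1 := by
      ext z
      simp only [Set.mem_iUnion, tscBox, plsBand, Set.mem_ofPred_eq]
      constructor
      · rintro ⟨n, _, _, h3, h4⟩
        exact ⟨h3, h4⟩
      · rintro ⟨h3, h4⟩
        exact ⟨z.1.natAbs, by omega, by omega, h3, h4⟩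
    rwa [hU] at h'
  · intro n m hnm z hz
    simp only [tscBox, Set.mem_ofPred_eq] at *
    have : (n : ℤ) ≤ m := by exact_mod_cast hnm
    omega
  · exact ⟨by simp, by simp, le_rfl, h⟩

/-- discrete intermediate value theorem for the abscissa (a step changes `X` by at most 2) -/
theorem hxr_ivt_X {s : Set (ℤ × ℤ)} {u v : ℤ × ℤ} (hu : u ∈ s) (h : TscR tscG s u v) {m : ℤ} (h1 : hxsX u ≤ m + 1) (h2 : m - 1 ≤ hxsX v) :
    ∃ w ∈ s, m - 1 ≤ hxsX w ∧ hxsX w ≤ m + 1 := by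
  induction h with
  | refl => exact ⟨u, hu, h2, h1⟩
  | @tail b c _ hbc ih =>
    by_cases hb : m - 1 ≤ hxsX b
    · exact ih hb
    · refine ⟨c, hbc.2.2, h2, ?_⟩
      have := (tsc_adj_iff _ _).1 hbc.1
      unfold hxsX at *
      omega

/-- the far right is connected off `a` -/
theorem hxr_farR_conn (H : HxrCr y0 y1 xm xM a p q) : ∀ t ∈ hxrFarR y0 y1 xM, ∀ t' ∈ hxrFarR y0 y1 xM, TscR tscG (plsBand y0 y1 \ a) t t' := by
  rintro ⟨u, v⟩ ⟨⟨hv0, hv1⟩, hX⟩ ⟨u', v'⟩ ⟨⟨hv0', hv1'⟩, hX'⟩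
  simp only [hxsX] at hv0 hv1 hX hv0' hv1' hX'
  have mem : ∀ x y : ℤ, y0 ≤ y → y ≤ y1 → xM < 2 * x + y → (x, y) ∈ plsBand y0 y1 \ a := fun x y h1 h2 h3 =>
    ⟨⟨h1, h2⟩, fun h => by have := (H.box _ h).2; simp only [hxsX] at this; omega⟩
  obtain ⟨U, hU1, hU2, hU3, hU4⟩ : ∃ U : ℤ, u ≤ U ∧ u' ≤ U ∧ xM - y0 + 1 ≤ U ∧ 0 ≤ U :=
    ⟨max (max u u') (max (xM - y0 + 1) 0), by omega, by omega, by omega, by omega⟩
  refine tsc_R_trans (tsc_R_hseg (x' := U) fun z h1 h2 => mem z v hv0 hv1 (by omega))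
    (tsc_R_trans (tsc_R_vseg (y' := v') fun z h1 h2 => mem U z (by omega) (by omega) (by omega))
      (tsc_R_hseg fun z h1 h2 => mem z v' hv0' hv1' (by omega)))

theorem hxr_farL_conn (H : HxrCr y0 y1 xm xM a p q) : ∀ t ∈ hxrFarL y0 y1 xm, ∀ t' ∈ hxrFarL y0 y1 xm, TscR tscG (plsBand y0 y1 \ a) t t' := by
  rintro ⟨u, v⟩ ⟨⟨hv0, hv1⟩, hX⟩ ⟨u', v'⟩ ⟨⟨hv0', hv1'⟩, hX'⟩
  simp only [hxsX] at hv0 hv1 hX hv0' hv1' hX'
  have mem : ∀ x y : ℤ, y0 ≤ y → y ≤ y1 → 2 * x + y < xm → (x, y) ∈ plsBand y0 y1 \ a := fun x y h1 h2 h3 =>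
    ⟨⟨h1, h2⟩, fun h => by have := (H.box _ h).1; simp only [hxsX] at this; omega⟩
  obtain ⟨U, hU1, hU2, hU3, hU4⟩ : ∃ U : ℤ, U ≤ u ∧ U ≤ u' ∧ U ≤ xm - y1 - 1 ∧ U ≤ 0 :=
    ⟨min (min u u') (min (xm - y1 - 1) 0), by omega, by omega, by omega, by omega⟩
  refine tsc_R_trans (tsc_R_hseg (x' := U) fun z h1 h2 => mem z v hv0 hv1 (by omega))
    (tsc_R_trans (tsc_R_vseg (y' := v') fun z h1 h2 => mem U z (by omega) (by omega) (by omega))
      (tsc_R_hseg fun z h1 h2 => mem z v' hv0' hv1' (by omega)))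

/-- everything on the left of the box belongs to the solid left side.      PLAN: `pls_cross_h` (path `z → t` against the path `p → q` inside `a`). -/
theorem hxr_AA_far (H : HxrCr y0 y1 xm xM a p q) {z : ℤ × ℤ} (hz : z ∈ plsBand y0 y1) (hx : hxsX z < xm) : z ∈ hxrAA y0 y1 xM a := by
  refine ⟨hz, fun t ht hzt => ?_⟩
  have hza : z ∉ a := fun h => by have := (H.box z h).1; omega
  obtain ⟨w, hw1, hw2⟩ := pls_cross_h (S := plsBand y0 y1 \ a) (T := a) (p := z) (q := t) (u := p) (v := q) ⟨hz, hza⟩ hzt H.pa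
    (H.conn p H.pa q H.qa) (fun w hw => by rw [H.p0]; exact hw.1.1) (fun w hw => by rw [H.q1]; exact hw.1.2)
    (fun w hw hh => by have := (H.box w hw).1; unfold hxsX at *; omega)
    (fun w hw hh => by have := (H.box w hw).2; have := ht.2; unfold hxsX at *; omega)
  exact hw1.2 hw2

theorem hxr_R_dn {s : Set (ℤ × ℤ)} (x y : ℤ) (k : ℕ) (h : ∀ j : ℕ, j ≤ k → (x + j, y - j) ∈ s) : TscR tscG s (x, y) (x + k, y - k) := by
  induction k with
  | zero => simp only [Nat.cast_zero, add_zero, sub_zero]; exact tsc_R_refl _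
  | succ k ih =>
    refine (ih (fun j hj => h j (by omega))).tail ⟨(tsc_adj_iff _ _).2 (by dsimp only; push_cast; omega), h k (by omega), h (k + 1) le_rfl⟩

theorem hxr_R_up {s : Set (ℤ × ℤ)} (x y : ℤ) (k : ℕ) (h : ∀ j : ℕ, j ≤ k → (x - j, y + j) ∈ s) : TscR tscG s (x, y) (x - k, y + k) := by
  induction k with
  | zero => simp only [Nat.cast_zero, add_zero, sub_zero]; exact tsc_R_refl _
  | succ k ih =>
    refine (ih (fun j hj => h j (by omega))).tail ⟨(tsc_adj_iff _ _).2 (by dsimp only; push_cast; omega), h k (by omega), h (k + 1) le_rfl⟩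

theorem hxr_cr_le (H : HxrCr y0 y1 xm xM a p q) : y0 ≤ y1 := by
  have := (H.sub H.pa).2
  have := H.p0
  omega

/-- the bottom row on the left of the foot.      PLAN: a path `z → t` off `a`, continued by `(u, v) ↦ (u, v + 1)` up to the top row (`X` increases), is interlaced with `p → q`: `pls_interlace`. -/
theorem hxr_AA_bot (H : HxrCr y0 y1 xm xM a p q) {z : ℤ × ℤ} (hz : z.2 = y0) (hx : z.1 ≤ p.1) : z ∈ hxrAA y0 y1 xM a := by
  have hy := hxr_cr_le H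
  have hzB : z ∈ plsBand y0 y1 := ⟨hz.ge, hz.le.trans hy⟩
  refine ⟨hzB, fun t ht hzt => ?_⟩
  rcases hxr_R_head hzt with rfl | hza
  · have h1 := (H.box p H.pa).2
    have h2 := ht.2
    have h3 := H.p0
    unfold hxsX at *
    omega
  have hne : z.1 < p.1 := by
    rcases hx.lt_or_eq with h | h
    · exact h
    · have e : z = p := Prod.ext h (hz.trans H.p0.symm)
      exact absurd (e ▸ H.pa) hza.2
  have hcont : TscR tscG (plsBand y0 y1 \ a) t (t.1, y1) := by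
    have := tsc_R_vseg (s := plsBand y0 y1 \ a) (x := t.1) (y := t.2) (y' := y1) fun w h1 h2 => by
      have h3 := ht.1.1
      have h4 := ht.1.2
      have h5 := ht.2
      refine ⟨⟨by omega, by omega⟩, fun h => ?_⟩
      have := (H.box _ h).2
      unfold hxsX at *
      simp only at this
      omega
    exact this
  obtain ⟨w, hw1, hw2⟩ := pls_interlace (S := plsBand y0 y1 \ a) (T := a) (c := y0) (d := y1) (p := z) (q := (t.1, y1)) (u := p) (v := q)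
    hza (tsc_R_trans hzt hcont) H.pa (H.conn p H.pa q H.qa) Set.sdiff_subset H.sub hz rfl H.p0 H.q1 hne (by
      have h1 := (H.box q H.qa).2
      have h2 := ht.2
      have h3 := H.q1
      have h4 := ht.1.2
      unfold hxsX at *
      show q.1 < t.1
      omega)
  exact hw1.2 hw2

/-- the top row on the left of the head.      PLAN: continue by `(u, v) ↦ (u + 1, v - 1)` down to the bottom row. -/
theorem hxr_AA_top (H : HxrCr y0 y1 xm xM a p q) {z : ℤ × ℤ} (hz : z.2 = y1) (hx : z.1 ≤ q.1) : z ∈ hxrAA y0 y1 xM a := by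
  have hy := hxr_cr_le H
  have hzB : z ∈ plsBand y0 y1 := ⟨hy.trans hz.ge, hz.le⟩
  refine ⟨hzB, fun t ht hzt => ?_⟩
  rcases hxr_R_head hzt with rfl | hza
  · have h1 := (H.box q H.qa).2
    have h2 := ht.2
    have h3 := H.q1
    unfold hxsX at *
    omega
  have hne : z.1 < q.1 := by
    rcases hx.lt_or_eq with h | h
    · exact h
    · have e : z = q := Prod.ext h (hz.trans H.q1.symm)
      exact absurd (e ▸ H.qa) hza.2
  have h3 := ht.1.1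
  have h4 := ht.1.2
  have h5 := ht.2
  have hcont : TscR tscG (plsBand y0 y1 \ a) t (t.1 + (t.2 - y0).toNat, t.2 - (t.2 - y0).toNat) :=
    hxr_R_dn (s := plsBand y0 y1 \ a) t.1 t.2 (t.2 - y0).toNat fun j hj => by
      refine ⟨⟨by show y0 ≤ t.2 - j; omega, by show t.2 - j ≤ y1; omega⟩, fun h => ?_⟩
      have := (H.box _ h).2
      unfold hxsX at *
      simp only at this
      omega
  obtain ⟨w, hw1, hw2⟩ := pls_interlace (S := a) (T := plsBand y0 y1 \ a) (c := y0) (d := y1) (p := p) (q := q)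
    (u := (t.1 + (t.2 - y0).toNat, t.2 - (t.2 - y0).toNat)) (v := z)
    H.pa (H.conn p H.pa q H.qa) (tsc_R_mem (tsc_R_trans hzt hcont) hza) (tsc_R_symm (tsc_R_trans hzt hcont)) H.sub Set.sdiff_subset
    H.p0 H.q1 (by show t.2 - ((t.2 - y0).toNat : ℤ) = y0; omega) hz (by
      have h1 := (H.box p H.pa).2
      have h2 := H.p0
      unfold hxsX at *
      show p.1 < t.1 + ((t.2 - y0).toNat : ℤ)
      omega) hne
  exact hw2.2 hw1

theorem hxr_CC_far (H : HxrCr y0 y1 xm xM c p q) {z : ℤ × ℤ} (hz : z ∈ plsBand y0 y1) (hx : xM < hxsX z) : z ∈ hxrCC y0 y1 xm c := by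
  refine ⟨hz, fun t ht hzt => ?_⟩
  have hza : z ∉ c := fun h => by have := (H.box z h).2; omega
  have htc : t ∈ plsBand y0 y1 \ c := tsc_R_mem hzt ⟨hz, hza⟩
  obtain ⟨w, hw1, hw2⟩ := pls_cross_h (S := plsBand y0 y1 \ c) (T := c) (p := t) (q := z) (u := p) (v := q) htc (tsc_R_symm hzt) H.pa
    (H.conn p H.pa q H.qa) (fun w hw => by rw [H.p0]; exact hw.1.1) (fun w hw => by rw [H.q1]; exact hw.1.2)
    (fun w hw hh => by have := (H.box w hw).1; have := ht.2; unfold hxsX at *; omega)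
    (fun w hw hh => by have := (H.box w hw).2; unfold hxsX at *; omega)
  exact hw1.2 hw2

theorem hxr_CC_bot (H : HxrCr y0 y1 xm xM c p q) {z : ℤ × ℤ} (hz : z.2 = y0) (hx : p.1 ≤ z.1) : z ∈ hxrCC y0 y1 xm c := by
  have hy := hxr_cr_le H
  have hzB : z ∈ plsBand y0 y1 := ⟨hz.ge, hz.le.trans hy⟩
  refine ⟨hzB, fun t ht hzt => ?_⟩
  rcases hxr_R_head hzt with rfl | hza
  · have h1 := (H.box p H.pa).1
    have h2 := ht.2
    have h3 := H.p0
    unfold hxsX at *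
    omega
  have hne : p.1 < z.1 := by
    rcases hx.lt_or_eq with h | h
    · exact h
    · have e : z = p := Prod.ext h.symm (hz.trans H.p0.symm)
      exact absurd (e ▸ H.pa) hza.2
  have h3 := ht.1.1
  have h4 := ht.1.2
  have h5 := ht.2
  have hcont : TscR tscG (plsBand y0 y1 \ c) t (t.1 - (y1 - t.2).toNat, t.2 + (y1 - t.2).toNat) :=
    hxr_R_up (s := plsBand y0 y1 \ c) t.1 t.2 (y1 - t.2).toNat fun j hj => by
      refine ⟨⟨by show y0 ≤ t.2 + j; omega, by show t.2 + j ≤ y1; omega⟩, fun h => ?_⟩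
      have := (H.box _ h).1
      unfold hxsX at *
      simp only at this
      omega
  obtain ⟨w, hw1, hw2⟩ := pls_interlace (S := c) (T := plsBand y0 y1 \ c) (c := y0) (d := y1) (p := p) (q := q)
    (u := z) (v := (t.1 - (y1 - t.2).toNat, t.2 + (y1 - t.2).toNat))
    H.pa (H.conn p H.pa q H.qa) hza (tsc_R_trans hzt hcont) H.sub Set.sdiff_subset
    H.p0 H.q1 hz (by show t.2 + ((y1 - t.2).toNat : ℤ) = y1; omega) hne (by
      have h1 := (H.box q H.qa).1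
      have h2 := H.q1
      unfold hxsX at *
      show t.1 - ((y1 - t.2).toNat : ℤ) < q.1
      omega)
  exact hw2.2 hw1

theorem hxr_CC_top (H : HxrCr y0 y1 xm xM c p q) {z : ℤ × ℤ} (hz : z.2 = y1) (hx : q.1 ≤ z.1) : z ∈ hxrCC y0 y1 xm c := by
  have hy := hxr_cr_le H
  have hzB : z ∈ plsBand y0 y1 := ⟨hy.trans hz.ge, hz.le⟩
  refine ⟨hzB, fun t ht hzt => ?_⟩
  rcases hxr_R_head hzt with rfl | hza
  · have h1 := (H.box q H.qa).1
    have h2 := ht.2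
    have h3 := H.q1
    unfold hxsX at *
    omega
  have hne : q.1 < z.1 := by
    rcases hx.lt_or_eq with h | h
    · exact h
    · have e : z = q := Prod.ext h.symm (hz.trans H.q1.symm)
      exact absurd (e ▸ H.qa) hza.2
  have h3 := ht.1.1
  have h4 := ht.1.2
  have h5 := ht.2
  have hcont : TscR tscG (plsBand y0 y1 \ c) t (t.1, y0) :=
    tsc_R_vseg (s := plsBand y0 y1 \ c) (x := t.1) (y := t.2) (y' := y0) fun w h1 h2 => by
      refine ⟨⟨by omega, by omega⟩, fun h => ?_⟩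
      have := (H.box _ h).1
      unfold hxsX at *
      simp only at this
      omega
  obtain ⟨w, hw1, hw2⟩ := pls_interlace (S := plsBand y0 y1 \ c) (T := c) (c := y0) (d := y1) (p := (t.1, y0)) (q := z) (u := p) (v := q)
    (tsc_R_mem (tsc_R_trans hzt hcont) hza) (tsc_R_symm (tsc_R_trans hzt hcont)) H.pa (H.conn p H.pa q H.qa) Set.sdiff_subset H.sub
    rfl hz H.p0 H.q1 (by
      have h1 := (H.box p H.pa).1
      have h2 := H.p0
      unfold hxsX at *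
      show t.1 < p.1
      omega) hne
  exact hw1.2 hw2

/-- `c` lies on the right of `a`.      PLAN: `c` is connected and misses `a`: enough for `pc`.   Walk along the bottom row to the right of `pc`; if it meets `a` at `z`, the path `z → qa` inside `a` is interlaced
with `pc → qc` (`pls_interlace`): `a ∩ c ≠ ∅`. -/
theorem hxr_c_off (H : HxrPair y0 y1 xm xM a c pa qa pc qc) : ∀ z ∈ c, z ∉ hxrAA y0 y1 xM a := by
  have hy := hxr_cr_le H.A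
  have hdis : ∀ w, w ∈ c → w ∉ a := fun w hw hw' => (H.sep w hw' w hw).1 rfl
  intro z hz hzA
  have hsub : c ⊆ plsBand y0 y1 \ a := fun w hw => ⟨H.C.sub hw, hdis w hw⟩
  have hpc : pc ∈ hxrAA y0 y1 xM a := hxr_sol_R hzA (tsc_R_mono hsub (H.C.conn z hz pc H.C.pa))
  have hrow : ∀ x : ℤ, pc.1 ≤ x → (x, y0) ∈ plsBand y0 y1 \ a := by
    intro x hx
    refine ⟨⟨le_rfl, hy⟩, fun h => ?_⟩
    have hne : pc.1 < x := by
      rcases hx.lt_or_eq with h' | h'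
      · exact h'
      · have e : ((x, y0) : ℤ × ℤ) = pc := Prod.ext h'.symm H.C.p0.symm
        exact absurd (e ▸ h) (hdis pc H.C.pa)
    obtain ⟨w, hw1, hw2⟩ := pls_interlace (S := c) (T := a) (c := y0) (d := y1) (p := pc) (q := qc) (u := (x, y0)) (v := qa)
      H.C.pa (H.C.conn pc H.C.pa qc H.C.qa) h (H.A.conn _ h qa H.A.qa) H.C.sub H.A.sub H.C.p0 H.C.q1 rfl H.A.q1 hne H.heads
    exact hdis w hw1 hw2
  obtain ⟨U, hU1, hU3, hU4⟩ : ∃ U : ℤ, pc.1 ≤ U ∧ xM - y0 + 1 ≤ U ∧ 0 ≤ U :=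
    ⟨max pc.1 (max (xM - y0 + 1) 0), by omega, by omega, by omega⟩
  have hpath : TscR tscG (plsBand y0 y1 \ a) pc (U, y0) := by
    have := tsc_R_hseg (s := plsBand y0 y1 \ a) (x := pc.1) (x' := U) (y := y0) fun w h1 h2 => hrow w (by omega)
    have e : pc = (pc.1, y0) := Prod.ext rfl H.C.p0
    rw [e]
    exact this
  exact hpc.2 (U, y0) ⟨⟨le_rfl, hy⟩, by show xM < 2 * U + y0; omega⟩ hpath

theorem hxr_a_off (H : HxrPair y0 y1 xm xM a c pa qa pc qc) : ∀ z ∈ a, z ∉ hxrCC y0 y1 xm c := by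
  have hy := hxr_cr_le H.A
  have hdis : ∀ w, w ∈ a → w ∉ c := fun w hw hw' => (H.sep w hw w hw').1 rfl
  intro z hz hzC
  have hsub : a ⊆ plsBand y0 y1 \ c := fun w hw => ⟨H.A.sub hw, hdis w hw⟩
  have hpa : pa ∈ hxrCC y0 y1 xm c := hxr_sol_R hzC (tsc_R_mono hsub (H.A.conn z hz pa H.A.pa))
  have hrow : ∀ x : ℤ, x ≤ pa.1 → (x, y0) ∈ plsBand y0 y1 \ c := by
    intro x hx
    refine ⟨⟨le_rfl, hy⟩, fun h => ?_⟩
    have hne : x < pa.1 := by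
      rcases hx.lt_or_eq with h' | h'
      · exact h'
      · have e : ((x, y0) : ℤ × ℤ) = pa := Prod.ext h' H.A.p0.symm
        exact absurd (e ▸ h) (hdis pa H.A.pa)
    obtain ⟨w, hw1, hw2⟩ := pls_interlace (S := c) (T := a) (c := y0) (d := y1) (p := (x, y0)) (q := qc) (u := pa) (v := qa)
      h (H.C.conn _ h qc H.C.qa) H.A.pa (H.A.conn pa H.A.pa qa H.A.qa) H.C.sub H.A.sub rfl H.C.q1 H.A.p0 H.A.q1 hne H.heads
    exact hdis w hw2 hw1
  obtain ⟨U, hU1, hU3, hU4⟩ : ∃ U : ℤ, U ≤ pa.1 ∧ U ≤ xm - y0 - 1 ∧ U ≤ 0 :=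
    ⟨min pa.1 (min (xm - y0 - 1) 0), by omega, by omega, by omega⟩
  have hpath : TscR tscG (plsBand y0 y1 \ c) pa (U, y0) := by
    have := tsc_R_hseg (s := plsBand y0 y1 \ c) (x := pa.1) (x' := U) (y := y0) fun w h1 h2 => hrow w (by omega)
    have e : pa = (pa.1, y0) := Prod.ext rfl H.A.p0
    rw [e]
    exact this
  exact hpa.2 (U, y0) ⟨⟨le_rfl, hy⟩, by show 2 * U + y0 < xm; omega⟩ hpath

/-! ## §4 the strip -/

theorem hxr_farR_off (H : HxrCr y0 y1 xm xM a p q) : ∀ t ∈ hxrFarR y0 y1 xM, t ∉ a := fun t ht hta => by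
  have := (H.box t hta).2
  have := ht.2
  omega

theorem hxr_farL_off (H : HxrCr y0 y1 xm xM a p q) : ∀ t ∈ hxrFarL y0 y1 xm, t ∉ a := fun t ht hta => by
  have := (H.box t hta).1
  have := ht.2
  omega

theorem hxr_a_sub_AA (H : HxrCr y0 y1 xm xM a p q) : a ⊆ hxrAA y0 y1 xM a := hxr_sol_self H.sub (hxr_farR_off H)

theorem hxr_c_sub_CC (H : HxrCr y0 y1 xm xM c p q) : c ⊆ hxrCC y0 y1 xm c := hxr_sol_self H.sub (hxr_farL_off H)

/-- **a site of `AA` next to a site of the band off `AA` belongs to `a`** -/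
theorem hxr_AA_bd (H : HxrCr y0 y1 xm xM a p q) {z w : ℤ × ℤ} (hz : z ∈ plsBand y0 y1) (hz' : z ∉ hxrAA y0 y1 xM a) (hw : w ∈ hxrAA y0 y1 xM a)
    (h : triAdj z w) : w ∈ a := hxr_sol_bd (hxr_farR_off H) hz hz' hw h

theorem hxr_CC_bd (H : HxrCr y0 y1 xm xM c p q) {z w : ℤ × ℤ} (hz : z ∈ plsBand y0 y1) (hz' : z ∉ hxrCC y0 y1 xm c) (hw : w ∈ hxrCC y0 y1 xm c)
    (h : triAdj z w) : w ∈ c := hxr_sol_bd (hxr_farL_off H) hz hz' hw h

/-- **the two solid sides are disjoint and not adjacent** -/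
theorem hxr_sep (H : HxrPair y0 y1 xm xM a c pa qa pc qc) : ∀ u ∈ hxrAA y0 y1 xM a, ∀ v ∈ hxrCC y0 y1 xm c, u ≠ v ∧ ¬ triAdj u v :=
  hxr_sol_sep (hxr_band_conn y0 y1) H.A.sub H.C.sub ⟨pa, H.A.pa⟩ ⟨pc, H.C.pa⟩ (hxr_farR_off H.A) (hxr_farL_off H.C) H.sep (hxr_c_off H) (hxr_a_off H)

/-- the strip lies inside the box -/
theorem hxr_Q_box (H : HxrPair y0 y1 xm xM a c pa qa pc qc) : ∀ z ∈ hxrQ y0 y1 xm xM a c, xm ≤ hxsX z ∧ hxsX z ≤ xM := by
  intro z hz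
  constructor
  · by_contra h
    exact hz.2 (Or.inl (hxr_AA_far H.A hz.1 (by omega)))
  · by_contra h
    exact hz.2 (Or.inr (hxr_CC_far H.C hz.1 (by omega)))

/-- the strip is connected -/
theorem hxr_Q_conn (H : HxrPair y0 y1 xm xM a c pa qa pc qc) : TscConn tscG (hxrQ y0 y1 xm xM a c) := by
  have hy : y0 ≤ y1 := by
    have := (H.A.sub H.A.pa).2
    have := H.A.p0
    omega
  exact hxr_mid_conn (hxr_band_sc hy)
    (hxr_sol_compl_conn (hxr_farR_conn H.A) fun t ht => ⟨ht.1, hxr_farR_off H.A t ht⟩)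
    (hxr_sol_compl_conn (hxr_farL_conn H.C) fun t ht => ⟨ht.1, hxr_farL_off H.C t ht⟩) (hxr_sep H)

theorem hxr_pair_le (H : HxrPair y0 y1 xm xM a c pa qa pc qc) : y0 ≤ y1 := by
  have := (H.A.sub H.A.pa).2
  have := H.A.p0
  omega

/-- in a row of the band whose left part belongs to `AA` and whose right part belongs to `CC` there is a site of the strip -/
theorem hxr_row_gap (H : HxrPair y0 y1 xm xM a c pa qa pc qc) {y l r : ℤ} (hy0 : y0 ≤ y) (hy1 : y ≤ y1) (hlr : l < r)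
    (hl : (l, y) ∈ hxrAA y0 y1 xM a) (hr : (r, y) ∈ hxrCC y0 y1 xm c) : ∃ x : ℤ, (x, y) ∈ hxrQ y0 y1 xm xM a c := by
  classical
  obtain ⟨x, ⟨hx1, hx2⟩, hmax⟩ := Int.exists_greatest_of_bdd (P := fun x => (x, y) ∈ hxrAA y0 y1 xM a ∧ x < r) ⟨r, fun z hz => hz.2.le⟩ ⟨l, hl, hlr⟩
  have hadj : triAdj (x, y) (x + 1, y) := by
    rw [tsc_adj_iff]; simp
  have hC : (x + 1, y) ∉ hxrCC y0 y1 xm c := fun h => (hxr_sep H _ hx1 _ h).2 hadj
  refine ⟨x + 1, ⟨hy0, hy1⟩, ?_⟩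
  rintro (h | h)
  · by_cases hlt : x + 1 < r
    · have := hmax (x + 1) ⟨h, hlt⟩
      omega
    · have e : x + 1 = r := by omega
      rw [e] at hC
      exact hC hr
  · exact hC h

/-- **the strip** -/
theorem hxr_strip (H : HxrPair y0 y1 xm xM a c pa qa pc qc) :
    PlcStrip tscG (hxrQ y0 y1 xm xM a c) (hxrD y0 y1 xm xM a c) (hxrB y0 y1 xm xM a c) := by
  have hy := hxr_pair_le H
  refine ⟨hxr_Q_conn H, fun z hz => hz.1, fun z hz => hz.1, ?_, ?_⟩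
  · obtain ⟨x, hx⟩ := hxr_row_gap H (y := y0) le_rfl hy H.feet (hxr_AA_bot H.A rfl le_rfl) (hxr_CC_bot H.C rfl le_rfl)
    exact ⟨(x, y0), hx, rfl⟩
  · obtain ⟨x, hx⟩ := hxr_row_gap H (y := y1) hy le_rfl H.heads (hxr_AA_top H.A rfl le_rfl) (hxr_CC_top H.C rfl le_rfl)
    exact ⟨(x, y1), hx, rfl⟩

theorem hxr_AA_conn (H : HxrCr y0 y1 xm xM a p q) : TscConn tscG (hxrAA y0 y1 xM a) := by
  have h := hxr_sol_conn (G := tscG) (T := hxrFarR y0 y1 xM) (subset_refl (plsBand y0 y1)) (hxr_band_conn y0 y1) H.sub H.conn ⟨p, H.pa⟩ (hxr_farR_off H)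
  intro u hu v hv
  exact tsc_R_mono Set.inter_subset_left (h u ⟨hu, hu.1⟩ v ⟨hv, hv.1⟩)

theorem hxr_CC_conn (H : HxrCr y0 y1 xm xM c p q) : TscConn tscG (hxrCC y0 y1 xm c) := by
  have h := hxr_sol_conn (G := tscG) (T := hxrFarL y0 y1 xm) (subset_refl (plsBand y0 y1)) (hxr_band_conn y0 y1) H.sub H.conn ⟨p, H.pa⟩ (hxr_farL_off H)
  intro u hu v hv
  exact tsc_R_mono Set.inter_subset_left (h u ⟨hu, hu.1⟩ v ⟨hv, hv.1⟩)

/-- **(JQ)** a path of the band from a neighbour of `AA` to a neighbour of `CC` separates the two ends of the strip      (`y0 < y1`: for `y0 = y1` the trivial path `d = b` refutes `PlcSep`) -/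
theorem hxr_Q_sep (H : HxrPair y0 y1 xm xM a c pa qa pc qc) (hy : y0 < y1) {π : Set (ℤ × ℤ)} (hπ : π ⊆ plsBand y0 y1) {u v : ℤ × ℤ} (hu : u ∈ π)
    (huv : TscR tscG π u v) (hua : ∃ x ∈ hxrAA y0 y1 xM a, triAdj u x) (hvc : ∃ x ∈ hxrCC y0 y1 xm c, triAdj v x) :
    PlcSep tscG (hxrQ y0 y1 xm xM a c) π (hxrD y0 y1 xm xM a c) (hxrB y0 y1 xm xM a c) := by
  intro d hd b hb hp
  obtain ⟨xa, hxa, hadja⟩ := hua
  obtain ⟨xc, hxc, hadjc⟩ := hvc
  have hdT : d ∈ hxrQ y0 y1 xm xM a c \ π := by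
    rcases hxr_R_head hp with e | h
    · have := hd.2
      have := hb.2
      rw [e] at *
      omega
    · exact h
  set S : Set (ℤ × ℤ) := (hxrAA y0 y1 xM a ∪ π) ∪ hxrCC y0 y1 xm c with hS
  have hwl : (((xm - y1 - 1) / 2, y0) : ℤ × ℤ) ∈ hxrAA y0 y1 xM a := by
    apply hxr_AA_far H.A ⟨le_rfl, hy.le⟩
    simp only [hxsX]
    omega
  have hwr : (((xM - y0) / 2 + 1, y0) : ℤ × ℤ) ∈ hxrCC y0 y1 xm c := by
    apply hxr_CC_far H.C ⟨le_rfl, hy.le⟩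
    simp only [hxsX]
    omega
  have hv : v ∈ π := tsc_R_mem huv hu
  have p1 : TscR tscG S ((xm - y1 - 1) / 2, y0) xa := tsc_R_mono (fun z hz => Or.inl (Or.inl hz)) (hxr_AA_conn H.A _ hwl _ hxa)
  have p2 : TscR tscG S xa u := tsc_R_step (hx_tri_symm _ _ hadja) (Or.inl (Or.inl hxa)) (Or.inl (Or.inr hu))
  have p3 : TscR tscG S u v := tsc_R_mono (fun z hz => Or.inl (Or.inr hz)) huv
  have p4 : TscR tscG S v xc := tsc_R_step hadjc (Or.inl (Or.inr hv)) (Or.inr hxc)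
  have p5 : TscR tscG S xc ((xM - y0) / 2 + 1, y0) := tsc_R_mono (fun z hz => Or.inr hz) (hxr_CC_conn H.C _ hxc _ hwr)
  have hSrow : ∀ z ∈ S, y0 ≤ z.2 ∧ z.2 ≤ y1 := by
    rintro z ((hz | hz) | hz)
    · exact hz.1
    · exact hπ hz
    · exact hz.1
  have hTcol : ∀ z ∈ hxrQ y0 y1 xm xM a c \ π, (xm - y1 - 1) / 2 ≤ z.1 ∧ z.1 ≤ (xM - y0) / 2 + 1 := by
    intro z hz
    obtain ⟨b1, b2⟩ := hxr_Q_box H z hz.1
    obtain ⟨r1, r2⟩ := hz.1.1
    simp only [hxsX] at b1 b2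
    constructor <;> omega
  obtain ⟨z, hzS, hzT⟩ := pls_rect (S := S) (T := hxrQ y0 y1 xm xM a c \ π) (a := (xm - y1 - 1) / 2) (b := (xM - y0) / 2 + 1) (c := y0) (d := y1)
    (Or.inl (Or.inl hwl)) ((((p1.trans p2).trans p3).trans p4).trans p5) hSrow le_rfl le_rfl hdT hp hTcol hd.2.le hb.2.ge
  rcases hzS with (h | h) | h
  · exact hzT.1.2 (Or.inl h)
  · exact hzT.2 h
  · exact hzT.1.2 (Or.inr h)

theorem hxr_EK_mono {AA CC AA' CC' K P : Set (ℤ × ℤ)} (hA : AA ⊆ AA') (hC : CC ⊆ CC') (h : HxEK AA CC K P) : HxEK AA' CC' K P := by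
  obtain ⟨u, v, hu, hv, ⟨x, hx, h1⟩, ⟨y, hy, h2⟩, h3⟩ := h
  exact ⟨u, v, hu, hv, ⟨x, hA hx, h1⟩, ⟨y, hC hy, h2⟩, h3⟩

/-- a place of a frame whose sides are parts of `AA`, `CC` is a place for the customer -/
theorem hxr_place_gen {R AAf CCf AA CC K : Set (ℤ × ℤ)} {ρ : ℤ × ℤ → ℤ × ℤ} (F : HxFrame R AAf CCf ρ) (hK : HxPlace R AAf CCf ρ K)
    (hA : AAf ⊆ AA) (hC : CCf ⊆ CC) (hfree : ∀ k ∈ K, k ∉ AA ∧ k ∉ CC ∧ ρ k ∉ AA ∧ ρ k ∉ CC)
    (hrows : ∀ k ∈ K, y0 < k.2 ∧ k.2 < y1) : HxrPlace y0 y1 AA CC ρ K where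
  invol := F.invol
  adj := F.adj
  conn := hK.conn
  rows := hrows
  free := hfree
  max := fun k hk v hv => by
    rcases hK.max k hk v hv with h | h | h | h | h
    · exact Or.inl h
    · exact Or.inr (Or.inl (hA h))
    · exact Or.inr (Or.inr (Or.inl (hC h)))
    · exact Or.inr (Or.inr (Or.inr (Or.inl (hA h))))
    · exact Or.inr (Or.inr (Or.inr (Or.inr (hC h))))
  inv := hK.inv
  cross := hxr_EK_mono hA hC (hxs_place_cross hK)
  dich := fun P => (hxs_place_sym F hK P).imp (hxr_EK_mono hA hC) (hxr_EK_mono hA hC)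

/-- a place of a frame is a place for the customer -/
theorem hxr_place_of {R AA CC K : Set (ℤ × ℤ)} {ρ : ℤ × ℤ → ℤ × ℤ} (F : HxFrame R (AA ∩ R) (CC ∩ R) ρ) (hK : HxPlace R (AA ∩ R) (CC ∩ R) ρ K)
    (hrows : ∀ k ∈ K, y0 < k.2 ∧ k.2 < y1) : HxrPlace y0 y1 AA CC ρ K := by
  refine hxr_place_gen F hK Set.inter_subset_left Set.inter_subset_left (fun k hk => ?_) hrows
  obtain ⟨f1, f2, f3, f4⟩ := hK.free k hk
  have hkR := hK.sub hk
  have hkR' := F.mapR k hkR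
  exact ⟨fun h => f1 ⟨h, hkR⟩, fun h => f2 ⟨h, hkR⟩, fun h => f3 ⟨h, hkR'⟩, fun h => f4 ⟨h, hkR'⟩⟩

theorem hxr_place_sub {AA CC K : Set (ℤ × ℤ)} {ρ : ℤ × ℤ → ℤ × ℤ} (hK : HxrPlace y0 y1 AA CC ρ K) : K ⊆ plsBand y0 y1 :=
  fun k hk => ⟨(hK.rows k hk).1.le, (hK.rows k hk).2.le⟩

theorem hxr_place_lt {AA CC K : Set (ℤ × ℤ)} {ρ : ℤ × ℤ → ℤ × ℤ} (hK : HxrPlace y0 y1 AA CC ρ K) : y0 < y1 := by
  obtain ⟨u, _, hu, _⟩ := hK.cross
  have := hK.rows u hu.1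
  omega

/-- a crossing of a place separates the two ends of the strip -/
theorem hxr_EK_sep (H : HxrPair y0 y1 xm xM a c pa qa pc qc) {ρ : ℤ × ℤ → ℤ × ℤ} {K P : Set (ℤ × ℤ)}
    (hK : HxrPlace y0 y1 (hxrAA y0 y1 xM a) (hxrCC y0 y1 xm c) ρ K) (hE : HxEK (hxrAA y0 y1 xM a) (hxrCC y0 y1 xm c) K P) :
    PlcSep tscG (hxrQ y0 y1 xm xM a c) (K ∩ P) (hxrD y0 y1 xm xM a c) (hxrB y0 y1 xm xM a c) := by
  obtain ⟨u, v, hu, hv, h1, h2, h3⟩ := hE
  exact hxr_Q_sep H (hxr_place_lt hK) (fun z hz => hxr_place_sub hK hz.1) hu h3 h1 h2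

/-- a place is a connected separator of the strip -/
theorem hxr_place_cut (H : HxrPair y0 y1 xm xM a c pa qa pc qc) {ρ : ℤ × ℤ → ℤ × ℤ} {K : Set (ℤ × ℤ)}
    (hK : HxrPlace y0 y1 (hxrAA y0 y1 xM a) (hxrCC y0 y1 xm c) ρ K) :
    PlcCutset tscG (hxrQ y0 y1 xm xM a c) (hxrD y0 y1 xm xM a c) (hxrB y0 y1 xm xM a c) K := by
  refine ⟨fun k hk => ⟨hxr_place_sub hK hk, ?_⟩, hK.conn, ?_, ?_, ?_⟩
  · rintro (h | h)
    · exact (hK.free k hk).1 h
    · exact (hK.free k hk).2.1 h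
  · intro d hd hdK
    have := (hK.rows d hdK).1
    have := hd.2
    omega
  · intro b hb hbK
    have := (hK.rows b hbK).2
    have := hb.2
    omega
  · have := hxr_EK_sep H hK hK.cross
    rwa [Set.inter_univ] at this

/-- **three pairwise non adjacent places can be put in order** -/
theorem hxr_three (H : HxrPair y0 y1 xm xM a c pa qa pc qc) (ρ : Fin 3 → ℤ × ℤ → ℤ × ℤ) (K : Fin 3 → Set (ℤ × ℤ))
    (hK : ∀ i, HxrPlace y0 y1 (hxrAA y0 y1 xM a) (hxrCC y0 y1 xm c) (ρ i) (K i))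
    (hfar : ∀ i j, i ≠ j → ∀ u ∈ K i, ∀ v ∈ K j, u ≠ v ∧ ¬ triAdj u v) :
    ∃ s : Fin 3 → Fin 3, HxrThree y0 y1 (hxrAA y0 y1 xM a) (hxrCC y0 y1 xm c) (hxrQ y0 y1 xm xM a c) (hxrD y0 y1 xm xM a c) (hxrB y0 y1 xm xM a c)
      (fun i => ρ (s i)) (fun i => K (s i)) := by
  have hS := hxr_strip H
  have hcut := fun i => hxr_place_cut H (hK i)
  obtain ⟨i, j, k, hij, hjk, hik, hD, hB⟩ := plc_middle hS K hcut (fun i j hij x hx hx' => (hfar i j hij x hx x hx').1 rfl)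
  refine ⟨![i, j, k], fun l => hK _, fun l => hcut _, ?_, hD, hB, ?_, ?_⟩
  · intro l l' hll
    apply hfar
    fin_cases l <;> fin_cases l' <;> simp_all [Ne.symm]
  · intro P hE d hd z hz
    exact plc_block hS (hcut j) (fun x hx => hD hx.1) (hxr_EK_sep H (hK i) hE) (fun d hd hdK => (hcut i).dK d hd hdK.1) hd hz
  · intro P hE b hb z hz
    exact plc_block hS.symm (hcut j).symm (fun x hx => hB hx.1) (hxr_EK_sep H (hK k) hE).symm (fun b hb hbK => (hcut k).bK b hb hbK.1) hb hz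

/-! ## §5 TIP -/

/-- a horizontal walk to the right -/
theorem hxr_walk_r {s : Set (ℤ × ℤ)} {x y : ℤ} (n : ℕ) (h : ∀ i : ℕ, i ≤ n → (x + i, y) ∈ s) : TscR tscG s (x, y) (x + n, y) := by
  induction n with
  | zero => simp only [Nat.cast_zero, add_zero]; exact ReflTransGen.refl
  | succ n ih =>
    refine (ih fun i hi => h i (by omega)).tail ⟨?_, h n (by omega), h (n + 1) le_rfl⟩
    show triAdj _ _
    rw [tsc_adj_iff]
    push_cast
    left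
    exact ⟨by ring, rfl⟩

/-- a horizontal walk to the left -/
theorem hxr_walk_l {s : Set (ℤ × ℤ)} {x y : ℤ} (n : ℕ) (h : ∀ i : ℕ, i ≤ n → (x - i, y) ∈ s) : TscR tscG s (x, y) (x - n, y) := by
  induction n with
  | zero => simp only [Nat.cast_zero, sub_zero]; exact ReflTransGen.refl
  | succ n ih =>
    refine (ih fun i hi => h i (by omega)).tail ⟨?_, h n (by omega), h (n + 1) le_rfl⟩
    show triAdj _ _
    rw [tsc_adj_iff]
    push_cast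
    right; right; right; left
    exact ⟨by ring, rfl⟩

/-- the horizontal ray to the right from a site of `AA` stays in `AA` until it hits `a` -/
theorem hxr_AA_ray (H : HxrCr y0 y1 xm xM a p q) {z : ℤ × ℤ} (hz : z ∈ hxrAA y0 y1 xM a) :
    ∃ n : ℕ, (z.1 + n, z.2) ∈ a ∧ ∀ i : ℕ, i ≤ n → (z.1 + i, z.2) ∈ hxrAA y0 y1 xM a := by
  classical
  have hex : ∃ n : ℕ, (z.1 + n, z.2) ∈ a := by
    by_contra hcon
    push Not at hcon
    have hw := hxr_walk_r (s := plsBand y0 y1 \ a) (x := z.1) (y := z.2) ((xM - hxsX z).toNat + 1) (fun i _ => ⟨hz.1, hcon i⟩)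
    refine hz.2 (z.1 + (((xM - hxsX z).toNat + 1 : ℕ) : ℤ), z.2) ⟨hz.1, ?_⟩ hw
    simp only [hxsX]
    push_cast
    have := Int.self_le_toNat (xM - hxsX z)
    simp only [hxsX] at this
    omega
  refine ⟨Nat.find hex, Nat.find_spec hex, fun i hi => ?_⟩
  rcases Nat.lt_or_ge i (Nat.find hex) with h | h
  · exact hxr_sol_R hz (hxr_walk_r (s := plsBand y0 y1 \ a) i fun j hj => ⟨hz.1, Nat.find_min hex (by omega)⟩)
  · have e : i = Nat.find hex := by omega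
    rw [e]
    exact hxr_a_sub_AA H (Nat.find_spec hex)

theorem hxr_CC_ray (H : HxrCr y0 y1 xm xM c p q) {z : ℤ × ℤ} (hz : z ∈ hxrCC y0 y1 xm c) :
    ∃ n : ℕ, (z.1 - n, z.2) ∈ c ∧ ∀ i : ℕ, i ≤ n → (z.1 - i, z.2) ∈ hxrCC y0 y1 xm c := by
  classical
  have hex : ∃ n : ℕ, (z.1 - n, z.2) ∈ c := by
    by_contra hcon
    push Not at hcon
    have hw := hxr_walk_l (s := plsBand y0 y1 \ c) (x := z.1) (y := z.2) ((hxsX z - xm).toNat + 1) (fun i _ => ⟨hz.1, hcon i⟩)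
    refine hz.2 (z.1 - (((hxsX z - xm).toNat + 1 : ℕ) : ℤ), z.2) ⟨hz.1, ?_⟩ hw
    simp only [hxsX]
    push_cast
    have := Int.self_le_toNat (hxsX z - xm)
    simp only [hxsX] at this
    omega
  refine ⟨Nat.find hex, Nat.find_spec hex, fun i hi => ?_⟩
  rcases Nat.lt_or_ge i (Nat.find hex) with h | h
  · exact hxr_sol_R hz (hxr_walk_l (s := plsBand y0 y1 \ c) i fun j hj => ⟨hz.1, Nat.find_min hex (by omega)⟩)
  · have e : i = Nat.find hex := by omega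
    rw [e]
    exact hxr_c_sub_CC H (Nat.find_spec hex)

/-- **the solid left side is connected inside every row-convex window which contains `a`** -/
theorem hxr_AA_win (H : HxrCr y0 y1 xm xM a p q) {R : Set (ℤ × ℤ)}
    (hcv : ∀ u1 u2 u v : ℤ, (u1, v) ∈ R → (u2, v) ∈ R → u1 ≤ u → u ≤ u2 → (u, v) ∈ R) (haR : a ⊆ R) :
    TscConn tscG (hxrAA y0 y1 xM a ∩ R) := by
  have key : ∀ z ∈ hxrAA y0 y1 xM a ∩ R, ∃ k ∈ a, TscR tscG (hxrAA y0 y1 xM a ∩ R) z k := by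
    rintro z ⟨hz, hzR⟩
    obtain ⟨n, hn, hall⟩ := hxr_AA_ray H hz
    exact ⟨_, hn, hxr_walk_r n fun i hi => ⟨hall i hi, hcv z.1 (z.1 + n) _ z.2 hzR (haR hn) (by omega) (by omega)⟩⟩
  intro u hu v hv
  obtain ⟨k, hk, h1⟩ := key u hu
  obtain ⟨k', hk', h2⟩ := key v hv
  exact h1.trans ((tsc_R_mono (t := hxrAA y0 y1 xM a ∩ R) (fun x hx => ⟨hxr_a_sub_AA H hx, haR hx⟩) (H.conn k hk k' hk')).trans (tsc_R_symm h2))

theorem hxr_CC_win (H : HxrCr y0 y1 xm xM c p q) {R : Set (ℤ × ℤ)}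
    (hcv : ∀ u1 u2 u v : ℤ, (u1, v) ∈ R → (u2, v) ∈ R → u1 ≤ u → u ≤ u2 → (u, v) ∈ R) (hcR : c ⊆ R) :
    TscConn tscG (hxrCC y0 y1 xm c ∩ R) := by
  have key : ∀ z ∈ hxrCC y0 y1 xm c ∩ R, ∃ k ∈ c, TscR tscG (hxrCC y0 y1 xm c ∩ R) z k := by
    rintro z ⟨hz, hzR⟩
    obtain ⟨n, hn, hall⟩ := hxr_CC_ray H hz
    exact ⟨_, hn, hxr_walk_l n fun i hi => ⟨hall i hi, hcv (z.1 - n) z.1 _ z.2 (hcR hn) hzR (by omega) (by omega)⟩⟩
  intro u hu v hv
  obtain ⟨k, hk, h1⟩ := key u hu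
  obtain ⟨k', hk', h2⟩ := key v hv
  exact h1.trans ((tsc_R_mono (t := hxrCC y0 y1 xm c ∩ R) (fun x hx => ⟨hxr_c_sub_CC H hx, hcR hx⟩) (H.conn k hk k' hk')).trans (tsc_R_symm h2))

theorem hxr_R_cvx (m L y0 y1 : ℤ) : ∀ u1 u2 u v : ℤ, (u1, v) ∈ hxsR m L y0 y1 → (u2, v) ∈ hxsR m L y0 y1 → u1 ≤ u → u ≤ u2 → (u, v) ∈ hxsR m L y0 y1 := by
  intro u1 u2 u v h1 h2 h3 h4
  simp only [hxsR, hxsX, Set.mem_ofPred_eq] at *
  omega

theorem hxr_cr_sub_R (H : HxrCr y0 y1 xm xM a p q) {m L : ℤ} (h1 : m - L ≤ xm) (h2 : xM ≤ m + L) : a ⊆ hxsR m L y0 y1 := by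
  intro z hz
  have := H.box z hz
  have := H.sub hz
  exact ⟨this.1, this.2, by omega, by omega⟩

/-- the right tip: `a` reaches the axis `X = μ`, the feet of `c` are on the left of the slab `[2 μ - xM, xM]` -/
theorem hxr_tip_right (H : HxrPair y0 y1 xm xM a c pa qa pc qc) {μ : ℤ} (har : ∃ z ∈ a, μ ≤ hxsX z) (hμ : μ + 1 ≤ xM)
    (h1 : hxsX pc + xM < 2 * μ) (h2 : hxsX qc + xM < 2 * μ) :
    ∃ K0 K1 : Set (ℤ × ℤ), HxrPlace y0 y1 (hxrAA y0 y1 xM a) (hxrCC y0 y1 xm c) (hxsM μ) K0 ∧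
      HxrPlace y0 y1 (hxrAA y0 y1 xM a) (hxrCC y0 y1 xm c) (hxsM μ) K1 ∧ (∀ u ∈ K0, ∀ v ∈ K1, u ≠ v ∧ ¬ triAdj u v) ∧
      ∀ v ∈ K0 ∪ K1, 2 * μ - xM ≤ hxsX v := by
  have hy := hxr_pair_le H
  have hpaX : hxsX pa < hxsX pc := by
    have := H.feet
    have := H.A.p0
    have := H.C.p0
    simp only [hxsX]
    omega
  have hxmpa := (H.A.box pa H.A.pa).1
  obtain ⟨L, hL⟩ : ∃ L : ℤ, L = (xM - xm) + (y1 - y0) + 4 := ⟨_, rfl⟩
  have T : HxTip μ L y0 y1 (xM - μ) (hxrAA y0 y1 xM a ∩ hxsR μ L y0 y1) (hxrCC y0 y1 xm c ∩ hxsR μ L y0 y1) := by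
    refine ⟨Set.inter_subset_right, Set.inter_subset_right, hxr_AA_win H.A (hxr_R_cvx _ _ _ _) (hxr_cr_sub_R H.A (by omega) (by omega)),
      hxr_CC_win H.C (hxr_R_cvx _ _ _ _) (hxr_cr_sub_R H.C (by omega) (by omega)), fun u hu v hv => hxr_sep H u hu.1 v hv.1, ?_, ?_, ?_, ?_,
      by omega, by omega, hy⟩
    · intro v hv hX
      exact ⟨hxr_CC_far H.C ⟨hv.1, hv.2.1⟩ (by omega), hv⟩
    · intro v hv hrow hX
      refine ⟨?_, hv⟩
      rcases hrow with h | h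
      · apply hxr_CC_bot H.C h
        have := H.C.p0
        simp only [hxsX] at hX h1
        omega
      · apply hxr_CC_top H.C h
        have := H.C.q1
        simp only [hxsX] at hX h2
        omega
    · obtain ⟨z, hz, hzX⟩ := har
      obtain ⟨w, hw, hw1, hw2⟩ := hxr_ivt_X (m := μ) H.A.pa (H.A.conn pa H.A.pa z hz) (by omega) (by omega)
      exact ⟨w, ⟨hxr_a_sub_AA H.A hw, hxr_cr_sub_R H.A (by omega) (by omega) hw⟩, hw1, hw2⟩
    · refine ⟨((μ - L - y0 + 1) / 2, y0), ⟨hxr_AA_far H.A ⟨le_rfl, hy⟩ ?_, ⟨le_rfl, hy, ?_, ?_⟩⟩, ?_⟩ <;> simp only [hxsX] <;> omega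
  obtain ⟨K0, K1, k0, k1, hsep, hslab⟩ := hxs_tip T
  refine ⟨K0, K1, hxr_place_of (hxs_tip_frame T) k0 fun k hk => ⟨(hslab k (Or.inl hk)).1, (hslab k (Or.inl hk)).2.1⟩,
    hxr_place_of (hxs_tip_frame T) k1 fun k hk => ⟨(hslab k (Or.inr hk)).1, (hslab k (Or.inr hk)).2.1⟩, hsep, fun v hv => ?_⟩
  have := (hslab v hv).2.2.1
  omega

/-- the left tip -/
theorem hxr_tip_left (H : HxrPair y0 y1 xm xM a c pa qa pc qc) {μ : ℤ} (hcl : ∃ z ∈ c, hxsX z ≤ μ) (hμ : xm + 1 ≤ μ)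
    (h1 : 2 * μ < hxsX pa + xm) (h2 : 2 * μ < hxsX qa + xm) :
    ∃ K0 K1 : Set (ℤ × ℤ), HxrPlace y0 y1 (hxrAA y0 y1 xM a) (hxrCC y0 y1 xm c) (hxsM μ) K0 ∧
      HxrPlace y0 y1 (hxrAA y0 y1 xM a) (hxrCC y0 y1 xm c) (hxsM μ) K1 ∧ (∀ u ∈ K0, ∀ v ∈ K1, u ≠ v ∧ ¬ triAdj u v) ∧
      ∀ v ∈ K0 ∪ K1, hxsX v ≤ 2 * μ - xm := by
  have hy := hxr_pair_le H
  have hpaX : hxsX pa < hxsX pc := by
    have := H.feet
    have := H.A.p0
    have := H.C.p0
    simp only [hxsX]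
    omega
  have hxMpc := (H.C.box pc H.C.pa).2
  obtain ⟨L, hL⟩ : ∃ L : ℤ, L = (xM - xm) + (y1 - y0) + 4 := ⟨_, rfl⟩
  have T : HxTip μ L y0 y1 (μ - xm) (hxsM μ '' (hxrCC y0 y1 xm c ∩ hxsR μ L y0 y1)) (hxsM μ '' (hxrAA y0 y1 xM a ∩ hxsR μ L y0 y1)) := by
    refine ⟨?_, ?_, tsc_conn_map (G' := tscG) (hxsM μ) (hxs_M_adj μ) (hxr_CC_win H.C (hxr_R_cvx _ _ _ _) (hxr_cr_sub_R H.C (by omega) (by omega))),
      tsc_conn_map (G' := tscG) (hxsM μ) (hxs_M_adj μ) (hxr_AA_win H.A (hxr_R_cvx _ _ _ _) (hxr_cr_sub_R H.A (by omega) (by omega))), ?_, ?_, ?_, ?_, ?_,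
      by omega, by omega, hy⟩
    · rintro _ ⟨x, hx, rfl⟩
      exact hxs_R_map _ _ _ _ _ hx.2
    · rintro _ ⟨x, hx, rfl⟩
      exact hxs_R_map _ _ _ _ _ hx.2
    · rintro _ ⟨x, hx, rfl⟩ _ ⟨y, hy', rfl⟩
      obtain ⟨s1, s2⟩ := hxr_sep H y hy'.1 x hx.1
      refine ⟨fun h => s1 ?_, fun h => s2 ?_⟩
      · rw [← hxs_M_invol μ y, ← h, hxs_M_invol]
      · have := hxs_M_adj μ _ _ h
        rw [hxs_M_invol, hxs_M_invol] at this
        exact hx_tri_symm _ _ this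
    · intro v hv hX
      refine ⟨hxsM μ v, ⟨hxr_AA_far H.A ⟨hv.1, hv.2.1⟩ ?_, hxs_R_map _ _ _ _ _ hv⟩, hxs_M_invol μ v⟩
      rw [hxs_M_X]
      omega
    · intro v hv hrow hX
      refine ⟨hxsM μ v, ⟨?_, hxs_R_map _ _ _ _ _ hv⟩, hxs_M_invol μ v⟩
      have hXM := hxs_M_X μ v
      rcases hrow with h | h
      · apply hxr_AA_bot H.A (z := hxsM μ v) h
        have := H.A.p0
        have e : (hxsM μ v).2 = y0 := h
        simp only [hxsX] at hX h1 hXM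
        omega
      · apply hxr_AA_top H.A (z := hxsM μ v) h
        have := H.A.q1
        have e : (hxsM μ v).2 = y1 := h
        simp only [hxsX] at hX h2 hXM
        omega
    · obtain ⟨z, hz, hzX⟩ := hcl
      obtain ⟨w, hw, hw1, hw2⟩ := hxr_ivt_X (m := μ) hz (H.C.conn z hz pc H.C.pa) (by omega) (by omega)
      refine ⟨hxsM μ w, ⟨w, ⟨hxr_c_sub_CC H.C hw, hxr_cr_sub_R H.C (by omega) (by omega) hw⟩, rfl⟩, ?_, ?_⟩ <;> rw [hxs_M_X] <;> omega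
    · refine ⟨hxsM μ ((μ + L - y0) / 2, y0), ⟨_, ⟨hxr_CC_far H.C ⟨le_rfl, hy⟩ ?_, ⟨le_rfl, hy, ?_, ?_⟩⟩, rfl⟩, ?_⟩
      · simp only [hxsX]; omega
      · simp only [hxsX]; omega
      · simp only [hxsX]; omega
      · rw [hxs_M_X]; simp only [hxsX]; omega
  obtain ⟨F, K0, K1, k0, k1, hsep, hslab⟩ := hxs_tip_left T
  refine ⟨K0, K1, hxr_place_of F k0 fun k hk => ⟨(hslab k (Or.inl hk)).1, (hslab k (Or.inl hk)).2.1⟩,
    hxr_place_of F k1 fun k hk => ⟨(hslab k (Or.inr hk)).1, (hslab k (Or.inr hk)).2.1⟩, hsep, fun v hv => ?_⟩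
  have := (hslab v hv).2.2.2
  omega

/-- **TIP** (C3 of G1 on both sides + order + blocking) -/
theorem hxr_tip (H : HxrPair y0 y1 xm xM a c pa qa pc qc) {μr μl : ℤ} (har : ∃ z ∈ a, μr ≤ hxsX z) (hcl : ∃ z ∈ c, hxsX z ≤ μl)
    (hr : μr + 1 ≤ xM) (hl : xm + 1 ≤ μl) (h1 : hxsX pc + xM < 2 * μr) (h2 : hxsX qc + xM < 2 * μr)
    (h3 : 2 * μl < hxsX pa + xm) (h4 : 2 * μl < hxsX qa + xm) (h5 : 2 * μl - xm + 2 < 2 * μr - xM) :
    ∃ (μ : Fin 3 → ℤ) (K : Fin 3 → Set (ℤ × ℤ)), (∀ i, μ i = μr ∨ μ i = μl) ∧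
      HxrThree y0 y1 (hxrAA y0 y1 xM a) (hxrCC y0 y1 xm c) (hxrQ y0 y1 xm xM a c) (hxrD y0 y1 xm xM a c) (hxrB y0 y1 xm xM a c)
        (fun i => hxsM (μ i)) K := by
  obtain ⟨K0, K1, k0, k1, hsep, hX⟩ := hxr_tip_right H har hr h1 h2
  obtain ⟨K2, _, k2, _, _, hX'⟩ := hxr_tip_left H hcl hl h3 h4
  have hfarX : ∀ u v : ℤ × ℤ, 2 * μr - xM ≤ hxsX u → hxsX v ≤ 2 * μl - xm → u ≠ v ∧ ¬ triAdj u v := by
    intro u v hu hv
    refine ⟨fun h => by rw [h] at hu; omega, fun h => ?_⟩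
    rw [tsc_adj_iff] at h
    simp only [hxsX] at hu hv
    omega
  have hsymm : ∀ u v : ℤ × ℤ, (u ≠ v ∧ ¬ triAdj u v) → (v ≠ u ∧ ¬ triAdj v u) := fun u v h => ⟨h.1.symm, fun h' => h.2 (hx_tri_symm _ _ h')⟩
  obtain ⟨s, hs⟩ := hxr_three H (fun i => hxsM ((![μr, μr, μl] : Fin 3 → ℤ) i)) ![K0, K1, K2]
    (by
      intro i
      fin_cases i
      · exact k0
      · exact k1
      · exact k2)
    (by
      intro i j hij u hu v hv
      fin_cases i <;> fin_cases j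
      · exact absurd rfl hij
      · exact hsep u hu v hv
      · exact hfarX u v (hX u (Or.inl hu)) (hX' v (Or.inl hv))
      · exact hsymm _ _ (hsep v hv u hu)
      · exact absurd rfl hij
      · exact hfarX u v (hX u (Or.inr hu)) (hX' v (Or.inl hv))
      · exact hsymm _ _ (hfarX v u (hX v (Or.inl hv)) (hX' u (Or.inl hu)))
      · exact hsymm _ _ (hfarX v u (hX v (Or.inr hv)) (hX' u (Or.inl hu)))
      · exact absurd rfl hij)
  refine ⟨fun i => (![μr, μr, μl] : Fin 3 → ℤ) (s i), fun i => (![K0, K1, K2] : Fin 3 → Set (ℤ × ℤ)) (s i), fun i => ?_, hs⟩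
  have hj : ∀ j : Fin 3, (![μr, μr, μl] : Fin 3 → ℤ) j = μr ∨ (![μr, μr, μl] : Fin 3 → ℤ) j = μl := by
    intro j
    fin_cases j <;> simp
  exact hj (s i)

/-! ## §6 TUBE -/

/-- the rotation by 60 degrees: it conjugates the mirror at 30 degrees `hxrSw t` to the vertical mirror `hxsM t` -/
def hxrRot (z : ℤ × ℤ) : ℤ × ℤ := (-z.2, z.1 + z.2)

/-- the inverse rotation -/
def hxrRotI (z : ℤ × ℤ) : ℤ × ℤ := (z.1 + z.2, -z.1)

theorem hxr_rot_eqns_cite : True := by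
  have := @hxrRot.eq_1
  have := @hxrRotI.eq_1
  trivial

theorem hxr_rot_rotI (z : ℤ × ℤ) : hxrRot (hxrRotI z) = z := by
  obtain ⟨x, y⟩ := z
  simp only [hxrRot, hxrRotI, Prod.mk.injEq]
  omega

theorem hxr_rotI_rot (z : ℤ × ℤ) : hxrRotI (hxrRot z) = z := by
  obtain ⟨x, y⟩ := z
  simp only [hxrRot, hxrRotI, Prod.mk.injEq]
  omega

theorem hxr_rot_adj (u v : ℤ × ℤ) (h : triAdj u v) : triAdj (hxrRot u) (hxrRot v) := by
  rw [tsc_adj_iff] at *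
  simp only [hxrRot]
  omega

theorem hxr_rotI_adj (u v : ℤ × ℤ) (h : triAdj u v) : triAdj (hxrRotI u) (hxrRotI v) := by
  rw [tsc_adj_iff] at *
  simp only [hxrRotI]
  omega

theorem hxr_rot_sw (t : ℤ) (z : ℤ × ℤ) : hxsM t (hxrRot z) = hxrRot (hxrSw t z) := by
  obtain ⟨x, y⟩ := z
  simp only [hxrRot, hxsM, hxrSw, Prod.mk.injEq]
  omega

theorem hxr_rotI_M (t : ℤ) (z : ℤ × ℤ) : hxrRotI (hxsM t (hxrRot z)) = hxrSw t z := by
  rw [hxr_rot_sw, hxr_rotI_rot]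

theorem hxr_sw_invol (t : ℤ) (v : ℤ × ℤ) : hxrSw t (hxrSw t v) = v := by
  obtain ⟨x, y⟩ := v
  simp only [hxrSw, Prod.mk.injEq]
  omega

theorem hxr_sw_adj (t : ℤ) (u v : ℤ × ℤ) (h : triAdj u v) : triAdj (hxrSw t u) (hxrSw t v) := by
  rw [tsc_adj_iff] at *
  simp only [hxrSw]
  omega

/-- transport of a crossing of a place by the inverse rotation -/
theorem hxr_EK_rot {AA CC K' P' : Set (ℤ × ℤ)} (h : HxEK {z | hxrRotI z ∈ AA} {z | hxrRotI z ∈ CC} K' P') :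
    HxEK AA CC {z | hxrRot z ∈ K'} {z | hxrRot z ∈ P'} := by
  obtain ⟨u, v, hu, hv, ⟨x, hx, h1⟩, ⟨y, hy, h2⟩, h3⟩ := h
  have hm : ∀ z ∈ K' ∩ P', hxrRotI z ∈ ({z | hxrRot z ∈ K'} ∩ {z | hxrRot z ∈ P'} : Set (ℤ × ℤ)) := by
    intro z hz
    constructor
    · show hxrRot (hxrRotI z) ∈ K'
      rw [hxr_rot_rotI]; exact hz.1
    · show hxrRot (hxrRotI z) ∈ P'
      rw [hxr_rot_rotI]; exact hz.2
  exact ⟨hxrRotI u, hxrRotI v, hm u hu, hm v hv, ⟨hxrRotI x, hx, hxr_rotI_adj _ _ h1⟩, ⟨hxrRotI y, hy, hxr_rotI_adj _ _ h2⟩,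
    plc_R_map (G := tscG) hxrRotI hxr_rotI_adj hm h3⟩

/-- a place for the vertical mirror in the rotated picture is a place for the mirror at 30 degrees -/
theorem hxr_place_rot {s0 s1 t : ℤ} {AA CC K' : Set (ℤ × ℤ)} (hK : HxrPlace s0 s1 {z | hxrRotI z ∈ AA} {z | hxrRotI z ∈ CC} (hxsM t) K')
    (hrows : ∀ k, hxrRot k ∈ K' → y0 < k.2 ∧ k.2 < y1) : HxrPlace y0 y1 AA CC (hxrSw t) {z | hxrRot z ∈ K'} where
  invol := hxr_sw_invol t
  adj := hxr_sw_adj t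
  conn := by
    intro u hu v hv
    have h := plc_R_map (G := tscG) (s' := {z | hxrRot z ∈ K'}) hxrRotI hxr_rotI_adj
      (fun x hx => by show hxrRot (hxrRotI x) ∈ K'; rw [hxr_rot_rotI]; exact hx) (hK.conn _ hu _ hv)
    rwa [hxr_rotI_rot, hxr_rotI_rot] at h
  rows := hrows
  free := fun k hk => by
    obtain ⟨f1, f2, f3, f4⟩ := hK.free _ hk
    refine ⟨fun h => f1 ?_, fun h => f2 ?_, fun h => f3 ?_, fun h => f4 ?_⟩
    · show hxrRotI (hxrRot k) ∈ AA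
      rw [hxr_rotI_rot]; exact h
    · show hxrRotI (hxrRot k) ∈ CC
      rw [hxr_rotI_rot]; exact h
    · show hxrRotI (hxsM t (hxrRot k)) ∈ AA
      rw [hxr_rotI_M]; exact h
    · show hxrRotI (hxsM t (hxrRot k)) ∈ CC
      rw [hxr_rotI_M]; exact h
  max := fun k hk v hv => by
    rcases hK.max _ hk _ (hxr_rot_adj _ _ hv) with h | h | h | h | h
    · exact Or.inl h
    · have h' : hxrRotI (hxrRot v) ∈ AA := h
      rw [hxr_rotI_rot] at h'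
      exact Or.inr (Or.inl h')
    · have h' : hxrRotI (hxrRot v) ∈ CC := h
      rw [hxr_rotI_rot] at h'
      exact Or.inr (Or.inr (Or.inl h'))
    · have h' : hxrRotI (hxsM t (hxrRot v)) ∈ AA := h
      rw [hxr_rotI_M] at h'
      exact Or.inr (Or.inr (Or.inr (Or.inl h')))
    · have h' : hxrRotI (hxsM t (hxrRot v)) ∈ CC := h
      rw [hxr_rotI_M] at h'
      exact Or.inr (Or.inr (Or.inr (Or.inr h')))
  inv := fun k hk => by
    show hxrRot (hxrSw t k) ∈ K'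
    rw [← hxr_rot_sw]
    exact hK.inv _ hk
  cross := by
    have := hxr_EK_rot hK.cross
    exact hxs_EK_mono (fun _ _ => trivial) this
  dich := fun P => by
    rcases hK.dich {z | hxrRotI z ∈ P} with h | h
    · left
      refine hxs_EK_mono (fun z hz => ?_) (hxr_EK_rot h)
      have h' : hxrRotI (hxrRot z) ∈ P := hz
      rwa [hxr_rotI_rot] at h'
    · right
      refine hxs_EK_mono (fun z hz => ?_) (hxr_EK_rot h)
      have h' : hxrRotI (hxsM t (hxrRot z)) ∉ P := hz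
      rwa [hxr_rotI_M] at h'

/-- connectivity in the rotated picture -/
theorem hxr_rot_conn {S R' : Set (ℤ × ℤ)} (h : TscConn tscG (S ∩ {z | hxrRot z ∈ R'})) : TscConn tscG ({z | hxrRotI z ∈ S} ∩ R') := by
  intro u hu v hv
  have hu' : hxrRotI u ∈ S ∩ {z | hxrRot z ∈ R'} := ⟨hu.1, by show hxrRot (hxrRotI u) ∈ R'; rw [hxr_rot_rotI]; exact hu.2⟩
  have hv' : hxrRotI v ∈ S ∩ {z | hxrRot z ∈ R'} := ⟨hv.1, by show hxrRot (hxrRotI v) ∈ R'; rw [hxr_rot_rotI]; exact hv.2⟩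
  have h1 := plc_R_map (G := tscG) (s' := {z | hxrRotI z ∈ S} ∩ R') hxrRot hxr_rot_adj
    (fun x hx => ⟨by show hxrRotI (hxrRot x) ∈ S; rw [hxr_rotI_rot]; exact hx.1, hx.2⟩) (h _ hu' _ hv')
  rwa [hxr_rot_rotI, hxr_rot_rotI] at h1

/-- a place of a small region is a place of every larger region which contains its neighbourhood -/
theorem hxr_place_big {R R' AA CC K : Set (ℤ × ℤ)} {ρ : ℤ × ℤ → ℤ × ℤ} (hK : HxPlace R AA CC ρ K) (hsub : K ⊆ R')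
    (hnb : ∀ k ∈ K, ∀ v, triAdj k v → v ∈ R' ∧ ρ v ∈ R') : HxPlace R' (AA ∩ R') (CC ∩ R') ρ K where
  conn := hK.conn
  sub := hsub
  free := fun k hk => ⟨fun h => (hK.free k hk).1 h.1, fun h => (hK.free k hk).2.1 h.1, fun h => (hK.free k hk).2.2.1 h.1, fun h => (hK.free k hk).2.2.2 h.1⟩
  max := fun k hk v hv => by
    obtain ⟨n1, n2⟩ := hnb k hk v hv
    rcases hK.max k hk v hv with h | h | h | h | h
    · exact Or.inl h
    · exact Or.inr (Or.inl ⟨h, n1⟩)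
    · exact Or.inr (Or.inr (Or.inl ⟨h, n1⟩))
    · exact Or.inr (Or.inr (Or.inr (Or.inl ⟨h, n2⟩)))
    · exact Or.inr (Or.inr (Or.inr (Or.inr ⟨h, n2⟩)))
  inv := hK.inv
  cornA := by
    obtain ⟨k, hk, ⟨x, hx, h1⟩, ⟨y, hy, h2⟩⟩ := hK.cornA
    exact ⟨k, hk, ⟨x, ⟨hx, (hnb k hk x h1).1⟩, h1⟩, ⟨y, ⟨hy, (hnb k hk y h2).2⟩, h2⟩⟩
  cornC := by
    obtain ⟨k, hk, ⟨x, hx, h1⟩, ⟨y, hy, h2⟩⟩ := hK.cornC
    exact ⟨k, hk, ⟨x, ⟨hx, (hnb k hk x h1).1⟩, h1⟩, ⟨y, ⟨hy, (hnb k hk y h2).2⟩, h2⟩⟩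

/-- one mirror at 30 degrees through the point of the tube at the height `h` -/
theorem hxr_tube_one (H : HxrPair y0 y1 xm xM a c pa qa pc qc) {h t : ℤ} (ht : xm + xM - 1 ≤ 2 * (2 * t + 3 * h) ∧ 2 * (2 * t + 3 * h) ≤ xm + xM + 3)
    (h0 : y0 + 2 * (xM - xm) + 8 ≤ h) (h1 : h + 2 * (xM - xm) + 8 ≤ y1) :
    ∃ K : Set (ℤ × ℤ), HxrPlace y0 y1 (hxrAA y0 y1 xM a) (hxrCC y0 y1 xm c) (hxrSw t) K ∧ ∀ v ∈ K, h - (xM - xm) - 2 ≤ v.2 ∧ v.2 ≤ h + (xM - xm) + 2 := by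
  classical
  have hw0 : 0 ≤ xM - xm := by
    have := H.A.box pa H.A.pa
    omega
  obtain ⟨ht1, ht2⟩ := ht
  obtain ⟨w, hw⟩ : ∃ w : ℤ, w = xM - xm := ⟨_, rfl⟩
  obtain ⟨sc, hsc⟩ : ∃ sc : ℤ, sc = 2 * h + t := ⟨_, rfl⟩
  obtain ⟨AA', hAA'⟩ : ∃ AA' : Set (ℤ × ℤ), AA' = {z | hxrRotI z ∈ hxrAA y0 y1 xM a} := ⟨_, rfl⟩
  obtain ⟨CC', hCC'⟩ : ∃ CC' : Set (ℤ × ℤ), CC' = {z | hxrRotI z ∈ hxrCC y0 y1 xm c} := ⟨_, rfl⟩
  have inA : ∀ z : ℤ × ℤ, y0 ≤ -z.1 → -z.1 ≤ y1 → z.1 + 2 * z.2 < xm → z ∈ AA' := by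
    intro z z1 z2 z3
    rw [hAA']
    exact hxr_AA_far H.A (z := hxrRotI z) ⟨z1, z2⟩ (by simp only [hxsX, hxrRotI]; omega)
  have inC : ∀ z : ℤ × ℤ, y0 ≤ -z.1 → -z.1 ≤ y1 → xM < z.1 + 2 * z.2 → z ∈ CC' := by
    intro z z1 z2 z3
    rw [hCC']
    exact hxr_CC_far H.C (z := hxrRotI z) ⟨z1, z2⟩ (by simp only [hxsX, hxrRotI]; omega)
  have sep' : ∀ u ∈ AA', ∀ v ∈ CC', u ≠ v ∧ ¬ triAdj u v := by
    intro u hu v hv
    rw [hAA'] at hu
    rw [hCC'] at hv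
    obtain ⟨s1, s2⟩ := hxr_sep H _ hu _ hv
    exact ⟨fun e => s1 (by rw [e]), fun e => s2 (hxr_rotI_adj _ _ e)⟩
  -- the free region of the small rectangle lies in the rhombus
  have hslab : ∀ v ∈ hxsF t (w + 2) (sc - (w + 6)) (sc + (w + 6)) AA' CC',
      sc - (w + 6) < v.2 ∧ v.2 < sc + (w + 6) ∧ t - w ≤ hxsX v ∧ hxsX v ≤ t + w := by
    rintro v ⟨⟨r1, r2, r3, r4⟩, f1, f2, f3, f4⟩
    simp only [hxsX] at r3 r4
    have b1 : xm ≤ v.1 + 2 * v.2 := by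
      by_contra hc
      exact f1 (inA v (by omega) (by omega) (by omega))
    have b2 : v.1 + 2 * v.2 ≤ xM := by
      by_contra hc
      exact f2 (inC v (by omega) (by omega) (by omega))
    have b3 : xm ≤ t - v.1 + v.2 := by
      by_contra hc
      exact f3 (inA _ (by simp only [hxsM]; omega) (by simp only [hxsM]; omega) (by simp only [hxsM]; omega))
    have b4 : t - v.1 + v.2 ≤ xM := by
      by_contra hc
      exact f4 (inC _ (by simp only [hxsM]; omega) (by simp only [hxsM]; omega) (by simp only [hxsM]; omega))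
    simp only [hxsX]
    refine ⟨by omega, by omega, by omega, by omega⟩
  -- the levels of the thick axis
  let rowA : ℤ → Prop := fun y => ∃ z ∈ AA', z.2 = y ∧ t - 1 ≤ hxsX z ∧ hxsX z ≤ t + 1
  let rowC : ℤ → Prop := fun y => ∃ z ∈ CC', z.2 = y ∧ t - 1 ≤ hxsX z ∧ hxsX z ≤ t + 1
  have excl : ∀ y y', rowA y → rowC y' → y' ≠ y ∧ y' ≠ y + 1 ∧ y ≠ y' + 1 := by
    rintro y y' ⟨z, hz, rfl, hzX⟩ ⟨z', hz', rfl, hzX'⟩
    refine ⟨fun e => ?_, fun e => ?_, fun e => ?_⟩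
    · rcases hxs_ax_row hzX hzX' e with h' | h'
      · exact (sep' z hz z' hz').1 h'
      · exact (sep' z hz z' hz').2 h'
    · exact (sep' z hz z' hz').2 (hxs_ax_adj hzX hzX' (Or.inl e))
    · exact (sep' z hz z' hz').2 (hxs_ax_adj hzX hzX' (Or.inr e))
  have rowA0 : rowA (sc - (w + 5)) := by
    refine ⟨hxsAx t (sc - (w + 5)), inA _ ?_ ?_ ?_, rfl, hxs_Ax_X t _⟩ <;> simp only [hxsAx] <;> omega
  have rowC1 : rowC (sc + (w + 5)) := by
    refine ⟨hxsAx t (sc + (w + 5)), inC _ ?_ ?_ ?_, rfl, hxs_Ax_X t _⟩ <;> simp only [hxsAx] <;> omega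
  obtain ⟨sA, ⟨hsA, hsAlt⟩, hsAmax⟩ := Int.exists_greatest_of_bdd (P := fun y => rowA y ∧ y < sc + (w + 5)) ⟨sc + (w + 5), fun z hz => hz.2.le⟩
    ⟨sc - (w + 5), rowA0, by omega⟩
  obtain ⟨sC, ⟨hsC, hsClt⟩, hsCmin⟩ := Int.exists_least_of_bdd (P := fun y => rowC y ∧ sA < y) ⟨sA, fun z hz => hz.2.le⟩ ⟨sc + (w + 5), rowC1, hsAlt⟩
  have hsA0 : sc - (w + 5) ≤ sA := hsAmax _ ⟨rowA0, by omega⟩
  have hsC1 : sC ≤ sc + (w + 5) := hsCmin _ ⟨rowC1, hsAlt⟩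
  have e0 := excl sA sC hsA hsC
  have seg : hxsSeg t (sA + 1) (sC - 1) ⊆ hxsF t (w + 2) (sc - (w + 6)) (sc + (w + 6)) AA' CC' := by
    intro v hv
    obtain ⟨v1, v2, v3, v4⟩ := hv
    have nA : ¬ rowA v.2 := fun hr => by
      have := hsAmax v.2 ⟨hr, by omega⟩
      omega
    have nC : ¬ rowC v.2 := fun hr => by
      have := hsCmin v.2 ⟨hr, by omega⟩
      omega
    refine ⟨⟨by omega, by omega, by omega, by omega⟩, fun hA => nA ⟨v, hA, rfl, v3, v4⟩, fun hC => nC ⟨v, hC, rfl, v3, v4⟩,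
      fun hA => nA ⟨_, hA, rfl, ?_, ?_⟩, fun hC => nC ⟨_, hC, rfl, ?_, ?_⟩⟩ <;> rw [hxs_M_X] <;> omega
  obtain ⟨za, hza, hzar, hzaX⟩ := hsA
  obtain ⟨zc, hzc, hzcr, hzcX⟩ := hsC
  have P0 := hxs_run_place (lo := sA + 1) (hi := sC - 1) hslab le_rfl (by omega) seg hza hzaX hzc hzcX (Or.inr ⟨by omega, by omega⟩)
  obtain ⟨K', hK'⟩ : ∃ K' : Set (ℤ × ℤ), K' = tscComp tscG (hxsF t (w + 2) (sc - (w + 6)) (sc + (w + 6)) AA' CC') (hxsAx t (sA + 1)) := ⟨_, rfl⟩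
  rw [← hK'] at P0
  have hKslab : ∀ k ∈ K', sc - (w + 6) < k.2 ∧ k.2 < sc + (w + 6) ∧ t - w ≤ hxsX k ∧ hxsX k ≤ t + w := by
    intro k hk
    rw [hK'] at hk
    exact hslab k hk.1
  -- the large frame
  obtain ⟨Lb, hLb⟩ : ∃ Lb : ℤ, Lb = w + 3 * (y1 - y0) + 10 := ⟨_, rfl⟩
  have hcv : ∀ u1 u2 u v : ℤ, (u1, v) ∈ {z | hxrRot z ∈ hxsR t Lb (sc - 2 * Lb) (sc + 2 * Lb)} → (u2, v) ∈ {z | hxrRot z ∈ hxsR t Lb (sc - 2 * Lb) (sc + 2 * Lb)} →
      u1 ≤ u → u ≤ u2 → (u, v) ∈ {z | hxrRot z ∈ hxsR t Lb (sc - 2 * Lb) (sc + 2 * Lb)} := by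
    intro u1 u2 u v m1 m2 m3 m4
    simp only [hxsR, hxsX, hxrRot, Set.mem_ofPred_eq] at *
    omega
  have hboxR : ∀ z : ℤ × ℤ, z ∈ plsBand y0 y1 → xm ≤ hxsX z → hxsX z ≤ xM → z ∈ {z | hxrRot z ∈ hxsR t Lb (sc - 2 * Lb) (sc + 2 * Lb)} := by
    intro z z1 z2 z3
    obtain ⟨z4, z5⟩ := z1
    simp only [hxsR, hxsX, hxrRot, Set.mem_ofPred_eq] at *
    omega
  have F : HxFrame (hxsR t Lb (sc - 2 * Lb) (sc + 2 * Lb)) (AA' ∩ hxsR t Lb (sc - 2 * Lb) (sc + 2 * Lb)) (CC' ∩ hxsR t Lb (sc - 2 * Lb) (sc + 2 * Lb)) (hxsM t) := by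
    refine ⟨hxs_R_sc _ _ _ _, hxs_R_finite _ _ _ _, hxs_M_invol t, hxs_M_adj t, hxs_R_map _ _ _ _, Set.inter_subset_right, Set.inter_subset_right,
      ?_, ?_, fun u hu v hv => sep' u hu.1 v hv.1, ?_, ?_, ?_, ?_⟩
    · rw [hAA']
      exact hxr_rot_conn (hxr_AA_win H.A hcv fun z hz => hboxR z (H.A.sub hz) (H.A.box z hz).1 (H.A.box z hz).2)
    · rw [hCC']
      exact hxr_rot_conn (hxr_CC_win H.C hcv fun z hz => hboxR z (H.C.sub hz) (H.C.box z hz).1 (H.C.box z hz).2)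
    · refine ⟨hxrRot (h + t - Lb, h), ⟨inA _ ?_ ?_ ?_, ?_⟩, hxrRot (h + t - Lb - 1, h), ?_, hxr_rot_adj _ _ ?_⟩
      · simp only [hxrRot]; omega
      · simp only [hxrRot]; omega
      · simp only [hxrRot]; omega
      · simp only [hxsR, hxsX, hxrRot, Set.mem_ofPred_eq]; omega
      · simp only [hxsR, hxsX, hxrRot, Set.mem_ofPred_eq]; omega
      · rw [tsc_adj_iff]; simp
    · refine ⟨hxrRot (h + t + Lb, h), ⟨inC _ ?_ ?_ ?_, ?_⟩, hxrRot (h + t + Lb + 1, h), ?_, hxr_rot_adj _ _ ?_⟩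
      · simp only [hxrRot]; omega
      · simp only [hxrRot]; omega
      · simp only [hxrRot]; omega
      · simp only [hxsR, hxsX, hxrRot, Set.mem_ofPred_eq]; omega
      · simp only [hxsR, hxsX, hxrRot, Set.mem_ofPred_eq]; omega
      · rw [tsc_adj_iff]; simp
    · refine ⟨hxrRot (h + t - w - 4, h + w + 4), ⟨inA _ ?_ ?_ ?_, ?_⟩, ⟨inC _ ?_ ?_ ?_, ?_⟩⟩
      · simp only [hxrRot]; omega
      · simp only [hxrRot]; omega
      · simp only [hxrRot]; omega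
      · simp only [hxsR, hxsX, hxrRot, Set.mem_ofPred_eq]; omega
      · simp only [hxrRot, hxsM]; omega
      · simp only [hxrRot, hxsM]; omega
      · simp only [hxrRot, hxsM]; omega
      · simp only [hxsR, hxsX, hxrRot, hxsM, Set.mem_ofPred_eq]; omega
    · refine Or.inl ⟨hxrRot (h + t + w + 4, h + w + 4), ⟨inC _ ?_ ?_ ?_, ?_⟩, ⟨inC _ ?_ ?_ ?_, ?_⟩⟩
      · simp only [hxrRot]; omega
      · simp only [hxrRot]; omega
      · simp only [hxrRot]; omega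
      · simp only [hxsR, hxsX, hxrRot, Set.mem_ofPred_eq]; omega
      · simp only [hxrRot, hxsM]; omega
      · simp only [hxrRot, hxsM]; omega
      · simp only [hxrRot, hxsM]; omega
      · simp only [hxsR, hxsX, hxrRot, hxsM, Set.mem_ofPred_eq]; omega
  have hnbR : ∀ k ∈ K', ∀ v, (v = k ∨ triAdj k v) → v ∈ hxsR t Lb (sc - 2 * Lb) (sc + 2 * Lb) := by
    intro k hk v hv
    obtain ⟨k1, k2, k3, k4⟩ := hKslab k hk
    rcases hv with rfl | hv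
    · simp only [hxsR, hxsX, Set.mem_ofPred_eq] at *
      omega
    · rw [tsc_adj_iff] at hv
      simp only [hxsR, hxsX, Set.mem_ofPred_eq] at *
      omega
  have Pb := hxr_place_big (R' := hxsR t Lb (sc - 2 * Lb) (sc + 2 * Lb)) P0 (fun k hk => hnbR k hk k (Or.inl rfl))
    (fun k hk v hv => ⟨hnbR k hk v (Or.inr hv), hxs_R_map _ _ _ _ _ (hnbR k hk v (Or.inr hv))⟩)
  have Pr : HxrPlace (sc - (w + 6)) (sc + (w + 6)) AA' CC' (hxsM t) K' := hxr_place_of F Pb fun k hk => ⟨(hKslab k hk).1, (hKslab k hk).2.1⟩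
  rw [hAA', hCC'] at Pr
  have hrow : ∀ k : ℤ × ℤ, hxrRot k ∈ K' → h - (xM - xm) - 2 ≤ k.2 ∧ k.2 ≤ h + (xM - xm) + 2 := by
    intro k hk
    obtain ⟨k1, k2, k3, k4⟩ := hKslab _ hk
    simp only [hxsX, hxrRot] at k1 k2 k3 k4
    constructor <;> omega
  refine ⟨{z | hxrRot z ∈ K'}, hxr_place_rot Pr fun k hk => ?_, fun v hv => hrow v hv⟩
  have := hrow k hk
  constructor <;> omega

/-- **TUBE** (C4 of G1 + order + blocking) -/
theorem hxr_tube (H : HxrPair y0 y1 xm xM a c pa qa pc qc) (hW : 12 * (xM - xm) + 64 ≤ y1 - y0) :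
    ∃ (t : Fin 3 → ℤ) (K : Fin 3 → Set (ℤ × ℤ)),
      HxrThree y0 y1 (hxrAA y0 y1 xM a) (hxrCC y0 y1 xm c) (hxrQ y0 y1 xm xM a c) (hxrD y0 y1 xm xM a c) (hxrB y0 y1 xm xM a c)
        (fun i => hxrSw (t i)) K := by
  have hw : 0 ≤ xM - xm := by
    have := H.A.box pa H.A.pa
    omega
  have one : ∀ h : ℤ, y0 + 2 * (xM - xm) + 8 ≤ h → h + 2 * (xM - xm) + 8 ≤ y1 →
      ∃ (t : ℤ) (K : Set (ℤ × ℤ)), HxrPlace y0 y1 (hxrAA y0 y1 xM a) (hxrCC y0 y1 xm c) (hxrSw t) K ∧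
        ∀ v ∈ K, h - (xM - xm) - 2 ≤ v.2 ∧ v.2 ≤ h + (xM - xm) + 2 := by
    intro h h0 h1
    obtain ⟨K, hK, hr⟩ := hxr_tube_one H (h := h) (t := (xm + xM + 3 - 6 * h) / 4) (by constructor <;> omega) h0 h1
    exact ⟨_, K, hK, hr⟩
  obtain ⟨t0, K0, k0, r0⟩ := one (y0 + 2 * (xM - xm) + 8) le_rfl (by omega)
  obtain ⟨t1, K1, k1, r1⟩ := one (y0 + 4 * (xM - xm) + 14) (by omega) (by omega)
  obtain ⟨t2, K2, k2, r2⟩ := one (y0 + 6 * (xM - xm) + 20) (by omega) (by omega)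
  have hfarY : ∀ (u v : ℤ × ℤ) (m : ℤ), u.2 ≤ m → m + 2 ≤ v.2 → (u ≠ v ∧ ¬ triAdj u v) ∧ (v ≠ u ∧ ¬ triAdj v u) := by
    intro u v m hu hv
    refine ⟨⟨fun h => by rw [h] at hu; omega, fun h => ?_⟩, ⟨fun h => by rw [h] at hv; omega, fun h => ?_⟩⟩
    · rw [tsc_adj_iff] at h
      omega
    · rw [tsc_adj_iff] at h
      omega
  obtain ⟨s, hs⟩ := hxr_three H (fun i => hxrSw ((![t0, t1, t2] : Fin 3 → ℤ) i)) ![K0, K1, K2]
    (by
      intro i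
      fin_cases i
      · exact k0
      · exact k1
      · exact k2)
    (by
      intro i j hij u hu v hv
      fin_cases i <;> fin_cases j
      · exact absurd rfl hij
      · exact (hfarY u v _ (r0 u hu).2 (by have := (r1 v hv).1; omega)).1
      · exact (hfarY u v _ (r0 u hu).2 (by have := (r2 v hv).1; omega)).1
      · exact (hfarY v u _ (r0 v hv).2 (by have := (r1 u hu).1; omega)).2
      · exact absurd rfl hij
      · exact (hfarY u v _ (r1 u hu).2 (by have := (r2 v hv).1; omega)).1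
      · exact (hfarY v u _ (r0 v hv).2 (by have := (r2 u hu).1; omega)).2
      · exact (hfarY v u _ (r1 v hv).2 (by have := (r2 u hu).1; omega)).2
      · exact absurd rfl hij)
  exact ⟨fun i => (![t0, t1, t2] : Fin 3 → ℤ) (s i), fun i => (![K0, K1, K2] : Fin 3 → Set (ℤ × ℤ)) (s i), hs⟩

end band

end Claimed.Agent.R291
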