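import Claimed.Agent.R291.Pl.Strip
import Claimed.Agent.R291.Pl.SetForm
import Claimed.Agent.R291.Ann.Place
import Claimed.Agent.R291.Defs.Lat

/-!
# Row 291 (S0539), unit PLA / ANN A3-II (L), Pl/Closed : THE CLOSED STRIP ON THE SITE LATTICE      (owner helper187; prefix `pcl_`, `Pcl`)

The strip `Q = sites(M)` of PART II of (56) is CLOSED: it contains the layers `La`, `Lc`.   The gluing set of a place must be a full component `K` of `Q ∩ ρ Q` (`gl_double` of 31: `comp`).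
THIN TIP TRAP (alert of 187, 07:40Z): two FREE places of one axis may lie in ONE component of `Q ∩ ρ Q`.   CURE: the separating cell of the axis is a CORE cell (a cell of the explored cluster `I`: none of its sites lies in `Q`).

* `pcl_run_up`, `pcl_run_dn`   maximal runs of the thick axis inside `Q`
* **`pcl_c2`**        CLOSED C2: two full rows `j0 < j1` of the thick axis with a broken row strictly between are not joined inside `Q ∩ ρ Q`      (`plc_c2` of 36 on the site lattice; `hno`, `hRN`, `hNR` from maximality)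
* `pcl_cell_seg`, `pcl_cell_thick`   an up-cell on the thick axis of the indices: its sites and those of its mirror image cover the rows `j`, `j + 1` of the thick axis of the sites
* **`pcl_c2_cells`**  the same for the sites of two axis cells `k0`, `k1` (with their mirror images inside `Q`) and a core cell `i0` of the axis, `k0.2 < i0.2 < k1.2`
* `PclBarL`, `PclBarR`   BARRIERS: every site of `La` has a neighbour off `Q` which is joined to the far left off `Q` (inside the band)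
* **`pcl_jq`**        (JQ) on the sites: a path of `Q` from `La` to `Lc` meets every path of `Q` from the bottom row to the top row;   `pcl_sep` : `PlcSep`
* `pcl_cutset`        a connected subset of `Q` off the extreme rows which contains a path from `La` to `Lc` is a `PlcCutset`
* **`pcl_order`**, **`pcl_block`**   three pairwise disjoint cutsets: one in the middle; a path from `La` to `Lc` inside the lower one stops every walk from the bottom row to the middle one or to a neighbour of it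
-/

set_option autoImplicit false
set_option linter.unusedSectionVars false
set_option linter.unusedVariables false
set_option linter.unusedSimpArgs false

namespace Claimed.Agent.R291

open Relation Claims Claims.C0467

/-! ## §1 maximal runs of the thick axis -/

theorem pcl_seg_mem {μ ya yb : ℤ} {v : ℤ × ℤ} : v ∈ hxsSeg μ ya yb ↔ ya ≤ v.2 ∧ v.2 ≤ yb ∧ μ - 1 ≤ 2 * v.1 + v.2 ∧ 2 * v.1 + v.2 ≤ μ + 1 := Iff.rfl

/-- a run is made of its rows -/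
theorem pcl_seg_rows {μ ya yb : ℤ} {Q : Set (ℤ × ℤ)} (h : ∀ y, ya ≤ y → y ≤ yb → hxsSeg μ y y ⊆ Q) : hxsSeg μ ya yb ⊆ Q := by
  intro v hv
  obtain ⟨h1, h2, h3, h4⟩ := pcl_seg_mem.1 hv
  exact h v.2 h1 h2 (pcl_seg_mem.2 ⟨le_rfl, le_rfl, h3, h4⟩)

theorem pcl_seg_row {μ ya yb y : ℤ} {Q : Set (ℤ × ℤ)} (h : hxsSeg μ ya yb ⊆ Q) (h1 : ya ≤ y) (h2 : y ≤ yb) : hxsSeg μ y y ⊆ Q := by
  intro v hv
  obtain ⟨g1, g2, g3, g4⟩ := pcl_seg_mem.1 hv
  exact h (pcl_seg_mem.2 ⟨by omega, by omega, g3, g4⟩)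

/-- the run upwards from a full row stops below a broken row -/
theorem pcl_run_up {μ : ℤ} {Q : Set (ℤ × ℤ)} (n : ℕ) : ∀ j0 js : ℤ, js - j0 = n → hxsSeg μ j0 j0 ⊆ Q → ¬ hxsSeg μ js js ⊆ Q →
    ∃ hi, j0 ≤ hi ∧ hi < js ∧ hxsSeg μ j0 hi ⊆ Q ∧ ¬ hxsSeg μ (hi + 1) (hi + 1) ⊆ Q := by
  induction n with
  | zero =>
    intro j0 js h h0 hs
    have : js = j0 := by push_cast at h; omega
    exact absurd (this ▸ h0) hs
  | succ n ih =>
    intro j0 js h h0 hs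
    by_cases h1 : hxsSeg μ (j0 + 1) (j0 + 1) ⊆ Q
    · obtain ⟨hi, a1, a2, a3, a4⟩ := ih (j0 + 1) js (by push_cast at h ⊢; omega) h1 hs
      refine ⟨hi, by omega, a2, pcl_seg_rows fun y y1 y2 => ?_, a4⟩
      rcases eq_or_lt_of_le y1 with rfl | y1
      · exact h0
      · exact pcl_seg_row a3 (by omega) y2
    · have hlt : j0 < js := by push_cast at h; omega
      exact ⟨j0, le_rfl, hlt, h0, h1⟩

/-- the run downwards from a full row stops above a broken row -/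
theorem pcl_run_dn {μ : ℤ} {Q : Set (ℤ × ℤ)} (n : ℕ) : ∀ j0 jb : ℤ, j0 - jb = n → hxsSeg μ j0 j0 ⊆ Q → ¬ hxsSeg μ jb jb ⊆ Q →
    ∃ lo, lo ≤ j0 ∧ jb < lo ∧ hxsSeg μ lo j0 ⊆ Q ∧ ¬ hxsSeg μ (lo - 1) (lo - 1) ⊆ Q := by
  induction n with
  | zero =>
    intro j0 jb h h0 hs
    have : jb = j0 := by push_cast at h; omega
    exact absurd (this ▸ h0) hs
  | succ n ih =>
    intro j0 jb h h0 hs
    by_cases h1 : hxsSeg μ (j0 - 1) (j0 - 1) ⊆ Q
    · obtain ⟨lo, a1, a2, a3, a4⟩ := ih (j0 - 1) jb (by push_cast at h ⊢; omega) h1 hs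
      refine ⟨lo, by omega, a2, pcl_seg_rows fun y y1 y2 => ?_, a4⟩
      rcases eq_or_lt_of_le y2 with rfl | y2
      · exact h0
      · exact pcl_seg_row a3 y1 (by omega)
    · have hlt : jb < j0 := by push_cast at h; omega
      exact ⟨j0, le_rfl, hlt, h0, h1⟩

/-- two horizontal neighbours astride the axis cover the thick sites of their row -/
theorem pcl_row_cover {μ y : ℤ} {Q : Set (ℤ × ℤ)} {r n : ℤ × ℤ} (hr : r ∈ Q) (hn : n ∈ Q) (h1 : r.2 = y) (h2 : n.2 = y) (h3 : r.1 = n.1 + 1)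
    (h4 : 2 * n.1 + n.2 ≤ μ) (h5 : μ < 2 * r.1 + r.2) : hxsSeg μ y y ⊆ Q := by
  intro z hz
  obtain ⟨g1, g2, g3, g4⟩ := pcl_seg_mem.1 hz
  have : z = n ∨ z = r := by
    by_cases h : z.1 = n.1
    · exact Or.inl (Prod.ext h (by omega))
    · exact Or.inr (Prod.ext (by omega) (by omega))
  rcases this with rfl | rfl <;> assumption

/-- a site on the axis covers the thick sites of its row -/
theorem pcl_row_one {μ : ℤ} {Q : Set (ℤ × ℤ)} {v : ℤ × ℤ} (hv : v ∈ Q) (h : 2 * v.1 + v.2 = μ) : hxsSeg μ v.2 v.2 ⊆ Q := by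
  intro z hz
  obtain ⟨g1, g2, g3, g4⟩ := pcl_seg_mem.1 hz
  have : z = v := Prod.ext (by omega) (by omega)
  rw [this]; exact hv

/-! ## §2 closed C2 -/

/-- **CLOSED C2.**   `Q` simply connected; the rows `j0 < j1` of the thick axis lie in `Q`, a row strictly between them does not, a row below `j0` does not.   Then the two rows are not joined inside `Q ∩ ρ Q`. -/
theorem pcl_c2 {Q : Set (ℤ × ℤ)} (hs : TriSCOn (ZMod 2) tscG Q) {μ jb j0 js j1 : ℤ} (hb0 : jb < j0) (h0s : j0 < js) (hs1 : js < j1)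
    (hb : ¬ hxsSeg μ jb jb ⊆ Q) (h0 : hxsSeg μ j0 j0 ⊆ Q) (hbr : ¬ hxsSeg μ js js ⊆ Q) (h1 : hxsSeg μ j1 j1 ⊆ Q)
    {x0 x1 : ℤ × ℤ} (hx0 : x0 ∈ hxsSeg μ j0 j0) (hx1 : x1 ∈ hxsSeg μ j1 j1) :
    ¬ TscR tscG {v | v ∈ Q ∧ hxsM μ v ∈ Q} x0 x1 := by
  obtain ⟨hi, u1, u2, u3, u4⟩ := pcl_run_up (js - j0).toNat j0 js (by omega) h0 hbr
  obtain ⟨lo, d1, d2, d3, d4⟩ := pcl_run_dn (j0 - jb).toNat j0 jb (by omega) h0 hb
  have hχ : hxsSeg μ lo hi ⊆ Q := pcl_seg_rows fun y y1 y2 => by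
    rcases le_total y j0 with h | h
    · exact pcl_seg_row d3 y1 h
    · exact pcl_seg_row u3 h y2
  have hinv : ∀ v, hxsM μ v ∈ hxsSeg μ lo hi → v ∈ hxsSeg μ lo hi := fun v hv => by
    have := hxs_seg_map hv
    rwa [hxs_M_invol] at this
  refine plc_c2 (G := tscG) (Q := Q) (χ₀ := hxsSeg μ lo hi) (χ₁ := hxsSeg μ j1 j1)
    (R := {v | v ∈ Q \ hxsSeg μ lo hi ∧ μ < 2 * v.1 + v.2}) (N := {v | v ∈ Q \ hxsSeg μ lo hi ∧ 2 * v.1 + v.2 ≤ μ})
    (hxsM μ) (hxs_M_invol μ) (fun a b h => hxs_M_adj μ a b h) hs hχ (hxs_seg_conn μ lo hi) (fun v hv => hv.1) (fun v hv => hv.1)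
    (fun v hv => ?_) (fun v hv hv' => ?_) ?_ (fun v hv => hxs_seg_map hv) (fun v hv => hxs_seg_map hv) (fun v hv => ⟨h1 hv, fun hv' => ?_⟩)
    (hxs_seg_conn μ j1 j1) ?_ ?_ (pcl_seg_mem.2 ?_) hx1
  · by_cases h : μ < 2 * v.1 + v.2
    · exact Or.inl ⟨hv, h⟩
    · exact Or.inr ⟨hv, not_lt.1 h⟩
  · have a := hv.2
    have b := hv'.2
    omega
  · -- no triangle astride the run
    rintro c hc r ⟨⟨hrQ, hrχ⟩, hrX⟩ n ⟨⟨hnQ, hnχ⟩, hnX⟩ a1 a2 a3
    rw [pcl_seg_mem] at hc hrχ hnχ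
    rw [tsc_G_adj, tsc_adj_iff] at a1 a2 a3
    have key : r.2 = n.2 ∧ r.1 = n.1 + 1 ∧ (r.2 = hi + 1 ∨ r.2 = lo - 1) := by
      rcases a3 with a3 | a3 | a3 | a3 | a3 | a3 <;> rcases a1 with a1 | a1 | a1 | a1 | a1 | a1 <;>
        rcases a2 with a2 | a2 | a2 | a2 | a2 | a2 <;> omega
    obtain ⟨k1, k2, k3⟩ := key
    rcases k3 with k3 | k3
    · exact u4 (pcl_row_cover hrQ hnQ k3 (by omega) k2 hnX hrX)
    · exact d4 (pcl_row_cover hrQ hnQ k3 (by omega) k2 hnX hrX)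
  · have a := (pcl_seg_mem.1 hv).1
    have b := (pcl_seg_mem.1 hv').2.1
    omega
  · -- the right side goes to the left side
    rintro v ⟨⟨hvQ, hvχ⟩, hvX⟩ hρ
    refine ⟨⟨hρ, fun h => hvχ (hinv v h)⟩, ?_⟩
    show 2 * (μ - v.1 - v.2) + v.2 ≤ μ
    omega
  · -- the left side, next to the run, goes to the right side
    rintro v ⟨⟨hvQ, hvχ⟩, hvX⟩ ⟨c, hc, hcv⟩ hρ
    refine ⟨⟨hρ, fun h => hvχ (hinv v h)⟩, ?_⟩
    show μ < 2 * (μ - v.1 - v.2) + v.2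
    by_contra hcon
    have hX : 2 * v.1 + v.2 = μ := by omega
    have hrow := pcl_row_one hvQ hX
    rw [pcl_seg_mem] at hc hvχ
    rw [tsc_G_adj, tsc_adj_iff] at hcv
    have : v.2 = hi + 1 ∨ v.2 = lo - 1 := by
      rcases hcv with a | a | a | a | a | a <;> omega
    rcases this with e | e
    · exact u4 (e ▸ hrow)
    · exact d4 (e ▸ hrow)
  · obtain ⟨g1, g2, g3, g4⟩ := pcl_seg_mem.1 hx0
    exact ⟨by omega, by omega, g3, g4⟩

/-! ## §3 cells on the axis -/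

/-- two sites of one up-cell are equal or adjacent -/
theorem pcl_cell_adj {y u v : ℤ × ℤ} (hu : u ∈ cellV y) (hv : v ∈ cellV y) : u = v ∨ triAdj u v := by
  simp only [cellV, Finset.mem_insert, Finset.mem_singleton] at hu hv
  rw [tsc_adj_iff]
  rcases hu with rfl | rfl | rfl <;> rcases hv with rfl | rfl | rfl <;> simp

/-- the vertical mirror maps the up-cell `k` onto the up-cell `(μ - k.1 - k.2 - 1, k.2)` -/
theorem pcl_cell_mir {μ : ℤ} {k v : ℤ × ℤ} (hv : v ∈ cellV k) : hxsM μ v ∈ cellV (μ - k.1 - k.2 - 1, k.2) := by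
  simp only [cellV, Finset.mem_insert, Finset.mem_singleton] at hv ⊢
  rcases hv with rfl | rfl | rfl
  · right; left
    ext <;> simp [hxsM]
  · left
    ext <;> simp [hxsM]; ring
  · right; right
    ext <;> simp [hxsM]; ring

/-- an up-cell on the thick axis of the indices (`μ - 2 ≤ X ≤ μ`) and its mirror image cover the rows `j`, `j + 1` of the thick axis of the sites -/
theorem pcl_cell_seg {μ : ℤ} {k : ℤ × ℤ} (h1 : μ - 2 ≤ 2 * k.1 + k.2) (h2 : 2 * k.1 + k.2 ≤ μ) :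
    hxsSeg μ k.2 (k.2 + 1) ⊆ (↑(cellV k) : Set (ℤ × ℤ)) ∪ ↑(cellV (μ - k.1 - k.2 - 1, k.2)) := by
  intro z hz
  obtain ⟨g1, g2, g3, g4⟩ := pcl_seg_mem.1 hz
  simp only [Set.mem_union, Finset.mem_coe, cellV, Finset.mem_insert, Finset.mem_singleton, Prod.ext_iff, Prod.fst_add, Prod.snd_add]
  omega

/-- an up-cell on the thick axis of the indices has a site on the thick axis of the sites, in its lower row -/
theorem pcl_cell_thick {μ : ℤ} {k : ℤ × ℤ} (h1 : μ - 2 ≤ 2 * k.1 + k.2) (h2 : 2 * k.1 + k.2 ≤ μ) : ∃ s ∈ cellV k, s ∈ hxsSeg μ k.2 k.2 := by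
  by_cases h : μ - 1 ≤ 2 * k.1 + k.2
  · exact ⟨k, by simp [cellV], pcl_seg_mem.2 ⟨le_rfl, le_rfl, h, by omega⟩⟩
  · refine ⟨k + (1, 0), by simp [cellV], pcl_seg_mem.2 ⟨by simp, by simp, ?_, ?_⟩⟩ <;> simp only [Prod.fst_add, Prod.snd_add] <;> omega

/-- **CLOSED C2 FOR CELLS.**   `k0`, `k1` cells of the thick axis of the indices which lie in `Q` together with their mirror images; `i0` a CORE cell of the axis (no site in `Q`), `k0.2 < i0.2 < k1.2`.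
Then no site of `k0` is joined to a site of `k1` inside `Q ∩ ρ Q`. -/
theorem pcl_c2_cells {Q : Set (ℤ × ℤ)} (hs : TriSCOn (ZMod 2) tscG Q) {μ jb : ℤ} {k0 k1 i0 : ℤ × ℤ} (hb : ¬ hxsSeg μ jb jb ⊆ Q) (hbk : jb < k0.2)
    (t0 : μ - 2 ≤ 2 * k0.1 + k0.2 ∧ 2 * k0.1 + k0.2 ≤ μ) (t1 : μ - 2 ≤ 2 * k1.1 + k1.2 ∧ 2 * k1.1 + k1.2 ≤ μ)
    (ti : μ - 2 ≤ 2 * i0.1 + i0.2 ∧ 2 * i0.1 + i0.2 ≤ μ)
    (h0 : (↑(cellV k0) : Set (ℤ × ℤ)) ⊆ Q) (h0' : (↑(cellV (μ - k0.1 - k0.2 - 1, k0.2)) : Set (ℤ × ℤ)) ⊆ Q)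
    (h1 : (↑(cellV k1) : Set (ℤ × ℤ)) ⊆ Q) (h1' : (↑(cellV (μ - k1.1 - k1.2 - 1, k1.2)) : Set (ℤ × ℤ)) ⊆ Q)
    (hi : ∀ s ∈ cellV i0, s ∉ Q) (h0i : k0.2 < i0.2) (hi1 : i0.2 < k1.2) {x0 x1 : ℤ × ℤ} (hx0 : x0 ∈ cellV k0) (hx1 : x1 ∈ cellV k1) :
    ¬ TscR tscG {v | v ∈ Q ∧ hxsM μ v ∈ Q} x0 x1 := by
  intro hp
  obtain ⟨y0, hy0, hy0s⟩ := pcl_cell_thick t0.1 t0.2
  obtain ⟨y1, hy1, hy1s⟩ := pcl_cell_thick t1.1 t1.2
  obtain ⟨si, hsi, hsis⟩ := pcl_cell_thick ti.1 ti.2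
  have W0 : ∀ v ∈ cellV k0, v ∈ {v | v ∈ Q ∧ hxsM μ v ∈ Q} := fun v hv => ⟨h0 (Finset.mem_coe.2 hv), h0' (Finset.mem_coe.2 (pcl_cell_mir hv))⟩
  have W1 : ∀ v ∈ cellV k1, v ∈ {v | v ∈ Q ∧ hxsM μ v ∈ Q} := fun v hv => ⟨h1 (Finset.mem_coe.2 hv), h1' (Finset.mem_coe.2 (pcl_cell_mir hv))⟩
  have p0 : TscR tscG {v | v ∈ Q ∧ hxsM μ v ∈ Q} y0 x0 := by
    rcases pcl_cell_adj hy0 hx0 with rfl | h
    · exact tsc_R_refl _
    · exact ReflTransGen.single ⟨h, W0 _ hy0, W0 _ hx0⟩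
  have p1 : TscR tscG {v | v ∈ Q ∧ hxsM μ v ∈ Q} x1 y1 := by
    rcases pcl_cell_adj hx1 hy1 with rfl | h
    · exact tsc_R_refl _
    · exact ReflTransGen.single ⟨h, W1 _ hx1, W1 _ hy1⟩
  have r0 : hxsSeg μ k0.2 k0.2 ⊆ Q := fun z hz => by
    have hz' : z ∈ hxsSeg μ k0.2 (k0.2 + 1) := by
      obtain ⟨g1, g2, g3, g4⟩ := pcl_seg_mem.1 hz
      exact pcl_seg_mem.2 ⟨g1, by omega, g3, g4⟩
    rcases pcl_cell_seg t0.1 t0.2 hz' with h | h
    · exact h0 h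
    · exact h0' h
  have r1 : hxsSeg μ k1.2 k1.2 ⊆ Q := fun z hz => by
    have hz' : z ∈ hxsSeg μ k1.2 (k1.2 + 1) := by
      obtain ⟨g1, g2, g3, g4⟩ := pcl_seg_mem.1 hz
      exact pcl_seg_mem.2 ⟨g1, by omega, g3, g4⟩
    rcases pcl_cell_seg t1.1 t1.2 hz' with h | h
    · exact h1 h
    · exact h1' h
  exact pcl_c2 hs hbk h0i hi1 hb r0 (fun h => hi si hsi (h hsis)) r1 hy0s hy1s (tsc_R_trans p0 (tsc_R_trans hp p1))

/-! ## §4 barriers and (JQ) on the sites -/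

/-- LEFT BARRIER: every site of `La` has a neighbour off `Q`, inside the band, which is joined off `Q` to the far left -/
def PclBarL (y0 y1 xm : ℤ) (Q La : Set (ℤ × ℤ)) : Prop :=
  ∀ a ∈ La, ∃ t p, triAdj t a ∧ t ∈ plsBand y0 y1 \ Q ∧ TscR tscG (plsBand y0 y1 \ Q) p t ∧ hxsX p < xm

/-- RIGHT BARRIER -/
def PclBarR (y0 y1 xM : ℤ) (Q Lc : Set (ℤ × ℤ)) : Prop :=
  ∀ c ∈ Lc, ∃ t p, triAdj c t ∧ t ∈ plsBand y0 y1 \ Q ∧ TscR tscG (plsBand y0 y1 \ Q) t p ∧ xM < hxsX p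

theorem pcl_eqns_cite : True := by
  have := @PclBarL.eq_1
  have := @PclBarR.eq_1
  trivial

/-- **(JQ) on the sites**: a path from `La` to `Lc` meets every path of `Q` from the bottom row to the top row -/
theorem pcl_jq {Q La Lc π γ : Set (ℤ × ℤ)} {y0 y1 xm xM : ℤ} (hbox : ∀ z ∈ Q, xm ≤ hxsX z ∧ hxsX z ≤ xM)
    (bl : PclBarL y0 y1 xm Q La) (br : PclBarR y0 y1 xM Q Lc) (hπ : π ⊆ plsBand y0 y1) {a c u v : ℤ × ℤ} (ha : a ∈ La) (hc : c ∈ Lc)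
    (haπ : a ∈ π) (hac : TscR tscG π a c) (hγ : γ ⊆ Q) (hu : u ∈ γ) (huv : TscR tscG γ u v) (hu0 : u.2 ≤ y0) (hv1 : y1 ≤ v.2) :
    (π ∩ γ).Nonempty := by
  obtain ⟨tl, pl, l1, l2, l3, l4⟩ := bl a ha
  obtain ⟨tr, pr, r1, r2, r3, r4⟩ := br c hc
  have hcπ : c ∈ π := tsc_R_mem hac haπ
  set S : Set (ℤ × ℤ) := (plsBand y0 y1 \ Q) ∪ π with hS
  have hpl : pl ∈ plsBand y0 y1 \ Q := tsc_R_mem (tsc_R_symm l3) l2
  have path : TscR tscG S pl pr := by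
    refine tsc_R_trans (tsc_R_mono Set.subset_union_left l3) ?_
    refine ReflTransGen.head ⟨l1, Or.inl l2, Or.inr haπ⟩ ?_
    refine tsc_R_trans (tsc_R_mono Set.subset_union_right hac) ?_
    exact ReflTransGen.head ⟨r1, Or.inr hcπ, Or.inl r2⟩ (tsc_R_mono Set.subset_union_left r3)
  have hSb : S ⊆ plsBand y0 y1 := by
    rintro z (hz | hz)
    · exact hz.1
    · exact hπ hz
  obtain ⟨z, hz1, hz2⟩ := pls_cross_h (S := S) (T := γ) (Or.inl hpl) path hu huv (fun z hz => hu0.trans (hSb hz).1) (fun z hz => (hSb hz).2.trans hv1)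
    (fun z hz hh => by
      have := (hbox z (hγ hz)).1
      simp only [hxsX] at this l4
      omega)
    (fun z hz hh => by
      have := (hbox z (hγ hz)).2
      simp only [hxsX] at this r4
      omega)
  rcases hz1 with h | h
  · exact absurd (hγ hz2) h.2
  · exact ⟨z, h, hz2⟩

theorem pcl_R_head {s : Set (ℤ × ℤ)} {z t : ℤ × ℤ} (h : TscR tscG s z t) : z = t ∨ z ∈ s := by
  induction h with
  | refl => exact Or.inl rfl
  | @tail b c _ hbc ih =>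
    rcases ih with rfl | h
    · exact Or.inr hbc.2.1
    · exact Or.inr h

/-- a set which contains a path from `La` to `Lc` separates the bottom row from the top row inside `Q` -/
theorem pcl_sep {Q La Lc π D B : Set (ℤ × ℤ)} {y0 y1 xm xM : ℤ} (hy : y0 < y1) (hbox : ∀ z ∈ Q, xm ≤ hxsX z ∧ hxsX z ≤ xM)
    (bl : PclBarL y0 y1 xm Q La) (br : PclBarR y0 y1 xM Q Lc) (hπ : π ⊆ plsBand y0 y1) {a c : ℤ × ℤ} (ha : a ∈ La) (hc : c ∈ Lc)
    (haπ : a ∈ π) (hac : TscR tscG π a c) (hD : ∀ d ∈ D, d.2 ≤ y0) (hB : ∀ b ∈ B, y1 ≤ b.2) : PlcSep tscG Q π D B := by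
  intro d hd b hb hp
  rcases pcl_R_head hp with rfl | h
  · have := hD d hd
    have := hB d hb
    omega
  · obtain ⟨z, hz1, hz2⟩ := pcl_jq hbox bl br hπ ha hc haπ hac (γ := Q \ π) Set.sdiff_subset h hp (hD d hd) (hB b hb)
    exact hz2.2 hz1

/-! ## §5 cutsets, order, blocking -/

/-- the facts on the closed strip which the order of the places needs -/
structure PclStrip (y0 y1 xm xM : ℤ) (Q La Lc D B : Set (ℤ × ℤ)) : Prop where
  hy : y0 < y1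
  band : Q ⊆ plsBand y0 y1
  box : ∀ z ∈ Q, xm ≤ hxsX z ∧ hxsX z ≤ xM
  conn : TscConn tscG Q
  barL : PclBarL y0 y1 xm Q La
  barR : PclBarR y0 y1 xM Q Lc
  dQ : D ⊆ Q
  bQ : B ⊆ Q
  d0 : ∀ d ∈ D, d.2 = y0
  b1 : ∀ b ∈ B, b.2 = y1
  dne : D.Nonempty
  bne : B.Nonempty

/-- a CLOSED PLACE, as far as the order is concerned: a connected subset of `Q` off the two extreme rows which contains a path from `La` to `Lc` -/
structure PclPlace (y0 y1 : ℤ) (Q La Lc K : Set (ℤ × ℤ)) : Prop where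
  sub : K ⊆ Q
  conn : TscConn tscG K
  rows : ∀ k ∈ K, y0 < k.2 ∧ k.2 < y1
  cross : ∃ a ∈ La, ∃ c ∈ Lc, a ∈ K ∧ c ∈ K

theorem PclStrip.plc {y0 y1 xm xM : ℤ} {Q La Lc D B : Set (ℤ × ℤ)} (S : PclStrip y0 y1 xm xM Q La Lc D B) : PlcStrip tscG Q D B :=
  ⟨S.conn, S.dQ, S.bQ, S.dne, S.bne⟩

/-- a closed place is a cutset -/
theorem pcl_cutset {y0 y1 xm xM : ℤ} {Q La Lc D B K : Set (ℤ × ℤ)} (S : PclStrip y0 y1 xm xM Q La Lc D B) (hK : PclPlace y0 y1 Q La Lc K) :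
    PlcCutset tscG Q D B K where
  sub := hK.sub
  conn := hK.conn
  dK := fun d hd h => by have := (hK.rows d h).1; have := S.d0 d hd; omega
  bK := fun b hb h => by have := (hK.rows b h).2; have := S.b1 b hb; omega
  sep := by
    obtain ⟨a, ha, c, hc, haK, hcK⟩ := hK.cross
    exact pcl_sep S.hy S.box S.barL S.barR (hK.sub.trans S.band) ha hc haK (hK.conn a haK c hcK) (fun d hd => (S.d0 d hd).le) (fun b hb => (S.b1 b hb).ge)

/-- BLOCKING, planar form of `GlBlk` of 55: the two sides being in `P`, a path inside `K0 ∩ P` from a neighbour of `La` to a neighbour of `Lc` stops every walk off `P` from `D` to `K2` or to a neighbour of `K2` -/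
def PclBlk (Q La Lc K0 D K2 : Set (ℤ × ℤ)) : Prop :=
  ∀ P : Set (ℤ × ℤ), La ⊆ P → Lc ⊆ P →
    (∃ u v, u ∈ K0 ∩ P ∧ v ∈ K0 ∩ P ∧ (∃ a ∈ La, triAdj u a) ∧ (∃ c ∈ Lc, triAdj v c) ∧ TscR tscG (K0 ∩ P) u v) →
    ∀ d ∈ D, ∀ z, TscR tscG (Q \ P) d z → z ∉ K2 ∧ ∀ w ∈ K2, ¬ triAdj z w

theorem pcl_eqns_cite2 : True := by
  have := @PclBlk.eq_1
  trivial

/-- **BLOCKING**: `K1` on the `D`-side of the cutset `K2`; `K0 ⊆ K1` and the sites of `La ∪ Lc` next to `K0` lie in `K1` -/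
theorem pcl_block {y0 y1 xm xM : ℤ} {Q La Lc D B K0 K1 K2 : Set (ℤ × ℤ)} (S : PclStrip y0 y1 xm xM Q La Lc D B)
    (h1 : PclPlace y0 y1 Q La Lc K1) (h2 : PclPlace y0 y1 Q La Lc K2) (hside : K1 ⊆ plcSide tscG Q K2 D) (h0 : K0 ⊆ K1)
    (hcl : ∀ k ∈ K0, ∀ w ∈ La ∪ Lc, triAdj k w → w ∈ K1) : PclBlk Q La Lc K0 D K2 := by
  rintro P hLa hLc ⟨u, v, hu, hv, ⟨a, ha, hua⟩, ⟨c, hc, hvc⟩, huv⟩ d hd z hz
  have haK : a ∈ K1 := hcl u hu.1 a (Or.inl ha) hua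
  have hcK : c ∈ K1 := hcl v hv.1 c (Or.inr hc) hvc
  set π : Set (ℤ × ℤ) := (K0 ∩ P) ∪ {a, c} with hπ
  have hπK : π ⊆ K1 := by
    rintro x (hx | hx | hx)
    · exact h0 hx.1
    · exact hx ▸ haK
    · exact hx ▸ hcK
  have hπP : π ⊆ P := by
    rintro x (hx | hx | hx)
    · exact hx.2
    · exact hx ▸ hLa ha
    · exact hx ▸ hLc hc
  have path : TscR tscG π a c := by
    refine ReflTransGen.head ⟨(SimpleGraph.Adj.symm (G := tscG) hua : tscG.Adj a u), Or.inr (Or.inl rfl), Or.inl hu⟩ ?_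
    exact (tsc_R_mono Set.subset_union_left huv).tail ⟨hvc, Or.inl hv, Or.inr (Or.inr rfl)⟩
  have hsep : PlcSep tscG Q π D B :=
    pcl_sep S.hy S.box S.barL S.barR ((hπK.trans h1.sub).trans S.band) ha hc (Or.inr (Or.inl rfl)) path (fun d hd => (S.d0 d hd).le)
      (fun b hb => (S.b1 b hb).ge)
  have hDπ : ∀ d ∈ D, d ∉ π := fun d hd h => (pcl_cutset S h1).dK d hd (hπK h)
  exact plc_block S.plc (pcl_cutset S h2) (hπK.trans hside) hsep hDπ hd (tsc_R_mono (Set.sdiff_subset_sdiff_right hπP) hz)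

/-- the same from the top -/
theorem pcl_block' {y0 y1 xm xM : ℤ} {Q La Lc D B K0 K1 K2 : Set (ℤ × ℤ)} (S : PclStrip y0 y1 xm xM Q La Lc D B)
    (h1 : PclPlace y0 y1 Q La Lc K1) (h2 : PclPlace y0 y1 Q La Lc K2) (hside : K1 ⊆ plcSide tscG Q K2 B) (h0 : K0 ⊆ K1)
    (hcl : ∀ k ∈ K0, ∀ w ∈ La ∪ Lc, triAdj k w → w ∈ K1) : PclBlk Q La Lc K0 B K2 := by
  rintro P hLa hLc ⟨u, v, hu, hv, ⟨a, ha, hua⟩, ⟨c, hc, hvc⟩, huv⟩ d hd z hz
  have haK : a ∈ K1 := hcl u hu.1 a (Or.inl ha) hua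
  have hcK : c ∈ K1 := hcl v hv.1 c (Or.inr hc) hvc
  set π : Set (ℤ × ℤ) := (K0 ∩ P) ∪ {a, c} with hπ
  have hπK : π ⊆ K1 := by
    rintro x (hx | hx | hx)
    · exact h0 hx.1
    · exact hx ▸ haK
    · exact hx ▸ hcK
  have hπP : π ⊆ P := by
    rintro x (hx | hx | hx)
    · exact hx.2
    · exact hx ▸ hLa ha
    · exact hx ▸ hLc hc
  have path : TscR tscG π a c := by
    refine ReflTransGen.head ⟨(SimpleGraph.Adj.symm (G := tscG) hua : tscG.Adj a u), Or.inr (Or.inl rfl), Or.inl hu⟩ ?_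
    exact (tsc_R_mono Set.subset_union_left huv).tail ⟨hvc, Or.inl hv, Or.inr (Or.inr rfl)⟩
  have hsep : PlcSep tscG Q π D B :=
    pcl_sep S.hy S.box S.barL S.barR ((hπK.trans h1.sub).trans S.band) ha hc (Or.inr (Or.inl rfl)) path (fun d hd => (S.d0 d hd).le)
      (fun b hb => (S.b1 b hb).ge)
  have hBπ : ∀ b ∈ B, b ∉ π := fun b hb h => (pcl_cutset S h1).bK b hb (hπK h)
  exact plc_block S.plc.symm (pcl_cutset S h2).symm (hπK.trans hside) hsep.symm hBπ hd (tsc_R_mono (Set.sdiff_subset_sdiff_right hπP) hz)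

/-- **ORDER + BLOCKING**: of three pairwise disjoint closed places one is in the middle, and the two others block -/
theorem pcl_three {y0 y1 xm xM : ℤ} {Q La Lc D B : Set (ℤ × ℤ)} (S : PclStrip y0 y1 xm xM Q La Lc D B) (K K0 : Fin 3 → Set (ℤ × ℤ))
    (hK : ∀ i, PclPlace y0 y1 Q La Lc (K i)) (hdis : ∀ i j, i ≠ j → ∀ x ∈ K i, x ∉ K j) (h0 : ∀ i, K0 i ⊆ K i)
    (hcl : ∀ i, ∀ k ∈ K0 i, ∀ w ∈ La ∪ Lc, triAdj k w → w ∈ K i) :
    ∃ i j k : Fin 3, i ≠ j ∧ j ≠ k ∧ i ≠ k ∧ PclBlk Q La Lc (K0 i) D (K j) ∧ PclBlk Q La Lc (K0 k) B (K j) := by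
  obtain ⟨i, j, k, h1, h2, h3, h4, h5⟩ := plc_middle S.plc K (fun i => pcl_cutset S (hK i)) hdis
  exact ⟨i, j, k, h1, h2, h3, pcl_block S (hK i) (hK j) h4 (h0 i) (hcl i), pcl_block' S (hK k) (hK j) h5 (h0 k) (hcl k)⟩

end Claimed.Agent.R291
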