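import Claimed.Agent.R291.Ann.RswRec
import Claimed.Agent.R291.Pl.Record

/-!
# Row 291 (S0539), unit PLA / ANN A3-II (D), Pl/StripQ : THE STRIP BETWEEN TWO EXTREMAL CROSSINGS, LATTICE PART      (owner helper173; prefix `psq_`)

Split with helper182 (`Ann/RswDict`, 07:22Z), design of helper36 (06:58Z items 1-3).   INDEX lattice: `R = rswRect A B c d`, `a = rsrGa`, `c = rsrGc` (layers), `AA`, `CC` = `pleSolid` (solid sides), `Fr = R \ (AA ∪ CC)`,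
`M` = main component of `Fr`;      SITE lattice: `Q = sites(M)` for one of the two classes `cellV`, `cellD`.

* (v) FAR: `psq_gam_off`, `psq_solid_disj`, `psq_solid_adj`, `psq_solid_nbr` (abstract), **`psq_far`**: the layers at index distance `≥ 3` + `RsrG0` ⟹ the solid sides are disjoint, not adjacent, without common neighbour
* (iii) INTERVAL: `psq_escape`, `psq_esc_row` (every cell of `R \ M` is joined off `M` to the extreme rows), **`psq_int_bot`**, **`psq_int_top`**: `M ∩ row c`, `M ∩ row d` are intervals,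
  for ANY `M` with (M1) `M ⊆ Fr`, (M2) `M` closed under adjacency inside `Fr`, (M3) `M` connected
* `psq_dconn_*`: the sites of `Q` on the extreme site rows, off the sites of the layers, form a connected set (both classes)
-/

set_option autoImplicit false

namespace Claimed.Agent.R291

open Claims Claims.C0467 Relation

/-! ## §1 abstract part -/

section abs

variable {V : Type*} {G : SimpleGraph V}

/-- a path which starts off `X` and ends in `X` has a step from off `X` into `X` -/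
theorem psq_entry {s X : Set V} {u v : V} (h : TscR G s u v) (hu : u ∉ X) (hv : v ∈ X) :
    ∃ w z, w ∈ s ∧ z ∈ s ∧ G.Adj w z ∧ w ∉ X ∧ z ∈ X := by
  induction h with
  | refl => exact absurd hv hu
  | @tail b c _ hbc ih =>
    by_cases hb : b ∈ X
    · exact ih hb
    · exact ⟨b, c, hbc.2.1, hbc.2.2, hbc.1, hb, hv⟩

variable {R σa σa' σc σc' I J : Set V}

/-- the layer `c` stays off the solid side of `a` -/
theorem psq_gam_off (hcc : TscConn G (pleGam G R σc σc' J)) (hne : ∀ z ∈ pleGam G R σa σa' I, z ∉ pleGam G R σc σc' J)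
    {f : V} (hf : f ∈ pleGam G R σc σc' J) (hfA : f ∉ pleSolid G R σa σa' I) :
    ∀ z ∈ pleGam G R σc σc' J, z ∉ pleSolid G R σa σa' I := by
  intro z hz hzA
  obtain ⟨w, y, hw, hy, hwy, hwA, hyA⟩ := psq_entry (hcc f hf z hz) hfA hzA
  exact hne y (ple_solid_bd hyA (ple_I_sub hw.1).1 hwA hwy.symm) hy

/-- the solid sides are disjoint -/
theorem psq_solid_disj (hAA : TscConn G (pleSolid G R σa σa' I)) (hoff : ∀ z ∈ pleGam G R σc σc' J, z ∉ pleSolid G R σa σa' I)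
    {f : V} (hf : f ∈ pleSolid G R σa σa' I) (hfC : f ∉ pleSolid G R σc σc' J) :
    ∀ z ∈ pleSolid G R σa σa' I, z ∉ pleSolid G R σc σc' J := by
  intro z hz hzC
  obtain ⟨w, y, hw, hy, hwy, hwC, hyC⟩ := psq_entry (hAA f hf z hz) hfC hzC
  exact hoff y (ple_solid_bd hyC (ple_solid_sub hw) hwC hwy.symm) hy

/-- adjacent cells of the two solid sides belong to the layers -/
theorem psq_solid_adj (hd : ∀ z ∈ pleSolid G R σa σa' I, z ∉ pleSolid G R σc σc' J) {z z' : V} (hz : z ∈ pleSolid G R σa σa' I)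
    (hz' : z' ∈ pleSolid G R σc σc' J) (h : G.Adj z z') : z ∈ pleGam G R σa σa' I ∧ z' ∈ pleGam G R σc σc' J :=
  ⟨ple_solid_bd hz (ple_solid_sub hz') (fun h' => hd z' h' hz') h, ple_solid_bd hz' (ple_solid_sub hz) (hd z hz) h.symm⟩

/-- a common neighbour inside `R` of the two solid sides: the layers are at distance at most `2` -/
theorem psq_solid_nbr (hd : ∀ z ∈ pleSolid G R σa σa' I, z ∉ pleSolid G R σc σc' J) {z z' y : V} (hz : z ∈ pleSolid G R σa σa' I)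
    (hz' : z' ∈ pleSolid G R σc σc' J) (hy : y ∈ R) (h1 : G.Adj z y) (h2 : G.Adj y z') :
    (∃ u ∈ pleGam G R σa σa' I, ∃ v ∈ pleGam G R σc σc' J, G.Adj u v) ∨ (z ∈ pleGam G R σa σa' I ∧ z' ∈ pleGam G R σc σc' J) := by
  by_cases hyA : y ∈ pleSolid G R σa σa' I
  · obtain ⟨g1, g2⟩ := psq_solid_adj hd hyA hz' h2
    exact Or.inl ⟨y, g1, z', g2, h2⟩
  by_cases hyC : y ∈ pleSolid G R σc σc' J
  · obtain ⟨g1, g2⟩ := psq_solid_adj hd hz hyC h1
    exact Or.inl ⟨z, g1, y, g2, h1⟩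
  exact Or.inr ⟨ple_solid_bd hz hy hyA h1, ple_solid_bd hz' hy hyC h2.symm⟩

/-- every site of `R \ M` is joined off `M` to `X` (`M` = a union of components of `R \ X`) -/
theorem psq_escape {R X M : Set V} (hM2 : ∀ z ∈ M, ∀ w ∈ R \ X, G.Adj z w → w ∈ M) {z y : V} (hz : z ∈ R \ M)
    (h : TscR G R z y) (hy : y ∈ X) : ∃ y' ∈ X, TscR G (R \ M) z y' := by
  have claim : ∀ y, TscR G R z y → TscR G (R \ M) z y ∨ ∃ y' ∈ X, TscR G (R \ M) z y' := by
    intro y h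
    induction h with
    | refl => exact Or.inl (tsc_R_refl _)
    | @tail b c _ hbc ih =>
      rcases ih with ih | ih
      · have hb : b ∈ R \ M := tsc_R_mem ih hz
        by_cases hc : c ∈ M
        · by_cases hbX : b ∈ X
          · exact Or.inr ⟨b, hbX, ih⟩
          · exact absurd (hM2 c hc b ⟨hb.1, hbX⟩ hbc.1.symm) hb.2
        · exact Or.inl (ih.tail ⟨hbc.1, hb, hbc.2.2, hc⟩)
      · exact Or.inr ih
  rcases claim y h with h' | h'
  · exact ⟨y, hy, h'⟩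
  · exact h'

end abs

/-! ## §2 (v) FAR -/

theorem psq_rect_conn {A B c d : ℤ} (hAB : A + 1 ≤ B) : TscConn tscG (rswRect A B c d) := by
  have h := pla_reg_conn (l := plaXl A) (r := plaXr B) (c := c) (d := d) (pla_stair_Xl A) (fun y _ _ => by unfold plaXl plaXr; omega)
  rw [pla_reg_rect] at h
  exact h

/-- **(v) FAR**: if the two layers are at index distance at least `3`, so are the two solid sides -/
theorem psq_far {A B c d w m m' : ℤ} (hcd : c < d) (hw : 1 ≤ w) (hA : A + 4 ≤ m - w) (hB : m' + w + 4 ≤ B) (hmm : m + 2 * w ≤ m' + 1) {P : Set TV}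
    (hG : RsrG0 A B c d w m m' (pleI tscG (rswRect A B c d \ P) (rsrSgL A c d m w)) (pleI tscG (rswRect A B c d \ P) (rsrSgR B c d m' w)))
    (hfar : ∀ z ∈ rsrGa A B c d w m (pleI tscG (rswRect A B c d \ P) (rsrSgL A c d m w)),
      ∀ z' ∈ rsrGc A B c d w m' (pleI tscG (rswRect A B c d \ P) (rsrSgR B c d m' w)), z ≠ z' ∧ ¬ triAdj z z' ∧ ∀ y, ¬ (triAdj z y ∧ triAdj y z')) :
    ∀ z ∈ pleSolid tscG (rswRect A B c d) (rsrSgL A c d m w) (rsrSgR B c d m w) (pleI tscG (rswRect A B c d \ P) (rsrSgL A c d m w)),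
      ∀ z' ∈ pleSolid tscG (rswRect A B c d) (rsrSgR B c d m' w) (rsrSgL A c d m' w) (pleI tscG (rswRect A B c d \ P) (rsrSgR B c d m' w)),
        z ≠ z' ∧ ¬ triAdj z z' ∧ ∀ y, ¬ (triAdj z y ∧ triAdj y z') := by
  have qa := rsr_quad_L (A := A) (B := B) (c := c) (d := d) (i := m) (w := w) hcd hw hA (by omega)
  have qa' := rsr_quad_R (A := A) (B := B) (c := c) (d := d) (i := m) (w := w) hcd hw hA (by omega)
  have qc := rsr_quad_R (A := A) (B := B) (c := c) (d := d) (i := m') (w := w) hcd hw (by omega) hB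
  have hR : TscConn tscG (rswRect A B c d) := psq_rect_conn (by omega)
  unfold rsrGa rsrGc at hfar
  obtain ⟨hIa, hIc⟩ := hG
  have hcc := ple_gam_conn qc.side qc.opp hIc
  have hAA := ple_solid_conn qa hIa hR qa'.opp
  obtain ⟨f, hf, hfl⟩ := ple_gam_left qc hIc
  obtain ⟨g, hg, hgl⟩ := ple_gam_left qa hIa
  have hne : ∀ z ∈ pleGam tscG (rswRect A B c d) (rsrSgL A c d m w) (rsrSgR B c d m w) (pleI tscG (rswRect A B c d \ P) (rsrSgL A c d m w)),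
      z ∉ pleGam tscG (rswRect A B c d) (rsrSgR B c d m' w) (rsrSgL A c d m' w) (pleI tscG (rswRect A B c d \ P) (rsrSgR B c d m' w)) :=
    fun z hz hz' => (hfar z hz z hz').1 rfl
  have hfA : f ∉ pleSolid tscG (rswRect A B c d) (rsrSgL A c d m w) (rsrSgR B c d m w) (pleI tscG (rswRect A B c d \ P) (rsrSgL A c d m w)) := by
    intro h
    have hfR : f ∈ rswRect A B c d := (ple_gam_sub hf).1
    have hfσ : f ∈ rsrSgR B c d m w := Or.inr ⟨Or.inl hfl.1, by have := hfl.2.1; omega⟩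
    exact h.2 ⟨ple_I_side ⟨hfR, hIa f ⟨hfR, hfσ⟩⟩ hfσ, fun h' => hne f h' hf⟩
  have hgC : g ∉ pleSolid tscG (rswRect A B c d) (rsrSgR B c d m' w) (rsrSgL A c d m' w) (pleI tscG (rswRect A B c d \ P) (rsrSgR B c d m' w)) := by
    intro h
    have hgR : g ∈ rswRect A B c d := (ple_gam_sub hg).1
    have hgσ : g ∈ rsrSgL A c d m' w := Or.inr ⟨Or.inl hgl.1, by have := hgl.2.2; omega⟩
    exact h.2 ⟨ple_I_side ⟨hgR, hIc g ⟨hgR, hgσ⟩⟩ hgσ, fun h' => hne g hg h'⟩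
  have hoff := psq_gam_off hcc hne hf hfA
  have hd := psq_solid_disj hAA hoff (ple_solid_gam hg) hgC
  intro z hz z' hz'
  have h1 : z ≠ z' := by
    rintro rfl
    exact hd z hz hz'
  have h2 : ¬ triAdj z z' := by
    intro h
    obtain ⟨g1, g2⟩ := psq_solid_adj hd hz hz' h
    exact (hfar z g1 z' g2).2.1 h
  refine ⟨h1, h2, ?_⟩
  rintro y ⟨e1, e2⟩
  by_cases hy : y ∈ rswRect A B c d
  · rcases psq_solid_nbr hd hz hz' hy e1 e2 with ⟨u, hu, v, hv, huv⟩ | ⟨g1, g2⟩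
    · exact (hfar u hu v hv).2.1 huv
    · exact (hfar z g1 z' g2).2.2 y ⟨e1, e2⟩
  · have hzR := ple_solid_sub hz
    have hzR' := ple_solid_sub hz'
    by_cases hyA : rswX y < A
    · refine hd z' (ple_solid_side ⟨hzR', Or.inl ?_⟩) hz'
      rw [tsc_adj_iff] at e2
      unfold rswX at *
      omega
    by_cases hyB : B < rswX y
    · refine hd z hz (ple_solid_side ⟨hzR, Or.inl ?_⟩)
      rw [tsc_adj_iff] at e1
      unfold rswX at *
      omega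
    · have hz1 := hzR.2.2
      have hz2 := hzR'.2.2
      have hyy : ¬ (c ≤ y.2 ∧ y.2 ≤ d) := fun h => hy ⟨by omega, by omega, h.1, h.2⟩
      have k1 : z ≠ z' := h1
      rw [Ne, Prod.ext_iff] at k1
      rw [tsc_adj_iff] at e1 e2 h2
      omega

/-! ## §3 (iii) INTERVAL -/

/-- every cell of `R \ M` is joined off `M` to the row `r`, if both solid sides reach this row -/
theorem psq_esc_row {R AA CC M : Set TV} (hR : TscConn tscG R) (hAAR : AA ⊆ R) (hCCR : CC ⊆ R) (hAA : TscConn tscG AA) (hCC : TscConn tscG CC)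
    (hM1 : M ⊆ R \ (AA ∪ CC)) (hM2 : ∀ z ∈ M, ∀ w ∈ R \ (AA ∪ CC), tscG.Adj z w → w ∈ M) {r : ℤ} (ha : ∃ v ∈ AA, v.2 = r) (hc : ∃ v ∈ CC, v.2 = r) :
    ∀ z ∈ R \ M, ∃ v, v.2 = r ∧ TscR tscG (R \ M) z v := by
  intro z hz
  obtain ⟨α, hα, hαr⟩ := ha
  obtain ⟨γ, hγ, hγr⟩ := hc
  obtain ⟨y, hy, hzy⟩ := psq_escape hM2 hz (hR z hz.1 α (hAAR hα)) (Or.inl hα)
  rcases hy with hy | hy
  · refine ⟨α, hαr, tsc_R_trans hzy (tsc_R_mono (show AA ⊆ R \ M from fun u hu => ⟨hAAR hu, fun h => (hM1 h).2 (Or.inl hu)⟩) (hAA y hy α hα))⟩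
  · refine ⟨γ, hγr, tsc_R_trans hzy (tsc_R_mono (show CC ⊆ R \ M from fun u hu => ⟨hCCR hu, fun h => (hM1 h).2 (Or.inr hu)⟩) (hCC y hy γ hγ))⟩

/-- **`M ∩ row c` is an interval** -/
theorem psq_int_bot {R M : Set TV} {c d : ℤ} (hRb : R ⊆ plsBand c d) (hMR : M ⊆ R) (hMc : TscConn tscG M)
    (hesc : ∀ z ∈ R \ M, ∃ v, v.2 = d ∧ TscR tscG (R \ M) z v) {z1 z2 z : TV} (h1 : z1 ∈ M) (h2 : z2 ∈ M) (hz : z ∈ R)
    (e1 : z1.2 = c) (e2 : z2.2 = c) (e : z.2 = c) (l1 : z1.1 < z.1) (l2 : z.1 < z2.1) : z ∈ M := by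
  by_contra hzM
  obtain ⟨v, hvd, hzv⟩ := hesc z ⟨hz, hzM⟩
  obtain ⟨p, hp⟩ : ∃ p : TV, p = (z1.1, c - 1) := ⟨_, rfl⟩
  obtain ⟨q, hq⟩ : ∃ q : TV, q = (z2.1, c - 1) := ⟨_, rfl⟩
  obtain ⟨u, hu⟩ : ∃ u : TV, u = (z.1, c - 1) := ⟨_, rfl⟩
  have hpq : TscR tscG (M ∪ {p, q}) p q := by
    refine ReflTransGen.head ⟨?_, Or.inr (Or.inl rfl), Or.inl h1⟩ ((tsc_R_mono Set.subset_union_left (hMc z1 h1 z2 h2)).tail
      ⟨?_, Or.inl h2, Or.inr (Or.inr rfl)⟩)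
    · rw [tsc_G_adj, tsc_adj_iff, hp]; dsimp only; omega
    · rw [tsc_G_adj, tsc_adj_iff, hq]; dsimp only; omega
  have huv : TscR tscG ((R \ M) ∪ {u}) u v := by
    refine ReflTransGen.head ⟨?_, Or.inr rfl, Or.inl ⟨hz, hzM⟩⟩ (tsc_R_mono Set.subset_union_left hzv)
    rw [tsc_G_adj, tsc_adj_iff, hu]; dsimp only; omega
  have hSb : ∀ y ∈ M ∪ {p, q}, c - 1 ≤ y.2 ∧ y.2 ≤ d := by
    rintro y (hy | hy | hy)
    · have := hRb (hMR hy); exact ⟨by have := this.1; omega, this.2⟩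
    · have := (hRb hz).2; rw [hy, hp]; simp only; omega
    · have := (hRb hz).2; rw [Set.mem_singleton_iff.1 hy, hq]; simp only; omega
  obtain ⟨y, hy1, hy2⟩ := pls_cross_h (S := M ∪ {p, q}) (T := (R \ M) ∪ {u}) (Or.inr (Or.inl rfl)) hpq (Or.inr rfl) huv
    (fun y hy => by rw [hu]; exact (hSb y hy).1) (fun y hy => by rw [hvd]; exact (hSb y hy).2)
    (by
      rintro y (hy | hy) ⟨g1, g2⟩
      · have := (hRb hy.1).1; rw [hp] at g1; simp only at g1; omega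
      · rw [Set.mem_singleton_iff.1 hy, hu, hp] at g2; simp only at g2; omega)
    (by
      rintro y (hy | hy) ⟨g1, g2⟩
      · have := (hRb hy.1).1; rw [hq] at g1; simp only at g1; omega
      · rw [Set.mem_singleton_iff.1 hy, hu, hq] at g2; simp only at g2; omega)
  rcases hy2 with hy2 | hy2
  · rcases hy1 with hy1 | hy1 | hy1
    · exact hy2.2 hy1
    · have := (hRb hy2.1).1; rw [hy1, hp] at this; simp only at this; omega
    · have := (hRb hy2.1).1; rw [Set.mem_singleton_iff.1 hy1, hq] at this; simp only at this; omega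
  · rw [Set.mem_singleton_iff.1 hy2] at hy1
    rcases hy1 with hy1 | hy1 | hy1
    · have := (hRb (hMR hy1)).1; rw [hu] at this; simp only at this; omega
    · rw [hu, hp, Prod.ext_iff] at hy1; simp only at hy1; omega
    · rw [Set.mem_singleton_iff, hu, hq, Prod.ext_iff] at hy1; simp only at hy1; omega

/-- **`M ∩ row d` is an interval** -/
theorem psq_int_top {R M : Set TV} {c d : ℤ} (hRb : R ⊆ plsBand c d) (hMR : M ⊆ R) (hMc : TscConn tscG M)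
    (hesc : ∀ z ∈ R \ M, ∃ v, v.2 = c ∧ TscR tscG (R \ M) z v) {z1 z2 z : TV} (h1 : z1 ∈ M) (h2 : z2 ∈ M) (hz : z ∈ R)
    (e1 : z1.2 = d) (e2 : z2.2 = d) (e : z.2 = d) (l1 : z1.1 < z.1) (l2 : z.1 < z2.1) : z ∈ M := by
  by_contra hzM
  obtain ⟨v, hvd, hzv⟩ := hesc z ⟨hz, hzM⟩
  obtain ⟨p, hp⟩ : ∃ p : TV, p = (z1.1, d + 1) := ⟨_, rfl⟩
  obtain ⟨q, hq⟩ : ∃ q : TV, q = (z2.1, d + 1) := ⟨_, rfl⟩
  obtain ⟨u, hu⟩ : ∃ u : TV, u = (z.1, d + 1) := ⟨_, rfl⟩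
  have hpq : TscR tscG (M ∪ {p, q}) p q := by
    refine ReflTransGen.head ⟨?_, Or.inr (Or.inl rfl), Or.inl h1⟩ ((tsc_R_mono Set.subset_union_left (hMc z1 h1 z2 h2)).tail
      ⟨?_, Or.inl h2, Or.inr (Or.inr rfl)⟩)
    · rw [tsc_G_adj, tsc_adj_iff, hp]; dsimp only; omega
    · rw [tsc_G_adj, tsc_adj_iff, hq]; dsimp only; omega
  have huv : TscR tscG ((R \ M) ∪ {u}) v u := by
    refine tsc_R_symm (ReflTransGen.head ⟨?_, Or.inr rfl, Or.inl ⟨hz, hzM⟩⟩ (tsc_R_mono Set.subset_union_left hzv))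
    rw [tsc_G_adj, tsc_adj_iff, hu]; dsimp only; omega
  have hvT : v ∈ (R \ M) ∪ {u} := Or.inl (tsc_R_mem hzv ⟨hz, hzM⟩)
  have hSb : ∀ y ∈ M ∪ {p, q}, c ≤ y.2 ∧ y.2 ≤ d + 1 := by
    rintro y (hy | hy | hy)
    · have := hRb (hMR hy); exact ⟨this.1, by have := this.2; omega⟩
    · have := (hRb hz).1; rw [hy, hp]; simp only; omega
    · have := (hRb hz).1; rw [Set.mem_singleton_iff.1 hy, hq]; simp only; omega
  obtain ⟨y, hy1, hy2⟩ := pls_cross_h (S := M ∪ {p, q}) (T := (R \ M) ∪ {u}) (Or.inr (Or.inl rfl)) hpq hvT huv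
    (fun y hy => by rw [hvd]; exact (hSb y hy).1) (fun y hy => by rw [hu]; exact (hSb y hy).2)
    (by
      rintro y (hy | hy) ⟨g1, g2⟩
      · have := (hRb hy.1).2; rw [hp] at g1; simp only at g1; omega
      · rw [Set.mem_singleton_iff.1 hy, hu, hp] at g2; simp only at g2; omega)
    (by
      rintro y (hy | hy) ⟨g1, g2⟩
      · have := (hRb hy.1).2; rw [hq] at g1; simp only at g1; omega
      · rw [Set.mem_singleton_iff.1 hy, hu, hq] at g2; simp only at g2; omega)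
  rcases hy2 with hy2 | hy2
  · rcases hy1 with hy1 | hy1 | hy1
    · exact hy2.2 hy1
    · have := (hRb hy2.1).2; rw [hy1, hp] at this; simp only at this; omega
    · have := (hRb hy2.1).2; rw [Set.mem_singleton_iff.1 hy1, hq] at this; simp only at this; omega
  · rw [Set.mem_singleton_iff.1 hy2] at hy1
    rcases hy1 with hy1 | hy1 | hy1
    · have := (hRb (hMR hy1)).2; rw [hu] at this; simp only at this; omega
    · rw [hu, hp, Prod.ext_iff] at hy1; simp only at hy1; omega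
    · rw [Set.mem_singleton_iff, hu, hq, Prod.ext_iff] at hy1; simp only at hy1; omega

/-- **(iii) INTERVAL** in the Euclidean rectangle: the traces of `M` on the two extreme rows are intervals -/
theorem psq_int_rect {A B c d : ℤ} (hcd : c ≤ d) (hAB : A + 1 ≤ B) {AA CC M : Set TV} (hAAR : AA ⊆ rswRect A B c d) (hCCR : CC ⊆ rswRect A B c d)
    (hAA : TscConn tscG AA) (hCC : TscConn tscG CC) (hL : ∀ z ∈ rswRect A B c d, rswX z ≤ A + 1 → z ∈ AA)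
    (hRt : ∀ z ∈ rswRect A B c d, B - 1 ≤ rswX z → z ∈ CC) (hM1 : M ⊆ rswRect A B c d \ (AA ∪ CC))
    (hM2 : ∀ z ∈ M, ∀ w ∈ rswRect A B c d \ (AA ∪ CC), tscG.Adj z w → w ∈ M) (hM3 : TscConn tscG M) :
    (∀ z1 ∈ M, ∀ z2 ∈ M, z1.2 = c → z2.2 = c → ∀ i, z1.1 ≤ i → i ≤ z2.1 → (i, c) ∈ M) ∧
    (∀ z1 ∈ M, ∀ z2 ∈ M, z1.2 = d → z2.2 = d → ∀ i, z1.1 ≤ i → i ≤ z2.1 → (i, d) ∈ M) := by
  have hR : TscConn tscG (rswRect A B c d) := psq_rect_conn hAB
  have hRb : rswRect A B c d ⊆ plsBand c d := fun z hz => hz.2.2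
  have hMR : M ⊆ rswRect A B c d := fun z hz => (hM1 hz).1
  have hl : ∀ r, c ≤ r → r ≤ d → ∃ v ∈ AA, v.2 = r := by
    intro r h1 h2
    have hm : (((A - r + 1) / 2, r) : TV) ∈ rswRect A B c d := by
      refine ⟨?_, ?_, h1, h2⟩ <;> unfold rswX <;> dsimp only <;> omega
    exact ⟨_, hL _ hm (by unfold rswX; dsimp only; omega), rfl⟩
  have hr : ∀ r, c ≤ r → r ≤ d → ∃ v ∈ CC, v.2 = r := by
    intro r h1 h2
    have hm : (((B - r) / 2, r) : TV) ∈ rswRect A B c d := by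
      refine ⟨?_, ?_, h1, h2⟩ <;> unfold rswX <;> dsimp only <;> omega
    exact ⟨_, hRt _ hm (by unfold rswX; dsimp only; omega), rfl⟩
  have hmem : ∀ z1 ∈ M, ∀ z2 ∈ M, ∀ r, z1.2 = r → z2.2 = r → ∀ i, z1.1 ≤ i → i ≤ z2.1 → ((i, r) : TV) ∈ rswRect A B c d := by
    intro z1 h1 z2 h2 r e1 e2 i l1 l2
    obtain ⟨a1, -, a3, a4⟩ := hMR h1
    obtain ⟨-, b2, -, -⟩ := hMR h2
    unfold rswX at a1 b2
    refine ⟨?_, ?_, ?_, ?_⟩ <;> (try unfold rswX) <;> dsimp only <;> omega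
  constructor
  · intro z1 h1 z2 h2 e1 e2 i l1 l2
    rcases eq_or_lt_of_le l1 with l1 | l1
    · have : ((i, c) : TV) = z1 := Prod.ext l1.symm e1.symm
      rw [this]; exact h1
    rcases eq_or_lt_of_le l2 with l2 | l2
    · have : ((i, c) : TV) = z2 := Prod.ext l2 e2.symm
      rw [this]; exact h2
    exact psq_int_bot hRb hMR hM3 (psq_esc_row hR hAAR hCCR hAA hCC hM1 hM2 (hl d hcd le_rfl) (hr d hcd le_rfl)) h1 h2
      (hmem z1 h1 z2 h2 c e1 e2 i l1.le l2.le) e1 e2 rfl l1 l2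
  · intro z1 h1 z2 h2 e1 e2 i l1 l2
    rcases eq_or_lt_of_le l1 with l1 | l1
    · have : ((i, d) : TV) = z1 := Prod.ext l1.symm e1.symm
      rw [this]; exact h1
    rcases eq_or_lt_of_le l2 with l2 | l2
    · have : ((i, d) : TV) = z2 := Prod.ext l2 e2.symm
      rw [this]; exact h2
    exact psq_int_top hRb hMR hM3 (psq_esc_row hR hAAR hCCR hAA hCC hM1 hM2 (hl c le_rfl hcd) (hr c le_rfl hcd)) h1 h2
      (hmem z1 h1 z2 h2 d e1 e2 i l1.le l2.le) e1 e2 rfl l1 l2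

/-- **(iii) INTERVAL** in the band dictionary (`Pl/Record`, `RsgDat`): the traces of the strip `hxrQ` on the two extreme rows are intervals -/
theorem psq_int_band {y0 y1 xm xM : ℤ} {a c : Set TV} {pa qa pc qc : TV} (H : HxrPair y0 y1 xm xM a c pa qa pc qc) :
    (∀ z1 ∈ hxrQ y0 y1 xm xM a c, ∀ z2 ∈ hxrQ y0 y1 xm xM a c, z1.2 = y0 → z2.2 = y0 → ∀ i, z1.1 ≤ i → i ≤ z2.1 → (i, y0) ∈ hxrQ y0 y1 xm xM a c) ∧
    (∀ z1 ∈ hxrQ y0 y1 xm xM a c, ∀ z2 ∈ hxrQ y0 y1 xm xM a c, z1.2 = y1 → z2.2 = y1 → ∀ i, z1.1 ≤ i → i ≤ z2.1 → (i, y1) ∈ hxrQ y0 y1 xm xM a c) := by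
  have hy := hxr_pair_le H
  have hesc : ∀ r (_ : ∃ v ∈ hxrAA y0 y1 xM a, v.2 = r) (_ : ∃ v ∈ hxrCC y0 y1 xm c, v.2 = r), ∀ z ∈ plsBand y0 y1 \ hxrQ y0 y1 xm xM a c,
      ∃ v, v.2 = r ∧ TscR tscG (plsBand y0 y1 \ hxrQ y0 y1 xm xM a c) z v := fun r h1 h2 =>
    psq_esc_row (hxr_band_conn y0 y1) (hxr_sol_sub _ _ _) (hxr_sol_sub _ _ _) (hxr_AA_conn H.A) (hxr_CC_conn H.C) (subset_refl _)
      (fun _ _ w hw _ => hw) h1 h2
  constructor
  · intro z1 h1 z2 h2 e1 e2 i l1 l2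
    rcases eq_or_lt_of_le l1 with l1 | l1
    · have : ((i, y0) : TV) = z1 := Prod.ext l1.symm e1.symm
      rw [this]; exact h1
    rcases eq_or_lt_of_le l2 with l2 | l2
    · have : ((i, y0) : TV) = z2 := Prod.ext l2 e2.symm
      rw [this]; exact h2
    exact psq_int_bot (subset_refl _) Set.sdiff_subset (hxr_Q_conn H)
      (hesc y1 ⟨qa, hxr_a_sub_AA H.A H.A.qa, H.A.q1⟩ ⟨qc, hxr_c_sub_CC H.C H.C.qa, H.C.q1⟩) h1 h2 ⟨le_rfl, hy⟩ e1 e2 rfl l1 l2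
  · intro z1 h1 z2 h2 e1 e2 i l1 l2
    rcases eq_or_lt_of_le l1 with l1 | l1
    · have : ((i, y1) : TV) = z1 := Prod.ext l1.symm e1.symm
      rw [this]; exact h1
    rcases eq_or_lt_of_le l2 with l2 | l2
    · have : ((i, y1) : TV) = z2 := Prod.ext l2 e2.symm
      rw [this]; exact h2
    exact psq_int_top (subset_refl _) Set.sdiff_subset (hxr_Q_conn H)
      (hesc y0 ⟨pa, hxr_a_sub_AA H.A H.A.pa, H.A.p0⟩ ⟨pc, hxr_c_sub_CC H.C H.C.pa, H.C.p0⟩) h1 h2 ⟨hy, le_rfl⟩ e1 e2 rfl l1 l2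

/-- the solid side of the leftmost crossing is connected -/
theorem psq_AA_conn {A B c d w m : ℤ} (hcd : c < d) (hw : 1 ≤ w) (hA : A + 4 ≤ m - w) (hB : m + w + 4 ≤ B) {P : Set TV}
    (hI : ∀ z ∈ rswRect A B c d ∩ rsrSgR B c d m w, z ∉ pleI tscG (rswRect A B c d \ P) (rsrSgL A c d m w)) :
    TscConn tscG (pleSolid tscG (rswRect A B c d) (rsrSgL A c d m w) (rsrSgR B c d m w) (pleI tscG (rswRect A B c d \ P) (rsrSgL A c d m w))) :=
  ple_solid_conn (rsr_quad_L hcd hw hA hB) hI (psq_rect_conn (by omega)) (rsr_quad_R hcd hw hA hB).opp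

/-- the solid side of the rightmost crossing is connected -/
theorem psq_CC_conn {A B c d w m : ℤ} (hcd : c < d) (hw : 1 ≤ w) (hA : A + 4 ≤ m - w) (hB : m + w + 4 ≤ B) {P : Set TV}
    (hJ : ∀ z ∈ rswRect A B c d ∩ rsrSgL A c d m w, z ∉ pleI tscG (rswRect A B c d \ P) (rsrSgR B c d m w)) :
    TscConn tscG (pleSolid tscG (rswRect A B c d) (rsrSgR B c d m w) (rsrSgL A c d m w) (pleI tscG (rswRect A B c d \ P) (rsrSgR B c d m w))) :=
  ple_solid_conn (rsr_quad_R hcd hw hA hB) hJ (psq_rect_conn (by omega)) (rsr_quad_L hcd hw hA hB).opp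

/-! ## §4 the extreme site rows of `Q = sites(M)` -/

/-- the sites of the row `r` which lie in a cell of `M` and in no cell of `X` -/
def psqRow (cs : TV → Finset TV) (M X : Set TV) (r : ℤ) : Set TV := {v | v.2 = r ∧ (∃ z ∈ M, v ∈ cs z) ∧ ¬ ∃ z ∈ X, v ∈ cs z}

theorem psq_eqns_cite : True := by
  have := @psqRow.eq_1
  trivial

theorem psq_conn_of_le {D : Set TV} (h : ∀ v ∈ D, ∀ v' ∈ D, v.1 ≤ v'.1 → TscR tscG D v v') : TscConn tscG D := by
  intro v hv v' hv'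
  rcases le_total v.1 v'.1 with h1 | h1
  · exact h v hv v' hv' h1
  · exact tsc_R_symm (h v' hv' v hv h1)

/-- a site row whose sites lie in TWO cells of the extreme cell row `ρ` -/
theorem psq_row_two {cs : TV → Finset TV} {M X Bd : Set TV} {r ρ : ℤ} (hMb : M ⊆ Bd) (hXb : X ⊆ Bd) (hXM : ∀ z ∈ X, z ∉ M)
    (H : ∀ v z : TV, v.2 = r → z ∈ Bd → (v ∈ cs z ↔ z = (v.1, ρ) ∨ z = (v.1 - 1, ρ)))
    (hint : ∀ z1 ∈ M, ∀ z2 ∈ M, z1.2 = ρ → z2.2 = ρ → ∀ i, z1.1 ≤ i → i ≤ z2.1 → (i, ρ) ∈ M) : TscConn tscG (psqRow cs M X r) := by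
  refine psq_conn_of_le fun v hv v' hv' hle => ?_
  obtain ⟨z, hzM, hz⟩ := hv.2.1
  obtain ⟨z', hzM', hz'⟩ := hv'.2.1
  have hz1 := (H v z hv.1 (hMb hzM)).1 hz
  have hz2 := (H v' z' hv'.1 (hMb hzM')).1 hz'
  have ev : v = (v.1, r) := Prod.ext rfl hv.1
  have ev' : v' = (v'.1, r) := Prod.ext rfl hv'.1
  rw [ev, ev']
  refine tsc_R_hseg fun i h1 h2 => ?_
  rw [min_eq_left hle] at h1
  rw [max_eq_right hle] at h2
  rcases eq_or_lt_of_le h1 with h1 | h1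
  · rw [← h1, ← ev]; exact hv
  rcases eq_or_lt_of_le h2 with h2 | h2
  · rw [h2, ← ev']; exact hv'
  have a1 : z.2 = ρ ∧ z.1 ≤ i - 1 := by
    rcases hz1 with e | e <;> rw [e] <;> dsimp only <;> omega
  have a2 : z'.2 = ρ ∧ i ≤ z'.1 := by
    rcases hz2 with e | e <;> rw [e] <;> dsimp only <;> omega
  have m1 : (i, ρ) ∈ M := hint z hzM z' hzM' a1.1 a2.1 i (by omega) a2.2
  have m2 : (i - 1, ρ) ∈ M := hint z hzM z' hzM' a1.1 a2.1 (i - 1) a1.2 (by omega)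
  refine ⟨rfl, ⟨(i, ρ), m1, (H (i, r) (i, ρ) rfl (hMb m1)).2 (Or.inl rfl)⟩, ?_⟩
  rintro ⟨y, hyX, hy⟩
  rcases (H (i, r) y rfl (hXb hyX)).1 hy with e | e
  · exact hXM y hyX (e ▸ m1)
  · exact hXM y hyX (e ▸ m2)

/-- a site row whose sites lie in ONE cell of the extreme cell row `ρ` -/
theorem psq_row_one {cs : TV → Finset TV} {M X Bd : Set TV} {r ρ k : ℤ} (hMb : M ⊆ Bd) (hXb : X ⊆ Bd) (hXM : ∀ z ∈ X, z ∉ M)
    (H : ∀ v z : TV, v.2 = r → z ∈ Bd → (v ∈ cs z ↔ z = (v.1 + k, ρ)))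
    (hint : ∀ z1 ∈ M, ∀ z2 ∈ M, z1.2 = ρ → z2.2 = ρ → ∀ i, z1.1 ≤ i → i ≤ z2.1 → (i, ρ) ∈ M) : TscConn tscG (psqRow cs M X r) := by
  refine psq_conn_of_le fun v hv v' hv' hle => ?_
  obtain ⟨z, hzM, hz⟩ := hv.2.1
  obtain ⟨z', hzM', hz'⟩ := hv'.2.1
  have hz1 := (H v z hv.1 (hMb hzM)).1 hz
  have hz2 := (H v' z' hv'.1 (hMb hzM')).1 hz'
  have ev : v = (v.1, r) := Prod.ext rfl hv.1
  have ev' : v' = (v'.1, r) := Prod.ext rfl hv'.1
  rw [ev, ev']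
  refine tsc_R_hseg fun i h1 h2 => ?_
  rw [min_eq_left hle] at h1
  rw [max_eq_right hle] at h2
  have m1 : (i + k, ρ) ∈ M := hint z hzM z' hzM' (by rw [hz1]) (by rw [hz2]) (i + k) (by rw [hz1]; dsimp only; omega) (by rw [hz2]; dsimp only; omega)
  refine ⟨rfl, ⟨(i + k, ρ), m1, (H (i, r) (i + k, ρ) rfl (hMb m1)).2 rfl⟩, ?_⟩
  rintro ⟨y, hyX, hy⟩
  exact hXM y hyX ((H (i, r) y rfl (hXb hyX)).1 hy ▸ m1)

theorem psq_mem_cellV (v z : TV) : v ∈ cellV z ↔ z = v ∨ z = (v.1 - 1, v.2) ∨ z = (v.1, v.2 - 1) := by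
  unfold cellV
  simp only [Finset.mem_insert, Finset.mem_singleton, Prod.ext_iff, Prod.fst_add, Prod.snd_add]
  omega

theorem psq_mem_cellD (v z : TV) : v ∈ cellD z ↔ z = (v.1 - 1, v.2) ∨ z = (v.1, v.2 - 1) ∨ z = (v.1 - 1, v.2 - 1) := by
  unfold cellD
  simp only [Finset.mem_insert, Finset.mem_singleton, Prod.ext_iff, Prod.fst_add, Prod.snd_add]
  omega

variable {M X : Set TV} {c d : ℤ}

/-- up-cells, bottom site row -/
theorem psq_dconn_V (hMb : M ⊆ plsBand c d) (hXb : X ⊆ plsBand c d) (hXM : ∀ z ∈ X, z ∉ M)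
    (hint : ∀ z1 ∈ M, ∀ z2 ∈ M, z1.2 = c → z2.2 = c → ∀ i, z1.1 ≤ i → i ≤ z2.1 → (i, c) ∈ M) : TscConn tscG (psqRow cellV M X c) := by
  refine psq_row_two hMb hXb hXM (fun v z hv hz => ?_) hint
  have := hz.1
  rw [psq_mem_cellV]
  simp only [Prod.ext_iff]
  omega

/-- up-cells, top site row -/
theorem psq_bconn_V (hMb : M ⊆ plsBand c d) (hXb : X ⊆ plsBand c d) (hXM : ∀ z ∈ X, z ∉ M)
    (hint : ∀ z1 ∈ M, ∀ z2 ∈ M, z1.2 = d → z2.2 = d → ∀ i, z1.1 ≤ i → i ≤ z2.1 → (i, d) ∈ M) : TscConn tscG (psqRow cellV M X (d + 1)) := by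
  refine psq_row_one (k := 0) hMb hXb hXM (fun v z hv hz => ?_) hint
  have := hz.2
  rw [psq_mem_cellV]
  simp only [Prod.ext_iff]
  omega

/-- down-cells, bottom site row -/
theorem psq_dconn_D (hMb : M ⊆ plsBand c d) (hXb : X ⊆ plsBand c d) (hXM : ∀ z ∈ X, z ∉ M)
    (hint : ∀ z1 ∈ M, ∀ z2 ∈ M, z1.2 = c → z2.2 = c → ∀ i, z1.1 ≤ i → i ≤ z2.1 → (i, c) ∈ M) : TscConn tscG (psqRow cellD M X c) := by
  refine psq_row_one (k := -1) hMb hXb hXM (fun v z hv hz => ?_) hint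
  have := hz.1
  rw [psq_mem_cellD]
  simp only [Prod.ext_iff]
  omega

/-- down-cells, top site row -/
theorem psq_bconn_D (hMb : M ⊆ plsBand c d) (hXb : X ⊆ plsBand c d) (hXM : ∀ z ∈ X, z ∉ M)
    (hint : ∀ z1 ∈ M, ∀ z2 ∈ M, z1.2 = d → z2.2 = d → ∀ i, z1.1 ≤ i → i ≤ z2.1 → (i, d) ∈ M) : TscConn tscG (psqRow cellD M X (d + 1)) := by
  refine psq_row_two hMb hXb hXM (fun v z hv hz => ?_) hint
  have := hz.2
  rw [psq_mem_cellD]
  simp only [Prod.ext_iff]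
  omega

end Claimed.Agent.R291
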