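import Claimed.Agent.R291.Ann.RswDict
import Claimed.Agent.R291.Pl.StripQ
import Claimed.Agent.R291.Pl.Closed

/-!
# Row 291 (S0539), unit PLA / ANN A3-II (D), Pl/StripBar : BARRIERS OF SITES OFF `Q`      (owner helper173; prefix `psb_`)

Ask of helper187 (07:50Z, BAR_L / BAR_R for `pcl_jq`), route of helper182.   Vocabulary of `Ann/RswDict` (182): `rdiCs T z` = sites of the cell `z`, `rdiSt T M` = `Q` = sites of `M`, `RdiIn M y` (the cell and its 6 neighbours are off `M`),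
`RdiSide M R σ I a` = one explored side (THICKNESS: every cell of the layer `a` lies on the arc `σ` or touches the cluster `I`).

* `psb_deep_path`    a path of cells which are far from `M`, inside the rows `c..d`  ⟹  all their sites are joined inside (site rows `c..d+1`) minus `Q`
* `PsbSafe T Λ v`    all the cells of the site `v` belong to `Λ`;   `psb_safe_shift`, `psb_safe_run`: if `Λ` is off `M` and stable under the horizontal shift `e = ±1`, the horizontal ray from a safe site is off `Q`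
* `psb_bar`          abstract barrier;      `psbLamL`, `psbLamR`: the cells outside the rectangle on the left (right) + the arc;  `psb_safe_L`, `psb_safe_R`: every arc cell has a safe site
* **`psb_bar_L`**, **`psb_bar_R`**: for every site `a0` of a cell of the layer there is a site `t ∉ Q`, `t = a0` or `t ~ a0`, joined inside (site rows `c..d+1`) minus `Q` to a site with `X < xm` (`X > xM`), for EVERY `xm` (`xM`)
* `psb_bar_L'`, `psb_bar_R'`: the same for `a0 ∈ Q` (then `t ~ a0`)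
* §5 PRODUCER OF `PclStrip` (187, `Pl/Closed`): `psb_pclL`, `psb_pclR` (`PclBarL`, `PclBarR`), `psb_D_ne`, `psb_B_ne` (the two ends `Ld \ (La ∪ Lc)`, `Lb \ (La ∪ Lc)` are non empty: needs `HxrPair` + FAR), **`psb_strip`** (sets),
  **`psb_rsg_strip`** : `PclStrip D.y0 (D.y1 + 1) D.xm (D.xM + 3) (rsgQ D) (rsgLa D) (rsgLc D) (rsgLd D \ (rsgLa D ∪ rsgLc D)) (rsgLb D \ (rsgLa D ∪ rsgLc D))` from `RdiGeo` (182) + `HxrPair`
-/

set_option autoImplicit false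

namespace Claimed.Agent.R291

open Claims Claims.C0467 Relation

/-! ## §1 sites of cells which are far from `M` -/

/-- the sites of a cell of the rows `c..d` lie in the rows `c..d+1` -/
theorem psb_site_band {T : Bool} {c d : ℤ} {z v : TV} (hz : z ∈ plsBand c d) (hv : v ∈ rdiCs T z) : v ∈ plsBand c (d + 1) := by
  obtain ⟨h1, h2⟩ := hz
  cases T
  · rw [rdi_mem_D] at hv
    constructor <;> omega
  · rw [rdi_mem_V] at hv
    constructor <;> omega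

/-- two sites of one cell which are off `Q` are joined off `Q` -/
theorem psb_cell_R {T : Bool} {X : Set TV} {z u v : TV} (hu : u ∈ rdiCs T z) (hv : v ∈ rdiCs T z) (huX : u ∈ X) (hvX : v ∈ X) : TscR tscG X u v := by
  rcases rdi_cs_adj hu hv with rfl | h
  · exact tsc_R_refl _
  · exact tsc_R_step h huX hvX

/-- **a path of cells far from `M`**: all their sites are joined inside the site band, off `Q` -/
theorem psb_deep_path (T : Bool) {M S : Set TV} {c d : ℤ} (hS : ∀ b ∈ S, RdiIn M b) (hSb : S ⊆ plsBand c d) {y w : TV} (hy : y ∈ S) (h : TscR tscG S y w)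
    {s0 : TV} (hs0 : s0 ∈ rdiCs T y) : ∀ s1 ∈ rdiCs T w, TscR tscG (plsBand c (d + 1) \ rdiSt T M) s0 s1 := by
  have mem : ∀ b ∈ S, ∀ s ∈ rdiCs T b, s ∈ plsBand c (d + 1) \ rdiSt T M := fun b hb s hs => ⟨psb_site_band (hSb hb) hs, rdi_in_site (hS b hb) hs⟩
  induction h with
  | refl => exact fun s1 hs1 => psb_cell_R hs0 hs1 (mem y hy s0 hs0) (mem y hy s1 hs1)
  | @tail b c' _ hbc ih =>
    intro s1 hs1
    obtain ⟨s, g1, g2⟩ := rdi_adj_share T hbc.1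
    exact tsc_R_trans (ih s g1) (psb_cell_R g2 hs1 (mem c' hbc.2.2 s g2) (mem c' hbc.2.2 s1 hs1))

/-! ## §2 safe sites -/

/-- all the cells of the site `v` belong to `Λ` -/
def PsbSafe (T : Bool) (Λ : Set TV) (v : TV) : Prop := ∀ y, v ∈ rdiCs T y → y ∈ Λ

theorem psb_eqns_cite : True := by
  have := @PsbSafe.eq_1
  trivial

theorem psb_cs_shift (T : Bool) (e : ℤ) (v y : TV) : ((v.1 + e, v.2) : TV) ∈ rdiCs T y ↔ v ∈ rdiCs T (y.1 - e, y.2) := by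
  cases T
  · rw [rdi_mem_D, rdi_mem_D]
    dsimp only
    omega
  · rw [rdi_mem_V, rdi_mem_V]
    dsimp only
    omega

theorem psb_safe_off {T : Bool} {Λ M : Set TV} (hΛM : ∀ z ∈ Λ, z ∉ M) {v : TV} (hv : PsbSafe T Λ v) : v ∉ rdiSt T M := by
  rintro ⟨z, hz, hvz⟩
  exact hΛM z (hv z hvz) hz

theorem psb_safe_shift {T : Bool} {Λ : Set TV} {e : ℤ} (hΛ : ∀ z ∈ Λ, ((z.1 + e, z.2) : TV) ∈ Λ) {v : TV} (hv : PsbSafe T Λ v) :
    PsbSafe T Λ (v.1 + e, v.2) := by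
  intro y hy
  have h := hΛ _ (hv _ ((psb_cs_shift T e v y).1 hy))
  have e1 : ((y.1 - e + e, y.2) : TV) = y := Prod.ext (by dsimp only; omega) rfl
  dsimp only at h
  rwa [e1] at h

/-- the horizontal ray from a safe site is off `Q` -/
theorem psb_safe_run {T : Bool} {Λ M : Set TV} {e c d : ℤ} (he : e = 1 ∨ e = -1) (hΛ : ∀ z ∈ Λ, ((z.1 + e, z.2) : TV) ∈ Λ) (hΛM : ∀ z ∈ Λ, z ∉ M)
    {v : TV} (hv : PsbSafe T Λ v) (hvb : v ∈ plsBand c d) (n : ℕ) :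
    PsbSafe T Λ (v.1 + n * e, v.2) ∧ TscR tscG (plsBand c d \ rdiSt T M) v (v.1 + n * e, v.2) := by
  induction n with
  | zero =>
    have e1 : ((v.1 + ((0 : ℕ) : ℤ) * e, v.2) : TV) = v := Prod.ext (by dsimp only; simp) rfl
    rw [e1]
    exact ⟨hv, tsc_R_refl _⟩
  | succ n ih =>
    obtain ⟨h1, h2⟩ := ih
    have h3 := psb_safe_shift hΛ h1
    have e1 : ((v.1 + ((n + 1 : ℕ) : ℤ) * e, v.2) : TV) = (v.1 + n * e + e, v.2) := Prod.ext (by dsimp only; push_cast; ring) rfl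
    rw [e1]
    refine ⟨h3, h2.tail ⟨?_, ⟨hvb, psb_safe_off hΛM h1⟩, ⟨hvb, psb_safe_off hΛM h3⟩⟩⟩
    rw [tsc_G_adj, tsc_adj_iff]
    dsimp only
    omega

/-! ## §3 the abstract barrier -/

/-- **barrier, abstract form** -/
theorem psb_bar (T : Bool) {M R σ I a Λ : Set TV} {c d e : ℤ} (he : e = 1 ∨ e = -1) (hRb : R ⊆ plsBand c d) (hIR : I ⊆ R) (h : RdiSide M R σ I a)
    (hΛ : ∀ z ∈ Λ, ((z.1 + e, z.2) : TV) ∈ Λ) (hΛM : ∀ z ∈ Λ, z ∉ M) (hsafe : ∀ z ∈ R ∩ σ, ∃ v ∈ rdiCs T z, PsbSafe T Λ v)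
    {y a0 : TV} (hy : y ∈ a) (ha0 : a0 ∈ rdiCs T y) :
    ∃ t v : TV, t ∈ plsBand c (d + 1) \ rdiSt T M ∧ (t = a0 ∨ triAdj a0 t) ∧ ∀ n : ℕ, TscR tscG (plsBand c (d + 1) \ rdiSt T M) t (v.1 + n * e, v.2) := by
  obtain ⟨hyR, -, hσ | ⟨i, hi, hiy⟩⟩ := h.lay y hy
  · obtain ⟨v, hv, hvs⟩ := hsafe y ⟨hyR, hσ⟩
    refine ⟨v, v, ⟨psb_site_band (hRb hyR) hv, psb_safe_off hΛM hvs⟩, (rdi_cs_adj hv ha0).imp id (fun g => tscG.symm.symm _ _ g), fun n => ?_⟩
    exact (psb_safe_run he hΛ hΛM hvs (psb_site_band (hRb hyR) hv) n).2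
  · obtain ⟨t, g1, g2⟩ := rdi_adj_share T hiy
    obtain ⟨z, hzI, hzσ, hiz⟩ := h.toσ i hi
    obtain ⟨v, hv, hvs⟩ := hsafe z hzσ
    refine ⟨t, v, ⟨psb_site_band (hRb hyR) g2, rdi_in_site (h.inI i hi) g1⟩, (rdi_cs_adj g2 ha0).imp id (fun g => tscG.symm.symm _ _ g), fun n => ?_⟩
    exact tsc_R_trans (psb_deep_path T h.inI (hIR.trans hRb) hi hiz g1 v hv) (psb_safe_run he hΛ hΛM hvs (psb_site_band (hRb hzσ.1) hv) n).2

/-! ## §4 the Euclidean rectangle with the arcs of `Ann/RswRec` -/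

/-- the cells outside the rectangle (below, above, on the left) and the cells of the left arc -/
def psbLamL (A c d i w : ℤ) : Set TV := {z | z.2 < c ∨ d < z.2 ∨ rswX z < A ∨ z ∈ rsrSgL A c d i w}

/-- the cells outside the rectangle (below, above, on the right) and the cells of the right arc -/
def psbLamR (B c d i w : ℤ) : Set TV := {z | z.2 < c ∨ d < z.2 ∨ B < rswX z ∨ z ∈ rsrSgR B c d i w}

theorem psb_eqns_cite2 : True := by
  have := @psbLamL.eq_1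
  have := @psbLamR.eq_1
  trivial

theorem psb_lamL_shift {A c d i w : ℤ} : ∀ z ∈ psbLamL A c d i w, ((z.1 + (-1), z.2) : TV) ∈ psbLamL A c d i w := by
  intro z hz
  simp only [psbLamL, rsrSgL, rswX, Set.mem_ofPred_eq] at *
  omega

theorem psb_lamR_shift {B c d i w : ℤ} : ∀ z ∈ psbLamR B c d i w, ((z.1 + 1, z.2) : TV) ∈ psbLamR B c d i w := by
  intro z hz
  simp only [psbLamR, rsrSgR, rswX, Set.mem_ofPred_eq] at *
  omega

theorem psb_lamL_off {A B c d i w : ℤ} {M : Set TV} (hM : M ⊆ rswRect A B c d) (hσ : ∀ z ∈ rswRect A B c d ∩ rsrSgL A c d i w, z ∉ M) :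
    ∀ z ∈ psbLamL A c d i w, z ∉ M := by
  intro z hz hzM
  obtain ⟨h1, h2, h3, h4⟩ := hM hzM
  rcases hz with h | h | h | h
  · omega
  · omega
  · omega
  · exact hσ z ⟨hM hzM, h⟩ hzM

theorem psb_lamR_off {A B c d i w : ℤ} {M : Set TV} (hM : M ⊆ rswRect A B c d) (hσ : ∀ z ∈ rswRect A B c d ∩ rsrSgR B c d i w, z ∉ M) :
    ∀ z ∈ psbLamR B c d i w, z ∉ M := by
  intro z hz hzM
  obtain ⟨h1, h2, h3, h4⟩ := hM hzM
  rcases hz with h | h | h | h
  · omega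
  · omega
  · omega
  · exact hσ z ⟨hM hzM, h⟩ hzM

/-- every cell of the left arc has a safe site -/
theorem psb_safe_L (T : Bool) {A B c d i w : ℤ} : ∀ z ∈ rswRect A B c d ∩ rsrSgL A c d i w, ∃ v ∈ rdiCs T z, PsbSafe T (psbLamL A c d i w) v := by
  rintro z ⟨⟨h1, h2, h3, h4⟩, hz⟩
  unfold rswX at h1 h2
  simp only [rsrSgL, rswX, Set.mem_ofPred_eq] at hz
  cases T
  · by_cases hc : z.2 = c ∧ ¬ 2 * z.1 + z.2 ≤ A + 1
    · refine ⟨(z.1 + 1, z.2), by rw [rdi_mem_D]; dsimp only; omega, fun y hy => ?_⟩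
      rw [rdi_mem_D] at hy
      dsimp only at hy
      simp only [psbLamL, rsrSgL, rswX, Set.mem_ofPred_eq]
      omega
    · refine ⟨(z.1, z.2 + 1), by rw [rdi_mem_D]; dsimp only; omega, fun y hy => ?_⟩
      rw [rdi_mem_D] at hy
      dsimp only at hy
      simp only [psbLamL, rsrSgL, rswX, Set.mem_ofPred_eq]
      omega
  · by_cases hc : z.2 = d ∧ ¬ 2 * z.1 + z.2 ≤ A + 1 ∧ c ≠ d
    · refine ⟨(z.1, z.2 + 1), by rw [rdi_mem_V]; dsimp only; omega, fun y hy => ?_⟩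
      rw [rdi_mem_V] at hy
      dsimp only at hy
      simp only [psbLamL, rsrSgL, rswX, Set.mem_ofPred_eq]
      omega
    · refine ⟨(z.1, z.2), by rw [rdi_mem_V]; dsimp only; omega, fun y hy => ?_⟩
      rw [rdi_mem_V] at hy
      dsimp only at hy
      simp only [psbLamL, rsrSgL, rswX, Set.mem_ofPred_eq]
      omega

/-- every cell of the right arc has a safe site -/
theorem psb_safe_R (T : Bool) {A B c d i w : ℤ} : ∀ z ∈ rswRect A B c d ∩ rsrSgR B c d i w, ∃ v ∈ rdiCs T z, PsbSafe T (psbLamR B c d i w) v := by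
  rintro z ⟨⟨h1, h2, h3, h4⟩, hz⟩
  unfold rswX at h1 h2
  simp only [rsrSgR, rswX, Set.mem_ofPred_eq] at hz
  cases T
  · by_cases hc : z.2 = c ∧ ¬ B - 1 ≤ 2 * z.1 + z.2 ∧ c ≠ d
    · refine ⟨(z.1 + 1, z.2), by rw [rdi_mem_D]; dsimp only; omega, fun y hy => ?_⟩
      rw [rdi_mem_D] at hy
      dsimp only at hy
      simp only [psbLamR, rsrSgR, rswX, Set.mem_ofPred_eq]
      omega
    · refine ⟨(z.1 + 1, z.2 + 1), by rw [rdi_mem_D]; dsimp only; omega, fun y hy => ?_⟩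
      rw [rdi_mem_D] at hy
      dsimp only at hy
      simp only [psbLamR, rsrSgR, rswX, Set.mem_ofPred_eq]
      omega
  · by_cases hc : z.2 = d ∧ ¬ B - 1 ≤ 2 * z.1 + z.2
    · refine ⟨(z.1, z.2 + 1), by rw [rdi_mem_V]; dsimp only; omega, fun y hy => ?_⟩
      rw [rdi_mem_V] at hy
      dsimp only at hy
      simp only [psbLamR, rsrSgR, rswX, Set.mem_ofPred_eq]
      omega
    · refine ⟨(z.1 + 1, z.2), by rw [rdi_mem_V]; dsimp only; omega, fun y hy => ?_⟩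
      rw [rdi_mem_V] at hy
      dsimp only at hy
      simp only [psbLamR, rsrSgR, rswX, Set.mem_ofPred_eq]
      omega

/-- **BAR_L** -/
theorem psb_bar_L (T : Bool) {A B c d i w : ℤ} {M I a : Set TV} (hM : M ⊆ rswRect A B c d) (hIR : I ⊆ rswRect A B c d)
    (h : RdiSide M (rswRect A B c d) (rsrSgL A c d i w) I a) {y a0 : TV} (hy : y ∈ a) (ha0 : a0 ∈ rdiCs T y) (xm : ℤ) :
    ∃ t t' : TV, t ∈ plsBand c (d + 1) \ rdiSt T M ∧ (t = a0 ∨ triAdj a0 t) ∧ rswX t' < xm ∧ TscR tscG (plsBand c (d + 1) \ rdiSt T M) t t' := by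
  obtain ⟨t, v, h1, h2, h3⟩ := psb_bar T (e := -1) (Or.inr rfl) (fun z hz => hz.2.2) hIR h psb_lamL_shift (psb_lamL_off hM h.σM) (psb_safe_L T) hy ha0
  refine ⟨t, _, h1, h2, ?_, h3 (rswX v - xm + 1).toNat⟩
  unfold rswX
  dsimp only
  omega

/-- **BAR_R** -/
theorem psb_bar_R (T : Bool) {A B c d i w : ℤ} {M J a : Set TV} (hM : M ⊆ rswRect A B c d) (hJR : J ⊆ rswRect A B c d)
    (h : RdiSide M (rswRect A B c d) (rsrSgR B c d i w) J a) {y a0 : TV} (hy : y ∈ a) (ha0 : a0 ∈ rdiCs T y) (xM : ℤ) :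
    ∃ t t' : TV, t ∈ plsBand c (d + 1) \ rdiSt T M ∧ (t = a0 ∨ triAdj a0 t) ∧ xM < rswX t' ∧ TscR tscG (plsBand c (d + 1) \ rdiSt T M) t t' := by
  obtain ⟨t, v, h1, h2, h3⟩ := psb_bar T (e := 1) (Or.inl rfl) (fun z hz => hz.2.2) hJR h psb_lamR_shift (psb_lamR_off hM h.σM) (psb_safe_R T) hy ha0
  refine ⟨t, _, h1, h2, ?_, h3 (xM - rswX v + 1).toNat⟩
  unfold rswX
  dsimp only
  omega

/-- BAR_L for a site of `La = Q ∩ sites(a)` -/
theorem psb_bar_L' (T : Bool) {A B c d i w : ℤ} {M I a : Set TV} (hM : M ⊆ rswRect A B c d) (hIR : I ⊆ rswRect A B c d)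
    (h : RdiSide M (rswRect A B c d) (rsrSgL A c d i w) I a) {a0 : TV} (hQ : a0 ∈ rdiSt T M) (ha : a0 ∈ rdiSt T a) (xm : ℤ) :
    ∃ t t' : TV, t ∈ plsBand c (d + 1) \ rdiSt T M ∧ triAdj a0 t ∧ rswX t' < xm ∧ TscR tscG (plsBand c (d + 1) \ rdiSt T M) t t' := by
  obtain ⟨y, hy, ha0⟩ := ha
  obtain ⟨t, t', h1, h2, h3, h4⟩ := psb_bar_L T hM hIR h hy ha0 xm
  exact ⟨t, t', h1, h2.resolve_left (fun e => h1.2 (e ▸ hQ)), h3, h4⟩

/-- BAR_R for a site of `Lc = Q ∩ sites(c)` -/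
theorem psb_bar_R' (T : Bool) {A B c d i w : ℤ} {M J a : Set TV} (hM : M ⊆ rswRect A B c d) (hJR : J ⊆ rswRect A B c d)
    (h : RdiSide M (rswRect A B c d) (rsrSgR B c d i w) J a) {a0 : TV} (hQ : a0 ∈ rdiSt T M) (ha : a0 ∈ rdiSt T a) (xM : ℤ) :
    ∃ t t' : TV, t ∈ plsBand c (d + 1) \ rdiSt T M ∧ triAdj a0 t ∧ xM < rswX t' ∧ TscR tscG (plsBand c (d + 1) \ rdiSt T M) t t' := by
  obtain ⟨y, hy, ha0⟩ := ha
  obtain ⟨t, t', h1, h2, h3, h4⟩ := psb_bar_R T hM hJR h hy ha0 xM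
  exact ⟨t, t', h1, h2.resolve_left (fun e => h1.2 (e ▸ hQ)), h3, h4⟩

/-! ## §5 the closed strip of `Pl/Closed` -/

theorem psb_pclL (T : Bool) {A B c d i w : ℤ} {M I a : Set TV} (hM : M ⊆ rswRect A B c d) (hIR : I ⊆ rswRect A B c d)
    (h : RdiSide M (rswRect A B c d) (rsrSgL A c d i w) I a) (xm : ℤ) : PclBarL c (d + 1) xm (rdiSt T M) (rdiSt T M ∩ rdiSt T a) := by
  rintro a0 ⟨hQ, ha⟩
  obtain ⟨t, t', h1, h2, h3, h4⟩ := psb_bar_L' T hM hIR h hQ ha xm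
  exact ⟨t, t', tscG.symm.symm _ _ h2, h1, tsc_R_symm h4, h3⟩

theorem psb_pclR (T : Bool) {A B c d i w : ℤ} {M J a : Set TV} (hM : M ⊆ rswRect A B c d) (hJR : J ⊆ rswRect A B c d)
    (h : RdiSide M (rswRect A B c d) (rsrSgR B c d i w) J a) (xM : ℤ) : PclBarR c (d + 1) xM (rdiSt T M) (rdiSt T M ∩ rdiSt T a) := by
  rintro a0 ⟨hQ, ha⟩
  obtain ⟨t, t', h1, h2, h3, h4⟩ := psb_bar_R' T hM hJR h hQ ha xM
  exact ⟨t, t', h2, h1, h4, h3⟩

/-- the sites of the cells of the rectangle -/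
theorem psb_site_box {T : Bool} {A B c d : ℤ} {z v : TV} (hz : z ∈ rswRect A B c d) (hv : v ∈ rdiCs T z) : A ≤ hxsX v ∧ hxsX v ≤ B + 3 := by
  obtain ⟨h1, h2, -, -⟩ := hz
  unfold rswX at h1 h2
  unfold hxsX
  cases T
  · rw [rdi_mem_D] at hv
    constructor <;> omega
  · rw [rdi_mem_V] at hv
    constructor <;> omega

section ends

variable {y0 y1 xm xM : ℤ} {a c : Set TV} {pa qa pc qc : TV}

/-- a free cell of the bottom row has no cell of `a` on its right, no cell of `c` on its left -/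
theorem psb_bot_nbr (H : HxrPair y0 y1 xm xM a c pa qa pc qc) {z : TV} (hz : z ∈ hxrQ y0 y1 xm xM a c) (h0 : z.2 = y0) :
    ((z.1 + 1, y0) : TV) ∉ a ∧ ((z.1 - 1, y0) : TV) ∉ c := by
  constructor
  · intro h
    have H' : HxrCr y0 y1 xm xM a (z.1 + 1, y0) qa := ⟨H.A.sub, H.A.conn, H.A.box, h, H.A.qa, rfl, H.A.q1⟩
    exact hz.2 (Or.inl (hxr_AA_bot H' h0 (by dsimp only; omega)))
  · intro h
    have H' : HxrCr y0 y1 xm xM c (z.1 - 1, y0) qc := ⟨H.C.sub, H.C.conn, H.C.box, h, H.C.qa, rfl, H.C.q1⟩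
    exact hz.2 (Or.inr (hxr_CC_bot H' h0 (by dsimp only; omega)))

/-- the same for the top row -/
theorem psb_top_nbr (H : HxrPair y0 y1 xm xM a c pa qa pc qc) {z : TV} (hz : z ∈ hxrQ y0 y1 xm xM a c) (h1 : z.2 = y1) :
    ((z.1 + 1, y1) : TV) ∉ a ∧ ((z.1 - 1, y1) : TV) ∉ c := by
  constructor
  · intro h
    have H' : HxrCr y0 y1 xm xM a pa (z.1 + 1, y1) := ⟨H.A.sub, H.A.conn, H.A.box, H.A.pa, h, H.A.p0, rfl⟩
    exact hz.2 (Or.inl (hxr_AA_top H' h1 (by dsimp only; omega)))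
  · intro h
    have H' : HxrCr y0 y1 xm xM c pc (z.1 - 1, y1) := ⟨H.C.sub, H.C.conn, H.C.box, H.C.pa, h, H.C.p0, rfl⟩
    exact hz.2 (Or.inr (hxr_CC_top H' h1 (by dsimp only; omega)))

/-- one of the two horizontal neighbours of a free cell of an extreme row is in no layer -/
theorem psb_row_free (hfar : ∀ y ∈ plsBand y0 y1, ¬ ((∃ u ∈ a, triAdj y u) ∧ ∃ v ∈ c, triAdj y v)) {z : TV} (hzb : z ∈ plsBand y0 y1)
    (h : ((z.1 + 1, z.2) : TV) ∉ a ∧ ((z.1 - 1, z.2) : TV) ∉ c) : ((z.1 - 1, z.2) : TV) ∉ a ∪ c ∨ ((z.1 + 1, z.2) : TV) ∉ a ∪ c := by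
  by_cases hu : ((z.1 - 1, z.2) : TV) ∈ a
  · right
    rintro (hv | hv)
    · exact h.1 hv
    · refine hfar z hzb ⟨⟨_, hu, ?_⟩, ⟨_, hv, ?_⟩⟩ <;> rw [tsc_adj_iff] <;> dsimp only <;> omega
  · left
    rintro (hv | hv)
    · exact hu hv
    · exact h.2 hv

/-- the bottom end is not empty -/
theorem psb_D_ne (T : Bool) (H : HxrPair y0 y1 xm xM a c pa qa pc qc) (hfar : ∀ y ∈ plsBand y0 y1, ¬ ((∃ u ∈ a, triAdj y u) ∧ ∃ v ∈ c, triAdj y v)) :
    (psqRow (rdiCs T) (hxrQ y0 y1 xm xM a c) (a ∪ c) y0).Nonempty := by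
  have hy := hxr_pair_le H
  obtain ⟨x, hx⟩ := hxr_row_gap H (y := y0) le_rfl hy H.feet (hxr_AA_bot H.A rfl le_rfl) (hxr_CC_bot H.C rfl le_rfl)
  have hXb : ∀ y ∈ a ∪ c, y0 ≤ y.2 := fun y hy => hy.elim (fun h => (H.A.sub h).1) (fun h => (H.C.sub h).1)
  have hXM : ∀ y ∈ a ∪ c, y ∉ hxrQ y0 y1 xm xM a c := fun y hy h =>
    h.2 (hy.elim (fun g => Or.inl (hxr_a_sub_AA H.A g)) (fun g => Or.inr (hxr_c_sub_CC H.C g)))
  cases T
  · refine ⟨(x + 1, y0), rfl, ⟨(x, y0), hx, by rw [rdi_mem_D]; dsimp only; omega⟩, ?_⟩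
    rintro ⟨y, hyX, hy'⟩
    rw [rdi_mem_D] at hy'
    dsimp only at hy'
    have := hXb y hyX
    have e : y = (x, y0) := Prod.ext (by dsimp only; omega) (by dsimp only; omega)
    exact hXM y hyX (e ▸ hx)
  · rcases psb_row_free hfar hx.1 (psb_bot_nbr H hx rfl) with h | h
    · refine ⟨(x, y0), rfl, ⟨(x, y0), hx, by rw [rdi_mem_V]; dsimp only; omega⟩, ?_⟩
      rintro ⟨y, hyX, hy'⟩
      rw [rdi_mem_V] at hy'
      dsimp only at hy'
      have := hXb y hyX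
      by_cases e1 : y.1 = x
      · have e : y = (x, y0) := Prod.ext e1 (by dsimp only; omega)
        exact hXM y hyX (e ▸ hx)
      · have e : y = (x - 1, y0) := Prod.ext (by dsimp only; omega) (by dsimp only; omega)
        exact h (e ▸ hyX)
    · refine ⟨(x + 1, y0), rfl, ⟨(x, y0), hx, by rw [rdi_mem_V]; dsimp only; omega⟩, ?_⟩
      rintro ⟨y, hyX, hy'⟩
      rw [rdi_mem_V] at hy'
      dsimp only at hy'
      have := hXb y hyX
      by_cases e1 : y.1 = x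
      · have e : y = (x, y0) := Prod.ext e1 (by dsimp only; omega)
        exact hXM y hyX (e ▸ hx)
      · have e : y = (x + 1, y0) := Prod.ext (by dsimp only; omega) (by dsimp only; omega)
        exact h (e ▸ hyX)

/-- the top end is not empty -/
theorem psb_B_ne (T : Bool) (H : HxrPair y0 y1 xm xM a c pa qa pc qc) (hfar : ∀ y ∈ plsBand y0 y1, ¬ ((∃ u ∈ a, triAdj y u) ∧ ∃ v ∈ c, triAdj y v)) :
    (psqRow (rdiCs T) (hxrQ y0 y1 xm xM a c) (a ∪ c) (y1 + 1)).Nonempty := by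
  have hy := hxr_pair_le H
  obtain ⟨x, hx⟩ := hxr_row_gap H (y := y1) hy le_rfl H.heads (hxr_AA_top H.A rfl le_rfl) (hxr_CC_top H.C rfl le_rfl)
  have hXb : ∀ y ∈ a ∪ c, y.2 ≤ y1 := fun y hy => hy.elim (fun h => (H.A.sub h).2) (fun h => (H.C.sub h).2)
  have hXM : ∀ y ∈ a ∪ c, y ∉ hxrQ y0 y1 xm xM a c := fun y hy h =>
    h.2 (hy.elim (fun g => Or.inl (hxr_a_sub_AA H.A g)) (fun g => Or.inr (hxr_c_sub_CC H.C g)))
  cases T
  · rcases psb_row_free hfar hx.1 (psb_top_nbr H hx rfl) with h | h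
    · refine ⟨(x, y1 + 1), rfl, ⟨(x, y1), hx, by rw [rdi_mem_D]; dsimp only; omega⟩, ?_⟩
      rintro ⟨y, hyX, hy'⟩
      rw [rdi_mem_D] at hy'
      dsimp only at hy'
      have := hXb y hyX
      by_cases e1 : y.1 = x
      · have e : y = (x, y1) := Prod.ext e1 (by dsimp only; omega)
        exact hXM y hyX (e ▸ hx)
      · have e : y = (x - 1, y1) := Prod.ext (by dsimp only; omega) (by dsimp only; omega)
        exact h (e ▸ hyX)
    · refine ⟨(x + 1, y1 + 1), rfl, ⟨(x, y1), hx, by rw [rdi_mem_D]; dsimp only; omega⟩, ?_⟩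
      rintro ⟨y, hyX, hy'⟩
      rw [rdi_mem_D] at hy'
      dsimp only at hy'
      have := hXb y hyX
      by_cases e1 : y.1 = x
      · have e : y = (x, y1) := Prod.ext e1 (by dsimp only; omega)
        exact hXM y hyX (e ▸ hx)
      · have e : y = (x + 1, y1) := Prod.ext (by dsimp only; omega) (by dsimp only; omega)
        exact h (e ▸ hyX)
  · refine ⟨(x, y1 + 1), rfl, ⟨(x, y1), hx, by rw [rdi_mem_V]; dsimp only; omega⟩, ?_⟩
    rintro ⟨y, hyX, hy'⟩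
    rw [rdi_mem_V] at hy'
    dsimp only at hy'
    have := hXb y hyX
    have e : y = (x, y1) := Prod.ext (by dsimp only; omega) (by dsimp only; omega)
    exact hXM y hyX (e ▸ hx)

end ends

/-- **the closed strip of 187**, set form -/
theorem psb_strip (T : Bool) {A B c d i w i' w' : ℤ} {M I a J c' : Set TV} (hcd : c ≤ d)
    (G : RdiGeo A B c d M (rsrSgL A c d i w) I a (rsrSgR B c d i' w') J c') (hI : I ⊆ rswRect A B c d) (hJ : J ⊆ rswRect A B c d)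
    (hD : (psqRow (rdiCs T) M (a ∪ c') c).Nonempty) (hB : (psqRow (rdiCs T) M (a ∪ c') (d + 1)).Nonempty) :
    PclStrip c (d + 1) A (B + 3) (rdiSt T M) (rdiSt T M ∩ rdiSt T a) (rdiSt T M ∩ rdiSt T c') (psqRow (rdiCs T) M (a ∪ c') c)
      (psqRow (rdiCs T) M (a ∪ c') (d + 1)) where
  hy := by omega
  band := by
    rintro v ⟨z, hz, hv⟩
    exact psb_site_band (G.sub hz).2.2 hv
  box := by
    rintro v ⟨z, hz, hv⟩
    exact psb_site_box (G.sub hz) hv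
  conn := rdi_st_conn T G.conn
  barL := psb_pclL T G.sub hI G.sideA A
  barR := psb_pclR T G.sub hJ G.sideC (B + 3)
  dQ := fun v hv => hv.2.1
  bQ := fun v hv => hv.2.1
  d0 := fun v hv => hv.1
  b1 := fun v hv => hv.1
  dne := hD
  bne := hB

/-- the ends of the dictionary of record, as sets -/
theorem psb_rsg_row (D : RsgDat) (h : hxrQ D.y0 D.y1 D.xm D.xM D.a D.c ⊆ rswRect D.xm D.xM D.y0 D.y1) (r : ℤ) :
    (↑((rsgQ D).filter (fun u => u.2 = r) \ (rsgLa D ∪ rsgLc D)) : Set TV) = psqRow (rdiCs D.T) (hxrQ D.y0 D.y1 D.xm D.xM D.a D.c) (D.a ∪ D.c) r := by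
  ext v
  simp only [Finset.coe_sdiff, Finset.coe_filter, Finset.coe_union, Set.mem_sdiff, Set.mem_ofPred_eq, Set.mem_union, Finset.mem_coe, rsgLa, rsgLc,
    rdi_rsg_side, rdi_rsg_Q h, psqRow, rdiSt]
  constructor
  · rintro ⟨⟨h1, h2⟩, h3⟩
    refine ⟨h2, h1, ?_⟩
    rintro ⟨z, hz | hz, hv⟩
    · exact h3 (Or.inl ⟨h1, z, hz, hv⟩)
    · exact h3 (Or.inr ⟨h1, z, hz, hv⟩)
  · rintro ⟨h1, h2, h3⟩
    refine ⟨⟨h2, h1⟩, ?_⟩
    rintro (⟨-, z, hz, hv⟩ | ⟨-, z, hz, hv⟩)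
    · exact h3 ⟨z, Or.inl hz, hv⟩
    · exact h3 ⟨z, Or.inr hz, hv⟩

/-- **the closed strip of 187 for the dictionary of record** (269, `Defs/RswStrip`), from the geometry of 182 and the pair of 105 -/
theorem psb_rsg_strip (D : RsgDat) {i w i' w' : ℤ} {I J : Set TV} {pa qa pc qc : TV}
    (G : RdiGeo D.xm D.xM D.y0 D.y1 (hxrQ D.y0 D.y1 D.xm D.xM D.a D.c) (rsrSgL D.xm D.y0 D.y1 i w) I D.a (rsrSgR D.xM D.y0 D.y1 i' w') J D.c)
    (hI : I ⊆ rswRect D.xm D.xM D.y0 D.y1) (hJ : J ⊆ rswRect D.xm D.xM D.y0 D.y1) (H : HxrPair D.y0 D.y1 D.xm D.xM D.a D.c pa qa pc qc) :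
    PclStrip D.y0 (D.y1 + 1) D.xm (D.xM + 3) (↑(rsgQ D)) (↑(rsgLa D)) (↑(rsgLc D)) (↑(rsgLd D \ (rsgLa D ∪ rsgLc D))) (↑(rsgLb D \ (rsgLa D ∪ rsgLc D))) := by
  have h := psb_strip D.T (hxr_pair_le H) G hI hJ (psb_D_ne D.T H G.t2) (psb_B_ne D.T H G.t2)
  have eQ : (↑(rsgQ D) : Set TV) = rdiSt D.T (hxrQ D.y0 D.y1 D.xm D.xM D.a D.c) := by
    ext u; exact rdi_rsg_Q G.sub u
  have eLa : (↑(rsgLa D) : Set TV) = rdiSt D.T (hxrQ D.y0 D.y1 D.xm D.xM D.a D.c) ∩ rdiSt D.T D.a := by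
    ext u
    rw [← eQ]
    exact rdi_rsg_side _ _ _ u
  have eLc : (↑(rsgLc D) : Set TV) = rdiSt D.T (hxrQ D.y0 D.y1 D.xm D.xM D.a D.c) ∩ rdiSt D.T D.c := by
    ext u
    rw [← eQ]
    exact rdi_rsg_side _ _ _ u
  rw [eQ, eLa, eLc]
  unfold rsgLd rsgLb
  rw [psb_rsg_row D G.sub, psb_rsg_row D G.sub]
  exact h

end Claimed.Agent.R291
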