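import Claimed.Agent.R291.Pl.Record

/-!
# Row 291 (S0539), unit PLA / ANN A3-II (L), Pl/Deep : LATERAL TIPS WITH CLOSED SEPARATION      (owner helper105; prefix `hxd_`)

Ruling of 187 (07:15Z): all Hex / tip geometry on the lattice of the cell INDICES; the gluing set of a place is the SITE component `K` of `Q ∩ ρ Q` (`Q = sites(M)`, layers included) which contains `sites(Kc)`.
A site path inside `Q ∩ ρ Q` is a path of indices inside the CLOSED free region `(M ∪ a ∪ c) ∩ ρ (M ∪ a ∪ c)`.   The two index places of one axis may be joined there (thin contact of `a` with the axis: message of 105, 07:35Z).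
CURE: a DEEP path `ι` (in the application: a path of the explored cluster `I`, continued by a row segment outside the slab) which reaches the thick axis.   The closed free region misses `ι ∪ ρ ι`.

* **`hxd_tip`**        `hxs_tip` + the two RUNS of the thick axis (every `AA`-cell of the thick axis lies strictly between them) + CLOSED SEPARATION: no path from `K0` to `K1` inside any subset of the slab which misses `ι ∪ ρ ι`
* `HxdTwo`             the same at the level of the band (customer form: `HxrPlace` twice, `run0`, `run1`, `mid`, `sep`)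
* **`hxd_right`**, **`hxd_left`**   `HxrPair` + tip ⟹ `HxdTwo`      (no sorry)
-/

set_option autoImplicit false
set_option linter.unusedSectionVars false
set_option linter.unusedVariables false
set_option linter.unusedSimpArgs false

namespace Claimed.Agent.R291

open Relation Claims.C0467

/-- **LATERAL TIP WITH CLOSED SEPARATION**.   `ι` = a connected set of the rectangle from its left column to the thick axis whose part inside the slab lies in `AA`.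
No path from `K0` to `K1` inside a subset `Wd` of the slab which misses `ι` and its mirror image. -/
theorem hxd_tip {m L y0 y1 W : ℤ} {AA CC : Set (ℤ × ℤ)} (T : HxTip m L y0 y1 W AA CC) :
    ∃ K0 K1 : Set (ℤ × ℤ), HxPlace (hxsR m L y0 y1) AA CC (hxsM m) K0 ∧ HxPlace (hxsR m L y0 y1) AA CC (hxsM m) K1 ∧
      (∀ u ∈ K0, ∀ v ∈ K1, u ≠ v ∧ ¬ triAdj u v) ∧
      (∀ v ∈ K0 ∪ K1, y0 < v.2 ∧ v.2 < y1 ∧ m - W ≤ hxsX v ∧ hxsX v ≤ m + W) ∧
      (∃ lo0 hi0 lo1 hi1 : ℤ, lo0 ≤ hi0 ∧ lo1 ≤ hi1 ∧ hxsSeg m lo0 hi0 ⊆ K0 ∧ hxsSeg m lo1 hi1 ⊆ K1 ∧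
        ∀ a ∈ AA, m - 1 ≤ hxsX a → hxsX a ≤ m + 1 → hi0 < a.2 ∧ a.2 < lo1) ∧
      ∀ ι Wd : Set (ℤ × ℤ), TscConn tscG ι → (∀ z ∈ ι, y0 ≤ z.2 ∧ z.2 ≤ y1) → (∀ z ∈ ι, m - W ≤ hxsX z → z ∈ AA) →
        (∃ w ∈ ι, hxsX w ≤ m - L + 1) → (∃ a ∈ ι, m - 1 ≤ hxsX a ∧ hxsX a ≤ m + 1) →
        (∀ z ∈ Wd, y0 ≤ z.2 ∧ z.2 ≤ y1 ∧ m - W ≤ hxsX z ∧ hxsX z ≤ m + W) → (∀ z ∈ Wd, z ∉ ι ∧ hxsM m z ∉ ι) →
        ∀ u ∈ K0, ∀ v ∈ K1, ¬ TscR tscG Wd u v := by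
  classical
  have hW := T.hW
  have hL := T.hL
  have hy := T.hy
  have hslab := hxs_tip_slab T
  set R := hxsR m L y0 y1 with hR
  set F := hxsF m L y0 y1 AA CC with hF
  let rowA : ℤ → Prop := fun y => ∃ a ∈ AA, a.2 = y ∧ m - 1 ≤ hxsX a ∧ hxsX a ≤ m + 1
  let rowC : ℤ → Prop := fun y => ∃ c ∈ CC, c.2 = y ∧ m - 1 ≤ hxsX c ∧ hxsX c ≤ m + 1
  have rowA_rng : ∀ y, rowA y → y0 ≤ y ∧ y ≤ y1 := by
    rintro y ⟨a, ha, rfl, _⟩
    exact ⟨(T.subA ha).1, (T.subA ha).2.1⟩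
  have rowC_rng : ∀ y, rowC y → y0 ≤ y ∧ y ≤ y1 := by
    rintro y ⟨a, ha, rfl, _⟩
    exact ⟨(T.subC ha).1, (T.subC ha).2.1⟩
  have axR : ∀ y, y0 ≤ y → y ≤ y1 → hxsAx m y ∈ R := fun y h1 h2 =>
    ⟨h1, h2, by have := (hxs_Ax_X m y).1; omega, by have := (hxs_Ax_X m y).2; omega⟩
  have rowC0 : rowC y0 := ⟨hxsAx m y0, T.rows _ (axR y0 le_rfl hy) (Or.inl rfl) (by have := (hxs_Ax_X m y0).1; omega), rfl, hxs_Ax_X m y0⟩
  have rowC1 : rowC y1 := ⟨hxsAx m y1, T.rows _ (axR y1 hy le_rfl) (Or.inr rfl) (by have := (hxs_Ax_X m y1).1; omega), rfl, hxs_Ax_X m y1⟩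
  -- a row is not both, consecutive rows are not of different kinds
  have excl : ∀ y y', rowA y → rowC y' → y' ≠ y ∧ y' ≠ y + 1 ∧ y ≠ y' + 1 := by
    rintro y y' ⟨a, ha, rfl, haX⟩ ⟨c, hc, rfl, hcX⟩
    refine ⟨fun h => ?_, fun h => ?_, fun h => ?_⟩
    · rcases hxs_ax_row haX hcX h with h' | h'
      · exact (T.sep a ha c hc).1 h'
      · exact (T.sep a ha c hc).2 h'
    · exact (T.sep a ha c hc).2 (hxs_ax_adj haX hcX (Or.inl h))
    · exact (T.sep a ha c hc).2 (hxs_ax_adj haX hcX (Or.inr h))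
  have exA : ∃ y, rowA y := by
    obtain ⟨a, ha, haX⟩ := T.axis
    exact ⟨a.2, a, ha, rfl, haX⟩
  -- a segment of the thick axis whose rows are neither `A` nor `C` is free
  have segF : ∀ lo hi, y0 ≤ lo → hi ≤ y1 → (∀ y, lo ≤ y → y ≤ hi → ¬ rowA y ∧ ¬ rowC y) → hxsSeg m lo hi ⊆ F := by
    intro lo hi h1 h2 h v hv
    obtain ⟨v1, v2, v3, v4⟩ := hv
    have hn := h v.2 v1 v2
    refine ⟨⟨by omega, by omega, by omega, by omega⟩, fun hA => hn.1 ⟨v, hA, rfl, v3, v4⟩, fun hC => hn.2 ⟨v, hC, rfl, v3, v4⟩,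
      fun hA => hn.1 ⟨_, hA, rfl, ?_, ?_⟩, fun hC => hn.2 ⟨_, hC, rfl, ?_, ?_⟩⟩ <;> rw [hxs_M_X] <;> omega
  -- the lowest and the highest row of kind `A`
  obtain ⟨yA, hyA, hyAmin⟩ := Int.exists_least_of_bdd (P := rowA) ⟨y0, fun z hz => (rowA_rng z hz).1⟩ exA
  obtain ⟨yB, hyB, hyBmax⟩ := Int.exists_greatest_of_bdd (P := rowA) ⟨y1, fun z hz => (rowA_rng z hz).2⟩ exA
  have hyA0 : y0 < yA := by
    have := (rowA_rng yA hyA).1
    have := (excl yA y0 hyA rowC0).1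
    omega
  have hyB1 : yB < y1 := by
    have := (rowA_rng yB hyB).2
    have := (excl yB y1 hyB rowC1).1
    omega
  obtain ⟨yC, ⟨hyC, hyCA⟩, hyCmax⟩ := Int.exists_greatest_of_bdd (P := fun y => rowC y ∧ y < yA) ⟨yA, fun z hz => hz.2.le⟩ ⟨y0, rowC0, hyA0⟩
  obtain ⟨yD, ⟨hyD, hyDB⟩, hyDmin⟩ := Int.exists_least_of_bdd (P := fun y => rowC y ∧ yB < y) ⟨yB, fun z hz => hz.2.le⟩ ⟨y1, rowC1, hyB1⟩
  have e0 := excl yA yC hyA hyC
  have e1 := excl yB yD hyB hyD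
  have seg0 : hxsSeg m (yC + 1) (yA - 1) ⊆ F := by
    refine segF _ _ (by have := (rowC_rng yC hyC).1; omega) (by have := (rowA_rng yA hyA).2; omega) ?_
    intro y h1 h2
    exact ⟨fun h => by have := hyAmin y h; omega, fun h => by have := hyCmax y ⟨h, by omega⟩; omega⟩
  have seg1 : hxsSeg m (yB + 1) (yD - 1) ⊆ F := by
    refine segF _ _ (by have := (rowA_rng yB hyB).1; omega) (by have := (rowC_rng yD hyD).2; omega) ?_
    intro y h1 h2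
    exact ⟨fun h => by have := hyBmax y h; omega, fun h => by have := hyDmin y ⟨h, by omega⟩; omega⟩
  obtain ⟨a0, ha0, ha0r, ha0X⟩ := hyA
  obtain ⟨c0, hc0, hc0r, hc0X⟩ := hyC
  obtain ⟨a1, ha1, ha1r, ha1X⟩ := hyB
  obtain ⟨c1, hc1, hc1r, hc1X⟩ := hyD
  have P0 := hxs_run_place (lo := yC + 1) (hi := yA - 1) hslab (by omega) (by omega) seg0 ha0 ha0X hc0 hc0X (Or.inl ⟨by omega, by omega⟩)
  have P1 := hxs_run_place (lo := yB + 1) (hi := yD - 1) hslab (by omega) (by omega) seg1 ha1 ha1X hc1 hc1X (Or.inr ⟨by omega, by omega⟩)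
  have sepGen : ∀ ι Wd : Set (ℤ × ℤ), TscConn tscG ι → (∀ z ∈ ι, y0 ≤ z.2 ∧ z.2 ≤ y1) → (∀ z ∈ ι, m - W ≤ hxsX z → z ∈ AA) →
      (∃ w ∈ ι, hxsX w ≤ m - L + 1) → (∃ a ∈ ι, m - 1 ≤ hxsX a ∧ hxsX a ≤ m + 1) →
      (∀ z ∈ Wd, y0 ≤ z.2 ∧ z.2 ≤ y1 ∧ m - W ≤ hxsX z ∧ hxsX z ≤ m + W) → (∀ z ∈ Wd, z ∉ ι ∧ hxsM m z ∉ ι) →
      ¬ TscR tscG (F ∪ Wd) (hxsAx m (yC + 1)) (hxsAx m (yB + 1)) := by
    rintro ι Wd hιc hιr hιA ⟨w, hw, hwX⟩ ⟨aι, haι, haιX⟩ hWs hWι hmid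
    -- the bottom-top path off `ι ∪ ρ ι`
    set Tt : Set (ℤ × ℤ) := (hxsSeg m y0 (yA - 1) ∪ (F ∪ Wd)) ∪ hxsSeg m (yB + 1) y1 with hTt
    have t1 : TscR tscG Tt (hxsAx m y0) (hxsAx m (yC + 1)) :=
      tsc_R_mono (s := hxsSeg m y0 (yA - 1)) (t := Tt) (fun x hx => Or.inl (Or.inl hx))
        (hxs_seg_conn m y0 (yA - 1) _ (hxs_Ax_mem le_rfl (by omega)) _
          (hxs_Ax_mem (by have := (T.subC hc0).1; omega) (by omega)))
    have t2 : TscR tscG Tt (hxsAx m (yC + 1)) (hxsAx m (yB + 1)) :=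
      tsc_R_mono (s := F ∪ Wd) (t := Tt) (fun x hx => Or.inl (Or.inr hx)) hmid
    have t3 : TscR tscG Tt (hxsAx m (yB + 1)) (hxsAx m y1) :=
      tsc_R_mono (s := hxsSeg m (yB + 1) y1) (t := Tt) (fun x hx => Or.inr hx)
        (hxs_seg_conn m (yB + 1) y1 _ (hxs_Ax_mem le_rfl (by omega)) _ (hxs_Ax_mem (by omega) le_rfl))
    have tpath := (t1.trans t2).trans t3
    -- the left-right path inside `ι ∪ ρ ι`
    set Ss : Set (ℤ × ℤ) := ι ∪ hxsM m '' ι with hSs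
    have s1 : TscR tscG Ss w aι := tsc_R_mono (s := ι) (t := Ss) (fun x hx => Or.inl hx) (hιc w hw aι haι)
    have s2 : TscR tscG Ss aι (hxsM m aι) := by
      rcases hxs_ax_row haιX (by rw [hxs_M_X]; omega : m - 1 ≤ hxsX (hxsM m aι) ∧ hxsX (hxsM m aι) ≤ m + 1) rfl with h | h
      · rw [← h]; exact ReflTransGen.refl
      · exact tsc_R_step h (Or.inl haι) (Or.inr ⟨aι, haι, rfl⟩)
    have s3 : TscR tscG Ss (hxsM m aι) (hxsM m w) :=
      tsc_R_mono (s := hxsM m '' ι) (t := Ss) (fun x hx => Or.inr hx)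
        (tsc_R_map (G' := tscG) (hxsM m) (hxs_M_adj m) (hιc aι haι w hw))
    have spath := (s1.trans s2).trans s3
    have hSrow : ∀ z ∈ Ss, y0 ≤ z.2 ∧ z.2 ≤ y1 := by
      rintro z (hz | ⟨x, hx, rfl⟩)
      · exact hιr z hz
      · exact hιr x hx
    have hwr := hιr w hw
    have hTcol : ∀ z ∈ Tt, w.1 ≤ z.1 ∧ z.1 ≤ (hxsM m w).1 := by
      have gen : ∀ z : ℤ × ℤ, y0 ≤ z.2 → z.2 ≤ y1 → m - W ≤ hxsX z → hxsX z ≤ m + W → w.1 ≤ z.1 ∧ z.1 ≤ (hxsM m w).1 := by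
        intro z z1 z2 z3 z4
        obtain ⟨w1, w2⟩ := hwr
        simp only [hxsX, hxsM] at *
        omega
      rintro z ((hz | hz | hz) | hz)
      · exact gen z hz.1 (by have := hz.2.1; have := (T.subA ha0).2.1; omega) (by have := hz.2.2.1; omega) (by have := hz.2.2.2; omega)
      · obtain ⟨z1, z2, z3, z4⟩ := hslab z hz
        exact gen z z1.le z2.le z3 z4
      · obtain ⟨z1, z2, z3, z4⟩ := hWs z hz
        exact gen z z1 z2 z3 z4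
      · exact gen z (by have := hz.1; have := (T.subA ha1).1; omega) hz.2.1 (by have := hz.2.2.1; omega) (by have := hz.2.2.2; omega)
    obtain ⟨z, hzS, hzT⟩ := pls_rect (S := Ss) (T := Tt) (a := w.1) (b := (hxsM m w).1) (c := y0) (d := y1) (Or.inl hw) spath hSrow le_rfl le_rfl
      (Or.inl (Or.inl (hxs_Ax_mem le_rfl (by omega)))) tpath hTcol le_rfl le_rfl
    -- contradiction: `Tt` avoids `ι ∪ ρ ι`
    have noA : ∀ z : ℤ × ℤ, (m - 1 ≤ hxsX z ∧ hxsX z ≤ m + 1) → (z.2 < yA ∨ yB < z.2) → z ∉ Ss := by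
      rintro z hzX hrow (hz | ⟨x, hx, rfl⟩)
      · have r : rowA z.2 := ⟨z, hιA z hz (by omega), rfl, hzX⟩
        have := hyAmin _ r
        have := hyBmax _ r
        omega
      · have hxX : m - 1 ≤ hxsX x ∧ hxsX x ≤ m + 1 := by rw [hxs_M_X] at hzX; omega
        have r : rowA x.2 := ⟨x, hιA x hx (by omega), rfl, hxX⟩
        have := hyAmin _ r
        have := hyBmax _ r
        have : (hxsM m x).2 = x.2 := rfl
        omega
    rcases hzT with (hz | hz | hz) | hz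
    · exact noA z hz.2.2 (Or.inl (by have := hz.2.1; omega)) hzS
    · obtain ⟨_, _, z3, z4⟩ := hslab z hz
      rcases hzS with h | ⟨x, hx, rfl⟩
      · exact hz.2.1 (hιA z h z3)
      · rw [hxs_M_X] at z4
        exact hz.2.2.2.1 (by rw [hxs_M_invol]; exact hιA x hx (by omega))
    · rcases hzS with h | ⟨x, hx, rfl⟩
      · exact (hWι z hz).1 h
      · exact (hWι _ hz).2 (by rw [hxs_M_invol]; exact hx)
    · exact noA z hz.2.2 (Or.inr (by have := hz.1; omega)) hzS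
  refine ⟨_, _, P0, P1, ?_, ?_, ⟨yC + 1, yA - 1, yB + 1, yD - 1, by omega, by omega, ?_, ?_, ?_⟩, ?_⟩
  · -- C2
    have hdisj : ∀ z, z ∈ tscComp tscG F (hxsAx m (yC + 1)) → z ∈ tscComp tscG F (hxsAx m (yB + 1)) → False := by
      intro z hz0 hz1
      have hmid : TscR tscG F (hxsAx m (yC + 1)) (hxsAx m (yB + 1)) := hz0.2.trans (tsc_R_symm hz1.2)
      obtain ⟨w, hw, hwX⟩ := T.left
      exact sepGen AA ∅ T.connA (fun z hz => ⟨(T.subA hz).1, (T.subA hz).2.1⟩) (fun z hz _ => hz) ⟨w, hw, hwX⟩ T.axis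
        (fun z hz => hz.elim) (fun z hz => hz.elim) (tsc_R_mono Set.subset_union_left hmid)
    intro u hu v hv
    refine ⟨fun h => hdisj u hu (h ▸ hv), fun h => hdisj v (tsc_comp_adj hu hv.1 h) hv⟩
  · rintro v (hv | hv)
    · exact hslab v hv.1
    · exact hslab v hv.1
  · intro v hv
    exact ⟨seg0 hv, tsc_R_mono seg0 (hxs_seg_conn m (yC + 1) (yA - 1) _ (hxs_Ax_mem le_rfl (by omega)) v hv)⟩
  · intro v hv
    exact ⟨seg1 hv, tsc_R_mono seg1 (hxs_seg_conn m (yB + 1) (yD - 1) _ (hxs_Ax_mem le_rfl (by omega)) v hv)⟩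
  · intro t ht h1 h2
    have r : rowA t.2 := ⟨t, ht, rfl, h1, h2⟩
    have := hyAmin _ r
    have := hyBmax _ r
    omega
  · intro ι Wd h1 h2 h3 h4 h5 h6 h7 u hu v hv huv
    refine sepGen ι Wd h1 h2 h3 h4 h5 h6 h7 ?_
    exact (tsc_R_mono (s := F) (t := F ∪ Wd) Set.subset_union_left hu.2).trans
      ((tsc_R_mono (s := Wd) (t := F ∪ Wd) Set.subset_union_right huv).trans (tsc_R_mono (s := F) (t := F ∪ Wd) Set.subset_union_left (tsc_R_symm hv.2)))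

/-! ## the band level -/

variable {y0 y1 xm xM : ℤ} {a c : Set (ℤ × ℤ)} {pa qa pc qc p q : ℤ × ℤ}

/-- **two places of one vertical axis** `X = μ`, below and above a tip of the side `T` (`T = AA`: right tip, `T = CC`: left tip), inside the slab `sl ≤ X ≤ su`.
`run0`, `run1`: the runs of the thick axis;   `mid`: every cell of `T` on the thick axis lies strictly between the two runs;
`sep` = CLOSED SEPARATION: `ι` = a connected part of `T` from outside the slab to the thick axis;   no path from `K0` to `K1` inside the slab off `ι ∪ ρ ι`. -/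
structure HxdTwo (y0 y1 : ℤ) (AA CC T : Set (ℤ × ℤ)) (μ sl su : ℤ) (K0 K1 : Set (ℤ × ℤ)) (lo0 hi0 lo1 hi1 : ℤ) : Prop where
  p0 : HxrPlace y0 y1 AA CC (hxsM μ) K0
  p1 : HxrPlace y0 y1 AA CC (hxsM μ) K1
  far : ∀ u ∈ K0, ∀ v ∈ K1, u ≠ v ∧ ¬ triAdj u v
  slab : ∀ v ∈ K0 ∪ K1, sl ≤ hxsX v ∧ hxsX v ≤ su
  le0 : lo0 ≤ hi0
  le1 : lo1 ≤ hi1
  run0 : hxsSeg μ lo0 hi0 ⊆ K0
  run1 : hxsSeg μ lo1 hi1 ⊆ K1
  mid : ∀ t ∈ T, μ - 1 ≤ hxsX t → hxsX t ≤ μ + 1 → hi0 < t.2 ∧ t.2 < lo1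
  sep : ∀ ι Wd : Set (ℤ × ℤ), TscConn tscG ι → ι ⊆ T → (∃ w ∈ ι, hxsX w < sl ∨ su < hxsX w) → (∃ t ∈ ι, μ - 1 ≤ hxsX t ∧ hxsX t ≤ μ + 1) →
    (∀ z ∈ Wd, y0 ≤ z.2 ∧ z.2 ≤ y1 ∧ sl ≤ hxsX z ∧ hxsX z ≤ su) → (∀ z ∈ Wd, z ∉ ι ∧ hxsM μ z ∉ ι) → ∀ u ∈ K0, ∀ v ∈ K1, ¬ TscR tscG Wd u v

theorem hxd_AA_le {z : ℤ × ℤ} (hz : z ∈ hxrAA y0 y1 xM a) : hxsX z ≤ xM := by
  by_contra h
  exact hz.2 z ⟨hz.1, by omega⟩ ReflTransGen.refl

theorem hxd_CC_ge {z : ℤ × ℤ} (hz : z ∈ hxrCC y0 y1 xm c) : xm ≤ hxsX z := by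
  by_contra h
  exact hz.2 z ⟨hz.1, by omega⟩ ReflTransGen.refl

/-- the left ray of a cell -/
def hxdRay (w : ℤ × ℤ) : Set (ℤ × ℤ) := {z | z.2 = w.2 ∧ z.1 ≤ w.1}

theorem hxd_ray_R {s : Set (ℤ × ℤ)} {w z : ℤ × ℤ} (hs : hxdRay w ⊆ s) (hz : z ∈ hxdRay w) : TscR tscG s w z := by
  obtain ⟨n, hn⟩ : ∃ n : ℕ, (n : ℤ) = w.1 - z.1 := ⟨(w.1 - z.1).toNat, Int.toNat_of_nonneg (by have := hz.2; omega)⟩
  have h := hxr_walk_l (s := s) (x := w.1) (y := w.2) n (fun i hi => hs ⟨rfl, by show w.1 - (i : ℤ) ≤ w.1; omega⟩)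
  have e : z = (w.1 - (n : ℤ), w.2) := Prod.ext (by show z.1 = w.1 - (n : ℤ); omega) hz.1
  rw [e]
  exact h

/-- a connected set with the left ray of one of its cells is connected -/
theorem hxd_ray_conn {ι : Set (ℤ × ℤ)} (h : TscConn tscG ι) {w : ℤ × ℤ} (hw : w ∈ ι) : TscConn tscG (ι ∪ hxdRay w) := by
  have key : ∀ u ∈ ι ∪ hxdRay w, TscR tscG (ι ∪ hxdRay w) w u := by
    rintro u (hu | hu)
    · exact tsc_R_mono Set.subset_union_left (h w hw u hu)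
    · exact hxd_ray_R Set.subset_union_right hu
  intro u hu v hv
  exact (tsc_R_symm (key u hu)).trans (key v hv)

theorem hxd_ray_X {w z : ℤ × ℤ} (hz : z ∈ hxdRay w) : hxsX z ≤ hxsX w := by
  have := hz.1
  have := hz.2
  simp only [hxsX]
  omega

/-- the tip hypotheses on the right axis (158, from the proof of `hxr_tip_right`) -/
theorem hxd_T_right (H : HxrPair y0 y1 xm xM a c pa qa pc qc) {μ : ℤ} (har : ∃ z ∈ a, μ ≤ hxsX z) (hμ : μ + 1 ≤ xM)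
    (h1 : hxsX pc + xM < 2 * μ) (h2 : hxsX qc + xM < 2 * μ) {L : ℤ} (hL : L = (xM - xm) + (y1 - y0) + 4) :
    HxTip μ L y0 y1 (xM - μ) (hxrAA y0 y1 xM a ∩ hxsR μ L y0 y1) (hxrCC y0 y1 xm c ∩ hxsR μ L y0 y1) := by
  have hy := hxr_pair_le H
  have hpaX : hxsX pa < hxsX pc := by
    have := H.feet
    have := H.A.p0
    have := H.C.p0
    simp only [hxsX]
    omega
  have hxmpa := (H.A.box pa H.A.pa).1
  refine ⟨Set.inter_subset_right, Set.inter_subset_right, hxr_AA_win H.A (hxr_R_cvx _ _ _ _) (hxr_cr_sub_R H.A (by omega) (by omega)),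
    hxr_CC_win H.C (hxr_R_cvx _ _ _ _) (hxr_cr_sub_R H.C (by omega) (by omega)), fun u hu v hv => hxr_sep H u hu.1 v hv.1, ?_, ?_, ?_, ?_,
    by omega, by omega, hy⟩
  · intro v hv hX
    exact ⟨hxr_CC_far H.C ⟨hv.1, hv.2.1⟩ (by omega), hv⟩
  · intro v hv hrow hX
    refine ⟨?_, hv⟩
    rcases hrow with h | h
    · apply hxr_CC_bot H.C h
      have := H.C.p0
      simp only [hxsX] at hX h1
      omega
    · apply hxr_CC_top H.C h
      have := H.C.q1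
      simp only [hxsX] at hX h2
      omega
  · obtain ⟨z, hz, hzX⟩ := har
    obtain ⟨w, hw, hw1, hw2⟩ := hxr_ivt_X (m := μ) H.A.pa (H.A.conn pa H.A.pa z hz) (by omega) (by omega)
    exact ⟨w, ⟨hxr_a_sub_AA H.A hw, hxr_cr_sub_R H.A (by omega) (by omega) hw⟩, hw1, hw2⟩
  · refine ⟨((μ - L - y0 + 1) / 2, y0), ⟨hxr_AA_far H.A ⟨le_rfl, hy⟩ ?_, ⟨le_rfl, hy, ?_, ?_⟩⟩, ?_⟩ <;> simp only [hxsX] <;> omega

/-- the tip hypotheses on the left axis (158, from the proof of `hxr_tip_left`) -/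
theorem hxd_T_left (H : HxrPair y0 y1 xm xM a c pa qa pc qc) {μ : ℤ} (hcl : ∃ z ∈ c, hxsX z ≤ μ) (hμ : xm + 1 ≤ μ)
    (h1 : 2 * μ < hxsX pa + xm) (h2 : 2 * μ < hxsX qa + xm) {L : ℤ} (hL : L = (xM - xm) + (y1 - y0) + 4) :
    HxTip μ L y0 y1 (μ - xm) (hxsM μ '' (hxrCC y0 y1 xm c ∩ hxsR μ L y0 y1)) (hxsM μ '' (hxrAA y0 y1 xM a ∩ hxsR μ L y0 y1)) := by
  have hy := hxr_pair_le H
  have hpaX : hxsX pa < hxsX pc := by
    have := H.feet
    have := H.A.p0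
    have := H.C.p0
    simp only [hxsX]
    omega
  have hxMpc := (H.C.box pc H.C.pa).2
  refine ⟨?_, ?_, tsc_conn_map (G' := tscG) (hxsM μ) (hxs_M_adj μ) (hxr_CC_win H.C (hxr_R_cvx _ _ _ _) (hxr_cr_sub_R H.C (by omega) (by omega))),
    tsc_conn_map (G' := tscG) (hxsM μ) (hxs_M_adj μ) (hxr_AA_win H.A (hxr_R_cvx _ _ _ _) (hxr_cr_sub_R H.A (by omega) (by omega))), ?_, ?_, ?_, ?_, ?_,
    by omega, by omega, hy⟩
  · rintro _ ⟨x, hx, rfl⟩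
    exact hxs_R_map _ _ _ _ _ hx.2
  · rintro _ ⟨x, hx, rfl⟩
    exact hxs_R_map _ _ _ _ _ hx.2
  · rintro _ ⟨x, hx, rfl⟩ _ ⟨y, hy', rfl⟩
    obtain ⟨s1, s2⟩ := hxr_sep H y hy'.1 x hx.1
    refine ⟨fun h => s1 ?_, fun h => s2 ?_⟩
    · rw [← hxs_M_invol μ y, ← h, hxs_M_invol]
    · have := hxs_M_adj μ _ _ h
      rw [hxs_M_invol, hxs_M_invol] at this
      exact hx_tri_symm _ _ this
  · intro v hv hX
    refine ⟨hxsM μ v, ⟨hxr_AA_far H.A ⟨hv.1, hv.2.1⟩ ?_, hxs_R_map _ _ _ _ _ hv⟩, hxs_M_invol μ v⟩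
    rw [hxs_M_X]
    omega
  · intro v hv hrow hX
    refine ⟨hxsM μ v, ⟨?_, hxs_R_map _ _ _ _ _ hv⟩, hxs_M_invol μ v⟩
    have hXM := hxs_M_X μ v
    rcases hrow with h | h
    · apply hxr_AA_bot H.A (z := hxsM μ v) h
      have := H.A.p0
      have e : (hxsM μ v).2 = y0 := h
      simp only [hxsX] at hX h1 hXM
      omega
    · apply hxr_AA_top H.A (z := hxsM μ v) h
      have := H.A.q1
      have e : (hxsM μ v).2 = y1 := h
      simp only [hxsX] at hX h2 hXM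
      omega
  · obtain ⟨z, hz, hzX⟩ := hcl
    obtain ⟨w, hw, hw1, hw2⟩ := hxr_ivt_X (m := μ) hz (H.C.conn z hz pc H.C.pa) (by omega) (by omega)
    refine ⟨hxsM μ w, ⟨w, ⟨hxr_c_sub_CC H.C hw, hxr_cr_sub_R H.C (by omega) (by omega) hw⟩, rfl⟩, ?_, ?_⟩ <;> rw [hxs_M_X] <;> omega
  · refine ⟨hxsM μ ((μ + L - y0) / 2, y0), ⟨_, ⟨hxr_CC_far H.C ⟨le_rfl, hy⟩ ?_, ⟨le_rfl, hy, ?_, ?_⟩⟩, rfl⟩, ?_⟩
    · simp only [hxsX]; omega
    · simp only [hxsX]; omega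
    · simp only [hxsX]; omega
    · rw [hxs_M_X]; simp only [hxsX]; omega

/-- **THE RIGHT TIP** with runs and closed separation -/
theorem hxd_right (H : HxrPair y0 y1 xm xM a c pa qa pc qc) {μ : ℤ} (har : ∃ z ∈ a, μ ≤ hxsX z) (hμ : μ + 1 ≤ xM)
    (h1 : hxsX pc + xM < 2 * μ) (h2 : hxsX qc + xM < 2 * μ) :
    ∃ (K0 K1 : Set (ℤ × ℤ)) (lo0 hi0 lo1 hi1 : ℤ),
      HxdTwo y0 y1 (hxrAA y0 y1 xM a) (hxrCC y0 y1 xm c) (hxrAA y0 y1 xM a) μ (2 * μ - xM) xM K0 K1 lo0 hi0 lo1 hi1 := by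
  have hy := hxr_pair_le H
  have hxx : xm ≤ xM := ((H.A.box pa H.A.pa).1).trans (H.A.box pa H.A.pa).2
  obtain ⟨L, hL⟩ : ∃ L : ℤ, L = (xM - xm) + (y1 - y0) + 4 := ⟨_, rfl⟩
  have T := hxd_T_right H har hμ h1 h2 hL
  have hxmμ : xm ≤ μ := by
    have := (H.C.box pc H.C.pa).1
    omega
  have inR : ∀ z ∈ hxrAA y0 y1 xM a, 2 * μ - xM ≤ hxsX z → z ∈ hxsR μ L y0 y1 := fun z hz hX =>
    ⟨hz.1.1, hz.1.2, by omega, by have := hxd_AA_le hz; omega⟩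
  obtain ⟨K0, K1, k0, k1, hsep, hslab, ⟨lo0, hi0, lo1, hi1, l0, l1, r0, r1, hmid⟩, hcl⟩ := hxd_tip T
  refine ⟨K0, K1, lo0, hi0, lo1, hi1, hxr_place_of (hxs_tip_frame T) k0 fun k hk => ⟨(hslab k (Or.inl hk)).1, (hslab k (Or.inl hk)).2.1⟩,
    hxr_place_of (hxs_tip_frame T) k1 fun k hk => ⟨(hslab k (Or.inr hk)).1, (hslab k (Or.inr hk)).2.1⟩, hsep, fun v hv => ?_, l0, l1, r0, r1, ?_, ?_⟩
  · have := (hslab v hv).2.2
    omega
  · intro t ht t1 t2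
    exact hmid t ⟨ht, inR t ht (by omega)⟩ t1 t2
  · rintro ι Wd hc hsub ⟨w, hw, hwX⟩ hax hWd hmiss u hu v hv
    have hwX' : hxsX w < 2 * μ - xM := by
      have := hxd_AA_le (hsub hw)
      omega
    refine hcl (ι ∪ hxdRay w) Wd (hxd_ray_conn hc hw) ?_ ?_ ?_ ?_ ?_ ?_ u hu v hv
    · rintro z (hz | hz)
      · exact (hsub hz).1
      · rw [hz.1]; exact (hsub hw).1
    · rintro z (hz | hz) hX
      · exact ⟨hsub hz, inR z (hsub hz) (by omega)⟩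
      · have := hxd_ray_X hz
        omega
    · refine ⟨(w.1 - L, w.2), Or.inr ⟨rfl, by show w.1 - L ≤ w.1; omega⟩, ?_⟩
      simp only [hxsX] at hwX' ⊢
      omega
    · obtain ⟨t, ht, htX⟩ := hax
      exact ⟨t, Or.inl ht, htX⟩
    · intro z hz
      obtain ⟨z1, z2, z3, z4⟩ := hWd z hz
      exact ⟨z1, z2, by omega, by omega⟩
    · intro z hz
      obtain ⟨z1, z2, z3, z4⟩ := hWd z hz
      refine ⟨?_, ?_⟩
      · rintro (h | h)
        · exact (hmiss z hz).1 h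
        · have := hxd_ray_X h
          omega
      · rintro (h | h)
        · exact (hmiss z hz).2 h
        · have := hxd_ray_X h
          rw [hxs_M_X] at this
          omega

/-- **THE LEFT TIP** with runs and closed separation -/
theorem hxd_left (H : HxrPair y0 y1 xm xM a c pa qa pc qc) {μ : ℤ} (hcl : ∃ z ∈ c, hxsX z ≤ μ) (hμ : xm + 1 ≤ μ)
    (h1 : 2 * μ < hxsX pa + xm) (h2 : 2 * μ < hxsX qa + xm) :
    ∃ (K0 K1 : Set (ℤ × ℤ)) (lo0 hi0 lo1 hi1 : ℤ),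
      HxdTwo y0 y1 (hxrAA y0 y1 xM a) (hxrCC y0 y1 xm c) (hxrCC y0 y1 xm c) μ xm (2 * μ - xm) K0 K1 lo0 hi0 lo1 hi1 := by
  have hy := hxr_pair_le H
  have hxx : xm ≤ xM := ((H.A.box pa H.A.pa).1).trans (H.A.box pa H.A.pa).2
  obtain ⟨L, hL⟩ : ∃ L : ℤ, L = (xM - xm) + (y1 - y0) + 4 := ⟨_, rfl⟩
  have T := hxd_T_left H hcl hμ h1 h2 hL
  have hμxM : μ ≤ xM := by
    have := (H.A.box pa H.A.pa).2
    omega
  have inR : ∀ z ∈ hxrCC y0 y1 xm c, hxsX z ≤ 2 * μ - xm → z ∈ hxsR μ L y0 y1 := fun z hz hX =>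
    ⟨hz.1.1, hz.1.2, by have := hxd_CC_ge hz; omega, by omega⟩
  have F := (hxs_tip_frame T).mirror
  obtain ⟨K0, K1, k0, k1, hsep, hslab, ⟨lo0, hi0, lo1, hi1, l0, l1, r0, r1, hmid⟩, hclo⟩ := hxd_tip T
  refine ⟨K0, K1, lo0, hi0, lo1, hi1,
    hxr_place_of F (k0.mirror (hxs_M_invol μ)).swap fun k hk => ⟨(hslab k (Or.inl hk)).1, (hslab k (Or.inl hk)).2.1⟩,
    hxr_place_of F (k1.mirror (hxs_M_invol μ)).swap fun k hk => ⟨(hslab k (Or.inr hk)).1, (hslab k (Or.inr hk)).2.1⟩, hsep, fun v hv => ?_, l0, l1, r0, r1,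
    ?_, ?_⟩
  · have := (hslab v hv).2.2
    omega
  · intro t ht t1 t2
    exact hmid (hxsM μ t) ⟨t, ⟨ht, inR t ht (by omega)⟩, rfl⟩ (by rw [hxs_M_X]; omega) (by rw [hxs_M_X]; omega)
  · rintro ι Wd hc hsub ⟨w, hw, hwX⟩ hax hWd hmiss u hu v hv
    have hwX' : 2 * μ - xm < hxsX w := by
      have := hxd_CC_ge (hsub hw)
      omega
    have hwM : hxsX (hxsM μ w) < xm := by rw [hxs_M_X]; omega
    have hmem : ∀ z, z ∈ hxsM μ '' ι ↔ hxsM μ z ∈ ι := hxs_mem_image (hxs_M_invol μ) ι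
    refine hclo (hxsM μ '' ι ∪ hxdRay (hxsM μ w)) Wd (hxd_ray_conn (tsc_conn_map (G' := tscG) (hxsM μ) (hxs_M_adj μ) hc) ⟨w, hw, rfl⟩) ?_ ?_ ?_ ?_ ?_ ?_
      u hu v hv
    · rintro z (⟨x, hx, rfl⟩ | hz)
      · exact (hsub hx).1
      · rw [hz.1]; exact (hsub hw).1
    · rintro z (⟨x, hx, rfl⟩ | hz) hX
      · rw [hxs_M_X] at hX
        exact ⟨x, ⟨hsub hx, inR x (hsub hx) (by omega)⟩, rfl⟩
      · have := hxd_ray_X hz
        omega
    · refine ⟨((hxsM μ w).1 - L, (hxsM μ w).2), Or.inr ⟨rfl, by show (hxsM μ w).1 - L ≤ (hxsM μ w).1; omega⟩, ?_⟩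
      simp only [hxsX] at hwM ⊢
      omega
    · obtain ⟨t, ht, htX⟩ := hax
      exact ⟨hxsM μ t, Or.inl ⟨t, ht, rfl⟩, by rw [hxs_M_X]; omega⟩
    · intro z hz
      obtain ⟨z1, z2, z3, z4⟩ := hWd z hz
      exact ⟨z1, z2, by omega, by omega⟩
    · intro z hz
      obtain ⟨z1, z2, z3, z4⟩ := hWd z hz
      refine ⟨?_, ?_⟩
      · rintro (h | h)
        · exact (hmiss z hz).2 ((hmem z).1 h)
        · have := hxd_ray_X h
          omega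
      · rintro (h | h)
        · have := (hmem _).1 h
          rw [hxs_M_invol] at this
          exact (hmiss z hz).1 this
        · have := hxd_ray_X h
          rw [hxs_M_X] at this
          omega

theorem hxd_eqns_cite : True := by
  have := @hxdRay.eq_1
  trivial

end Claimed.Agent.R291
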