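import Claimed.Agent.R291.Defs.Cell
import Claimed.Agent.R291.Tool.TriSCLat
import Claimed.Agent.R291.Pl.Ball

/-!
# Row 291 (S0539), Pl/Lift : THE GRAY LIFT, DETERMINISTIC CORE      (owner helper110; prefix `plz_` / `Plz` / `plz`)

TEX[lem:spin-lift] (02-discrete.tex l.36-66), the deterministic half, model free.   Customers: `Ann/DBridge.lean` (110, for 149), `dis_lift` (63).

ABSTRACT (any simple graph `G`, `s` with `TriSCOn ℤ G s` and `TscConn G s`)
* `PlzOk a b` : the residues `a b : ZMod 4` differ by `0, ±1`;   `plzInc a b ∈ {-1,0,1}` the increment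
* **`plz_lift`** : residues `ρ` on `s` with `PlzOk` along the edges inside `s`, base value `k ≡ ρ o`  ⟹  a height `h`, `h o = k`, `h ≡ ρ` on `s`, 1-Lipschitz on the edges inside `s`
* **`plz_unique`** : two 1-Lipschitz heights with the same residues on `s` and the same value at one site of `s` agree on `s`
* `plz_window` : on a connected `t ⊆ s` where the residues are in `{0,1}` a 1-Lipschitz height which starts in `{4j, 4j+1}` stays there
GRAY CODE
* `plzRes B W u : ZMod 4` (`= clRes` mod 4), `plz_res_iff` (residue of an integer ↔ membership in `B`, `W`), `plz_ok_iff` (`PlzOk` ↔ one of the two spins does not change)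
* `plz_lift_BW`, `plz_unique_BW` : the two theorems in the language of the plus sets `B`, `W`
LATTICE (`S : Finset TV`, `htB S h`, `htW S h` of Defs/Cell)
* `plz_edge_cases` : an edge inside `S` lies in an up-cell inside `S` or joins two sites of the layer `latBd S`
* **`plz_lay_exists`**, **`plz_lay_unique`** : heights (`0` off `S`, 1-Lipschitz inside `S`, in `{0,1}` on the layer)  ↔  pairs `(B, W)` with `B = +` on the layer and one spin constant on each up-cell inside `S`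
-/

set_option autoImplicit false
set_option linter.unusedVariables false
set_option linter.unusedSectionVars false

namespace Claimed.Agent.R291

open Relation Claims Claims.C0467

/-- the residues differ by `0`, `1` or `-1` -/
def PlzOk (a b : ZMod 4) : Prop := b - a = 0 ∨ b - a = 1 ∨ b - a = -1

instance plzOkDec : DecidableRel PlzOk := fun a b => by unfold PlzOk; infer_instance

/-- the increment in `{-1, 0, 1}` -/
def plzInc (a b : ZMod 4) : ℤ := if b - a = 1 then 1 else if b - a = -1 then -1 else 0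

theorem plz_inc_anti : ∀ a b : ZMod 4, plzInc b a = - plzInc a b := by decide

theorem plz_inc_tri : ∀ a b c : ZMod 4, PlzOk a b → PlzOk b c → PlzOk a c → plzInc a b + plzInc b c = plzInc a c := by decide

theorem plz_inc_cast : ∀ a b : ZMod 4, PlzOk a b → ((plzInc a b : ℤ) : ZMod 4) = b - a := by decide

theorem plz_inc_abs : ∀ a b : ZMod 4, |plzInc a b| ≤ 1 := by decide

theorem plz_ok_symm : ∀ a b : ZMod 4, PlzOk a b → PlzOk b a := by decide

/-- congruence mod 4 in `omega` form -/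
theorem plz_cast_eq {a b : ℤ} : ((a : ℤ) : ZMod 4) = ((b : ℤ) : ZMod 4) ↔ a % 4 = b % 4 := by
  rw [ZMod.intCast_eq_intCast_iff]
  exact Iff.rfl

section abstract
variable {V : Type*} {G : SimpleGraph V} {s : Set V}

/-- **the lift** -/
theorem plz_lift (hsc : TriSCOn ℤ G s) (hc : TscConn G s) (ρ : V → ZMod 4)
    (hρ : ∀ u ∈ s, ∀ v ∈ s, G.Adj u v → PlzOk (ρ u) (ρ v)) {o : V} (ho : o ∈ s) (k : ℤ) (hk : ((k : ℤ) : ZMod 4) = ρ o) :
    ∃ h : V → ℤ, h o = k ∧ (∀ u ∈ s, ((h u : ℤ) : ZMod 4) = ρ u) ∧ ∀ u ∈ s, ∀ v ∈ s, G.Adj u v → |h v - h u| ≤ 1 := by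
  obtain ⟨f, hf⟩ := hsc (fun u v => plzInc (ρ u) (ρ v))
    ⟨fun u _ v _ _ => plz_inc_anti _ _,
      fun u hu v hv w hw huv hvw huw => plz_inc_tri _ _ _ (hρ u hu v hv huv) (hρ v hv w hw hvw) (hρ u hu w hw huw)⟩
  refine ⟨fun u => f u - f o + k, by simp, ?_, ?_⟩
  · intro u hu
    have := hc o ho u hu
    induction this with
    | refl => simpa using hk
    | @tail v w hov hvw ih =>
      have hv : v ∈ s := hvw.2.1
      have h1 := hf v hv w hvw.2.2 hvw.1
      have h2 := plz_inc_cast _ _ (hρ v hv w hvw.2.2 hvw.1)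
      have h3 := ih hv
      have e : f w - f o + k = (f v - f o + k) + plzInc (ρ v) (ρ w) := by
        rw [h1]
        ring
      show ((f w - f o + k : ℤ) : ZMod 4) = ρ w
      have h3' : ((f v - f o + k : ℤ) : ZMod 4) = ρ v := h3
      rw [e, Int.cast_add, h3', h2]
      ring
  · intro u hu v hv huv
    have h1 := hf u hu v hv huv
    have e : f v - f o + k - (f u - f o + k) = plzInc (ρ u) (ρ v) := by
      rw [h1]
      ring
    rw [e]
    exact plz_inc_abs _ _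

/-- **uniqueness of the lift** -/
theorem plz_unique (hc : TscConn G s) {h h' : V → ℤ} (hl : ∀ u ∈ s, ∀ v ∈ s, G.Adj u v → |h v - h u| ≤ 1)
    (hl' : ∀ u ∈ s, ∀ v ∈ s, G.Adj u v → |h' v - h' u| ≤ 1) (hres : ∀ u ∈ s, ((h u : ℤ) : ZMod 4) = ((h' u : ℤ) : ZMod 4))
    {o : V} (ho : o ∈ s) (hoo : h o = h' o) : ∀ u ∈ s, h u = h' u := by
  intro u hu
  have := hc o ho u hu
  induction this with
  | refl => exact hoo
  | @tail v w hov hvw ih =>
    have hv : v ∈ s := hvw.2.1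
    have h1 := abs_le.1 (hl v hv w hvw.2.2 hvw.1)
    have h2 := abs_le.1 (hl' v hv w hvw.2.2 hvw.1)
    have h3 := ih hv
    have h4 := plz_cast_eq.1 (hres w hvw.2.2)
    omega

/-- a 1-Lipschitz height whose residues are `0` or `1` on the connected set `t` stays in one window `{4j, 4j+1}` -/
theorem plz_window {t : Set V} (hc : TscConn G t) {h : V → ℤ} (hl : ∀ u ∈ t, ∀ v ∈ t, G.Adj u v → |h v - h u| ≤ 1)
    (hres : ∀ u ∈ t, h u % 4 = 0 ∨ h u % 4 = 1) {o : V} (ho : o ∈ t) (j : ℤ) (hoo : h o = 4 * j ∨ h o = 4 * j + 1) :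
    ∀ u ∈ t, h u = 4 * j ∨ h u = 4 * j + 1 := by
  intro u hu
  have := hc o ho u hu
  induction this with
  | refl => exact hoo
  | @tail v w hov hvw ih =>
    have hv : v ∈ t := hvw.2.1
    have h1 := abs_le.1 (hl v hv w hvw.2.2 hvw.1)
    have h3 := ih hv
    have h4 := hres w hvw.2.2
    omega

end abstract

/-! ## Gray code -/

section gray
variable {V : Type*} [DecidableEq V]

/-- the residue of the pair of spins with plus sets `B`, `W` (discrete:gray) -/
def plzRes (B W : Finset V) (u : V) : ZMod 4 := if u ∈ B then (if u ∈ W then 0 else 1) else (if u ∈ W then 3 else 2)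

theorem plz_cast_cases (k : ℤ) : (k % 4 = 0 ∧ ((k : ℤ) : ZMod 4) = 0) ∨ (k % 4 = 1 ∧ ((k : ℤ) : ZMod 4) = 1) ∨
    (k % 4 = 2 ∧ ((k : ℤ) : ZMod 4) = 2) ∨ (k % 4 = 3 ∧ ((k : ℤ) : ZMod 4) = 3) := by
  have h : k % 4 = 0 ∨ k % 4 = 1 ∨ k % 4 = 2 ∨ k % 4 = 3 := by omega
  rcases h with h | h | h | h
  · exact Or.inl ⟨h, by have := (plz_cast_eq (a := k) (b := 0)).2 (by omega); simpa using this⟩
  · exact Or.inr (Or.inl ⟨h, by have := (plz_cast_eq (a := k) (b := 1)).2 (by omega); simpa using this⟩)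
  · exact Or.inr (Or.inr (Or.inl ⟨h, by have := (plz_cast_eq (a := k) (b := 2)).2 (by omega); simpa using this⟩))
  · exact Or.inr (Or.inr (Or.inr ⟨h, by have := (plz_cast_eq (a := k) (b := 3)).2 (by omega); simpa using this⟩))

/-- the residue of an integer is the residue of the pair iff its Gray spins are those of the pair -/
theorem plz_res_iff (B W : Finset V) (u : V) (k : ℤ) : ((k : ℤ) : ZMod 4) = plzRes B W u ↔
    ((k % 4 = 0 ∨ k % 4 = 1) ↔ u ∈ B) ∧ ((k % 4 = 0 ∨ k % 4 = 3) ↔ u ∈ W) := by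
  unfold plzRes
  rcases plz_cast_cases k with h | h | h | h <;> rw [h.2] <;> by_cases hB : u ∈ B <;> by_cases hW : u ∈ W <;>
    simp only [hB, hW, if_true, if_false, h.1] <;> decide

/-- the residues of two sites are compatible iff one of the two spins does not change -/
theorem plz_ok_iff (B W : Finset V) (u v : V) : PlzOk (plzRes B W u) (plzRes B W v) ↔ ((u ∈ B ↔ v ∈ B) ∨ (u ∈ W ↔ v ∈ W)) := by
  unfold plzRes
  by_cases h1 : u ∈ B <;> by_cases h2 : u ∈ W <;> by_cases h3 : v ∈ B <;> by_cases h4 : v ∈ W <;>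
    simp only [h1, h2, h3, h4, if_true, if_false] <;> decide

variable {G : SimpleGraph V} {s : Set V}

/-- **the lift**, in the language of the plus sets -/
theorem plz_lift_BW (hsc : TriSCOn ℤ G s) (hc : TscConn G s) (B W : Finset V)
    (hBW : ∀ u ∈ s, ∀ v ∈ s, G.Adj u v → ((u ∈ B ↔ v ∈ B) ∨ (u ∈ W ↔ v ∈ W))) {o : V} (ho : o ∈ s) (k : ℤ)
    (hkB : (k % 4 = 0 ∨ k % 4 = 1) ↔ o ∈ B) (hkW : (k % 4 = 0 ∨ k % 4 = 3) ↔ o ∈ W) :
    ∃ h : V → ℤ, h o = k ∧ (∀ u ∈ s, ((h u % 4 = 0 ∨ h u % 4 = 1) ↔ u ∈ B) ∧ ((h u % 4 = 0 ∨ h u % 4 = 3) ↔ u ∈ W)) ∧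
      ∀ u ∈ s, ∀ v ∈ s, G.Adj u v → |h v - h u| ≤ 1 := by
  obtain ⟨h, h1, h2, h3⟩ := plz_lift hsc hc (plzRes B W) (fun u hu v hv huv => (plz_ok_iff B W u v).2 (hBW u hu v hv huv)) ho k
    ((plz_res_iff B W o k).2 ⟨hkB, hkW⟩)
  exact ⟨h, h1, fun u hu => (plz_res_iff B W u (h u)).1 (h2 u hu), h3⟩

/-- **uniqueness of the lift**, in the language of Gray spins -/
theorem plz_unique_BW (hc : TscConn G s) {h h' : V → ℤ} (hl : ∀ u ∈ s, ∀ v ∈ s, G.Adj u v → |h v - h u| ≤ 1)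
    (hl' : ∀ u ∈ s, ∀ v ∈ s, G.Adj u v → |h' v - h' u| ≤ 1)
    (hB : ∀ u ∈ s, ((h u % 4 = 0 ∨ h u % 4 = 1) ↔ (h' u % 4 = 0 ∨ h' u % 4 = 1)))
    (hW : ∀ u ∈ s, ((h u % 4 = 0 ∨ h u % 4 = 3) ↔ (h' u % 4 = 0 ∨ h' u % 4 = 3)))
    {o : V} (ho : o ∈ s) (hoo : h o = h' o) : ∀ u ∈ s, h u = h' u := by
  refine plz_unique hc hl hl' (fun u hu => plz_cast_eq.2 ?_) ho hoo
  have h1 := hB u hu
  have h2 := hW u hu
  omega

end gray

/-- a 1-Lipschitz triple takes at most two values: one of its two Gray spins is constant -/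
theorem plz_triple (a b c : ℤ) (h1 : |b - a| ≤ 1) (h2 : |c - a| ≤ 1) (h3 : |b - c| ≤ 1) :
    (((b % 4 = 0 ∨ b % 4 = 1) ↔ (a % 4 = 0 ∨ a % 4 = 1)) ∧ ((c % 4 = 0 ∨ c % 4 = 1) ↔ (a % 4 = 0 ∨ a % 4 = 1))) ∨
    (((b % 4 = 0 ∨ b % 4 = 3) ↔ (a % 4 = 0 ∨ a % 4 = 3)) ∧ ((c % 4 = 0 ∨ c % 4 = 3) ↔ (a % 4 = 0 ∨ a % 4 = 3))) := by
  rw [abs_le] at h1 h2 h3
  omega

/-- both Gray spins constant along a 1-Lipschitz edge iff the height is constant -/
theorem plz_edge_const (a b : ℤ) (h1 : |b - a| ≤ 1) :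
    b = a ↔ (((b % 4 = 0 ∨ b % 4 = 1) ↔ (a % 4 = 0 ∨ a % 4 = 1)) ∧ ((b % 4 = 0 ∨ b % 4 = 3) ↔ (a % 4 = 0 ∨ a % 4 = 3))) := by
  rw [abs_le] at h1
  constructor
  · rintro rfl
    exact ⟨Iff.rfl, Iff.rfl⟩
  · rintro ⟨h2, h3⟩
    omega

/-! ## The lattice: heights in `{0,1}` on the layer  ↔  spin pairs with `B = +` on the layer -/

theorem plz_mem_htB {S : Finset TV} {h : TV → ℤ} {u : TV} : u ∈ htB S h ↔ u ∈ S ∧ (h u % 4 = 0 ∨ h u % 4 = 1) := by
  unfold htB
  rw [Finset.mem_filter]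

theorem plz_mem_htW {S : Finset TV} {h : TV → ℤ} {u : TV} : u ∈ htW S h ↔ u ∈ S ∧ (h u % 4 = 0 ∨ h u % 4 = 3) := by
  unfold htW
  rw [Finset.mem_filter]

theorem plz_const_iff {P s : Finset TV} (h : ClConst P s) {u v : TV} (hu : u ∈ s) (hv : v ∈ s) : u ∈ P ↔ v ∈ P := by
  rcases h with h | h
  · exact ⟨fun _ => h hv, fun _ => h hu⟩
  · exact ⟨fun h' => (h u hu h').elim, fun h' => (h v hv h').elim⟩

/-- an edge inside `S` lies in an up-cell inside `S`, or joins two sites of the layer -/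
theorem plz_edge_cases {S : Finset TV} {u v : TV} (hu : u ∈ S) (hv : v ∈ S) (huv : triAdj u v) :
    (∃ y ∈ latCellsIn S, u ∈ cellV y ∧ v ∈ cellV y) ∨ (u ∈ latBd S ∧ v ∈ latBd S) := by
  have hm := plh_cellOf_mem (e := (u, v)) huv
  by_cases hy : cellV (plhCellOf (u, v)) ⊆ S
  · exact Or.inl ⟨_, lat_mem_cellsIn.2 hy, hm.1, hm.2⟩
  · exact Or.inr ⟨plh_lay_iff.2 ⟨hu, _, hm.1, hy⟩, plh_lay_iff.2 ⟨hv, _, hm.2, hy⟩⟩

/-- **existence**: a pair of spins with `B = +` on the layer, one of the two spins constant on every up-cell inside `S`, is the Gray code of a height which is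
`0` off `S`, 1-Lipschitz inside `S`, in `{0,1}` on the layer -/
theorem plz_lay_exists {S : Finset TV} (hsc : TriSCOn ℤ tscG (↑S : Set TV)) (hc : TscConn tscG (↑S : Set TV))
    (hl : TscConn tscG (↑(latBd S) : Set TV)) (hne : (latBd S).Nonempty) (B W : Finset TV) (hB : latBd S ⊆ B)
    (hcell : ∀ y ∈ latCellsIn S, ClConst B (cellV y) ∨ ClConst W (cellV y)) :
    ∃ h : TV → ℤ, (∀ u, u ∉ S → h u = 0) ∧ (∀ u ∈ S, ∀ v ∈ S, triAdj u v → |h u - h v| ≤ 1) ∧ (∀ u ∈ latBd S, h u = 0 ∨ h u = 1) ∧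
      htB S h = B ∩ S ∧ htW S h = W ∩ S := by
  classical
  obtain ⟨o, ho⟩ := hne
  have hoS : o ∈ S := lat_bd_sub S ho
  obtain ⟨h, h1, h2, h3⟩ := plz_lift_BW (G := tscG) (s := (↑S : Set TV)) hsc hc B W (by
      intro u hu v hv huv
      rcases plz_edge_cases (Finset.mem_coe.1 hu) (Finset.mem_coe.1 hv) huv with ⟨y, hy, hu', hv'⟩ | ⟨hu', hv'⟩
      · rcases hcell y hy with h | h
        · exact Or.inl (plz_const_iff h hu' hv')
        · exact Or.inr (plz_const_iff h hu' hv')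
      · exact Or.inl ⟨fun _ => hB hv', fun _ => hB hu'⟩) (o := o) (Finset.mem_coe.2 hoS) (if o ∈ W then 0 else 1)
      (by
        have := hB ho
        by_cases hW : o ∈ W <;> simp [hW, this])
      (by by_cases hW : o ∈ W <;> simp [hW])
  have hlay : ∀ u ∈ (↑(latBd S) : Set TV), h u = 4 * 0 ∨ h u = 4 * 0 + 1 := by
    refine plz_window hl (fun u hu v hv huv => h3 u (lat_bd_sub S hu) v (lat_bd_sub S hv) huv) (fun u hu => ?_)
      (Finset.mem_coe.2 ho) 0 ?_
    · exact ((h2 u (lat_bd_sub S hu)).1).2 (hB hu)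
    · rw [h1]
      by_cases hW : o ∈ W <;> simp [hW]
  refine ⟨fun u => if u ∈ S then h u else 0, fun u hu => if_neg hu, fun u hu v hv huv => ?_, fun u hu => ?_, ?_, ?_⟩
  · simp only [if_pos hu, if_pos hv]
    rw [abs_sub_comm]
    exact h3 u hu v hv huv
  · simp only [if_pos (lat_bd_sub S hu)]
    simpa using hlay u hu
  · ext u
    rw [plz_mem_htB, Finset.mem_inter]
    constructor
    · rintro ⟨hu, h4⟩
      rw [if_pos hu] at h4
      exact ⟨((h2 u hu).1).1 h4, hu⟩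
    · rintro ⟨h4, hu⟩
      rw [if_pos hu]
      exact ⟨hu, ((h2 u hu).1).2 h4⟩
  · ext u
    rw [plz_mem_htW, Finset.mem_inter]
    constructor
    · rintro ⟨hu, h4⟩
      rw [if_pos hu] at h4
      exact ⟨((h2 u hu).2).1 h4, hu⟩
    · rintro ⟨h4, hu⟩
      rw [if_pos hu]
      exact ⟨hu, ((h2 u hu).2).2 h4⟩

/-- **uniqueness** -/
theorem plz_lay_unique {S : Finset TV} (hc : TscConn tscG (↑S : Set TV)) (hne : (latBd S).Nonempty) {h h' : TV → ℤ}
    (h0 : ∀ u, u ∉ S → h u = 0) (hl : ∀ u ∈ S, ∀ v ∈ S, triAdj u v → |h u - h v| ≤ 1) (hb : ∀ u ∈ latBd S, h u = 0 ∨ h u = 1)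
    (h0' : ∀ u, u ∉ S → h' u = 0) (hl' : ∀ u ∈ S, ∀ v ∈ S, triAdj u v → |h' u - h' v| ≤ 1) (hb' : ∀ u ∈ latBd S, h' u = 0 ∨ h' u = 1)
    (hB : htB S h = htB S h') (hW : htW S h = htW S h') : h = h' := by
  obtain ⟨o, ho⟩ := hne
  have hoS : o ∈ S := lat_bd_sub S ho
  have eB : ∀ u ∈ S, ((h u % 4 = 0 ∨ h u % 4 = 1) ↔ (h' u % 4 = 0 ∨ h' u % 4 = 1)) := by
    intro u hu
    have := Finset.ext_iff.1 hB u
    rw [plz_mem_htB, plz_mem_htB] at this
    simpa [hu] using this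
  have eW : ∀ u ∈ S, ((h u % 4 = 0 ∨ h u % 4 = 3) ↔ (h' u % 4 = 0 ∨ h' u % 4 = 3)) := by
    intro u hu
    have := Finset.ext_iff.1 hW u
    rw [plz_mem_htW, plz_mem_htW] at this
    simpa [hu] using this
  have key := plz_unique_BW (G := tscG) (s := (↑S : Set TV)) hc (h := h) (h' := h')
    (fun u hu v hv huv => by rw [abs_sub_comm]; exact hl u hu v hv huv)
    (fun u hu v hv huv => by rw [abs_sub_comm]; exact hl' u hu v hv huv) (fun u hu => eB u hu) (fun u hu => eW u hu)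
    (o := o) (Finset.mem_coe.2 hoS) (by
      have h1 := hb o ho
      have h2 := hb' o ho
      have h3 := eW o hoS
      omega)
  funext u
  by_cases hu : u ∈ S
  · exact key u hu
  · rw [h0 u hu, h0' u hu]

/-- unfolding equations of the definitions of this file -/
theorem plz_eqns_cite : True := by
  have := @PlzOk.eq_1
  have := @plzInc.eq_1
  have := @plzRes.eq_1.{0}
  trivial

end Claimed.Agent.R291
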