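import Claimed.Agent.R291.Defs.Lat
import Claimed.Agent.R291.Pl.Wind
import Claimed.Agent.R291.Tool.TriSCLat

/-!
# Row 291 (S0539), unit PLA, file Pl/Arm      (owner: helper191; prefix `plf_`)

* the DISCRETE INTERMEDIATE VALUE THEOREM for walks (`plf_first`, `plf_lastx`, `plf_ivt`): any type, any relation, any 1-Lipschitz integer function;
* TEX[T23_CHAIN J4]: a walk from `Λ_n` to the sphere of radius `N` contains a widthwise crossing of one of the six rotated trapezoids `{n ≤ ℓ ≤ N} ∩ Λ_N` (`plf_arm`);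
* six lengthwise walks of the six trapezoids block every arm (`plf_six`);
* SET FORMS in the language `TscR tscG s u v` (path inside `s`) of `Tool/TriSC`: `plf_R_cross_h/v/d`, `plf_R_interlace`, `plf_R_arm`, and the EXACT DUALITY in a lattice
  parallelogram `plf_box_dual` (Hex existence of helper147 + forced intersection);
* TEX[T23_CHAIN J3] CYLINDERS read on the cover: `L`-periodic colourings of a band: `plf_cyl_excl`, `plf_cyl_hex`, `plf_cyl_dual`.
Walks are lists, consecutive sites adjacent; the ends are given by `head?` and `getLast?`.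
-/

set_option autoImplicit false

namespace Claimed.Agent.R291

open Claims.C0467

section ivt

variable {α : Type} {R : α → α → Prop} {g : α → ℤ}

/-- **first passage**: the prefix of the walk up to the first visit of the level `N` -/
theorem plf_first (hg : ∀ x y, R x y → g y ≤ g x + 1) {N : ℤ} :
    ∀ (p : List α) (a b : α), List.IsChain R p → p.head? = some a → p.getLast? = some b → g a ≤ N → N ≤ g b →
      ∃ q b', q <+: p ∧ q.head? = some a ∧ q.getLast? = some b' ∧ g b' = N ∧ ∀ u ∈ q, g u ≤ N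
  | [], a, b, _, h, _, _, _ => by simp at h
  | [c], a, b, _, h1, h2, h3, h4 => by
      simp only [List.head?_cons, Option.some.injEq, List.getLast?_singleton] at h1 h2
      subst h1
      subst h2
      exact ⟨[c], c, List.prefix_rfl, rfl, rfl, le_antisymm h3 h4, fun u hu => by
        rw [List.mem_singleton] at hu; rw [hu]; exact h3⟩
  | c :: d :: l, a, b, h0, h1, h2, h3, h4 => by
      simp only [List.head?_cons, Option.some.injEq] at h1
      subst h1
      rw [List.isChain_cons_cons] at h0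
      by_cases hc : g c = N
      · exact ⟨[c], c, by simp, rfl, rfl, hc, fun u hu => by
          rw [List.mem_singleton] at hu; rw [hu]; exact h3⟩
      · have hd : g d ≤ N := by
          have := hg c d h0.1
          omega
        obtain ⟨q, b', q1, q2, q3, q4, q5⟩ := plf_first hg (d :: l) d b h0.2 rfl
          (by simpa [List.getLast?_cons_cons] using h2) hd h4
        obtain ⟨e, q', rfl⟩ : ∃ e q', q = e :: q' := by
          cases q with
          | nil => simp at q2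
          | cons e q' => exact ⟨e, q', rfl⟩
        refine ⟨c :: e :: q', b', ?_, rfl, by rw [List.getLast?_cons_cons]; exact q3, q4, fun u hu => ?_⟩
        · obtain ⟨t, ht⟩ := q1
          exact ⟨t, by rw [List.cons_append, ht]⟩
        · rcases List.mem_cons.1 hu with rfl | hu
          · exact h3
          · exact q5 u hu

/-- **last exit**: the suffix of the walk after the last visit of the level `n` -/
theorem plf_lastx (hg : ∀ x y, R x y → g y ≤ g x + 1) {n : ℤ} {p : List α} {a b : α} (hp : List.IsChain R p)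
    (ha : p.head? = some a) (hb : p.getLast? = some b) (h0 : g a ≤ n) (h1 : n ≤ g b) :
    ∃ q a', q <:+ p ∧ q.head? = some a' ∧ q.getLast? = some b ∧ g a' = n ∧ ∀ u ∈ q, n ≤ g u := by
  have hrev : List.IsChain (fun x y => R y x) p.reverse := by
    rw [List.isChain_reverse]
    exact hp
  obtain ⟨q, b', q1, q2, q3, q4, q5⟩ := plf_first (R := fun x y => R y x) (g := fun x => - g x) (N := -n)
    (fun x y hxy => by have := hg y x hxy; show - g y ≤ - g x + 1; omega) p.reverse b a hrev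
    (by rw [List.head?_reverse]; exact hb) (by rw [List.getLast?_reverse]; exact ha) (by show - g b ≤ -n; omega)
    (by show -n ≤ - g a; omega)
  refine ⟨q.reverse, b', ?_, by rw [List.head?_reverse]; exact q3, by rw [List.getLast?_reverse]; exact q2, ?_, fun u hu => ?_⟩
  · have := List.reverse_suffix.2 q1
    rwa [List.reverse_reverse] at this
  · have : - g b' = -n := q4
    omega
  · have : - g u ≤ -n := q5 u (List.mem_reverse.1 hu)
    omega

/-- **discrete intermediate value theorem**: a walk from `{g ≤ n}` to `{N ≤ g}` contains a walk from `{g = n}` to `{g = N}` inside `{n ≤ g ≤ N}` -/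
theorem plf_ivt (hg : ∀ x y, R x y → g y ≤ g x + 1) {n N : ℤ} (hnN : n ≤ N) {p : List α} {a b : α} (hp : List.IsChain R p)
    (ha : p.head? = some a) (hb : p.getLast? = some b) (h0 : g a ≤ n) (h1 : N ≤ g b) :
    ∃ q a' b', q <:+: p ∧ q.head? = some a' ∧ q.getLast? = some b' ∧ g a' = n ∧ g b' = N ∧ ∀ u ∈ q, n ≤ g u ∧ g u ≤ N := by
  obtain ⟨q, b', q1, q2, q3, q4, q5⟩ := plf_first hg p a b hp ha hb (h0.trans hnN) h1
  obtain ⟨r, a', r1, r2, r3, r4, r5⟩ := plf_lastx hg (hp.prefix q1) q2 q3 h0 (by omega)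
  exact ⟨r, a', b', r1.isInfix.trans q1.isInfix, r2, r3, r4, q4, fun u hu => ⟨r5 u hu, q5 u (r1.subset hu)⟩⟩

end ivt

/-! ### the six linear forms of the hexagonal norm -/

/-- the height after `k` rotations by 60 degrees: `y, x + y, x, -y, -x - y, -x` -/
def plfH (k : ℕ) (u : TV) : ℤ := (latRot^[k] u).2

theorem plf_rot_eq : plfRot = latRot := rfl

theorem plf_H_le (k : ℕ) (hk : k < 6) (u : TV) : plfH k u ≤ latN u := by
  obtain ⟨x, y⟩ := u
  unfold plfH latN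
  interval_cases k <;> simp only [Function.iterate_succ, Function.iterate_zero, Function.comp, id, latRot] <;> omega

theorem plf_H_ex (u : TV) : ∃ k, k < 6 ∧ plfH k u = latN u := by
  obtain ⟨x, y⟩ := u
  have h : ∀ k, k < 6 → plfH k (x, y) = latN (x, y) → ∃ k, k < 6 ∧ plfH k (x, y) = latN (x, y) := fun k hk h => ⟨k, hk, h⟩
  have e0 : plfH 0 (x, y) = y := rfl
  have e1 : plfH 1 (x, y) = x + y := rfl
  have e2 : plfH 2 (x, y) = x := by simp [plfH, latRot]
  have e3 : plfH 3 (x, y) = -y := by simp [plfH, latRot]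
  have e4 : plfH 4 (x, y) = -x - y := by simp [plfH, latRot]; ring
  have e5 : plfH 5 (x, y) = -x := by simp [plfH, latRot]
  have hN : (latN (x, y) : ℤ) = y ∨ (latN (x, y) : ℤ) = x + y ∨ (latN (x, y) : ℤ) = x ∨ (latN (x, y) : ℤ) = -y
      ∨ (latN (x, y) : ℤ) = -x - y ∨ (latN (x, y) : ℤ) = -x := by
    unfold latN
    simp only
    omega
  rcases hN with g | g | g | g | g | g
  · exact h 0 (by norm_num) (by rw [e0, g])
  · exact h 1 (by norm_num) (by rw [e1, g])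
  · exact h 2 (by norm_num) (by rw [e2, g])
  · exact h 3 (by norm_num) (by rw [e3, g])
  · exact h 4 (by norm_num) (by rw [e4, g])
  · exact h 5 (by norm_num) (by rw [e5, g])

theorem plf_rot_iter_adj (k : ℕ) : ∀ u v : TV, triAdj u v → triAdj (latRot^[k] u) (latRot^[k] v) := by
  induction k with
  | zero => intro u v h; exact h
  | succ k ih =>
    intro u v h
    rw [Function.iterate_succ_apply', Function.iterate_succ_apply']
    exact plf_rot_adj _ _ (ih u v h)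

theorem plf_rot_iter_inj (k : ℕ) : ∀ u v : TV, latRot^[k] u = latRot^[k] v → u = v := by
  induction k with
  | zero => intro u v h; exact h
  | succ k ih =>
    intro u v h
    rw [Function.iterate_succ_apply', Function.iterate_succ_apply'] at h
    exact ih u v (plf_rot_inj h)

theorem plf_adj_snd {u v : TV} (h : triAdj u v) : v.2 ≤ u.2 + 1 := by
  obtain ⟨u1, u2⟩ := u
  obtain ⟨v1, v2⟩ := v
  simp only [triAdj, Prod.mk_sub_mk, Prod.mk.injEq] at h
  simp only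
  omega

theorem plf_H_lip (k : ℕ) (u v : TV) (h : triAdj u v) : plfH k v ≤ plfH k u + 1 :=
  plf_adj_snd (plf_rot_iter_adj k u v h)

theorem plf_N_lip (u v : TV) (h : triAdj u v) : (latN v : ℤ) ≤ latN u + 1 := by
  obtain ⟨u1, u2⟩ := u
  obtain ⟨v1, v2⟩ := v
  simp only [triAdj, Prod.mk_sub_mk, Prod.mk.injEq] at h
  unfold latN
  simp only
  omega

theorem plf_N_rot (u : TV) : latN (latRot u) = latN u := by
  obtain ⟨x, y⟩ := u
  unfold latN latRot
  simp only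
  omega

theorem plf_N_rot_iter (k : ℕ) (u : TV) : latN (latRot^[k] u) = latN u := by
  induction k with
  | zero => rfl
  | succ k ih => rw [Function.iterate_succ_apply', plf_N_rot, ih]

/-- TEX[T23_CHAIN J4] **an arm crosses one of the six trapezoids widthwise** -/
theorem plf_arm {p : List TV} (hp : List.IsChain triAdj p) {a b : TV} (ha : p.head? = some a) (hb : p.getLast? = some b)
    {n N : ℕ} (hnN : n ≤ N) (h0 : latN a ≤ n) (h1 : N ≤ latN b) :
    ∃ k, k < 6 ∧ ∃ q a' b', q <:+: p ∧ q.head? = some a' ∧ q.getLast? = some b' ∧ plfH k a' = n ∧ plfH k b' = N ∧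
      ∀ u ∈ q, (n : ℤ) ≤ plfH k u ∧ plfH k u ≤ N ∧ latN u ≤ N := by
  obtain ⟨q, b0, q1, q2, q3, q4, q5⟩ := plf_first (g := fun u : TV => (latN u : ℤ)) (N := (N : ℤ)) plf_N_lip p a b hp ha hb
    (by exact_mod_cast h0.trans hnN) (by exact_mod_cast h1)
  obtain ⟨k, hk, hkb⟩ := plf_H_ex b0
  obtain ⟨r, a', b', r1, r2, r3, r4, r5, r6⟩ := plf_ivt (g := plfH k) (plf_H_lip k) (n := (n : ℤ)) (N := (N : ℤ))
    (by exact_mod_cast hnN) (hp.prefix q1) q2 q3 ((plf_H_le k hk a).trans (by exact_mod_cast h0)) (by rw [hkb]; exact q4.ge)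
  refine ⟨k, hk, r, a', b', r1.trans q1.isInfix, r2, r3, r4, r5, fun u hu => ⟨(r6 u hu).1, (r6 u hu).2, ?_⟩⟩
  have := q5 u (r1.subset hu)
  exact_mod_cast this

/-- a lengthwise walk of the standard trapezoid `{n ≤ y ≤ N} ∩ Λ_N` (it may leave the trapezoid sideways) meets every widthwise walk -/
theorem plf_trap {c q : List TV} (hc : List.IsChain triAdj c) (hq : List.IsChain triAdj q) {n N : ℤ} {a b v w : TV}
    (ha : c.head? = some a) (hb : c.getLast? = some b) (hv : q.head? = some v) (hw : q.getLast? = some w)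
    (hcR : ∀ u ∈ c, n ≤ u.2 ∧ u.2 ≤ N) (ha0 : a.1 ≤ -N) (hb0 : N ≤ b.1 + b.2) (hv0 : v.2 = n) (hw0 : w.2 = N)
    (hqR : ∀ u ∈ q, (latN u : ℤ) ≤ N) : ∃ u, u ∈ c ∧ u ∈ q := by
  refine plf_cross_h hc hq ha hb hv hw (fun u hu => by rw [hv0]; exact (hcR u hu).1) (fun u hu => by rw [hw0]; exact (hcR u hu).2)
    (fun u hu hh => ?_) (fun u hu hh => ?_)
  · have := hqR u hu
    unfold latN at this
    omega
  · have := hqR u hu
    unfold latN at this
    omega

/-- **six blockers**: if for each of the six directions `k` a walk `c k` crosses (after `k` rotations) the standard trapezoid lengthwise, every walk from `Λ_n` to the sphere of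
radius `N` meets one of them -/
theorem plf_six {n N : ℕ} (hnN : n ≤ N) (c : ℕ → List TV) (hc : ∀ k, k < 6 → List.IsChain triAdj (c k))
    (hends : ∀ k, k < 6 → ∃ a b, (c k).head? = some a ∧ (c k).getLast? = some b ∧ (latRot^[k] a).1 ≤ -(N : ℤ)
      ∧ (N : ℤ) ≤ (latRot^[k] b).1 + (latRot^[k] b).2)
    (hR : ∀ k, k < 6 → ∀ u ∈ c k, (n : ℤ) ≤ plfH k u ∧ plfH k u ≤ N)
    {p : List TV} (hp : List.IsChain triAdj p) {a b : TV} (ha : p.head? = some a) (hb : p.getLast? = some b)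
    (h0 : latN a ≤ n) (h1 : N ≤ latN b) : ∃ k, k < 6 ∧ ∃ u, u ∈ c k ∧ u ∈ p := by
  obtain ⟨k, hk, q, a', b', q1, q2, q3, q4, q5, q6⟩ := plf_arm hp ha hb hnN h0 h1
  obtain ⟨ca, cb, e1, e2, e3, e4⟩ := hends k hk
  have key := plf_trap (plf_map_chain (plf_rot_iter_adj k) (hc k hk)) (plf_map_chain (plf_rot_iter_adj k) (hp.infix q1))
    (n := (n : ℤ)) (N := (N : ℤ)) (plf_map_head e1) (plf_map_last e2) (plf_map_head q2) (plf_map_last q3)
    (fun u hu => by
      obtain ⟨x, hx, rfl⟩ := List.mem_map.1 hu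
      exact hR k hk x hx) e3 e4 q4 q5
    (fun u hu => by
      obtain ⟨x, hx, rfl⟩ := List.mem_map.1 hu
      rw [plf_N_rot_iter]
      exact_mod_cast (q6 x hx).2.2)
  obtain ⟨u, hu, hu'⟩ := plf_map_common (plf_rot_iter_inj k) key
  exact ⟨k, hk, u, hu, q1.subset hu'⟩

/-! ### set forms -/

/-- from a path inside a set to a walk -/
theorem plf_R_walk {s : Set TV} {u v : TV} (hu : u ∈ s) (h : TscR tscG s u v) :
    ∃ p : List TV, List.IsChain triAdj p ∧ p.head? = some u ∧ p.getLast? = some v ∧ ∀ z ∈ p, z ∈ s := by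
  obtain ⟨l, h1, h2, h3⟩ := tsc_R_iff_chain.1 ⟨hu, h⟩
  exact ⟨u :: l, h1, rfl, by rw [List.getLast?_eq_some_getLast (List.cons_ne_nil u l), h2], h3⟩

/-- from a walk inside a set to a path -/
theorem plf_walk_R {s : Set TV} {p : List TV} {u v : TV} (hp : List.IsChain triAdj p) (hu : p.head? = some u)
    (hv : p.getLast? = some v) (hs : ∀ z ∈ p, z ∈ s) : u ∈ s ∧ TscR tscG s u v := by
  cases p with
  | nil => simp at hu
  | cons c l =>
    simp only [List.head?_cons, Option.some.injEq] at hu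
    subst hu
    refine tsc_R_iff_chain.2 ⟨l, hp, ?_, hs⟩
    rw [List.getLast?_eq_some_getLast (List.cons_ne_nil c l)] at hv
    exact Option.some.inj hv

theorem plf_R_cross_h {S S' : Set TV} {a b v w : TV} (ha : a ∈ S) (hv : v ∈ S') (hab : TscR tscG S a b) (hvw : TscR tscG S' v w)
    (h0 : ∀ u ∈ S, v.2 ≤ u.2 ∧ u.2 ≤ w.2) (h4 : ∀ u ∈ S', ¬ (u.2 = a.2 ∧ u.1 < a.1)) (h5 : ∀ u ∈ S', ¬ (u.2 = b.2 ∧ b.1 < u.1)) :
    (S ∩ S').Nonempty := by
  obtain ⟨p, p1, p2, p3, p4⟩ := plf_R_walk ha hab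
  obtain ⟨q, q1, q2, q3, q4⟩ := plf_R_walk hv hvw
  obtain ⟨u, hu, hu'⟩ := plf_cross_h p1 q1 p2 p3 q2 q3 (fun u hu => (h0 u (p4 u hu)).1) (fun u hu => (h0 u (p4 u hu)).2)
    (fun u hu => h4 u (q4 u hu)) (fun u hu => h5 u (q4 u hu))
  exact ⟨u, p4 u hu, q4 u hu'⟩

theorem plf_R_cross_v {S S' : Set TV} {a b v w : TV} (ha : a ∈ S) (hv : v ∈ S') (hab : TscR tscG S a b) (hvw : TscR tscG S' v w)
    (h0 : ∀ u ∈ S, v.1 ≤ u.1 ∧ u.1 ≤ w.1) (h4 : ∀ u ∈ S', ¬ (u.1 = a.1 ∧ u.2 < a.2)) (h5 : ∀ u ∈ S', ¬ (u.1 = b.1 ∧ b.2 < u.2)) :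
    (S ∩ S').Nonempty := by
  obtain ⟨p, p1, p2, p3, p4⟩ := plf_R_walk ha hab
  obtain ⟨q, q1, q2, q3, q4⟩ := plf_R_walk hv hvw
  obtain ⟨u, hu, hu'⟩ := plf_cross_v p1 q1 p2 p3 q2 q3 (fun u hu => (h0 u (p4 u hu)).1) (fun u hu => (h0 u (p4 u hu)).2)
    (fun u hu => h4 u (q4 u hu)) (fun u hu => h5 u (q4 u hu))
  exact ⟨u, p4 u hu, q4 u hu'⟩

theorem plf_R_cross_d {S S' : Set TV} {a b v w : TV} (ha : a ∈ S) (hv : v ∈ S') (hab : TscR tscG S a b) (hvw : TscR tscG S' v w)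
    (h0 : ∀ u ∈ S, v.1 + v.2 ≤ u.1 + u.2 ∧ u.1 + u.2 ≤ w.1 + w.2) (h4 : ∀ u ∈ S', ¬ (u.1 + u.2 = a.1 + a.2 ∧ a.2 < u.2))
    (h5 : ∀ u ∈ S', ¬ (u.1 + u.2 = b.1 + b.2 ∧ u.2 < b.2)) : (S ∩ S').Nonempty := by
  obtain ⟨p, p1, p2, p3, p4⟩ := plf_R_walk ha hab
  obtain ⟨q, q1, q2, q3, q4⟩ := plf_R_walk hv hvw
  obtain ⟨u, hu, hu'⟩ := plf_cross_d p1 q1 p2 p3 q2 q3 (fun u hu => (h0 u (p4 u hu)).1) (fun u hu => (h0 u (p4 u hu)).2)
    (fun u hu => h4 u (q4 u hu)) (fun u hu => h5 u (q4 u hu))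
  exact ⟨u, p4 u hu, q4 u hu'⟩

/-- TEX[T23_CHAIN J7] two bottom-top paths of a band with interlaced end points meet -/
theorem plf_R_interlace {S S' : Set TV} {y0 y1 : ℤ} {a b v w : TV} (ha : a ∈ S) (hv : v ∈ S') (hab : TscR tscG S a b)
    (hvw : TscR tscG S' v w) (hS : ∀ u ∈ S, y0 ≤ u.2 ∧ u.2 ≤ y1) (hS' : ∀ u ∈ S', y0 ≤ u.2 ∧ u.2 ≤ y1)
    (ha0 : a.2 = y0) (hb1 : b.2 = y1) (hv0 : v.2 = y0) (hw1 : w.2 = y1) (h1 : a.1 < v.1) (h2 : w.1 < b.1) : (S ∩ S').Nonempty := by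
  obtain ⟨p, p1, p2, p3, p4⟩ := plf_R_walk ha hab
  obtain ⟨q, q1, q2, q3, q4⟩ := plf_R_walk hv hvw
  obtain ⟨u, hu, hu'⟩ := plf_interlace p1 q1 p2 p3 q2 q3 (fun u hu => hS u (p4 u hu)) (fun u hu => hS' u (q4 u hu)) ha0 hb1 hv0 hw1 h1 h2
  exact ⟨u, p4 u hu, q4 u hu'⟩

/-- TEX[T23_CHAIN J1] a left-right path inside `P` and a bottom-top path outside `P` of a lattice parallelogram cannot coexist -/
theorem plf_box_excl {a b c d : ℤ} (P : Set TV)
    (h1 : ∃ l r, l ∈ tscBox a b c d ∩ P ∧ l.1 = a ∧ r.1 = b ∧ TscR tscG (tscBox a b c d ∩ P) l r)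
    (h2 : ∃ u v, u ∈ tscBox a b c d \ P ∧ u.2 = c ∧ v.2 = d ∧ TscR tscG (tscBox a b c d \ P) u v) : False := by
  obtain ⟨l, r, hl, hl1, hr1, hlr⟩ := h1
  obtain ⟨u, v, hu, hu2, hv2, huv⟩ := h2
  obtain ⟨z, hz, hz'⟩ := plf_R_cross_h hl hu hlr huv (fun z hz => by rw [hu2, hv2]; exact ⟨hz.1.2.2.1, hz.1.2.2.2⟩)
    (fun z hz hh => by have := hz.1.1; omega) (fun z hz hh => by have := hz.1.2.1; omega)
  exact hz'.2 hz.2

/-- TEX[T23_CHAIN J1 + J2] **exact duality in a lattice parallelogram** -/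
theorem plf_box_dual {a b c d : ℤ} (hab : a ≤ b) (hcd : c ≤ d) (P : Set TV) :
    (∃ l r, l ∈ tscBox a b c d ∩ P ∧ l.1 = a ∧ r.1 = b ∧ TscR tscG (tscBox a b c d ∩ P) l r) ↔
      ¬ ∃ u v, u ∈ tscBox a b c d \ P ∧ u.2 = c ∧ v.2 = d ∧ TscR tscG (tscBox a b c d \ P) u v :=
  ⟨fun h1 h2 => plf_box_excl P h1 h2, fun h2 => (tsc_hex_box hab hcd P).resolve_right h2⟩

/-- TEX[T23_CHAIN J4], set form with a centre: a path inside `S` from `Λ_n(z)` to a site at distance `≥ N` of `z` contains a widthwise crossing of one of the six trapezoids -/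
theorem plf_R_arm {S : Set TV} {z a b : TV} {n N : ℕ} (hnN : n ≤ N) (ha : a ∈ S) (hab : TscR tscG S a b) (h0 : latN (a - z) ≤ n)
    (h1 : N ≤ latN (b - z)) :
    ∃ k, k < 6 ∧ ∃ a' b', a' ∈ S ∧ plfH k (a' - z) = n ∧ plfH k (b' - z) = N ∧
      TscR tscG (S ∩ {u | (n : ℤ) ≤ plfH k (u - z) ∧ plfH k (u - z) ≤ N ∧ latN (u - z) ≤ N}) a' b' := by
  obtain ⟨p, p1, p2, p3, p4⟩ := plf_R_walk ha hab
  have hsh : ∀ u v : TV, triAdj u v → triAdj (plfSh (-z) u) (plfSh (-z) v) := plf_sh_adj (-z)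
  have e : ∀ u : TV, plfSh (-z) u = u - z := fun u => by simp [plfSh, sub_eq_add_neg]
  obtain ⟨k, hk, q, a', b', q1, q2, q3, q4, q5, q6⟩ := plf_arm (plf_map_chain hsh p1) (plf_map_head p2) (plf_map_last p3) hnN
    (by rw [e]; exact h0) (by rw [e]; exact h1)
  -- pull the infix back
  obtain ⟨s1, s2, hs⟩ := q1
  obtain ⟨l12, l3, h12, h3a, h3b⟩ := List.map_eq_append_iff.1 hs.symm
  obtain ⟨l1, l2, h1', h2a, h2b⟩ := List.map_eq_append_iff.1 h3a
  have hinf : l2 <:+: p := ⟨l1, l3, by rw [h12, h1']⟩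
  have hl2 : List.IsChain triAdj l2 := p1.infix hinf
  rw [← h2b] at q2 q3 q6
  rw [List.head?_map] at q2
  rw [List.getLast?_map] at q3
  obtain ⟨a0, ha0, rfl⟩ := Option.map_eq_some_iff.1 q2
  obtain ⟨b0, hb0, rfl⟩ := Option.map_eq_some_iff.1 q3
  rw [e] at q4 q5
  have := plf_walk_R (s := S ∩ {u | (n : ℤ) ≤ plfH k (u - z) ∧ plfH k (u - z) ≤ N ∧ latN (u - z) ≤ N}) hl2 ha0 hb0 fun u hu =>
    ⟨p4 u (hinf.subset hu), by
      have := q6 (plfSh (-z) u) (List.mem_map_of_mem hu)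
      rwa [e] at this⟩
  exact ⟨k, hk, a0, b0, this.1.1, q4, q5, this.2⟩

/-! ### cylinders on the cover: periodic colourings of a band -/

/-- `L`-periodic set of sites -/
def PlfPer (L : ℤ) (P : Set TV) : Prop := ∀ u : TV, u + (L, 0) ∈ P ↔ u ∈ P

/-- the band `c ≤ y ≤ d` -/
def plfBand (c d : ℤ) : Set TV := {u | c ≤ u.2 ∧ u.2 ≤ d}

theorem plf_per_nat {L : ℤ} {P : Set TV} (h : PlfPer L P) (j : ℕ) (u : TV) : u + ((j : ℤ) * L, 0) ∈ P ↔ u ∈ P := by
  induction j with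
  | zero =>
    have e : u + (((0 : ℕ) : ℤ) * L, 0) = u := by ext <;> simp
    rw [e]
  | succ j ih =>
    rw [← ih, ← h (u + ((j : ℤ) * L, 0))]
    have e : u + (((j + 1 : ℕ) : ℤ) * L, 0) = u + ((j : ℤ) * L, 0) + (L, 0) := by
      ext
      · simp only [Prod.fst_add]; push_cast; ring
      · simp
    rw [e]

theorem plf_per_int {L : ℤ} {P : Set TV} (h : PlfPer L P) (j : ℤ) (u : TV) : u + (j * L, 0) ∈ P ↔ u ∈ P := by
  rcases Int.eq_nat_or_neg j with ⟨m, rfl | rfl⟩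
  · exact plf_per_nat h m u
  · rw [← plf_per_nat h m (u + (-(m : ℤ) * L, 0))]
    have e : u + (-(m : ℤ) * L, 0) + ((m : ℤ) * L, 0) = u := by
      ext <;> simp
    rw [e]

/-- all the sites of a walk inside `s` are joined inside `s` -/
theorem plf_walk_conn {s : Set TV} : ∀ {p : List TV} {a : TV}, List.IsChain triAdj p → p.head? = some a → (∀ z ∈ p, z ∈ s) →
    ∀ z ∈ p, TscR tscG s a z
  | [], a, _, h, _ => by simp at h
  | [c], a, _, h, _ => by
      intro z hz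
      simp only [List.head?_cons, Option.some.injEq] at h
      rw [List.mem_singleton] at hz
      rw [hz, h]
      exact tsc_R_refl _
  | c :: d :: l, a, h0, h, hs => by
      intro z hz
      simp only [List.head?_cons, Option.some.injEq] at h
      subst h
      rw [List.isChain_cons_cons] at h0
      rcases List.mem_cons.1 hz with rfl | hz
      · exact tsc_R_refl _
      · exact tsc_R_trans (tsc_R_step h0.1 (hs c (by simp)) (hs d (by simp)))
          (plf_walk_conn h0.2 rfl (fun z hz => hs z (List.mem_cons_of_mem _ hz)) z hz)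

theorem plf_adj_fst {u v : TV} (h : triAdj u v) : v.1 ≤ u.1 + 1 := (tsc_adj_fst h).1

/-- TEX[T23_CHAIN J3, Jordan half] -/
theorem plf_cyl_excl {L : ℤ} (hL : 0 < L) {P : Set TV} (hP : PlfPer L P) {c d : ℤ}
    (h1 : ∃ u v, u ∈ plfBand c d ∩ P ∧ u.2 = c ∧ v.2 = d ∧ TscR tscG (plfBand c d ∩ P) u v)
    (h2 : ∃ (u : TV) (k : ℕ), 0 < k ∧ u ∈ plfBand c d \ P ∧ TscR tscG (plfBand c d \ P) u (u + ((k : ℤ) * L, 0))) : False := by
  obtain ⟨u, v, hu, hu2, hv2, huv⟩ := h1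
  obtain ⟨a, k, hk, ha, hab⟩ := h2
  obtain ⟨p, p1, p2, p3, p4⟩ := plf_R_walk ha hab
  obtain ⟨q, q1, q2, q3, q4⟩ := plf_R_walk hu huv
  have hkL : 0 < (k : ℤ) * L := mul_pos (by exact_mod_cast hk) hL
  obtain ⟨j, z, hz, hz'⟩ := plf_cyl hkL p1 q1 p2 p3 q2 q3 (fun z hz => by rw [hu2]; exact (p4 z hz).1.1)
    (fun z hz => by rw [hv2]; exact (p4 z hz).1.2)
  have h3 : z + (j * k * L, 0) ∈ P := by
    have := (q4 _ hz').2
    rwa [← mul_assoc] at this
  exact (p4 z hz).2 ((plf_per_int hP (j * k) z).1 h3)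

/-- TEX[T23_CHAIN J3, Hex half] -/
theorem plf_cyl_hex {L : ℤ} (hL : 0 < L) (P : Set TV) {c d : ℤ} (hcd : c ≤ d) :
    (∃ u v, u ∈ plfBand c d ∩ P ∧ u.2 = c ∧ v.2 = d ∧ TscR tscG (plfBand c d ∩ P) u v) ∨
    (∃ (u : TV) (k : ℕ), 0 < k ∧ u ∈ plfBand c d \ P ∧ TscR tscG (plfBand c d \ P) u (u + ((k : ℤ) * L, 0))) := by
  obtain ⟨m, hm⟩ : ∃ m : ℕ, (m : ℤ) = d - c + 1 := ⟨(d - c + 1).toNat, Int.toNat_of_nonneg (by omega)⟩
  have hmL : (0 : ℤ) ≤ m * L := by positivity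
  rcases tsc_hex_box hmL hcd Pᶜ with h | h
  · right
    obtain ⟨l, r, hl, hl1, hr1, hlr⟩ := h
    obtain ⟨p, p1, p2, p3, p4⟩ := plf_R_walk hl hlr
    have hcol : ∀ j : ℕ, j ≤ m → ∃ z ∈ p, z.1 = j * L := by
      intro j hj
      have hjm : (j : ℤ) * L ≤ m * L := mul_le_mul_of_nonneg_right (by exact_mod_cast hj) hL.le
      obtain ⟨q, a', b', q1, q2, q3, q4, q5, q6⟩ := plf_ivt (g := fun u : TV => u.1) (fun x y h => plf_adj_fst h)
        (le_refl ((j : ℤ) * L)) p1 p2 p3 (by show l.1 ≤ _; rw [hl1]; positivity) (by show _ ≤ r.1; rw [hr1]; exact hjm)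
      exact ⟨a', q1.subset (List.mem_of_head? q2), q4⟩
    choose! f hf1 hf2 using hcol
    have hmaps : ∀ j ∈ Finset.range (m + 1), (f j).2 ∈ Finset.Icc c d := by
      intro j hj
      have := (p4 _ (hf1 j (by rw [Finset.mem_range] at hj; omega))).1
      rw [Finset.mem_Icc]
      exact ⟨this.2.2.1, this.2.2.2⟩
    have hcard : (Finset.Icc c d).card < (Finset.range (m + 1)).card := by
      rw [Int.card_Icc, Finset.card_range]
      omega
    obtain ⟨i, hi, j, hj, hij, hfe⟩ := Finset.exists_ne_map_eq_of_card_lt_of_maps_to hcard hmaps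
    rw [Finset.mem_range] at hi hj
    have hsub : tscBox 0 (m * L) c d ∩ Pᶜ ⊆ plfBand c d \ P := fun z hz => ⟨⟨hz.1.2.2.1, hz.1.2.2.2⟩, hz.2⟩
    have main : ∀ i j : ℕ, i ≤ m → j ≤ m → i < j → (f i).2 = (f j).2 →
        ∃ (u : TV) (k : ℕ), 0 < k ∧ u ∈ plfBand c d \ P ∧ TscR tscG (plfBand c d \ P) u (u + ((k : ℤ) * L, 0)) := by
      intro i j hi hj hij hfe
      refine ⟨f i, j - i, by omega, hsub (p4 _ (hf1 i hi)), ?_⟩
      have e : f i + (((j - i : ℕ) : ℤ) * L, 0) = f j := by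
        ext
        · simp only [Prod.fst_add]
          rw [hf2 i hi, hf2 j hj, Nat.cast_sub hij.le]
          ring
        · simp [hfe]
      rw [e]
      have c1 := plf_walk_conn p1 p2 p4 _ (hf1 i hi)
      have c2 := plf_walk_conn p1 p2 p4 _ (hf1 j hj)
      exact tsc_R_mono hsub (tsc_R_trans (tsc_R_symm c1) c2)
    rcases lt_or_gt_of_ne hij with h | h
    · exact main i j (by omega) (by omega) h hfe
    · exact main j i (by omega) (by omega) h hfe.symm
  · left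
    obtain ⟨u, v, hu, hu2, hv2, huv⟩ := h
    have hsub : tscBox 0 (m * L) c d \ Pᶜ ⊆ plfBand c d ∩ P := fun z hz => ⟨⟨hz.1.2.2.1, hz.1.2.2.2⟩, not_not.1 hz.2⟩
    exact ⟨u, v, hsub hu, hu2, hv2, tsc_R_mono hsub huv⟩

/-- TEX[T23_CHAIN J3] **exact duality on a cylinder of circumference `L`, read on the cover** -/
theorem plf_cyl_dual {L : ℤ} (hL : 0 < L) {P : Set TV} (hP : PlfPer L P) {c d : ℤ} (hcd : c ≤ d) :
    (∃ u v, u ∈ plfBand c d ∩ P ∧ u.2 = c ∧ v.2 = d ∧ TscR tscG (plfBand c d ∩ P) u v) ↔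
    ¬ ∃ (u : TV) (k : ℕ), 0 < k ∧ u ∈ plfBand c d \ P ∧ TscR tscG (plfBand c d \ P) u (u + ((k : ℤ) * L, 0)) :=
  ⟨fun h1 h2 => plf_cyl_excl hL hP h1 h2, fun h2 => (plf_cyl_hex hL P hcd).resolve_right h2⟩

end Claimed.Agent.R291
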