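import Claimed.Agent.R291.Defs.Lat
import Claimed.Agent.R291.Pl.Wind
import Claimed.Agent.R291.Pl.Arm
import Claimed.Agent.R291.Tool.TriSCLat

/-!
# Row 291 (S0539), unit PLA, file Pl/Geo      (owner: helper191; prefix `plg`)

TEX[T23_CHAIN A7 POLY 2-4], TEX[thmD2_149 Sec. 7 steps 3-4]: THE deterministic lemma (GEO) behind "polynomial is enough".

* the group of CLASS PRESERVING lattice maps in normal form: `plgMap e μ t u = R^e M^μ u + t`, `R = latRot^[2]` (120 degrees), `M = plgM` (mirror in the vertical axis);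
  adjacency, injectivity, isometry for `latN`, action on the up cells (`plg_map_cell`);
* ZIGZAG (`plg_zig`): translated copies of a path `z → z'` and of its mirror image (read backwards) are chained: steps `v`, `v* = latRefl v`, `v + v*` horizontal;
* SIX BLOCKERS in set form (`plg_six`);
* GEO, general form (`plg_geo_gen`, `plg_geo_fam`): base region `B` in a horizontal band of height `N - n`, `2 N ≤ m ℓ`: the `12 m` copies `plgG .. e σ μ i` (`e < 3`, `i < m`) of a path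
  `z → z'` inside `X ∩ B` block every path off `X` from `Λ_n` to the sphere of radius `N`; position of the copies: `plg_G_far`, `plg_G_near`;
* EXIT `plg_geo` (form fixed by helper121, msg 48953; serves A6 and A7): base region = ball `Λ_{a s}`, any `z, z'` in it at distance `≥ s`; the direction is chosen by a rotation and path
  reversal; `J`, `κ` depend on `a` only; maps = `PlgMap` (`k : Fin 3`, `m : Bool`, `t : TV`), `g.app u = R^k M^m u + t`.
-/

set_option autoImplicit false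

namespace Claimed.Agent.R291

open Claims.C0467

/-! ### the class preserving maps -/

/-- mirror in the vertical axis (class preserving) -/
def plgM (u : TV) : TV := (-u.1 - u.2, u.2)

/-- linear part `R^e M^μ` -/
def plgA (e : ℕ) (μ : Bool) (u : TV) : TV := latRot^[2 * e] (cond μ (plgM u) u)

/-- class preserving map in normal form -/
def plgMap (e : ℕ) (μ : Bool) (t : TV) (u : TV) : TV := plgA e μ u + t

theorem plg_M_M (u : TV) : plgM (plgM u) = u := by
  simp [plgM]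

theorem plg_M_add (u v : TV) : plgM (u + v) = plgM u + plgM v := by
  refine Prod.ext ?_ rfl
  simp only [plgM, Prod.fst_add, Prod.snd_add]
  omega

theorem plg_M_sub (u v : TV) : plgM (u - v) = plgM u - plgM v := by
  refine Prod.ext ?_ rfl
  simp only [plgM, Prod.fst_sub, Prod.snd_sub]
  omega

theorem plg_M_N (u : TV) : latN (plgM u) = latN u := by
  obtain ⟨x, y⟩ := u
  unfold latN plgM
  simp only
  omega

theorem plg_M_adj (u v : TV) (h : triAdj u v) : triAdj (plgM u) (plgM v) := by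
  obtain ⟨u1, u2⟩ := u
  obtain ⟨v1, v2⟩ := v
  simp only [triAdj, plgM, Prod.mk_sub_mk, Prod.mk.injEq] at h ⊢
  omega

theorem plg_rot_iter_add (k : ℕ) (u v : TV) : latRot^[k] (u + v) = latRot^[k] u + latRot^[k] v := by
  induction k with
  | zero => rfl
  | succ k ih => rw [Function.iterate_succ_apply', Function.iterate_succ_apply', Function.iterate_succ_apply', ih, lat_rot_add]

theorem plg_rot3 (u : TV) : latRot^[3] u = -u := by
  obtain ⟨x, y⟩ := u
  simp [latRot]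

theorem plg_rot6 (u : TV) : latRot^[6] u = u := by
  obtain ⟨x, y⟩ := u
  simp [latRot]

theorem plg_rot9 (u : TV) : latRot^[9] u = -u := by
  have : latRot^[9] u = latRot^[3] (latRot^[6] u) := by rw [← Function.iterate_add_apply]
  rw [this, plg_rot6, plg_rot3]

theorem plg_A_add (e : ℕ) (μ : Bool) (u v : TV) : plgA e μ (u + v) = plgA e μ u + plgA e μ v := by
  unfold plgA
  cases μ
  · exact plg_rot_iter_add _ _ _
  · simp only [cond_true]
    rw [plg_M_add, plg_rot_iter_add]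

theorem plg_A_N (e : ℕ) (μ : Bool) (u : TV) : latN (plgA e μ u) = latN u := by
  unfold plgA
  rw [plf_N_rot_iter]
  cases μ
  · rfl
  · exact plg_M_N u

theorem plg_N_eq_zero {u : TV} (h : latN u = 0) : u = 0 := by
  obtain ⟨x, y⟩ := u
  unfold latN at h
  simp only at h
  have hx : x = 0 := by omega
  have hy : y = 0 := by omega
  rw [hx, hy]
  rfl

theorem plg_A_zero (e : ℕ) (μ : Bool) : plgA e μ 0 = 0 :=
  plg_N_eq_zero (by rw [plg_A_N]; rfl)

theorem plg_A_sub (e : ℕ) (μ : Bool) (u v : TV) : plgA e μ (u - v) = plgA e μ u - plgA e μ v := by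
  have := plg_A_add e μ (u - v) v
  rw [sub_add_cancel] at this
  rw [this, add_sub_cancel_right]

theorem plg_A_adj (e : ℕ) (μ : Bool) (u v : TV) (h : triAdj u v) : triAdj (plgA e μ u) (plgA e μ v) := by
  unfold plgA
  apply plf_rot_iter_adj
  cases μ
  · exact h
  · exact plg_M_adj u v h

theorem plg_map_adj (e : ℕ) (μ : Bool) (t : TV) (u v : TV) (h : triAdj u v) : triAdj (plgMap e μ t u) (plgMap e μ t v) :=
  (lat_adj_shift t).2 (plg_A_adj e μ u v h)

/-- the maps are isometries of the hexagonal norm -/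
theorem plg_map_dist (e : ℕ) (μ : Bool) (t : TV) (u v : TV) : latN (plgMap e μ t u - plgMap e μ t v) = latN (u - v) := by
  unfold plgMap
  rw [add_sub_add_right_eq_sub, ← plg_A_sub, plg_A_N]

theorem plg_map_inj (e : ℕ) (μ : Bool) (t : TV) {u v : TV} (h : plgMap e μ t u = plgMap e μ t v) : u = v := by
  have h1 := plg_map_dist e μ t u v
  rw [h, sub_self] at h1
  exact sub_eq_zero.1 (plg_N_eq_zero h1.symm)

theorem plg_A_period (e : ℕ) (μ : Bool) (u : TV) : plgA (e + 3) μ u = plgA e μ u := by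
  unfold plgA
  have : 2 * (e + 3) = 2 * e + 6 := by ring
  rw [this, Function.iterate_add_apply, plg_rot6]

theorem plg_A_mod (e : ℕ) (μ : Bool) (u : TV) : plgA e μ u = plgA (e % 3) μ u := by
  induction e using Nat.strong_induction_on with
  | _ e ih =>
    by_cases h : e < 3
    · rw [Nat.mod_eq_of_lt h]
    · obtain ⟨f, rfl⟩ : ∃ f, e = f + 3 := ⟨e - 3, by omega⟩
      rw [plg_A_period, ih f (by omega)]
      congr 1
      omega

/-- the maps are surjective: explicit inverse of the linear part -/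
theorem plg_A_surj (e : ℕ) (μ : Bool) (w : TV) : ∃ u, plgA e μ u = w := by
  rw [show (∃ u, plgA e μ u = w) ↔ ∃ u, plgA (e % 3) μ u = w from by simp only [← plg_A_mod]]
  have he : e % 3 < 3 := Nat.mod_lt _ (by norm_num)
  obtain ⟨x, y⟩ := w
  generalize e % 3 = f at he
  interval_cases f <;> cases μ
  · exact ⟨(x, y), rfl⟩
  · exact ⟨(-x - y, y), by simp [plgA, plgM]⟩
  · exact ⟨(y, -x - y), by simp [plgA, latRot]⟩
  · exact ⟨(x, -x - y), by simp [plgA, plgM, latRot]⟩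
  · exact ⟨(-x - y, x), by simp [plgA, latRot]⟩
  · exact ⟨(y, x), by simp [plgA, plgM, latRot]⟩

theorem plg_map_surj (e : ℕ) (μ : Bool) (t : TV) (w : TV) : ∃ u, plgMap e μ t u = w := by
  obtain ⟨u, hu⟩ := plg_A_surj e μ (w - t)
  exact ⟨u, by unfold plgMap; rw [hu, sub_add_cancel]⟩

/-- offset of the image of the up cell at the origin -/
def plgC (e : ℕ) (μ : Bool) : TV :=
  match e % 3, μ with
  | 0, false => (0, 0)
  | 1, false => (-1, 0)
  | 2, false => (0, -1)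
  | 0, true => (-1, 0)
  | 1, true => (0, -1)
  | _, _ => (0, 0)

/-- **class preserving**: the site map `plgMap e μ t` sends the up cell `y` onto the up cell `plgMap e μ (t + plgC e μ) y` -/
theorem plg_map_cell (e : ℕ) (μ : Bool) (t y : TV) : (cellV y).image (plgMap e μ t) = cellV (plgMap e μ (t + plgC e μ) y) := by
  have hA : ∀ u, plgMap e μ t u = plgA (e % 3) μ u + t := fun u => by unfold plgMap; rw [← plg_A_mod]
  have hA' : plgMap e μ (t + plgC e μ) y = plgA (e % 3) μ y + (t + plgC e μ) := by unfold plgMap; rw [← plg_A_mod]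
  have he : e % 3 < 3 := Nat.mod_lt _ (by norm_num)
  obtain ⟨y1, y2⟩ := y
  obtain ⟨t1, t2⟩ := t
  unfold cellV
  rw [Finset.image_insert, Finset.image_insert, Finset.image_singleton, hA, hA, hA, hA']
  unfold plgC
  generalize e % 3 = f at he
  ext ⟨p1, p2⟩
  interval_cases f <;> cases μ <;>
    simp only [plgA, plgM, latRot, Function.iterate_succ, Function.iterate_zero, Function.comp, id, cond_true, cond_false, Nat.reduceMul,
      Finset.mem_insert, Finset.mem_singleton, Prod.mk_add_mk, Prod.mk.injEq] <;> omega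

/-! ### small tools on paths inside sets -/

theorem plg_R_left {s : Set TV} {a b : TV} (h : TscR tscG s a b) (hab : a ≠ b) : a ∈ s := by
  rcases Relation.ReflTransGen.cases_head h with h | ⟨c, hc, -⟩
  · exact absurd h hab
  · exact hc.2.1

theorem plg_N_add (u v : TV) : latN (u + v) ≤ latN u + latN v := by
  obtain ⟨u1, u2⟩ := u
  obtain ⟨v1, v2⟩ := v
  have a1 : u1.natAbs ≤ latN (u1, u2) := le_max_of_le_left (le_max_left _ _)
  have a2 : u2.natAbs ≤ latN (u1, u2) := le_max_of_le_left (le_max_right _ _)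
  have a3 : (u1 + u2).natAbs ≤ latN (u1, u2) := le_max_right _ _
  have b1 : v1.natAbs ≤ latN (v1, v2) := le_max_of_le_left (le_max_left _ _)
  have b2 : v2.natAbs ≤ latN (v1, v2) := le_max_of_le_left (le_max_right _ _)
  have b3 : (v1 + v2).natAbs ≤ latN (v1, v2) := le_max_right _ _
  have c1 := Int.natAbs_add_le u1 v1
  have c2 := Int.natAbs_add_le u2 v2
  have c3 := Int.natAbs_add_le (u1 + u2) (v1 + v2)
  have e3 : u1 + v1 + (u2 + v2) = u1 + u2 + (v1 + v2) := by ring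
  refine max_le (max_le ?_ ?_) ?_
  · exact c1.trans (add_le_add a1 b1)
  · exact c2.trans (add_le_add a2 b2)
  · show (u1 + v1 + (u2 + v2)).natAbs ≤ _
    rw [e3]
    exact c3.trans (add_le_add a3 b3)

/-! ### six blockers, set form -/

/-- TEX[T23_CHAIN A7 POLY 4] **six blockers**: if `X` contains, for each of the six directions, a path crossing lengthwise the (rotated) band `n ≤ ℓ_k ≤ N`, no path off `X` joins `Λ_n`
to the sphere of radius `N` -/
theorem plg_six {n N : ℕ} (hnN : n ≤ N) {X : Set TV}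
    (hX : ∀ k, k < 6 → ∃ a b, a ∈ X ∧ (n : ℤ) ≤ plfH k a ∧ plfH k a ≤ N ∧ TscR tscG (X ∩ {u | (n : ℤ) ≤ plfH k u ∧ plfH k u ≤ N}) a b ∧
      (latRot^[k] a).1 ≤ -(N : ℤ) ∧ (N : ℤ) ≤ (latRot^[k] b).1 + (latRot^[k] b).2)
    {a b : TV} (ha : a ∉ X) (hab : TscR tscG Xᶜ a b) (h0 : latN a ≤ n) : latN b < N := by
  by_contra h1
  have h1 : N ≤ latN b := not_lt.1 h1
  have hw : ∀ k, ∃ c : List TV, k < 6 → List.IsChain triAdj c ∧ (∃ a b, c.head? = some a ∧ c.getLast? = some b ∧ (latRot^[k] a).1 ≤ -(N : ℤ)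
      ∧ (N : ℤ) ≤ (latRot^[k] b).1 + (latRot^[k] b).2) ∧ ∀ u ∈ c, u ∈ X ∧ (n : ℤ) ≤ plfH k u ∧ plfH k u ≤ N := by
    intro k
    by_cases hk : k < 6
    · obtain ⟨a, b, a1, a2, a3, a4, a5, a6⟩ := hX k hk
      obtain ⟨p, p1, p2, p3, p4⟩ := plf_R_walk (s := X ∩ {u | (n : ℤ) ≤ plfH k u ∧ plfH k u ≤ N}) ⟨a1, a2, a3⟩ a4
      exact ⟨p, fun _ => ⟨p1, ⟨a, b, p2, p3, a5, a6⟩, fun u hu => ⟨(p4 u hu).1, (p4 u hu).2⟩⟩⟩
    · exact ⟨[], fun h => absurd h hk⟩
  choose c hc using hw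
  obtain ⟨p, p1, p2, p3, p4⟩ := plf_R_walk (s := Xᶜ) ha hab
  obtain ⟨k, hk, u, hu, hu'⟩ := plf_six hnN c (fun k hk => (hc k hk).1) (fun k hk => (hc k hk).2.1) (fun k hk u hu => ((hc k hk).2.2 u hu).2)
    p1 p2 p3 h0 h1
  exact p4 u hu' ((hc k hk).2.2 u hu).1

/-! ### the zigzag -/

/-- length of the double step `v + v*` -/
def plgL (z z' : TV) : ℤ := 2 * (z'.1 - z.1) + (z'.2 - z.2)

/-- translation part of the copy number `i` (`μ = false`: the path, `μ = true`: its mirror image) of the zigzag issued from `z` -/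
def plgT (z z' : TV) (μ : Bool) (i : ℕ) : TV := cond μ (z' - plgM z') 0 + ((i : ℤ) * plgL z z', 0)

/-- the copy number `i` -/
def plgZ (z z' : TV) (μ : Bool) (i : ℕ) (u : TV) : TV := cond μ (plgM u) u + plgT z z' μ i

theorem plg_Z_f0 (z z' : TV) (i : ℕ) : plgZ z z' false i z = z + ((i : ℤ) * plgL z z', 0) := by
  simp [plgZ, plgT]

theorem plg_Z_f1 (z z' : TV) (i : ℕ) : plgZ z z' false i z' = z' + ((i : ℤ) * plgL z z', 0) := by
  simp [plgZ, plgT]

theorem plg_Z_t1 (z z' : TV) (i : ℕ) : plgZ z z' true i z' = z' + ((i : ℤ) * plgL z z', 0) := by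
  simp only [plgZ, plgT, cond_true]
  abel

theorem plg_Z_t0 (z z' : TV) (i : ℕ) : plgZ z z' true i z = z + (((i + 1 : ℕ) : ℤ) * plgL z z', 0) := by
  obtain ⟨z1, z2⟩ := z
  obtain ⟨w1, w2⟩ := z'
  simp only [plgZ, plgT, plgM, plgL, cond_true, Prod.mk_add_mk, Prod.mk_sub_mk, Prod.mk.injEq]
  push_cast
  constructor <;> ring

theorem plg_Z_snd (z z' : TV) (μ : Bool) (i : ℕ) (u : TV) : (plgZ z z' μ i u).2 = u.2 := by
  cases μ <;> simp [plgZ, plgT, plgM]

/-- TEX[T23_CHAIN A7 POLY 3] **zigzag**, transported by an adjacency preserving map `T`: the `2 m` copies are chained -/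
theorem plg_zig (T : TV → TV) {z z' : TV} {S : Set TV} (m : ℕ)
    (h : ∀ μ i, i < m → TscR tscG S (T (plgZ z z' μ i z)) (T (plgZ z z' μ i z'))) :
    TscR tscG S (T z) (T (z + ((m : ℤ) * plgL z z', 0))) := by
  induction m with
  | zero =>
    have : z + (((0 : ℕ) : ℤ) * plgL z z', 0) = z := by simp
    rw [this]
    exact tsc_R_refl _
  | succ m ih =>
    have h1 := ih fun μ i hi => h μ i (by omega)
    have h2 := h false m (by omega)
    have h3 := h true m (by omega)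
    rw [plg_Z_f0, plg_Z_f1] at h2
    rw [plg_Z_t0, plg_Z_t1] at h3
    exact tsc_R_trans h1 (tsc_R_trans h2 (tsc_R_symm h3))

/-! ### GEO, general form -/

/-- translation part (before the rotation) of the copy `(σ, μ, i)`: `σ = false`: blocker above the origin, `σ = true`: below -/
def plgS (z z' : TV) (y0 : ℤ) (n N : ℕ) (σ μ : Bool) (i : ℕ) : TV :=
  plgT z z' μ i + (-(N : ℤ) - z.1, cond σ (-(N : ℤ)) (n : ℤ) - y0)

/-- **the family of class preserving maps of (GEO)**: `e < 3` (rotation by `120 e` degrees), `σ` (above / below), `μ` (mirror), `i < m` -/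
def plgG (z z' : TV) (y0 : ℤ) (n N : ℕ) (e : ℕ) (σ μ : Bool) (i : ℕ) : TV → TV :=
  plgMap e μ (latRot^[2 * e] (plgS z z' y0 n N σ μ i))

theorem plg_G_eq (z z' : TV) (y0 : ℤ) (n N : ℕ) (e : ℕ) (σ μ : Bool) (i : ℕ) (u : TV) :
    plgG z z' y0 n N e σ μ i u = latRot^[2 * e] (plgZ z z' μ i u + (-(N : ℤ) - z.1, cond σ (-(N : ℤ)) (n : ℤ) - y0)) := by
  unfold plgG plgMap plgA plgS plgZ
  rw [← plg_rot_iter_add, add_assoc]

/-- one blocker: the chained copies, before the choice of the direction -/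
theorem plg_geo_aux {z z' : TV} {y0 : ℤ} {n N m : ℕ} {B : Set TV} (hB : ∀ u ∈ B, y0 ≤ u.2 ∧ u.2 ≤ y0 + ((N : ℤ) - n)) {X : Set TV} (e : ℕ) (σ : Bool)
    (hX : ∀ μ i, i < m → TscR tscG (X ∩ plgG z z' y0 n N e σ μ i '' B) (plgG z z' y0 n N e σ μ i z) (plgG z z' y0 n N e σ μ i z')) :
    TscR tscG (X ∩ {u | ∃ w : TV, u = latRot^[2 * e] w ∧ cond σ (-(N : ℤ)) (n : ℤ) ≤ w.2 ∧ w.2 ≤ cond σ (-(N : ℤ)) (n : ℤ) + ((N : ℤ) - n)})
      (latRot^[2 * e] (-(N : ℤ), z.2 - y0 + cond σ (-(N : ℤ)) (n : ℤ)))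
      (latRot^[2 * e] (-(N : ℤ) + (m : ℤ) * plgL z z', z.2 - y0 + cond σ (-(N : ℤ)) (n : ℤ))) := by
  have key := plg_zig (fun u => latRot^[2 * e] (u + (-(N : ℤ) - z.1, cond σ (-(N : ℤ)) (n : ℤ) - y0))) (z := z) (z' := z')
    (S := X ∩ {u | ∃ w : TV, u = latRot^[2 * e] w ∧ cond σ (-(N : ℤ)) (n : ℤ) ≤ w.2 ∧ w.2 ≤ cond σ (-(N : ℤ)) (n : ℤ) + ((N : ℤ) - n)}) m
    (fun μ i hi => by
      have h := hX μ i hi
      rw [plg_G_eq, plg_G_eq] at h
      refine tsc_R_mono ?_ h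
      rintro u ⟨hu, b, hb, rfl⟩
      refine ⟨hu, _, plg_G_eq _ _ _ _ _ _ _ _ _ _, ?_⟩
      have := hB b hb
      simp only [Prod.snd_add, plg_Z_snd]
      constructor <;> omega)
  have e1 : z + (-(N : ℤ) - z.1, cond σ (-(N : ℤ)) (n : ℤ) - y0) = (-(N : ℤ), z.2 - y0 + cond σ (-(N : ℤ)) (n : ℤ)) := by
    obtain ⟨z1, z2⟩ := z
    simp only [Prod.mk_add_mk, Prod.mk.injEq]
    constructor <;> ring
  have e2 : z + ((m : ℤ) * plgL z z', 0) + (-(N : ℤ) - z.1, cond σ (-(N : ℤ)) (n : ℤ) - y0)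
      = (-(N : ℤ) + (m : ℤ) * plgL z z', z.2 - y0 + cond σ (-(N : ℤ)) (n : ℤ)) := by
    obtain ⟨z1, z2⟩ := z
    simp only [Prod.mk_add_mk, Prod.mk.injEq]
    constructor <;> ring
  simp only [e1, e2] at key
  exact key

/-- TEX[T23_CHAIN A7 POLY 3-4], TEX[thmD2_149 Sec. 7] **(GEO), general form.**  `B` = base region, contained in the horizontal band `y0 ≤ y ≤ y0 + (N - n)`; `z ∈ B`, `z'` arbitrary,
`ℓ = plgL z z'` the length of the double step, `2 N ≤ m ℓ`.  If `X` contains, for each of the `12 m` class preserving maps `g = plgG .. e σ μ i`, a path from `g z` to `g z'` inside `g B`,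
then no path off `X` joins `Λ_n` to the sphere of radius `N`. -/
theorem plg_geo_gen {z z' : TV} {y0 : ℤ} {n N m : ℕ} {B : Set TV} (hnN : n ≤ N) (hN : 1 ≤ N)
    (hB : ∀ u ∈ B, y0 ≤ u.2 ∧ u.2 ≤ y0 + ((N : ℤ) - n)) (hz : z ∈ B) (hm : 2 * (N : ℤ) ≤ m * plgL z z') {X : Set TV}
    (hX : ∀ e, e < 3 → ∀ σ μ i, i < m →
      TscR tscG (X ∩ plgG z z' y0 n N e σ μ i '' B) (plgG z z' y0 n N e σ μ i z) (plgG z z' y0 n N e σ μ i z'))
    {a b : TV} (ha : a ∉ X) (hab : TscR tscG Xᶜ a b) (h0 : latN a ≤ n) : latN b < N := by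
  have hzB := hB z hz
  have hnN' : (n : ℤ) ≤ N := by exact_mod_cast hnN
  have hN' : (1 : ℤ) ≤ N := by exact_mod_cast hN
  -- blockers above
  have up : ∀ k e, e < 3 → (∀ w : TV, latRot^[k] (latRot^[2 * e] w) = w) →
      ∃ a b, a ∈ X ∧ (n : ℤ) ≤ plfH k a ∧ plfH k a ≤ N ∧ TscR tscG (X ∩ {u | (n : ℤ) ≤ plfH k u ∧ plfH k u ≤ N}) a b ∧
      (latRot^[k] a).1 ≤ -(N : ℤ) ∧ (N : ℤ) ≤ (latRot^[k] b).1 + (latRot^[k] b).2 := by
    intro k e he hk
    have h := plg_geo_aux hB e false (hX e he false)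
    simp only [cond_false] at h
    have hne : latRot^[2 * e] (-(N : ℤ), z.2 - y0 + (n : ℤ)) ≠ latRot^[2 * e] (-(N : ℤ) + (m : ℤ) * plgL z z', z.2 - y0 + (n : ℤ)) := by
      intro hh
      have := plf_rot_iter_inj _ _ _ hh
      simp only [Prod.mk.injEq] at this
      omega
    have hl := plg_R_left h hne
    refine ⟨_, _, hl.1, ?_, ?_, tsc_R_mono ?_ h, ?_, ?_⟩
    · unfold plfH; rw [hk]; simp only; omega
    · unfold plfH; rw [hk]; simp only; omega
    · rintro u ⟨hu, w, rfl, hw1, hw2⟩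
      refine ⟨hu, ?_⟩
      show (n : ℤ) ≤ plfH k _ ∧ plfH k _ ≤ N
      unfold plfH
      rw [hk]
      constructor <;> omega
    · rw [hk]
    · rw [hk]; simp only; omega
  -- blockers below
  have dn : ∀ k e, e < 3 → (∀ w : TV, latRot^[k] (latRot^[2 * e] w) = -w) →
      ∃ a b, a ∈ X ∧ (n : ℤ) ≤ plfH k a ∧ plfH k a ≤ N ∧ TscR tscG (X ∩ {u | (n : ℤ) ≤ plfH k u ∧ plfH k u ≤ N}) a b ∧
      (latRot^[k] a).1 ≤ -(N : ℤ) ∧ (N : ℤ) ≤ (latRot^[k] b).1 + (latRot^[k] b).2 := by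
    intro k e he hk
    have h := tsc_R_symm (plg_geo_aux hB e true (hX e he true))
    simp only [cond_true] at h
    have hne : latRot^[2 * e] (-(N : ℤ) + (m : ℤ) * plgL z z', z.2 - y0 + -(N : ℤ)) ≠ latRot^[2 * e] (-(N : ℤ), z.2 - y0 + -(N : ℤ)) := by
      intro hh
      have := plf_rot_iter_inj _ _ _ hh
      simp only [Prod.mk.injEq] at this
      omega
    have hl := plg_R_left h hne
    refine ⟨_, _, hl.1, ?_, ?_, tsc_R_mono ?_ h, ?_, ?_⟩
    · unfold plfH; rw [hk]; simp only [Prod.snd_neg]; omega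
    · unfold plfH; rw [hk]; simp only [Prod.snd_neg]; omega
    · rintro u ⟨hu, w, rfl, hw1, hw2⟩
      refine ⟨hu, ?_⟩
      show (n : ℤ) ≤ plfH k _ ∧ plfH k _ ≤ N
      unfold plfH
      rw [hk]
      simp only [Prod.snd_neg]
      constructor <;> omega
    · rw [hk]; simp only [Prod.fst_neg]; omega
    · rw [hk]; simp only [Prod.fst_neg, Prod.snd_neg]; omega
  refine plg_six hnN (fun k hk => ?_) ha hab h0
  interval_cases k
  · exact up 0 0 (by norm_num) fun w => rfl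
  · exact dn 1 1 (by norm_num) fun w => by rw [← Function.iterate_add_apply]; exact plg_rot3 w
  · exact up 2 2 (by norm_num) fun w => by rw [← Function.iterate_add_apply]; exact plg_rot6 w
  · exact dn 3 0 (by norm_num) fun w => plg_rot3 w
  · exact up 4 1 (by norm_num) fun w => by rw [← Function.iterate_add_apply]; exact plg_rot6 w
  · exact dn 5 2 (by norm_num) fun w => by rw [← Function.iterate_add_apply]; exact plg_rot9 w

/-! ### position of the copies -/

theorem plg_snd_le_N (w : TV) : w.2.natAbs ≤ latN w := le_max_of_le_left (le_max_right _ _)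

/-- the copies stay outside `Λ_{n-1}` -/
theorem plg_G_far {z z' : TV} {y0 : ℤ} {n N : ℕ} {B : Set TV} (hnN : n ≤ N) (hB : ∀ u ∈ B, y0 ≤ u.2 ∧ u.2 ≤ y0 + ((N : ℤ) - n))
    (e : ℕ) (σ μ : Bool) (i : ℕ) {u : TV} (hu : u ∈ B) : n ≤ latN (plgG z z' y0 n N e σ μ i u) := by
  rw [plg_G_eq, plf_N_rot_iter]
  refine le_trans ?_ (plg_snd_le_N _)
  have := hB u hu
  have hnN' : (n : ℤ) ≤ N := by exact_mod_cast hnN
  simp only [Prod.snd_add, plg_Z_snd]
  cases σ
  · simp only [cond_false]; omega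
  · simp only [cond_true]; omega

theorem plg_N_le_of {x y K : ℤ} (h1 : |x| ≤ K) (h2 : |y| ≤ K) (h3 : |x + y| ≤ K) : (latN (x, y) : ℤ) ≤ K := by
  unfold latN
  simp only
  rw [abs_le] at h1 h2 h3
  omega

/-- the copies stay at distance `≤ m ℓ` of the origin, up to the size of the base region -/
theorem plg_G_near {z z' : TV} {y0 : ℤ} {n N m : ℕ} (hnN : n ≤ N) (hz : y0 ≤ z.2 ∧ z.2 ≤ y0 + ((N : ℤ) - n))
    (hm : 2 * (N : ℤ) ≤ m * plgL z z') (hl : 0 ≤ plgL z z') (e : ℕ) (σ μ : Bool) {i : ℕ} (hi : i < m) (u : TV) :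
    (latN (plgG z z' y0 n N e σ μ i u) : ℤ) ≤ latN (u - z) + m * plgL z z' := by
  have h1 : latN (plgG z z' y0 n N e σ μ i u - plgG z z' y0 n N e σ μ i z) = latN (u - z) := plg_map_dist _ _ _ _ _
  have h2 := plg_N_add (plgG z z' y0 n N e σ μ i u - plgG z z' y0 n N e σ μ i z) (plgG z z' y0 n N e σ μ i z)
  rw [sub_add_cancel, h1] at h2
  have h3 : (latN (plgG z z' y0 n N e σ μ i z) : ℤ) ≤ m * plgL z z' := by
    rw [plg_G_eq, plf_N_rot_iter]
    have hnN' : (n : ℤ) ≤ N := by exact_mod_cast hnN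
    have hn0 : (0 : ℤ) ≤ n := Int.natCast_nonneg n
    have i1 : (i : ℤ) * plgL z z' ≤ m * plgL z z' := mul_le_mul_of_nonneg_right (by exact_mod_cast hi.le) hl
    have i2 : ((i + 1 : ℕ) : ℤ) * plgL z z' ≤ m * plgL z z' := mul_le_mul_of_nonneg_right (by exact_mod_cast hi) hl
    have i3 : 0 ≤ (i : ℤ) * plgL z z' := mul_nonneg (Int.natCast_nonneg i) hl
    have i4 : 0 ≤ ((i + 1 : ℕ) : ℤ) * plgL z z' := mul_nonneg (Int.natCast_nonneg _) hl
    obtain ⟨z1, z2⟩ := z
    simp only at hz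
    cases μ
    · rw [plg_Z_f0]
      simp only [Prod.mk_add_mk]
      generalize (i : ℤ) * plgL (z1, z2) z' = q at *
      generalize (m : ℤ) * plgL (z1, z2) z' = Q at *
      cases σ
      · simp only [cond_false]
        apply plg_N_le_of <;> rw [abs_le] <;> constructor <;> omega
      · simp only [cond_true]
        apply plg_N_le_of <;> rw [abs_le] <;> constructor <;> omega
    · rw [plg_Z_t0]
      simp only [Prod.mk_add_mk]
      generalize ((i + 1 : ℕ) : ℤ) * plgL (z1, z2) z' = q at *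
      generalize (m : ℤ) * plgL (z1, z2) z' = Q at *
      cases σ
      · simp only [cond_false]
        apply plg_N_le_of <;> rw [abs_le] <;> constructor <;> omega
      · simp only [cond_true]
        apply plg_N_le_of <;> rw [abs_le] <;> constructor <;> omega
  have h2' : (latN (plgG z z' y0 n N e σ μ i u) : ℤ) ≤ latN (u - z) + latN (plgG z z' y0 n N e σ μ i z) := by exact_mod_cast h2
  omega

/-! ### the family as a finite set of codes -/

/-- the map coded by `(e, μ, t)` -/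
def plgAp (g : ℕ × Bool × TV) : TV → TV := plgMap g.1 g.2.1 g.2.2

/-- the codes of the `12 m` maps of (GEO) -/
def plgFam (z z' : TV) (y0 : ℤ) (n N m : ℕ) : Finset (ℕ × Bool × TV) :=
  ((Finset.range 3 ×ˢ (Finset.univ : Finset Bool)) ×ˢ ((Finset.univ : Finset Bool) ×ˢ Finset.range m)).image
    (fun q => (q.1.1, q.2.1, latRot^[2 * q.1.1] (plgS z z' y0 n N q.1.2 q.2.1 q.2.2)))

theorem plg_fam_card (z z' : TV) (y0 : ℤ) (n N m : ℕ) : (plgFam z z' y0 n N m).card ≤ 12 * m := by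
  refine Finset.card_image_le.trans ?_
  simp only [Finset.card_product, Finset.card_range, Finset.card_univ, Fintype.card_bool]
  omega

theorem plg_fam_mem (z z' : TV) (y0 : ℤ) (n N m : ℕ) {e : ℕ} (he : e < 3) (σ μ : Bool) {i : ℕ} (hi : i < m) :
    (e, μ, latRot^[2 * e] (plgS z z' y0 n N σ μ i)) ∈ plgFam z z' y0 n N m :=
  Finset.mem_image.2 ⟨((e, σ), (μ, i)), by simp [he, hi], rfl⟩

theorem plg_fam_ex {z z' : TV} {y0 : ℤ} {n N m : ℕ} {g : ℕ × Bool × TV} (hg : g ∈ plgFam z z' y0 n N m) :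
    ∃ e σ μ i, e < 3 ∧ i < m ∧ plgAp g = plgG z z' y0 n N e σ μ i := by
  obtain ⟨⟨⟨e, σ⟩, ⟨μ, i⟩⟩, hq, rfl⟩ := Finset.mem_image.1 hg
  simp only [Finset.mem_product, Finset.mem_range, Finset.mem_univ, true_and, and_true] at hq
  exact ⟨e, σ, μ, i, hq.1, hq.2, rfl⟩

/-- (GEO), general form, on the finite family of codes -/
theorem plg_geo_fam {z z' : TV} {y0 : ℤ} {n N m : ℕ} {B : Set TV} (hnN : n ≤ N) (hN : 1 ≤ N)
    (hB : ∀ u ∈ B, y0 ≤ u.2 ∧ u.2 ≤ y0 + ((N : ℤ) - n)) (hz : z ∈ B) (hm : 2 * (N : ℤ) ≤ m * plgL z z') {X : Set TV}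
    (hX : ∀ g ∈ plgFam z z' y0 n N m, TscR tscG (X ∩ plgAp g '' B) (plgAp g z) (plgAp g z'))
    {a b : TV} (ha : a ∉ X) (hab : TscR tscG Xᶜ a b) (h0 : latN a ≤ n) : latN b < N :=
  plg_geo_gen hnN hN hB hz hm (fun e he σ μ i hi => hX _ (plg_fam_mem z z' y0 n N m he σ μ hi)) ha hab h0

/-! ### the exit -/

/-- a class preserving lattice map: `app g u = R^k (M^m u) + t` -/
structure PlgMap where
  /-- number of rotations by 120 degrees -/
  k : Fin 3
  /-- mirror in the vertical axis first -/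
  m : Bool
  /-- translation -/
  t : TV

/-- the action on sites -/
def PlgMap.app (g : PlgMap) (u : TV) : TV := plgMap g.k.1 g.m g.t u

theorem plg_rot2 (u : TV) : latRot^[2] u = (-u.1 - u.2, u.1) := by
  obtain ⟨x, y⟩ := u
  simp only [latRot, Function.iterate_succ, Function.iterate_zero, Function.comp, id, Prod.mk.injEq]
  constructor <;> ring

theorem plg_app_adj (g : PlgMap) (u v : TV) (h : triAdj u v) : triAdj (g.app u) (g.app v) := plg_map_adj _ _ _ u v h

theorem plg_app_dist (g : PlgMap) (u v : TV) : latN (g.app u - g.app v) = latN (u - v) := plg_map_dist _ _ _ u v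

theorem plg_app_inj (g : PlgMap) {u v : TV} (h : g.app u = g.app v) : u = v := plg_map_inj _ _ _ h

theorem plg_app_surj (g : PlgMap) (w : TV) : ∃ u, g.app u = w := plg_map_surj _ _ _ w

/-- the induced map on the (indices of the) up cells is again in the group -/
def PlgMap.cell (g : PlgMap) : PlgMap := ⟨g.k, g.m, g.t + plgC g.k.1 g.m⟩

theorem plg_app_cell (g : PlgMap) (y : TV) : (cellV y).image g.app = cellV (g.cell.app y) := plg_map_cell _ _ _ y

theorem plg_M_rot2 (u : TV) : plgM (latRot^[2] u) = latRot^[4] (plgM u) := by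
  obtain ⟨x, y⟩ := u
  simp only [plgM, latRot, Function.iterate_succ, Function.iterate_zero, Function.comp, id, Prod.mk.injEq]
  constructor <;> ring

theorem plg_M_rot (e0 : ℕ) (u : TV) : plgM (latRot^[2 * e0] u) = latRot^[2 * (2 * e0)] (plgM u) := by
  induction e0 generalizing u with
  | zero => rfl
  | succ e0 ih =>
    have h1 : 2 * (e0 + 1) = 2 * e0 + 2 := by ring
    have h2 : 2 * (2 * (e0 + 1)) = 2 * (2 * e0) + 4 := by ring
    rw [h2, h1, Function.iterate_add_apply, Function.iterate_add_apply, ih, plg_M_rot2]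

/-- composition with a rotation on the right -/
theorem plg_map_comp (e : ℕ) (μ : Bool) (t : TV) (e0 : ℕ) (u : TV) :
    plgMap e μ t (latRot^[2 * e0] u) = plgMap (e + cond μ (2 * e0) e0) μ t u := by
  unfold plgMap plgA
  cases μ
  · simp only [cond_false]
    rw [← Function.iterate_add_apply, mul_add]
  · simp only [cond_true]
    rw [plg_M_rot, ← Function.iterate_add_apply, mul_add]

/-- the choice of the direction: after a rotation by a multiple of 120 degrees and possibly a reversal, the double step is at least as long as the step -/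
theorem plg_dir (v : TV) : ∃ e0, e0 < 3 ∧ ((latN v : ℤ) ≤ 2 * (latRot^[2 * e0] v).1 + (latRot^[2 * e0] v).2 ∨
    (latN v : ℤ) ≤ -(2 * (latRot^[2 * e0] v).1 + (latRot^[2 * e0] v).2)) := by
  obtain ⟨p, d⟩ := v
  have e1 : latRot^[2 * 1] (p, d) = (-p - d, p) := plg_rot2 _
  have e2 : latRot^[2 * 2] (p, d) = (d, -p - d) := by
    simp only [latRot, Function.iterate_succ, Function.iterate_zero, Function.comp, id, Prod.mk.injEq, Nat.reduceMul]
    constructor <;> ring
  have e0 : latRot^[2 * 0] (p, d) = (p, d) := rfl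
  have h : (latN (p, d) : ℤ) ≤ 2 * p + d ∨ (latN (p, d) : ℤ) ≤ -(2 * p + d) ∨ (latN (p, d) : ℤ) ≤ 2 * (-p - d) + p ∨
      (latN (p, d) : ℤ) ≤ -(2 * (-p - d) + p) ∨ (latN (p, d) : ℤ) ≤ 2 * d + (-p - d) ∨ (latN (p, d) : ℤ) ≤ -(2 * d + (-p - d)) := by
    unfold latN
    simp only
    omega
  rcases h with h | h | h | h | h | h
  · exact ⟨0, by norm_num, Or.inl (by rw [e0]; exact h)⟩
  · exact ⟨0, by norm_num, Or.inr (by rw [e0]; exact h)⟩
  · exact ⟨1, by norm_num, Or.inl (by rw [e1]; exact h)⟩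
  · exact ⟨1, by norm_num, Or.inr (by rw [e1]; exact h)⟩
  · exact ⟨2, by norm_num, Or.inl (by rw [e2]; exact h)⟩
  · exact ⟨2, by norm_num, Or.inr (by rw [e2]; exact h)⟩

theorem plg_L_le (z z' : TV) : plgL z z' ≤ 2 * (latN (z' - z) : ℤ) := by
  obtain ⟨z1, z2⟩ := z
  obtain ⟨w1, w2⟩ := z'
  unfold plgL latN
  simp only [Prod.mk_sub_mk]
  omega

theorem plg_rot_iter_sub (k : ℕ) (u v : TV) : latRot^[k] (u - v) = latRot^[k] u - latRot^[k] v := by
  have := plg_rot_iter_add k (u - v) v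
  rw [sub_add_cancel] at this
  rw [this, add_sub_cancel_right]

/-- from a code and a preliminary rotation to a `PlgMap` -/
def plgConv (e0 : ℕ) (g : ℕ × Bool × TV) : PlgMap :=
  ⟨⟨(g.1 + cond g.2.1 (2 * e0) e0) % 3, Nat.mod_lt _ (by norm_num)⟩, g.2.1, g.2.2⟩

theorem plg_conv_app (e0 : ℕ) (g : ℕ × Bool × TV) (u : TV) : (plgConv e0 g).app u = plgAp g (latRot^[2 * e0] u) := by
  unfold plgAp
  rw [plg_map_comp]
  unfold PlgMap.app plgConv plgMap
  simp only
  rw [← plg_A_mod]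

/-- core of the exit: the direction has been chosen -/
theorem plg_geo_core (a s e0 : ℕ) (hs : 1 ≤ s) (p q : TV) (hp : latN p ≤ a * s) (hq : latN q ≤ a * s)
    (hl : (s : ℤ) ≤ plgL (latRot^[2 * e0] p) (latRot^[2 * e0] q)) :
    ∃ G : List PlgMap, G.length ≤ 12 * (4 * a + 4) ∧ (∀ g ∈ G, latN (g.app 0) ≤ (a + (4 * a + 4) * (4 * a)) * s) ∧
      (∀ g ∈ G, ∀ u, latN u ≤ a * s → s < latN (g.app u)) ∧
      ∀ X : Set TV, (∀ g ∈ G, TscR tscG (X ∩ {x | ∃ u, latN u ≤ a * s ∧ g.app u = x}) (g.app p) (g.app q)) →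
        ∀ u w, latN u ≤ s → TscR tscG Xᶜ u w → latN w ≤ (2 * a + 1) * s := by
  set zh : TV := latRot^[2 * e0] p with hzh
  set zh' : TV := latRot^[2 * e0] q with hzh'
  have hs' : (1 : ℤ) ≤ s := by exact_mod_cast hs
  have hzN : latN zh ≤ a * s := by rw [hzh, plf_N_rot_iter]; exact hp
  have hzN' : latN zh' ≤ a * s := by rw [hzh', plf_N_rot_iter]; exact hq
  have hl0 : 0 ≤ plgL zh zh' := by omega
  -- upper bound of the double step
  have hlu : plgL zh zh' ≤ 4 * ((a * s : ℕ) : ℤ) := by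
    have h1 := plg_L_le zh zh'
    have h2 := plg_N_add zh' (-zh)
    have h3 : latN (-zh) = latN zh := by
      obtain ⟨x, y⟩ := zh
      unfold latN
      simp only [Prod.neg_mk]
      omega
    rw [h3, ← sub_eq_add_neg] at h2
    have h4 : (latN (zh' - zh) : ℤ) ≤ 2 * ((a * s : ℕ) : ℤ) := by
      have : latN (zh' - zh) ≤ 2 * (a * s) := by omega
      exact_mod_cast this
    omega
  have hB : ∀ u ∈ {u : TV | latN u ≤ a * s}, -((a * s : ℕ) : ℤ) ≤ u.2 ∧
      u.2 ≤ -((a * s : ℕ) : ℤ) + (((s + 1 + 2 * (a * s) : ℕ) : ℤ) - ((s + 1 : ℕ) : ℤ)) := by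
    intro u hu
    have h1 := plg_snd_le_N u
    have hu' : latN u ≤ a * s := hu
    push_cast
    constructor <;> omega
  have hm : 2 * ((s + 1 + 2 * (a * s) : ℕ) : ℤ) ≤ ((4 * a + 4 : ℕ) : ℤ) * plgL zh zh' := by
    have h1 : ((4 * a + 4 : ℕ) : ℤ) * (s : ℤ) ≤ ((4 * a + 4 : ℕ) : ℤ) * plgL zh zh' := mul_le_mul_of_nonneg_left hl (Int.natCast_nonneg _)
    have h2 : ((4 * a + 4 : ℕ) : ℤ) * (s : ℤ) = 4 * ((a * s : ℕ) : ℤ) + 4 * s := by push_cast; ring
    push_cast at h2 ⊢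
    push_cast at h1
    omega
  have hmu : ((4 * a + 4 : ℕ) : ℤ) * plgL zh zh' ≤ (((4 * a + 4) * (4 * a) * s : ℕ) : ℤ) := by
    have h1 : ((4 * a + 4 : ℕ) : ℤ) * plgL zh zh' ≤ ((4 * a + 4 : ℕ) : ℤ) * (4 * ((a * s : ℕ) : ℤ)) :=
      mul_le_mul_of_nonneg_left hlu (Int.natCast_nonneg _)
    refine h1.trans (le_of_eq ?_)
    push_cast
    ring
  have hnN : s + 1 ≤ s + 1 + 2 * (a * s) := by omega
  refine ⟨(plgFam zh zh' (-((a * s : ℕ) : ℤ)) (s + 1) (s + 1 + 2 * (a * s)) (4 * a + 4)).toList.map (plgConv e0), ?_, ?_, ?_, ?_⟩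
  · rw [List.length_map, Finset.length_toList]
    exact plg_fam_card _ _ _ _ _ _
  · intro g hg
    obtain ⟨c, hc, rfl⟩ := List.mem_map.1 hg
    obtain ⟨e, σ, μ, i, he, hi, hci⟩ := plg_fam_ex (Finset.mem_toList.1 hc)
    rw [plg_conv_app, hci]
    have h0 : latRot^[2 * e0] (0 : TV) = 0 := plg_N_eq_zero (by rw [plf_N_rot_iter]; rfl)
    rw [h0]
    have h1 := plg_G_near hnN (hB zh hzN) hm hl0 e σ μ hi 0
    have h3 : latN (0 - zh) = latN zh := by
      obtain ⟨x, y⟩ := zh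
      unfold latN
      simp only [zero_sub, Prod.neg_mk]
      omega
    rw [h3] at h1
    have h4 : (latN (plgG zh zh' (-((a * s : ℕ) : ℤ)) (s + 1) (s + 1 + 2 * (a * s)) e σ μ i 0) : ℤ)
        ≤ ((a * s + (4 * a + 4) * (4 * a) * s : ℕ) : ℤ) := by
      have : (latN zh : ℤ) ≤ ((a * s : ℕ) : ℤ) := by exact_mod_cast hzN
      push_cast at hmu h1 this ⊢
      linarith
    have h5 : latN (plgG zh zh' (-((a * s : ℕ) : ℤ)) (s + 1) (s + 1 + 2 * (a * s)) e σ μ i 0) ≤ a * s + (4 * a + 4) * (4 * a) * s := by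
      exact_mod_cast h4
    rw [add_mul]
    exact h5
  · intro g hg u hu
    obtain ⟨c, hc, rfl⟩ := List.mem_map.1 hg
    obtain ⟨e, σ, μ, i, he, hi, hci⟩ := plg_fam_ex (Finset.mem_toList.1 hc)
    rw [plg_conv_app, hci]
    have := plg_G_far (z := zh) (z' := zh') hnN hB e σ μ i (u := latRot^[2 * e0] u) (by show latN _ ≤ a * s; rw [plf_N_rot_iter]; exact hu)
    omega
  · intro X hX u w hu huw
    by_cases huw' : u = w
    · subst huw'
      have : s ≤ (2 * a + 1) * s := Nat.le_mul_of_pos_left s (by omega)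
      omega
    have huX : u ∉ X := plg_R_left huw huw'
    have key := plg_geo_fam (z := zh) (z' := zh') hnN (by omega) hB hzN hm (X := X) (fun c hc => by
      have h := hX (plgConv e0 c) (List.mem_map.2 ⟨c, Finset.mem_toList.2 hc, rfl⟩)
      rw [plg_conv_app, plg_conv_app] at h
      refine tsc_R_mono ?_ h
      rintro x ⟨hx, y, hy, rfl⟩
      refine ⟨hx, latRot^[2 * e0] y, ?_, (plg_conv_app e0 c y).symm⟩
      show latN _ ≤ a * s
      rw [plf_N_rot_iter]
      exact hy) huX huw (by omega)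
    have : (2 * a + 1) * s = s + 2 * (a * s) := by ring
    omega

/-- TEX[T23_CHAIN A7 POLY 2-4], TEX[thmD2_149 Sec. 7 steps 3-4] **(GEO), strong form**: besides the exit `plg_geo`: the copies of the ball avoid `Λ_s`, and the paths off `X` issued from
`Λ_s` stay in `Λ_{(2a+1)s}` -/
theorem plg_geo_strong (a s : ℕ) (hs : 1 ≤ s) (z z' : TV) (hz : latN z ≤ a * s) (hz' : latN z' ≤ a * s) (hv : s ≤ latN (z' - z)) :
    ∃ G : List PlgMap, G.length ≤ 12 * (4 * a + 4) ∧ (∀ g ∈ G, latN (g.app 0) ≤ (a + (4 * a + 4) * (4 * a)) * s) ∧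
      (∀ g ∈ G, ∀ u, latN u ≤ a * s → s < latN (g.app u)) ∧
      ∀ X : Set TV, (∀ g ∈ G, TscR tscG (X ∩ {x | ∃ u, latN u ≤ a * s ∧ g.app u = x}) (g.app z) (g.app z')) →
        ∀ u w, latN u ≤ s → TscR tscG Xᶜ u w → latN w ≤ (2 * a + 1) * s := by
  obtain ⟨e0, -, h | h⟩ := plg_dir (z' - z)
  · refine plg_geo_core a s e0 hs z z' hz hz' ?_
    rw [plg_rot_iter_sub] at h
    unfold plgL
    simp only [Prod.fst_sub, Prod.snd_sub] at h
    have : (s : ℤ) ≤ latN (z' - z) := by exact_mod_cast hv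
    omega
  · obtain ⟨G, g1, g2, g3, g4⟩ := plg_geo_core a s e0 hs z' z hz' hz (by
      rw [plg_rot_iter_sub] at h
      unfold plgL
      simp only [Prod.fst_sub, Prod.snd_sub] at h
      have : (s : ℤ) ≤ latN (z' - z) := by exact_mod_cast hv
      omega)
    exact ⟨G, g1, g2, g3, fun X hX => g4 X fun g hg => tsc_R_symm (hX g hg)⟩

/-- TEX[T23_CHAIN A7 POLY 2-4], TEX[thmD2_149 Sec. 7 steps 3-4] **(GEO), THE EXIT** (form of helper121, msg 48953).  `J`, `κ` depend on `a` only; the list `G` depends on `(s, z, z')`, not on `X`. -/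
theorem plg_geo (a : ℕ) : ∃ J kap : ℕ, ∀ s : ℕ, 1 ≤ s → ∀ z z' : TV, latN z ≤ a * s → latN z' ≤ a * s → s ≤ latN (z' - z) →
    ∃ G : List PlgMap, G.length ≤ J ∧ (∀ g ∈ G, latN (g.app 0) ≤ kap * s) ∧
      ∀ X : Set TV, (∀ g ∈ G, TscR tscG (X ∩ {p | ∃ u, latN u ≤ a * s ∧ g.app u = p}) (g.app z) (g.app z')) →
        ∀ u w, latN u ≤ s → (kap + a) * s < latN w → ¬ TscR tscG Xᶜ u w := by
  refine ⟨12 * (4 * a + 4), a + (4 * a + 4) * (4 * a) + 1, fun s hs z z' hz hz' hv => ?_⟩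
  obtain ⟨G, g1, g2, -, g4⟩ := plg_geo_strong a s hs z z' hz hz' hv
  refine ⟨G, g1, fun g hg => (g2 g hg).trans (Nat.mul_le_mul_right s (by omega)), fun X hX u w hu hw huw => ?_⟩
  have h1 := g4 X hX u w hu huw
  have h2 : (2 * a + 1) * s ≤ (a + (4 * a + 4) * (4 * a) + 1 + a) * s := Nat.mul_le_mul_right s (by nlinarith)
  omega

/-! ### two scales: arms issued from the larger ball `Λ_{lam s}` (ruling of helper24, 06:28Z, (E3)) -/

/-- core of the two-scale exit: the direction has been chosen -/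
theorem plg_geo_core2 (a lam s e0 : ℕ) (hs : 1 ≤ s) (p q : TV) (hp : latN p ≤ a * s) (hq : latN q ≤ a * s)
    (hl : (s : ℤ) ≤ plgL (latRot^[2 * e0] p) (latRot^[2 * e0] q)) :
    ∃ G : List PlgMap, G.length ≤ 12 * (2 * lam + 4 * a + 2) ∧ (∀ g ∈ G, latN (g.app 0) ≤ (a + (2 * lam + 4 * a + 2) * (4 * a)) * s) ∧
      (∀ g ∈ G, ∀ u, latN u ≤ a * s → lam * s < latN (g.app u)) ∧
      ∀ X : Set TV, (∀ g ∈ G, TscR tscG (X ∩ {x | ∃ u, latN u ≤ a * s ∧ g.app u = x}) (g.app p) (g.app q)) →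
        ∀ u w, latN u ≤ lam * s → TscR tscG Xᶜ u w → latN w ≤ (2 * a + lam) * s := by
  set zh : TV := latRot^[2 * e0] p with hzh
  set zh' : TV := latRot^[2 * e0] q with hzh'
  have hs' : (1 : ℤ) ≤ s := by exact_mod_cast hs
  have hzN : latN zh ≤ a * s := by rw [hzh, plf_N_rot_iter]; exact hp
  have hzN' : latN zh' ≤ a * s := by rw [hzh', plf_N_rot_iter]; exact hq
  have hl0 : 0 ≤ plgL zh zh' := by omega
  -- upper bound of the double step
  have hlu : plgL zh zh' ≤ 4 * ((a * s : ℕ) : ℤ) := by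
    have h1 := plg_L_le zh zh'
    have h2 := plg_N_add zh' (-zh)
    have h3 : latN (-zh) = latN zh := by
      obtain ⟨x, y⟩ := zh
      unfold latN
      simp only [Prod.neg_mk]
      omega
    rw [h3, ← sub_eq_add_neg] at h2
    have h4 : (latN (zh' - zh) : ℤ) ≤ 2 * ((a * s : ℕ) : ℤ) := by
      have : latN (zh' - zh) ≤ 2 * (a * s) := by omega
      exact_mod_cast this
    omega
  have hB : ∀ u ∈ {u : TV | latN u ≤ a * s}, -((a * s : ℕ) : ℤ) ≤ u.2 ∧
      u.2 ≤ -((a * s : ℕ) : ℤ) + (((lam * s + 1 + 2 * (a * s) : ℕ) : ℤ) - ((lam * s + 1 : ℕ) : ℤ)) := by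
    intro u hu
    have h1 := plg_snd_le_N u
    have hu' : latN u ≤ a * s := hu
    push_cast
    constructor <;> omega
  have hm : 2 * ((lam * s + 1 + 2 * (a * s) : ℕ) : ℤ) ≤ ((2 * lam + 4 * a + 2 : ℕ) : ℤ) * plgL zh zh' := by
    have h1 : ((2 * lam + 4 * a + 2 : ℕ) : ℤ) * (s : ℤ) ≤ ((2 * lam + 4 * a + 2 : ℕ) : ℤ) * plgL zh zh' := mul_le_mul_of_nonneg_left hl (Int.natCast_nonneg _)
    have h2 : ((2 * lam + 4 * a + 2 : ℕ) : ℤ) * (s : ℤ) = 4 * ((a * s : ℕ) : ℤ) + 2 * ((lam * s : ℕ) : ℤ) + 2 * s := by push_cast; ring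
    push_cast at h2 ⊢
    push_cast at h1
    omega
  have hmu : ((2 * lam + 4 * a + 2 : ℕ) : ℤ) * plgL zh zh' ≤ (((2 * lam + 4 * a + 2) * (4 * a) * s : ℕ) : ℤ) := by
    have h1 : ((2 * lam + 4 * a + 2 : ℕ) : ℤ) * plgL zh zh' ≤ ((2 * lam + 4 * a + 2 : ℕ) : ℤ) * (4 * ((a * s : ℕ) : ℤ)) :=
      mul_le_mul_of_nonneg_left hlu (Int.natCast_nonneg _)
    refine h1.trans (le_of_eq ?_)
    push_cast
    ring
  have hnN : lam * s + 1 ≤ lam * s + 1 + 2 * (a * s) := by omega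
  refine ⟨(plgFam zh zh' (-((a * s : ℕ) : ℤ)) (lam * s + 1) (lam * s + 1 + 2 * (a * s)) (2 * lam + 4 * a + 2)).toList.map (plgConv e0), ?_, ?_, ?_, ?_⟩
  · rw [List.length_map, Finset.length_toList]
    exact plg_fam_card _ _ _ _ _ _
  · intro g hg
    obtain ⟨c, hc, rfl⟩ := List.mem_map.1 hg
    obtain ⟨e, σ, μ, i, he, hi, hci⟩ := plg_fam_ex (Finset.mem_toList.1 hc)
    rw [plg_conv_app, hci]
    have h0 : latRot^[2 * e0] (0 : TV) = 0 := plg_N_eq_zero (by rw [plf_N_rot_iter]; rfl)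
    rw [h0]
    have h1 := plg_G_near hnN (hB zh hzN) hm hl0 e σ μ hi 0
    have h3 : latN (0 - zh) = latN zh := by
      obtain ⟨x, y⟩ := zh
      unfold latN
      simp only [zero_sub, Prod.neg_mk]
      omega
    rw [h3] at h1
    have h4 : (latN (plgG zh zh' (-((a * s : ℕ) : ℤ)) (lam * s + 1) (lam * s + 1 + 2 * (a * s)) e σ μ i 0) : ℤ)
        ≤ ((a * s + (2 * lam + 4 * a + 2) * (4 * a) * s : ℕ) : ℤ) := by
      have : (latN zh : ℤ) ≤ ((a * s : ℕ) : ℤ) := by exact_mod_cast hzN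
      push_cast at hmu h1 this ⊢
      linarith
    have h5 : latN (plgG zh zh' (-((a * s : ℕ) : ℤ)) (lam * s + 1) (lam * s + 1 + 2 * (a * s)) e σ μ i 0) ≤ a * s + (2 * lam + 4 * a + 2) * (4 * a) * s := by
      exact_mod_cast h4
    rw [add_mul]
    exact h5
  · intro g hg u hu
    obtain ⟨c, hc, rfl⟩ := List.mem_map.1 hg
    obtain ⟨e, σ, μ, i, he, hi, hci⟩ := plg_fam_ex (Finset.mem_toList.1 hc)
    rw [plg_conv_app, hci]
    have := plg_G_far (z := zh) (z' := zh') hnN hB e σ μ i (u := latRot^[2 * e0] u) (by show latN _ ≤ a * s; rw [plf_N_rot_iter]; exact hu)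
    omega
  · intro X hX u w hu huw
    by_cases huw' : u = w
    · subst huw'
      have : lam * s ≤ (2 * a + lam) * s := Nat.mul_le_mul_right s (by omega)
      omega
    have huX : u ∉ X := plg_R_left huw huw'
    have key := plg_geo_fam (z := zh) (z' := zh') hnN (by omega) hB hzN hm (X := X) (fun c hc => by
      have h := hX (plgConv e0 c) (List.mem_map.2 ⟨c, Finset.mem_toList.2 hc, rfl⟩)
      rw [plg_conv_app, plg_conv_app] at h
      refine tsc_R_mono ?_ h
      rintro x ⟨hx, y, hy, rfl⟩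
      refine ⟨hx, latRot^[2 * e0] y, ?_, (plg_conv_app e0 c y).symm⟩
      show latN _ ≤ a * s
      rw [plf_N_rot_iter]
      exact hy) huX huw (by omega)
    have : (2 * a + lam) * s = lam * s + 2 * (a * s) := by ring
    omega

/-- TEX[T23_CHAIN A7 POLY 2-4], TEX[thmD2_149 Sec. 7 steps 3-4] **(GEO), two scales, strong form**: the copies of the ball avoid `Λ_{lam s}`, and the paths off `X` issued from
`Λ_{lam s}` stay in `Λ_{(2a+lam)s}` -/
theorem plg_geo_strong2 (a lam s : ℕ) (hs : 1 ≤ s) (z z' : TV) (hz : latN z ≤ a * s) (hz' : latN z' ≤ a * s) (hv : s ≤ latN (z' - z)) :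
    ∃ G : List PlgMap, G.length ≤ 12 * (2 * lam + 4 * a + 2) ∧ (∀ g ∈ G, latN (g.app 0) ≤ (a + (2 * lam + 4 * a + 2) * (4 * a)) * s) ∧
      (∀ g ∈ G, ∀ u, latN u ≤ a * s → lam * s < latN (g.app u)) ∧
      ∀ X : Set TV, (∀ g ∈ G, TscR tscG (X ∩ {x | ∃ u, latN u ≤ a * s ∧ g.app u = x}) (g.app z) (g.app z')) →
        ∀ u w, latN u ≤ lam * s → TscR tscG Xᶜ u w → latN w ≤ (2 * a + lam) * s := by
  obtain ⟨e0, -, h | h⟩ := plg_dir (z' - z)
  · refine plg_geo_core2 a lam s e0 hs z z' hz hz' ?_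
    rw [plg_rot_iter_sub] at h
    unfold plgL
    simp only [Prod.fst_sub, Prod.snd_sub] at h
    have : (s : ℤ) ≤ latN (z' - z) := by exact_mod_cast hv
    omega
  · obtain ⟨G, g1, g2, g3, g4⟩ := plg_geo_core2 a lam s e0 hs z' z hz' hz (by
      rw [plg_rot_iter_sub] at h
      unfold plgL
      simp only [Prod.fst_sub, Prod.snd_sub] at h
      have : (s : ℤ) ≤ latN (z' - z) := by exact_mod_cast hv
      omega)
    exact ⟨G, g1, g2, g3, fun X hX => g4 X fun g hg => tsc_R_symm (hX g hg)⟩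

/-- TEX[T23_CHAIN A7 POLY 2-4], TEX[thmD2_149 Sec. 7 steps 3-4] **(GEO), TWO SCALES, THE EXIT**: connections at the scale `s` block the arms issued from `Λ_{lam s}`.  `J`, `κ` depend on `(a, lam)` only; no sausage is needed: the zigzags are simply longer. -/
theorem plg_geo2 (a lam : ℕ) : ∃ J kap : ℕ, ∀ s : ℕ, 1 ≤ s → ∀ z z' : TV, latN z ≤ a * s → latN z' ≤ a * s → s ≤ latN (z' - z) →
    ∃ G : List PlgMap, G.length ≤ J ∧ (∀ g ∈ G, latN (g.app 0) ≤ kap * s) ∧
      ∀ X : Set TV, (∀ g ∈ G, TscR tscG (X ∩ {p | ∃ u, latN u ≤ a * s ∧ g.app u = p}) (g.app z) (g.app z')) →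
        ∀ u w, latN u ≤ lam * s → (kap + a) * s < latN w → ¬ TscR tscG Xᶜ u w := by
  refine ⟨12 * (2 * lam + 4 * a + 2), a + (2 * lam + 4 * a + 2) * (4 * a) + lam, fun s hs z z' hz hz' hv => ?_⟩
  obtain ⟨G, g1, g2, -, g4⟩ := plg_geo_strong2 a lam s hs z z' hz hz' hv
  refine ⟨G, g1, fun g hg => (g2 g hg).trans (Nat.mul_le_mul_right s (by omega)), fun X hX u w hu hw huw => ?_⟩
  have h1 := g4 X hX u w hu huw
  have h2 : (2 * a + lam) * s ≤ (a + (2 * lam + 4 * a + 2) * (4 * a) + lam + a) * s := Nat.mul_le_mul_right s (by nlinarith)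
  omega

/-- **(GEO) with inner radius `R s`** (form of helper121, msg 53942): `plg_geo2` together with `R ≤ κ` -/
theorem plg_geo_rad (a R : ℕ) : ∃ J kap : ℕ, R ≤ kap ∧ ∀ s : ℕ, 1 ≤ s → ∀ z z' : TV, latN z ≤ a * s → latN z' ≤ a * s → s ≤ latN (z' - z) →
    ∃ G : List PlgMap, G.length ≤ J ∧ (∀ g ∈ G, latN (g.app 0) ≤ kap * s) ∧
      ∀ X : Set TV, (∀ g ∈ G, TscR tscG (X ∩ {p | ∃ u, latN u ≤ a * s ∧ g.app u = p}) (g.app z) (g.app z')) →
        ∀ u w, latN u ≤ R * s → (kap + a) * s < latN w → ¬ TscR tscG Xᶜ u w := by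
  refine ⟨12 * (2 * R + 4 * a + 2), a + (2 * R + 4 * a + 2) * (4 * a) + R, by omega, fun s hs z z' hz hz' hv => ?_⟩
  obtain ⟨G, g1, g2, -, g4⟩ := plg_geo_strong2 a R s hs z z' hz hz' hv
  refine ⟨G, g1, fun g hg => (g2 g hg).trans (Nat.mul_le_mul_right s (by omega)), fun X hX u w hu hw huw => ?_⟩
  have h1 := g4 X hX u w hu huw
  have h2 : (2 * a + R) * s ≤ (a + (2 * R + 4 * a + 2) * (4 * a) + R + a) * s := Nat.mul_le_mul_right s (by nlinarith)
  omega

end Claimed.Agent.R291
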