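/-
# Row 291 (S0539), unit PLA, file Pl/Region  --  owner helper269 (head of PLA)      prefix `plr_`      no sorry

HEX EXISTENCE IN IRREGULAR OR GLUED DOMAINS WITHOUT BOUNDARY WORDS  (J8 of `origin/helper121:notes/R291/T23_CHAIN.md`; design `origin/helper269:notes/R291/pla_269.md` Sec. 3).
Abstract: any simple graph `G`, ambient `s` with `TriSCOn (ZMod 2) G s` (helper147's kit `Tool/TriSC`).

* `plr_extract`   a path inside `A ∪ P ∪ B` from `A` to `B` contains a path inside `P \ (A ∪ B)` from a neighbour of `A` to a neighbour of `B`  ("last visit / first visit")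
* `plr_hex4`      4-REGION FORM of Hex: the four "arcs" of the paper are replaced by the four exterior regions `E1 .. E4` behind them (= the pinned regions);
                  for every colouring `P` of the domain `X = s \ (E1 ∪ E2 ∪ E3 ∪ E4)`: a `P`-path `E1 .. E3` or a non-`P`-path `E2 .. E4`, inside `X`
* `plr_sc_image`  transport of TriSC along a map injective on the piece
* `plrGl G K`     two copies of `G` glued along `K` (carrier `V × Bool`, sheets `plrE1`, `plrE2 K`);   `plr_gl_sc`  the glued ambient `plrE1 '' s₁ ∪ plrE2 K '' s₂` is TriSC if `K` is connected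
* `plrCone G a`, `plr_cone_sc`   four cone vertices over four connected sets which intersect cyclically: still TriSC
* `plr_hex_arcs`  GENERAL HEX (H1 of helper55): four connected sets `a 0 .. a 3 ⊆ s` intersecting cyclically: a path inside `s ∩ P` from `a 0` to `a 2` or a path inside `s \\ P` from `a 1` to `a 3`
* `plr_gl_proj`   the projection is a graph morphism;   `plrSw K ρ`  the exchange of the sheets induced by a symmetry `ρ` preserving `K`: `plr_sw_E1`, `plr_sw_E2`, `plr_sw_adj`, `plr_sw_sw`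
-/
import Claimed.Agent.R291.Tool.TriSC

set_option autoImplicit false
set_option linter.unusedSectionVars false
set_option linter.unusedVariables false

namespace Claimed.Agent.R291

open Relation

section abstract
variable {V : Type*} {G : SimpleGraph V}

/-- **extraction**: a path inside `A ∪ P ∪ B` from `A` to `B` (`A`, `B` disjoint and not adjacent) contains a path inside `P \ (A ∪ B)` from a neighbour of `A` to a neighbour of `B` -/
theorem plr_extract {A B P : Set V} (hAB : ∀ a ∈ A, ∀ b ∈ B, a ≠ b ∧ ¬ G.Adj a b) {t b : V} (ht : t ∈ A) (hb : b ∈ B)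
    (h : TscR G (A ∪ P ∪ B) t b) :
    ∃ u w, u ∈ P \ (A ∪ B) ∧ (∃ e ∈ A, G.Adj e u) ∧ (∃ e ∈ B, G.Adj w e) ∧ TscR G (P \ (A ∪ B)) u w := by
  have claim : ∀ v, TscR G (A ∪ P ∪ B) t v →
      (∃ u w, u ∈ P \ (A ∪ B) ∧ (∃ e ∈ A, G.Adj e u) ∧ (∃ e ∈ B, G.Adj w e) ∧ TscR G (P \ (A ∪ B)) u w) ∨ v ∈ A ∨
        (v ∈ P \ (A ∪ B) ∧ ∃ u, u ∈ P \ (A ∪ B) ∧ (∃ e ∈ A, G.Adj e u) ∧ TscR G (P \ (A ∪ B)) u v) := by
    intro v hv
    induction hv with
    | refl => exact Or.inr (Or.inl ht)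
    | @tail v v' _ hstep ih =>
      obtain ⟨hadj, _, hv'⟩ := hstep
      by_cases hA : v' ∈ A
      · rcases ih with h | _ | _
        · exact Or.inl h
        · exact Or.inr (Or.inl hA)
        · exact Or.inr (Or.inl hA)
      by_cases hB : v' ∈ B
      · rcases ih with h | h | ⟨h1, u, hu, he, hR⟩
        · exact Or.inl h
        · exact ((hAB v h v' hB).2 hadj).elim
        · exact Or.inl ⟨u, v, hu, he, ⟨v', hB, hadj⟩, hR⟩
      have hP : v' ∈ P \ (A ∪ B) := by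
        refine ⟨?_, fun h => h.elim hA hB⟩
        rcases hv' with (h | h) | h
        · exact (hA h).elim
        · exact h
        · exact (hB h).elim
      rcases ih with h | h | ⟨h1, u, hu, he, hR⟩
      · exact Or.inl h
      · exact Or.inr (Or.inr ⟨hP, v', hP, ⟨v, h, hadj⟩, ReflTransGen.refl⟩)
      · exact Or.inr (Or.inr ⟨hP, u, hu, he, hR.tail ⟨hadj, h1, hP⟩⟩)
  rcases claim b h with h | h | h
  · exact h
  · exact ((hAB b h b hb).1 rfl).elim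
  · exact (h.1.2 (Or.inr hb)).elim

/-- **HEX EXISTENCE, 4-REGION FORM.**  `s` a TriSC ambient, `E1 .. E4` four "exterior regions" (the pinned regions behind the four arcs), `X = s \ (E1 ∪ E2 ∪ E3 ∪ E4)` the domain.
`E1` is joined to `E3` through `E2` and through `E4`; opposite regions are disjoint and not adjacent.  Then, for every colouring `P`:
a path inside `X ∩ P` from a neighbour of `E1` to a neighbour of `E3`, or a path inside `X \ P` from a neighbour of `E2` to a neighbour of `E4`. -/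
theorem plr_hex4 {s E1 E2 E3 E4 : Set V} (hs : TriSCOn (ZMod 2) G s) (h1 : E1 ⊆ s) (h2 : E2 ⊆ s) (h3 : E3 ⊆ s) (h4 : E4 ⊆ s)
    (h13 : ∀ a ∈ E1, ∀ b ∈ E3, a ≠ b ∧ ¬ G.Adj a b) (h24 : ∀ a ∈ E2, ∀ b ∈ E4, a ≠ b ∧ ¬ G.Adj a b)
    {t b : V} (ht : t ∈ E1) (hb : b ∈ E3) (hp2 : TscR G (E1 ∪ E2 ∪ E3) t b) (hp4 : TscR G (E1 ∪ E4 ∪ E3) t b) (P : Set V) :
    (∃ u w, u ∈ (s \ (E1 ∪ E2 ∪ E3 ∪ E4)) ∩ P ∧ (∃ e ∈ E1, G.Adj e u) ∧ (∃ e ∈ E3, G.Adj w e) ∧
        TscR G ((s \ (E1 ∪ E2 ∪ E3 ∪ E4)) ∩ P) u w) ∨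
    (∃ u w, u ∈ (s \ (E1 ∪ E2 ∪ E3 ∪ E4)) \ P ∧ (∃ e ∈ E2, G.Adj e u) ∧ (∃ e ∈ E4, G.Adj w e) ∧
        TscR G ((s \ (E1 ∪ E2 ∪ E3 ∪ E4)) \ P) u w) := by
  set X := s \ (E1 ∪ E2 ∪ E3 ∪ E4) with hX
  by_cases hj : TscR G (E1 ∪ (X ∩ P) ∪ E3) t b
  · left
    obtain ⟨u, w, hu, he1, he3, hR⟩ := plr_extract h13 ht hb hj
    exact ⟨u, w, hu.1, he1, he3, tsc_R_mono (fun z hz => hz.1) hR⟩
  · right
    have hPs : E1 ∪ (X ∩ P) ∪ E3 ⊆ s := by
      rintro z ((hz | hz) | hz)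
      · exact h1 hz
      · exact hz.1.1
      · exact h3 hz
    obtain ⟨M, hM, hMc, hMm⟩ := tsc_hex hs hPs (Or.inl (Or.inl ht)) (Or.inr hb) hj
    have hMsub : M ⊆ E2 ∪ (X \ P) ∪ E4 := by
      intro z hz
      have hz' := hM hz
      by_cases z2 : z ∈ E2
      · exact Or.inl (Or.inl z2)
      by_cases z4 : z ∈ E4
      · exact Or.inr z4
      refine Or.inl (Or.inr ⟨⟨hz'.1, ?_⟩, fun hzP => ?_⟩)
      · rintro (((h | h) | h) | h)
        · exact hz'.2 (Or.inl (Or.inl h))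
        · exact z2 h
        · exact hz'.2 (Or.inr h)
        · exact z4 h
      · refine hz'.2 (Or.inl (Or.inr ⟨⟨hz'.1, ?_⟩, hzP⟩))
        rintro (((h | h) | h) | h)
        · exact hz'.2 (Or.inl (Or.inl h))
        · exact z2 h
        · exact hz'.2 (Or.inr h)
        · exact z4 h
    obtain ⟨m2, hm2, hm2M⟩ := hMm (E1 ∪ E2 ∪ E3) (by
      rintro z ((hz | hz) | hz)
      exacts [h1 hz, h2 hz, h3 hz]) hp2
    obtain ⟨m4, hm4, hm4M⟩ := hMm (E1 ∪ E4 ∪ E3) (by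
      rintro z ((hz | hz) | hz)
      exacts [h1 hz, h4 hz, h3 hz]) hp4
    have hm2' : m2 ∈ E2 := by
      rcases hm2 with (h | h) | h
      · exact ((hM hm2M).2 (Or.inl (Or.inl h))).elim
      · exact h
      · exact ((hM hm2M).2 (Or.inr h)).elim
    have hm4' : m4 ∈ E4 := by
      rcases hm4 with (h | h) | h
      · exact ((hM hm4M).2 (Or.inl (Or.inl h))).elim
      · exact h
      · exact ((hM hm4M).2 (Or.inr h)).elim
    obtain ⟨u, w, hu, he2, he4, hR⟩ := plr_extract h24 hm2' hm4' (tsc_R_mono hMsub (hMc m2 hm2M m4 hm4M))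
    exact ⟨u, w, hu.1, he2, he4, tsc_R_mono (fun z hz => hz.1) hR⟩

end abstract

section glue
variable {V : Type*} {A : Type*} [AddCommGroup A] {G : SimpleGraph V}

/-- transport of TriSC along a map which is injective on `s` and an isomorphism of `G[s]` onto the induced graph on the image -/
theorem plr_sc_image {V' : Type*} {G' : SimpleGraph V'} {s : Set V} (e : V → V') (hinj : Set.InjOn e s)
    (he : ∀ a ∈ s, ∀ b ∈ s, (G.Adj a b ↔ G'.Adj (e a) (e b))) (hs : TriSCOn A G s) : TriSCOn A G' (e '' s) := by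
  classical
  intro ω hω
  have hm : ∀ a, a ∈ s → e a ∈ e '' s := fun a h => Set.mem_image_of_mem e h
  obtain ⟨f, hf⟩ := hs (fun a b => ω (e a) (e b))
    ⟨fun u hu v hv h => hω.anti _ (hm u hu) _ (hm v hv) ((he u hu v hv).1 h),
     fun u hu v hv w hw h1 h2 h3 => hω.tri _ (hm u hu) _ (hm v hv) _ (hm w hw) ((he u hu v hv).1 h1) ((he v hv w hw).1 h2)
      ((he u hu w hw).1 h3)⟩
  refine ⟨fun a' => if h : ∃ u ∈ s, e u = a' then f h.choose else 0, ?_⟩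
  have key : ∀ u ∈ s, (if h : ∃ u' ∈ s, e u' = e u then f h.choose else 0) = f u := by
    intro u hu
    have h : ∃ u' ∈ s, e u' = e u := ⟨u, hu, rfl⟩
    rw [dif_pos h]
    exact congrArg f (hinj h.choose_spec.1 hu h.choose_spec.2)
  rintro _ ⟨u, hu, rfl⟩ _ ⟨v, hv, rfl⟩ h
  simp only [key u hu, key v hv]
  exact hf u hu v hv ((he u hu v hv).2 h)

/-- first sheet -/
def plrE1 (z : V) : V × Bool := (z, true)

open Classical in
/-- second sheet: glued to the first one along `K` -/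
noncomputable def plrE2 (K : Set V) (z : V) : V × Bool := if z ∈ K then (z, true) else (z, false)

theorem plr_E2_fst (K : Set V) (z : V) : (plrE2 K z).1 = z := by
  unfold plrE2; split_ifs <;> rfl

theorem plr_E2_mem {K : Set V} {z : V} (h : z ∈ K) : plrE2 K z = plrE1 z := by
  unfold plrE2 plrE1; rw [if_pos h]

theorem plr_E2_not {K : Set V} {z : V} (h : z ∉ K) : plrE2 K z = (z, false) := by
  unfold plrE2; rw [if_neg h]

theorem plr_E1_inj {z z' : V} (h : plrE1 z = plrE1 z') : z = z' := congrArg Prod.fst h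

theorem plr_E2_inj {K : Set V} {z z' : V} (h : plrE2 K z = plrE2 K z') : z = z' := by
  have := congrArg Prod.fst h
  rwa [plr_E2_fst, plr_E2_fst] at this

/-- a point of both sheets lies on `K` -/
theorem plr_E12 {K : Set V} {z z' : V} (h : plrE1 z = plrE2 K z') : z = z' ∧ z ∈ K := by
  have h1 : z = z' := by
    have := congrArg Prod.fst h
    rwa [plr_E2_fst] at this
  subst h1
  refine ⟨rfl, ?_⟩
  by_contra hK
  rw [plr_E2_not hK] at h
  have := congrArg Prod.snd h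
  simp [plrE1] at this

/-- **two copies of `G` glued along `K`** -/
def plrGl (G : SimpleGraph V) (K : Set V) : SimpleGraph (V × Bool) where
  Adj p q := (∃ z z', G.Adj z z' ∧ p = plrE1 z ∧ q = plrE1 z') ∨ (∃ z z', G.Adj z z' ∧ p = plrE2 K z ∧ q = plrE2 K z')
  symm := ⟨fun _ _ h => by
    rcases h with ⟨z, z', h, h1, h2⟩ | ⟨z, z', h, h1, h2⟩
    · exact Or.inl ⟨z', z, h.symm, h2, h1⟩
    · exact Or.inr ⟨z', z, h.symm, h2, h1⟩⟩
  loopless := ⟨fun _ h => by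
    rcases h with ⟨z, z', h, h1, h2⟩ | ⟨z, z', h, h1, h2⟩
    · exact h.ne (plr_E1_inj (h1.symm.trans h2))
    · exact h.ne (plr_E2_inj (h1.symm.trans h2))⟩

theorem plr_gl_adj1 (K : Set V) (z z' : V) : (plrGl G K).Adj (plrE1 z) (plrE1 z') ↔ G.Adj z z' := by
  constructor
  · rintro (⟨w, w', h, h1, h2⟩ | ⟨w, w', h, h1, h2⟩)
    · rwa [plr_E1_inj h1, plr_E1_inj h2]
    · rwa [(plr_E12 h1).1, (plr_E12 h2).1]
  · intro h; exact Or.inl ⟨z, z', h, rfl, rfl⟩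

theorem plr_gl_adj2 (K : Set V) (z z' : V) : (plrGl G K).Adj (plrE2 K z) (plrE2 K z') ↔ G.Adj z z' := by
  constructor
  · rintro (⟨w, w', h, h1, h2⟩ | ⟨w, w', h, h1, h2⟩)
    · rwa [← (plr_E12 h1.symm).1, ← (plr_E12 h2.symm).1]
    · rwa [plr_E2_inj h1, plr_E2_inj h2]
  · intro h; exact Or.inr ⟨z, z', h, rfl, rfl⟩

/-- the projection of the glued graph is a graph morphism -/
theorem plr_gl_proj {K : Set V} {p q : V × Bool} (h : (plrGl G K).Adj p q) : G.Adj p.1 q.1 := by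
  rcases h with ⟨w, w', h, rfl, rfl⟩ | ⟨w, w', h, rfl, rfl⟩
  · exact h
  · rwa [plr_E2_fst, plr_E2_fst]

/-- **the glued ambient is TriSC** (Mayer-Vietoris): `s₁`, `s₂` TriSC, glued along a connected `K ⊆ s₁ ∩ s₂` -/
theorem plr_gl_sc {s₁ s₂ K : Set V} (h₁ : TriSCOn A G s₁) (h₂ : TriSCOn A G s₂) (hK₁ : K ⊆ s₁) (hK₂ : K ⊆ s₂) (hK : TscConn G K) :
    TriSCOn A (plrGl G K) (plrE1 '' s₁ ∪ plrE2 K '' s₂) := by
  have hint : plrE1 '' s₁ ∩ plrE2 K '' s₂ = plrE1 '' K := by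
    ext p
    constructor
    · rintro ⟨⟨z, hz, rfl⟩, ⟨z', hz', h⟩⟩
      exact ⟨z, (plr_E12 h.symm).2, rfl⟩
    · rintro ⟨z, hz, rfl⟩
      exact ⟨⟨z, hK₁ hz, rfl⟩, ⟨z, hK₂ hz, plr_E2_mem hz⟩⟩
  refine tsc_union (plr_sc_image plrE1 (fun _ _ _ _ h => plr_E1_inj h) (fun a _ b _ => (plr_gl_adj1 K a b).symm) h₁)
    (plr_sc_image (plrE2 K) (fun _ _ _ _ h => plr_E2_inj h) (fun a _ b _ => (plr_gl_adj2 K a b).symm) h₂) ?_ ?_
  · rw [hint]
    exact tsc_conn_map plrE1 (fun a b h => (plr_gl_adj1 K a b).2 h) hK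
  · intro p hp q hq hadj
    have m1 : ∀ z, plrE1 z ∈ plrE1 '' s₁ ∪ plrE2 K '' s₂ → z ∈ s₁ := by
      rintro z (⟨w, hw, h⟩ | ⟨w, hw, h⟩)
      · rwa [← plr_E1_inj h]
      · exact hK₁ (plr_E12 h.symm).2
    have m2 : ∀ z, plrE2 K z ∈ plrE1 '' s₁ ∪ plrE2 K '' s₂ → z ∈ s₂ := by
      rintro z (⟨w, hw, h⟩ | ⟨w, hw, h⟩)
      · have := plr_E12 h
        exact hK₂ (this.1 ▸ this.2)
      · rwa [← plr_E2_inj h]
    rcases hadj with ⟨w, w', h, rfl, rfl⟩ | ⟨w, w', h, rfl, rfl⟩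
    · exact Or.inl ⟨⟨w, m1 w hp, rfl⟩, ⟨w', m1 w' hq, rfl⟩⟩
    · exact Or.inr ⟨⟨w, m2 w hp, rfl⟩, ⟨w', m2 w' hq, rfl⟩⟩

/-- the exchange of the two sheets induced by a symmetry `ρ` of `G` which preserves `K` -/
noncomputable def plrSw (K : Set V) (ρ : V → V) (p : V × Bool) : V × Bool := if p.2 then plrE2 K (ρ p.1) else plrE1 (ρ p.1)

theorem plr_sw_E1 (K : Set V) (ρ : V → V) (z : V) : plrSw K ρ (plrE1 z) = plrE2 K (ρ z) := by
  simp [plrSw, plrE1]

theorem plr_sw_E2 {K : Set V} {ρ : V → V} (hρK : ∀ z ∈ K, ρ z ∈ K) (z : V) : plrSw K ρ (plrE2 K z) = plrE1 (ρ z) := by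
  by_cases h : z ∈ K
  · rw [plr_E2_mem h, plr_sw_E1, plr_E2_mem (hρK z h)]
  · rw [plr_E2_not h]; simp [plrSw]

theorem plr_sw_adj {K : Set V} {ρ : V → V} (hρ : ∀ a b, G.Adj a b → G.Adj (ρ a) (ρ b)) (hρK : ∀ z ∈ K, ρ z ∈ K) {p q : V × Bool}
    (h : (plrGl G K).Adj p q) : (plrGl G K).Adj (plrSw K ρ p) (plrSw K ρ q) := by
  rcases h with ⟨w, w', h, rfl, rfl⟩ | ⟨w, w', h, rfl, rfl⟩
  · rw [plr_sw_E1, plr_sw_E1]; exact (plr_gl_adj2 K _ _).2 (hρ _ _ h)
  · rw [plr_sw_E2 hρK, plr_sw_E2 hρK]; exact (plr_gl_adj1 K _ _).2 (hρ _ _ h)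

/-- the exchange is an involution on the glued space -/
theorem plr_sw_sw {K : Set V} {ρ : V → V} (hρρ : ∀ z, ρ (ρ z) = z) (hρK : ∀ z ∈ K, ρ z ∈ K) (z : V) :
    plrSw K ρ (plrSw K ρ (plrE1 z)) = plrE1 z ∧ plrSw K ρ (plrSw K ρ (plrE2 K z)) = plrE2 K z := by
  constructor
  · rw [plr_sw_E1, plr_sw_E2 hρK, hρρ]
  · rw [plr_sw_E2 hρK, plr_sw_E1, hρρ]

end glue

section cones
variable {V : Type*} {G : SimpleGraph V}

/-- the graph `G` with four cone vertices `inr 0 .. inr 3` over the sets `a 0 .. a 3`, the cone vertices forming a 4-cycle -/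
def plrCone (G : SimpleGraph V) (a : Fin 4 → Set V) : SimpleGraph (V ⊕ Fin 4) where
  Adj p q := match p, q with
    | .inl u, .inl v => G.Adj u v
    | .inl u, .inr i => u ∈ a i
    | .inr i, .inl u => u ∈ a i
    | .inr i, .inr j => j = i + 1 ∨ i = j + 1
  symm := ⟨by
    rintro (u | i) (v | j) h
    · exact G.adj_symm h
    · exact h
    · exact h
    · exact h.symm⟩
  loopless := ⟨by
    rintro (u | i) h
    · exact G.irrefl h
    · have h' : i = i + 1 ∨ i = i + 1 := h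
      clear h
      revert h'; revert i; decide⟩

theorem plr_cone_ll (a : Fin 4 → Set V) (u v : V) : (plrCone G a).Adj (Sum.inl u) (Sum.inl v) ↔ G.Adj u v := Iff.rfl
theorem plr_cone_lr (a : Fin 4 → Set V) (u : V) (i : Fin 4) : (plrCone G a).Adj (Sum.inl u) (Sum.inr i) ↔ u ∈ a i := Iff.rfl
theorem plr_cone_rl (a : Fin 4 → Set V) (u : V) (i : Fin 4) : (plrCone G a).Adj (Sum.inr i) (Sum.inl u) ↔ u ∈ a i := Iff.rfl
theorem plr_cone_rr (a : Fin 4 → Set V) (i j : Fin 4) : (plrCone G a).Adj (Sum.inr i) (Sum.inr j) ↔ (j = i + 1 ∨ i = j + 1) := Iff.rfl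

/-- paths of the cone graph inside the old part are paths of `G` -/
theorem plr_cone_pull (a : Fin 4 → Set V) {Q : Set V} {p q : V ⊕ Fin 4} (h : TscR (plrCone G a) (Sum.inl '' Q) p q) :
    ∀ u, p = Sum.inl u → ∃ w, q = Sum.inl w ∧ TscR G Q u w := by
  induction h with
  | refl => intro u hu; exact ⟨u, hu, ReflTransGen.refl⟩
  | @tail b c _ hbc ih =>
    intro u hu
    obtain ⟨w, rfl, hw⟩ := ih u hu
    obtain ⟨hadj, ⟨w1, hw1, e1⟩, ⟨w2, hw2, rfl⟩⟩ := hbc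
    have e : w1 = w := Sum.inl_injective e1
    subst e
    exact ⟨w2, rfl, hw.tail ⟨hadj, hw1, hw2⟩⟩

theorem plr_conn_singleton {W : Type*} (H : SimpleGraph W) (x : W) : TscConn H {x} := by
  rintro u rfl v rfl; exact ReflTransGen.refl

/-- the cone extension of a TriSC piece over four connected sets which intersect cyclically is TriSC -/
theorem plr_cone_sc {A : Type*} [AddCommGroup A] {s : Set V} (hs : TriSCOn A G s) (a : Fin 4 → Set V) (has : ∀ i, a i ⊆ s)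
    (hac : ∀ i, TscConn G (a i)) (hint : ∀ i, (a i ∩ a (i + 1)).Nonempty) :
    TriSCOn A (plrCone G a) (insert (Sum.inr 3) (insert (Sum.inr 2) (insert (Sum.inr 1) (insert (Sum.inr 0) (Sum.inl '' s))))) := by
  have h0 : TriSCOn A (plrCone G a) (Sum.inl '' s) :=
    plr_sc_image Sum.inl (fun _ _ _ _ h => Sum.inl_injective h) (fun _ _ _ _ => Iff.rfl) hs
  have hc : ∀ i, TscConn (plrCone G a) (Sum.inl '' a i) := fun i => tsc_conn_map Sum.inl (fun _ _ h => h) (hac i)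
  obtain ⟨x01, hx01⟩ := hint 0
  obtain ⟨x12, hx12⟩ := hint 1
  obtain ⟨x23, hx23⟩ := hint 2
  obtain ⟨x30, hx30⟩ := hint 3
  have e1 : ((0 : Fin 4) + 1) = 1 := rfl
  have e2 : ((1 : Fin 4) + 1) = 2 := rfl
  have e3 : ((2 : Fin 4) + 1) = 3 := rfl
  have e4 : ((3 : Fin 4) + 1) = 0 := rfl
  rw [e1] at hx01; rw [e2] at hx12; rw [e3] at hx23; rw [e4] at hx30
  -- first cone
  have h1 : TriSCOn A (plrCone G a) (insert (Sum.inr 0) (Sum.inl '' s)) := by
    refine tsc_insert h0 (by rintro ⟨_, _, h⟩; cases h) ?_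
    have : {u | u ∈ Sum.inl '' s ∧ (plrCone G a).Adj u (Sum.inr 0)} = Sum.inl '' a 0 := by
      ext p; constructor
      · rintro ⟨⟨u, hu, rfl⟩, h⟩; exact ⟨u, h, rfl⟩
      · rintro ⟨u, hu, rfl⟩; exact ⟨⟨u, has 0 hu, rfl⟩, hu⟩
    rw [this]; exact hc 0
  -- second cone
  have h2 : TriSCOn A (plrCone G a) (insert (Sum.inr 1) (insert (Sum.inr 0) (Sum.inl '' s))) := by
    refine tsc_insert h1 (by rintro (h | ⟨_, _, h⟩) <;> cases h) ?_
    have : {u | u ∈ insert (Sum.inr 0) (Sum.inl '' s) ∧ (plrCone G a).Adj u (Sum.inr 1)} = Sum.inl '' a 1 ∪ {Sum.inr 0} := by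
      ext p; constructor
      · rintro ⟨rfl | ⟨u, hu, rfl⟩, h⟩
        · exact Or.inr rfl
        · exact Or.inl ⟨u, h, rfl⟩
      · rintro (⟨u, hu, rfl⟩ | rfl)
        · exact ⟨Or.inr ⟨u, has 1 hu, rfl⟩, hu⟩
        · exact ⟨Or.inl rfl, by rw [plr_cone_rr]; decide⟩
    rw [this]
    exact tsc_conn_union (hc 1) (plr_conn_singleton _ _) (a := Sum.inl x01) (b := Sum.inr 0) ⟨x01, hx01.2, rfl⟩ rfl (Or.inr hx01.1)
  -- third cone
  have h3 : TriSCOn A (plrCone G a) (insert (Sum.inr 2) (insert (Sum.inr 1) (insert (Sum.inr 0) (Sum.inl '' s)))) := by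
    refine tsc_insert h2 (by rintro (h | h | ⟨_, _, h⟩) <;> cases h) ?_
    have : {u | u ∈ insert (Sum.inr 1) (insert (Sum.inr 0) (Sum.inl '' s)) ∧ (plrCone G a).Adj u (Sum.inr 2)}
        = Sum.inl '' a 2 ∪ {Sum.inr 1} := by
      ext p; constructor
      · rintro ⟨rfl | rfl | ⟨u, hu, rfl⟩, h⟩
        · exact Or.inr rfl
        · rw [plr_cone_rr] at h; exact absurd h (by decide)
        · exact Or.inl ⟨u, h, rfl⟩
      · rintro (⟨u, hu, rfl⟩ | rfl)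
        · exact ⟨Or.inr (Or.inr ⟨u, has 2 hu, rfl⟩), hu⟩
        · exact ⟨Or.inl rfl, by rw [plr_cone_rr]; decide⟩
    rw [this]
    exact tsc_conn_union (hc 2) (plr_conn_singleton _ _) (a := Sum.inl x12) (b := Sum.inr 1) ⟨x12, hx12.2, rfl⟩ rfl (Or.inr hx12.1)
  -- fourth cone
  refine tsc_insert h3 (by rintro (h | h | h | ⟨_, _, h⟩) <;> cases h) ?_
  have : {u | u ∈ insert (Sum.inr 2) (insert (Sum.inr 1) (insert (Sum.inr 0) (Sum.inl '' s))) ∧ (plrCone G a).Adj u (Sum.inr 3)}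
      = (Sum.inl '' a 3 ∪ {Sum.inr 2}) ∪ {Sum.inr 0} := by
    ext p; constructor
    · rintro ⟨rfl | rfl | rfl | ⟨u, hu, rfl⟩, h⟩
      · exact Or.inl (Or.inr rfl)
      · rw [plr_cone_rr] at h; exact absurd h (by decide)
      · exact Or.inr rfl
      · exact Or.inl (Or.inl ⟨u, h, rfl⟩)
    · rintro ((⟨u, hu, rfl⟩ | rfl) | rfl)
      · exact ⟨Or.inr (Or.inr (Or.inr ⟨u, has 3 hu, rfl⟩)), hu⟩
      · exact ⟨Or.inl rfl, by rw [plr_cone_rr]; decide⟩
      · exact ⟨Or.inr (Or.inr (Or.inl rfl)), by rw [plr_cone_rr]; decide⟩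
  rw [this]
  refine tsc_conn_union (tsc_conn_union (hc 3) (plr_conn_singleton _ _) (a := Sum.inl x23) (b := Sum.inr 2) ⟨x23, hx23.2, rfl⟩ rfl
    (Or.inr hx23.1)) (plr_conn_singleton _ _) (a := Sum.inl x30) (b := Sum.inr 0) (Or.inl ⟨x30, hx30.1, rfl⟩) rfl (Or.inr hx30.2)

/-- **GENERAL HEX** (H1 of `origin/helper55:notes/R291/ann_A1_55.md`).  `s` TriSC, four connected sets `a 0 .. a 3 ⊆ s` which intersect cyclically, `P` any colouring.
Then a path inside `s ∩ P` from `a 0` to `a 2`, or a path inside `s \ P` from `a 1` to `a 3`.  No boundary, no planarity. -/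
theorem plr_hex_arcs {s : Set V} (hs : TriSCOn (ZMod 2) G s) (a : Fin 4 → Set V) (has : ∀ i, a i ⊆ s)
    (hac : ∀ i, TscConn G (a i)) (hint : ∀ i, (a i ∩ a (i + 1)).Nonempty) (P : Set V) :
    (∃ u w, u ∈ a 0 ∧ u ∈ P ∧ w ∈ a 2 ∧ TscR G (s ∩ P) u w) ∨ (∃ u w, u ∈ a 1 ∧ u ∉ P ∧ w ∈ a 3 ∧ TscR G (s \ P) u w) := by
  set S' : Set (V ⊕ Fin 4) := insert (Sum.inr 3) (insert (Sum.inr 2) (insert (Sum.inr 1) (insert (Sum.inr 0) (Sum.inl '' s)))) with hS'
  have hsc : TriSCOn (ZMod 2) (plrCone G a) S' := plr_cone_sc hs a has hac hint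
  have hne02 : ∀ x ∈ ({Sum.inr 0} : Set (V ⊕ Fin 4)), ∀ y ∈ ({Sum.inr 2} : Set (V ⊕ Fin 4)), x ≠ y ∧ ¬ (plrCone G a).Adj x y := by
    rintro _ rfl _ rfl
    refine ⟨fun h => absurd (Sum.inr_injective h) (by decide), ?_⟩
    rw [plr_cone_rr]; decide
  have hne13 : ∀ x ∈ ({Sum.inr 1} : Set (V ⊕ Fin 4)), ∀ y ∈ ({Sum.inr 3} : Set (V ⊕ Fin 4)), x ≠ y ∧ ¬ (plrCone G a).Adj x y := by
    rintro _ rfl _ rfl
    refine ⟨fun h => absurd (Sum.inr_injective h) (by decide), ?_⟩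
    rw [plr_cone_rr]; decide
  by_cases hj : TscR (plrCone G a) ({Sum.inr 0} ∪ Sum.inl '' (s ∩ P) ∪ {Sum.inr 2}) (Sum.inr 0) (Sum.inr 2)
  · left
    obtain ⟨u, w, hu, ⟨_, rfl, he1⟩, ⟨_, rfl, he3⟩, hR⟩ := plr_extract hne02 rfl rfl hj
    obtain ⟨⟨u', hu', rfl⟩, _⟩ := hu
    obtain ⟨w', rfl, hR'⟩ := plr_cone_pull a (tsc_R_mono (fun z hz => hz.1) hR) u' rfl
    exact ⟨u', w', he1, hu'.2, he3, hR'⟩
  · right
    have hPs : ({Sum.inr 0} ∪ Sum.inl '' (s ∩ P) ∪ {Sum.inr 2} : Set (V ⊕ Fin 4)) ⊆ S' := by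
      rintro z ((rfl | ⟨u, hu, rfl⟩) | rfl)
      · exact Or.inr (Or.inr (Or.inr (Or.inl rfl)))
      · exact Or.inr (Or.inr (Or.inr (Or.inr ⟨u, hu.1, rfl⟩)))
      · exact Or.inr (Or.inl rfl)
    obtain ⟨M, hM, hMc, hMm⟩ := tsc_hex hsc hPs (Or.inl (Or.inl rfl)) (Or.inr rfl) hj
    have hmid : ∀ k : Fin 4, (k = 1 ∨ k = 3) → (Sum.inr k : V ⊕ Fin 4) ∈ M := by
      intro k hk
      have hkS : (Sum.inr k : V ⊕ Fin 4) ∈ S' := by
        rcases hk with rfl | rfl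
        · exact Or.inr (Or.inr (Or.inl rfl))
        · exact Or.inl rfl
      have hQ : ({Sum.inr 0, Sum.inr k, Sum.inr 2} : Set (V ⊕ Fin 4)) ⊆ S' := by
        rintro z (rfl | rfl | rfl)
        · exact Or.inr (Or.inr (Or.inr (Or.inl rfl)))
        · exact hkS
        · exact Or.inr (Or.inl rfl)
      have hpath : TscR (plrCone G a) ({Sum.inr 0, Sum.inr k, Sum.inr 2} : Set (V ⊕ Fin 4)) (Sum.inr 0) (Sum.inr 2) := by
        refine (ReflTransGen.single ⟨?_, Or.inl rfl, Or.inr (Or.inl rfl)⟩).tail ⟨?_, Or.inr (Or.inl rfl), Or.inr (Or.inr rfl)⟩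
        · rw [plr_cone_rr]; rcases hk with rfl | rfl <;> decide
        · rw [plr_cone_rr]; rcases hk with rfl | rfl <;> decide
      obtain ⟨m, hmQ, hmM⟩ := hMm _ hQ hpath
      rcases hmQ with rfl | rfl | rfl
      · exact ((hM hmM).2 (Or.inl (Or.inl rfl))).elim
      · exact hmM
      · exact ((hM hmM).2 (Or.inr rfl)).elim
    have hMsub : M ⊆ {Sum.inr 1} ∪ Sum.inl '' (s \ P) ∪ {Sum.inr 3} := by
      intro z hz
      have hz' := hM hz
      rcases hz'.1 with rfl | rfl | rfl | rfl | ⟨u, hu, rfl⟩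
      · exact Or.inr rfl
      · exact (hz'.2 (Or.inr rfl)).elim
      · exact Or.inl (Or.inl rfl)
      · exact (hz'.2 (Or.inl (Or.inl rfl))).elim
      · refine Or.inl (Or.inr ⟨u, ⟨hu, fun hP => hz'.2 (Or.inl (Or.inr ⟨u, ⟨hu, hP⟩, rfl⟩))⟩, rfl⟩)
    obtain ⟨u, w, hu, ⟨_, rfl, he1⟩, ⟨_, rfl, he3⟩, hR⟩ :=
      plr_extract hne13 rfl rfl (tsc_R_mono hMsub (hMc _ (hmid 1 (Or.inl rfl)) _ (hmid 3 (Or.inr rfl))))
    obtain ⟨⟨u', hu', rfl⟩, _⟩ := hu
    obtain ⟨w', rfl, hR'⟩ := plr_cone_pull a (tsc_R_mono (fun z hz => hz.1) hR) u' rfl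
    exact ⟨u', w', he1, hu'.2, he3, hR'⟩

end cones

theorem plr_eqns_cite : True := by
  have := @plrE1.eq_1.{0}
  have := @plrE2.eq_1.{0}
  have := @plrGl.eq_1.{0}
  have := @plrSw.eq_1.{0}
  have := @plrCone.eq_1.{0}
  trivial

end Claimed.Agent.R291
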