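import Claimed.Agent.R291.Defs.Lat
import Claimed.Agent.R291.Pl.Arm
import Claimed.Agent.R291.Tool.TriSCLat

/-!
# Row 291 (S0539), unit PLA, file Pl/Neck      (owner: helper217; prefix `pnk_`)      no sorry

NECKLACES: the deterministic geometry of TEX[T23_CHAIN A7 (R2)] (sausage of helper121) and of TEX[sec2_146 (N)] (necklace of helper146).

* sec. 1  the hexagonal norm `latN`: `pnk_N_add` (triangle inequality), `pnk_N_neg`, `pnk_N_sub_le`, `pnk_N_lip` (1-Lipschitz along `triAdj`, any centre), balls: `pnk_ball_shift`, `pnk_ball_sub`, `pnk_ball_far`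
* sec. 2  INTERMEDIATE VALUES for `ReflTransGen r` (any type, any relation, any integer function which increases by at most 1 along a step):
          `pnk_ivt` (a level is visited), `pnk_first`, `pnk_last`, `pnk_cross` (a crossing of the band `{n ≤ g ≤ N}` inside the band);   set forms `pnk_R_ivt`, `pnk_R_cross`
* sec. 2b crossings between two SETS (real valued or irregular levels): `pnk_first_set`, `pnk_last_set`, `pnk_between`, set form `pnk_R_between`
* sec. 3  the CENTRES `pnkCen c R m` on the sphere of radius `R` about `c`: `pnk_cen_card` (`≤ 6 (R / m + 1)`), `pnk_cen_N`, `pnk_cen_cover` (every site of the sphere is within `m - 1 < m` of a centre), `pnk_cen_coverH` (thick spheres `R - h .. R + h`: within `m + h - 1`), `pnk_N_up`, `pnk_N_down`, `pnk_proj_out`, `pnk_proj_in`, `pnk_top` (normal form)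
* sec. 4  NECKLACE: `pnk_neck` every path inside `S` from `Λ_n(c)` to a site at distance `≥ N` contains, for some centre `z`, a crossing of the annulus `{m ≤ latN (· - z) ≤ L}` inside `S`, if `L ≤ R - n` or `L ≤ N - R`;
          `pnk_sep` abstract form (any relation): blocked small annuli along a level of `g` block the passage;   `pnk_neck_block` the contrapositive on the lattice
-/

set_option autoImplicit false

namespace Claimed.Agent.R291

open Claims.C0467 Relation

/-! ### 1. the hexagonal norm -/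

theorem pnk_N_zero : latN 0 = 0 := by simp [latN]

theorem pnk_N_neg (u : TV) : latN (-u) = latN u := by
  unfold latN
  simp only [Prod.fst_neg, Prod.snd_neg]
  omega

/-- the six linear inequalities of a ball -/
theorem pnk_N_le {u : TV} {r : ℕ} : latN u ≤ r ↔
    (-(r : ℤ) ≤ u.1 ∧ u.1 ≤ r) ∧ (-(r : ℤ) ≤ u.2 ∧ u.2 ≤ r) ∧ (-(r : ℤ) ≤ u.1 + u.2 ∧ u.1 + u.2 ≤ r) := by
  unfold latN
  omega

/-- triangle inequality -/
theorem pnk_N_add (u v : TV) : latN (u + v) ≤ latN u + latN v := by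
  have hu := (pnk_N_le (u := u) (r := latN u)).1 le_rfl
  have hv := (pnk_N_le (u := v) (r := latN v)).1 le_rfl
  rw [pnk_N_le]
  simp only [Prod.fst_add, Prod.snd_add]
  push_cast
  omega

theorem pnk_N_sub_comm (u v : TV) : latN (u - v) = latN (v - u) := by
  rw [← pnk_N_neg, neg_sub]

theorem pnk_N_sub (u v : TV) : latN (u - v) ≤ latN u + latN v := by
  rw [sub_eq_add_neg]
  exact (pnk_N_add u (-v)).trans (by rw [pnk_N_neg])

/-- triangle inequality with three points -/
theorem pnk_N_tri (u v w : TV) : latN (u - w) ≤ latN (u - v) + latN (v - w) := by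
  have := pnk_N_add (u - v) (v - w)
  rwa [sub_add_sub_cancel] at this

/-- reverse triangle inequality -/
theorem pnk_N_sub_le (u v : TV) : latN u ≤ latN (u - v) + latN v := by
  have := pnk_N_add (u - v) v
  rwa [sub_add_cancel] at this

theorem pnk_N_eq_zero {u : TV} : latN u = 0 ↔ u = 0 := by
  unfold latN
  rw [Prod.ext_iff]
  simp only [Prod.fst_zero, Prod.snd_zero]
  omega

theorem pnk_N_dirs {d : TV} : latN d = 1 ↔ d ∈ latDirs := by
  obtain ⟨x, y⟩ := d
  simp only [latN, latDirs, Finset.mem_insert, Finset.mem_singleton, Prod.mk.injEq]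
  omega

theorem pnk_N_adj {u v : TV} : triAdj u v ↔ latN (v - u) = 1 := by
  rw [lat_adj_iff, pnk_N_dirs]

/-- 1-Lipschitz along the edges, any centre -/
theorem pnk_N_lip (z : TV) {u v : TV} (h : triAdj u v) : (latN (v - z) : ℤ) ≤ latN (u - z) + 1 := by
  have h1 := pnk_N_tri v u z
  rw [pnk_N_adj.1 h] at h1
  omega

theorem pnk_N_lip' (z : TV) {u v : TV} (h : triAdj u v) : (latN (u - z) : ℤ) ≤ latN (v - z) + 1 :=
  pnk_N_lip z (lat_adj_symm h)

theorem pnk_rot_sub (u v : TV) : latRot (u - v) = latRot u - latRot v := by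
  simp only [latRot, Prod.ext_iff, Prod.fst_sub, Prod.snd_sub]
  constructor <;> ring

theorem pnk_rot_iter_sub (k : ℕ) (u v : TV) : latRot^[k] (u - v) = latRot^[k] u - latRot^[k] v := by
  induction k generalizing u v with
  | zero => rfl
  | succ k ih => rw [Function.iterate_succ_apply, Function.iterate_succ_apply, Function.iterate_succ_apply, pnk_rot_sub, ih]

theorem pnk_ball_shift (a c u : TV) (r : ℕ) : u + a ∈ latBall (c + a) r ↔ u ∈ latBall c r := by
  rw [lat_mem_ball, lat_mem_ball, add_sub_add_right_eq_sub]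

theorem pnk_ball_mono (c : TV) {r r' : ℕ} (h : r ≤ r') : latBall c r ⊆ latBall c r' := by
  intro u hu
  rw [lat_mem_ball] at *
  omega

/-- a small ball inside a large one -/
theorem pnk_ball_sub {c z : TV} {r r' : ℕ} (h : latN (z - c) + r ≤ r') : latBall z r ⊆ latBall c r' := by
  intro u hu
  rw [lat_mem_ball] at *
  have := pnk_N_tri u z c
  omega

/-- a ball far from another one -/
theorem pnk_ball_far {c z : TV} {r r' : ℕ} (h : r + r' < latN (z - c)) : Disjoint (latBall z r) (latBall c r') := by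
  rw [Finset.disjoint_left]
  intro u hu hu'
  rw [lat_mem_ball] at *
  have := pnk_N_tri z u c
  rw [pnk_N_sub_comm z u] at this
  omega

theorem pnk_ball_self (c : TV) (r : ℕ) : c ∈ latBall c r := by
  rw [lat_mem_ball, sub_self, pnk_N_zero]; exact Nat.zero_le _

/-! ### 2. intermediate values along `ReflTransGen` -/

section ivt
variable {α : Type*} {r : α → α → Prop} {g : α → ℤ}

theorem pnk_rtg_symm (hs : ∀ x y, r x y → r y x) {a b : α} (h : ReflTransGen r a b) : ReflTransGen r b a := by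
  induction h with
  | refl => exact ReflTransGen.refl
  | tail _ hbc ih => exact ReflTransGen.head (hs _ _ hbc) ih

/-- a level between the values at the two ends is visited -/
theorem pnk_ivt (hg : ∀ x y, r x y → g y ≤ g x + 1) {a b : α} (h : ReflTransGen r a b) {t : ℤ} (ha : g a ≤ t) (hb : t ≤ g b) :
    ∃ u, g u = t ∧ ReflTransGen r a u ∧ ReflTransGen r u b := by
  induction h with
  | refl => exact ⟨a, le_antisymm ha hb, ReflTransGen.refl, ReflTransGen.refl⟩
  | @tail c d hac hcd ih =>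
    by_cases hc : t ≤ g c
    · obtain ⟨u, h1, h2, h3⟩ := ih hc
      exact ⟨u, h1, h2, h3.tail hcd⟩
    · have := hg c d hcd
      exact ⟨d, by omega, hac.tail hcd, ReflTransGen.refl⟩

/-- **first passage** at the level `t`: every step before it starts strictly below `t` -/
theorem pnk_first (hg : ∀ x y, r x y → g y ≤ g x + 1) {a b : α} (h : ReflTransGen r a b) {t : ℤ} (ha : g a ≤ t) (hb : t ≤ g b) :
    ∃ u, g u = t ∧ ReflTransGen (fun x y => r x y ∧ g x < t) a u ∧ ReflTransGen r u b := by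
  induction h using ReflTransGen.head_induction_on with
  | refl => exact ⟨b, le_antisymm ha hb, ReflTransGen.refl, ReflTransGen.refl⟩
  | @head a c hac hcb ih =>
    by_cases hat : g a = t
    · exact ⟨a, hat, ReflTransGen.refl, ReflTransGen.head hac hcb⟩
    · have hlt : g a < t := lt_of_le_of_ne ha hat
      have := hg a c hac
      obtain ⟨u, h1, h2, h3⟩ := ih (by omega)
      exact ⟨u, h1, ReflTransGen.head ⟨hac, hlt⟩ h2, h3⟩

/-- **last exit** from the level `t`: every step after it ends strictly above `t` -/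
theorem pnk_last (hg : ∀ x y, r x y → g y ≤ g x + 1) {a b : α} (h : ReflTransGen r a b) {t : ℤ} (ha : g a ≤ t) (hb : t ≤ g b) :
    ∃ u, g u = t ∧ ReflTransGen r a u ∧ ReflTransGen (fun x y => r x y ∧ t < g y) u b := by
  induction h with
  | refl => exact ⟨a, le_antisymm ha hb, ReflTransGen.refl, ReflTransGen.refl⟩
  | @tail c d hac hcd ih =>
    by_cases hdt : g d = t
    · exact ⟨d, hdt, hac.tail hcd, ReflTransGen.refl⟩
    · have hlt : t < g d := lt_of_le_of_ne hb (Ne.symm hdt)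
      have := hg c d hcd
      obtain ⟨u, h1, h2, h3⟩ := ih (by omega)
      exact ⟨u, h1, h2, h3.tail ⟨hcd, hlt⟩⟩

/-- **crossing of a band**: a path from `{g ≤ n}` to `{N ≤ g}` contains a path from `{g = n}` to `{g = N}` all of whose steps start in `{n ≤ g < N}` and end in `{n < g ≤ N}` -/
theorem pnk_cross (hg : ∀ x y, r x y → g y ≤ g x + 1) {a b : α} (h : ReflTransGen r a b) {n N : ℤ} (hnN : n ≤ N) (ha : g a ≤ n) (hb : N ≤ g b) :
    ∃ u v, g u = n ∧ g v = N ∧ ReflTransGen r a u ∧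
      ReflTransGen (fun x y => r x y ∧ (n ≤ g x ∧ g x < N) ∧ (n < g y ∧ g y ≤ N)) u v ∧ ReflTransGen r v b := by
  obtain ⟨v, v1, v2, v3⟩ := pnk_first hg h (ha.trans hnN) hb
  obtain ⟨u, u1, u2, u3⟩ := pnk_last (r := fun x y => r x y ∧ g x < N) (fun x y hxy => hg x y hxy.1) v2 ha (by omega)
  refine ⟨u, v, u1, v1, u2.lift id (fun _ _ hxy => hxy.1), u3.lift id (fun x y hxy => ?_), v3⟩
  have := hg x y hxy.1.1
  have h1 := hxy.1.2
  have h2 := hxy.2
  show r x y ∧ (n ≤ g x ∧ g x < N) ∧ (n < g y ∧ g y ≤ N)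
  exact ⟨hxy.1.1, ⟨by omega, h1⟩, h2, by omega⟩

end ivt

/-! set forms, any graph -/

section setivt
variable {V : Type*} {G : SimpleGraph V} {S : Set V} {g : V → ℤ}

theorem pnk_R_ivt (hg : ∀ x y, G.Adj x y → g y ≤ g x + 1) {a b : V} (h : TscR G S a b) {t : ℤ} (ha : g a ≤ t) (hb : t ≤ g b) :
    ∃ u, g u = t ∧ TscR G S a u ∧ TscR G S u b :=
  pnk_ivt (fun x y hxy => hg x y hxy.1) h ha hb

/-- a path inside `S` from `{g ≤ n}` to `{N ≤ g}` contains a crossing of the band inside `S` -/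
theorem pnk_R_cross (hg : ∀ x y, G.Adj x y → g y ≤ g x + 1) {a b : V} (h : TscR G S a b) {n N : ℤ} (hnN : n ≤ N) (ha : g a ≤ n) (hb : N ≤ g b) :
    ∃ u v, g u = n ∧ g v = N ∧ TscR G S a u ∧ TscR G (S ∩ {w | n ≤ g w ∧ g w ≤ N}) u v ∧ TscR G S v b := by
  obtain ⟨u, v, h1, h2, h3, h4, h5⟩ := pnk_cross (fun x y hxy => hg x y hxy.1) h hnN ha hb
  refine ⟨u, v, h1, h2, h3, h4.lift id (fun x y hxy => ?_), h5⟩
  exact ⟨hxy.1.1, ⟨hxy.1.2.1, hxy.2.1.1, hxy.2.1.2.le⟩, ⟨hxy.1.2.2, hxy.2.2.1.le, hxy.2.2.2⟩⟩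

end setivt

/-! ### 2b. crossings between two SETS (for real valued or irregular "levels") -/

section between
variable {α : Type*} {r : α → α → Prop}

/-- first entrance into `Out`: every earlier step starts outside `Out` -/
theorem pnk_first_set {Out : Set α} {a b : α} (h : ReflTransGen r a b) (hb : b ∈ Out) :
    ∃ v, v ∈ Out ∧ ReflTransGen (fun x y => r x y ∧ x ∉ Out) a v ∧ ReflTransGen r v b := by
  induction h using ReflTransGen.head_induction_on with
  | refl => exact ⟨b, hb, ReflTransGen.refl, ReflTransGen.refl⟩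
  | @head a c hac hcb ih =>
    by_cases ha : a ∈ Out
    · exact ⟨a, ha, ReflTransGen.refl, ReflTransGen.head hac hcb⟩
    · obtain ⟨v, h1, h2, h3⟩ := ih
      exact ⟨v, h1, ReflTransGen.head ⟨hac, ha⟩ h2, h3⟩

/-- last exit from `In`: every later step ends outside `In` -/
theorem pnk_last_set {In : Set α} {a b : α} (h : ReflTransGen r a b) (ha : a ∈ In) :
    ∃ u, u ∈ In ∧ ReflTransGen r a u ∧ ReflTransGen (fun x y => r x y ∧ y ∉ In) u b := by
  induction h with
  | refl => exact ⟨a, ha, ReflTransGen.refl, ReflTransGen.refl⟩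
  | @tail c d hac hcd ih =>
    by_cases hd : d ∈ In
    · exact ⟨d, hd, hac.tail hcd, ReflTransGen.refl⟩
    · obtain ⟨u, h1, h2, h3⟩ := ih
      exact ⟨u, h1, h2, h3.tail ⟨hcd, hd⟩⟩

/-- **crossing between two sets**: a path from `In` to `Out` contains a path from a point of `In` to a point of `Out` all of whose steps start outside `Out` and end outside `In`
(so all its points except the two ends are in neither set) -/
theorem pnk_between {In Out : Set α} {a b : α} (h : ReflTransGen r a b) (ha : a ∈ In) (hb : b ∈ Out) :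
    ∃ u v, u ∈ In ∧ v ∈ Out ∧ ReflTransGen r a u ∧ ReflTransGen (fun x y => r x y ∧ x ∉ Out ∧ y ∉ In) u v ∧ ReflTransGen r v b := by
  obtain ⟨v, v1, v2, v3⟩ := pnk_first_set h hb
  obtain ⟨u, u1, u2, u3⟩ := pnk_last_set v2 ha
  exact ⟨u, v, u1, v1, u2.lift id (fun _ _ hxy => hxy.1), u3.lift id (fun _ _ hxy => ⟨hxy.1.1, hxy.1.2, hxy.2⟩), v3⟩

end between

/-- set form: the crossing stays in `S`, and off its two ends it avoids `In ∪ Out` -/
theorem pnk_R_between {V : Type*} {G : SimpleGraph V} {S In Out : Set V} {a b : V} (h : TscR G S a b) (ha : a ∈ In) (hb : b ∈ Out) :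
    ∃ u v, u ∈ In ∧ v ∈ Out ∧ TscR G S a u ∧ TscR G (S ∩ ({u, v} ∪ (In ∪ Out)ᶜ)) u v ∧ TscR G S v b := by
  obtain ⟨u, v, h1, h2, h3, h4, h5⟩ := pnk_between h ha hb
  refine ⟨u, v, h1, h2, h3, ?_, h5⟩
  -- invariant: the path up to `c` lives in `{u, c} ∪ (In ∪ Out)ᶜ`
  have key : ∀ c, ReflTransGen (fun x y => TscStep G S x y ∧ x ∉ Out ∧ y ∉ In) u c →
      TscR G (S ∩ ({u, c} ∪ (In ∪ Out)ᶜ)) u c ∧ (c = u ∨ c ∉ In) := by
    intro c hc
    induction hc with
    | refl => exact ⟨ReflTransGen.refl, Or.inl rfl⟩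
    | @tail c d _ hcd ih =>
      obtain ⟨i1, i2⟩ := ih
      have hc' : c ∈ ({u, d} : Set V) ∪ (In ∪ Out)ᶜ := by
        rcases i2 with rfl | hcI
        · exact Or.inl (Or.inl rfl)
        · exact Or.inr (fun hh => hh.elim hcI hcd.2.1)
      refine ⟨?_, Or.inr hcd.2.2⟩
      refine ReflTransGen.tail (tsc_R_mono ?_ i1) ⟨hcd.1.1, ⟨hcd.1.2.1, hc'⟩, ⟨hcd.1.2.2, Or.inl (Or.inr rfl)⟩⟩
      rintro x ⟨hxS, hx⟩
      refine ⟨hxS, ?_⟩
      rcases hx with (rfl | hxc) | hx
      · exact Or.inl (Or.inl rfl)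
      · rw [Set.mem_singleton_iff] at hxc
        rw [hxc]; exact hc'
      · exact Or.inr hx
  exact (key v h4).1

/-! ### 3. the centres of a necklace -/

theorem pnk_N_top {t R : ℕ} (h : t ≤ R) : latN (-(t : ℤ), (R : ℤ)) = R := by
  unfold latN
  simp only
  omega

theorem pnk_rot_inv {k : ℕ} (hk : k < 6) : ∃ k', k' < 6 ∧ ∀ w : TV, latRot^[k'] (latRot^[k] w) = w := by
  refine ⟨(6 - k) % 6, Nat.mod_lt _ (by norm_num), fun w => ?_⟩
  interval_cases k <;> simp [latRot]

/-- normal form: every site is a rotated copy of a site `(-t, R)`, `0 ≤ t ≤ R`, of the top side of its sphere -/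
theorem pnk_top (w : TV) : ∃ k, k < 6 ∧ ∃ t : ℕ, t ≤ latN w ∧ w = latRot^[k] (-(t : ℤ), (latN w : ℤ)) := by
  obtain ⟨k, hk, hH⟩ := plf_H_ex w
  obtain ⟨k', hk', hinv⟩ := pnk_rot_inv hk
  have hN : latN (latRot^[k] w) = latN w := plf_N_rot_iter k w
  have h2 : (latRot^[k] w).2 = latN w := hH
  have hb := (pnk_N_le (u := latRot^[k] w) (r := latN w)).1 hN.le
  refine ⟨k', hk', (-(latRot^[k] w).1).toNat, by omega, ?_⟩
  have e : (-(((-(latRot^[k] w).1).toNat : ℕ) : ℤ), (latN w : ℤ)) = latRot^[k] w := by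
    rw [Prod.ext_iff]
    refine ⟨?_, h2.symm⟩
    simp only
    omega
  rw [e, hinv]

/-- the centres: `R / m + 1` sites on each of the six sides of the sphere of radius `R` about `c` -/
def pnkCen (c : TV) (R m : ℕ) : Finset TV :=
  (Finset.range 6 ×ˢ Finset.range (R / m + 1)).image (fun p => c + latRot^[p.1] (-((p.2 * m : ℕ) : ℤ), (R : ℤ)))

theorem pnk_cen_card (c : TV) (R m : ℕ) : (pnkCen c R m).card ≤ 6 * (R / m + 1) := by
  refine Finset.card_image_le.trans ?_
  rw [Finset.card_product, Finset.card_range, Finset.card_range]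

theorem pnk_cen_N {c z : TV} {R m : ℕ} (hz : z ∈ pnkCen c R m) : latN (z - c) = R := by
  obtain ⟨⟨k, j⟩, hp, rfl⟩ := Finset.mem_image.1 hz
  rw [Finset.mem_product, Finset.mem_range, Finset.mem_range] at hp
  rw [add_sub_cancel_left, plf_N_rot_iter]
  exact pnk_N_top ((Nat.mul_le_mul_right m (Nat.lt_succ_iff.1 hp.2)).trans (Nat.div_mul_le_self R m))

theorem pnk_cen_shift (a c : TV) (R m : ℕ) : pnkCen (c + a) R m = (pnkCen c R m).image (· + a) := by
  unfold pnkCen
  rw [Finset.image_image]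
  refine Finset.image_congr fun p _ => ?_
  simp only [Function.comp]
  abel

/-- every site of the sphere is at distance `< m` of a centre -/
theorem pnk_cen_cover {c u : TV} {R m : ℕ} (hm : 1 ≤ m) (hu : latN (u - c) = R) : ∃ z ∈ pnkCen c R m, latN (u - z) < m := by
  obtain ⟨k, hk, t, ht, hw⟩ := pnk_top (u - c)
  rw [hu] at ht hw
  refine ⟨c + latRot^[k] (-(((t / m) * m : ℕ) : ℤ), (R : ℤ)), Finset.mem_image.2 ⟨(k, t / m), ?_, rfl⟩, ?_⟩
  · rw [Finset.mem_product, Finset.mem_range, Finset.mem_range]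
    exact ⟨hk, Nat.lt_succ_iff.2 (Nat.div_le_div_right ht)⟩
  · rw [← sub_sub, hw, ← pnk_rot_iter_sub, plf_N_rot_iter]
    have h1 : t / m * m + t % m = t := Nat.div_add_mod' t m
    have h2 : t % m < m := Nat.mod_lt _ hm
    generalize t / m * m = q at h1
    generalize t % m = q' at h1 h2
    unfold latN
    simp only [Prod.mk_sub_mk, sub_self]
    omega

/-- a neighbour one step further from the origin -/
theorem pnk_N_up (w : TV) : ∃ w', triAdj w w' ∧ latN w' = latN w + 1 := by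
  obtain ⟨k, hk, t, ht, hw⟩ := pnk_top w
  refine ⟨latRot^[k] (-(t : ℤ), ((latN w + 1 : ℕ) : ℤ)), ?_, ?_⟩
  · conv_lhs => rw [hw]
    refine plf_rot_iter_adj k _ _ ?_
    rw [tsc_adj_iff]
    push_cast
    simp
  · rw [plf_N_rot_iter]
    exact pnk_N_top (by omega)

/-- a neighbour one step closer to the origin -/
theorem pnk_N_down {w : TV} (h : 0 < latN w) : ∃ w', triAdj w w' ∧ latN w' + 1 = latN w := by
  obtain ⟨k, hk, t, ht, hw⟩ := pnk_top w
  obtain ⟨R, hR⟩ : ∃ R, latN w = R + 1 := ⟨latN w - 1, by omega⟩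
  rw [hR] at hw ht ⊢
  by_cases htR : t = R + 1
  · refine ⟨latRot^[k] (-(R : ℤ), (R : ℤ)), ?_, ?_⟩
    · conv_lhs => rw [hw]
      refine plf_rot_iter_adj k _ _ ?_
      rw [tsc_adj_iff, htR]
      push_cast
      omega
    · rw [plf_N_rot_iter, pnk_N_top le_rfl]
  · refine ⟨latRot^[k] (-(t : ℤ), (R : ℤ)), ?_, ?_⟩
    · conv_lhs => rw [hw]
      refine plf_rot_iter_adj k _ _ ?_
      rw [tsc_adj_iff]
      push_cast
      omega
    · rw [plf_N_rot_iter, pnk_N_top (by omega)]

theorem pnk_proj_out (w : TV) (h : ℕ) : ∃ w', latN w' = latN w + h ∧ latN (w - w') ≤ h := by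
  induction h with
  | zero => exact ⟨w, rfl, by rw [sub_self, pnk_N_zero]⟩
  | succ h ih =>
    obtain ⟨w1, h1, h2⟩ := ih
    obtain ⟨w2, h3, h4⟩ := pnk_N_up w1
    refine ⟨w2, by omega, ?_⟩
    have := pnk_N_tri w w1 w2
    rw [pnk_N_sub_comm w1 w2, pnk_N_adj.1 h3] at this
    omega

theorem pnk_proj_in (w : TV) (h : ℕ) (hh : h ≤ latN w) : ∃ w', latN w' + h = latN w ∧ latN (w - w') ≤ h := by
  induction h with
  | zero => exact ⟨w, rfl, by rw [sub_self, pnk_N_zero]⟩
  | succ h ih =>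
    obtain ⟨w1, h1, h2⟩ := ih (by omega)
    obtain ⟨w2, h3, h4⟩ := pnk_N_down (w := w1) (by omega)
    refine ⟨w2, by omega, ?_⟩
    have := pnk_N_tri w w1 w2
    rw [pnk_N_sub_comm w1 w2, pnk_N_adj.1 h3] at this
    omega

/-- thick spheres: every site with `R - h ≤ latN (u - c) ≤ R + h` is at distance `< m + h` of a centre -/
theorem pnk_cen_coverH {c u : TV} {R m h : ℕ} (hm : 1 ≤ m) (h1 : R ≤ latN (u - c) + h) (h2 : latN (u - c) ≤ R + h) :
    ∃ z ∈ pnkCen c R m, latN (u - z) < m + h := by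
  obtain ⟨w', hw1, hw2⟩ : ∃ w', latN w' = R ∧ latN (u - c - w') ≤ h := by
    rcases le_total (latN (u - c)) R with hle | hle
    · obtain ⟨w', e1, e2⟩ := pnk_proj_out (u - c) (R - latN (u - c))
      exact ⟨w', by omega, by omega⟩
    · obtain ⟨w', e1, e2⟩ := pnk_proj_in (u - c) (latN (u - c) - R) (by omega)
      exact ⟨w', by omega, by omega⟩
  obtain ⟨z, hz, hlt⟩ := pnk_cen_cover (c := c) (u := c + w') (R := R) hm (by rw [add_sub_cancel_left]; exact hw1)
  refine ⟨z, hz, ?_⟩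
  have := pnk_N_tri u (c + w') z
  rw [← sub_sub] at this
  omega

/-! ### 4. necklaces -/

/-- abstract form, TEX[sec2_146 (N)]: if the level `{g = t}` is covered by the sets `In j`, and no path leads from `In j` to `Out j`, then no path leads from `{g ≤ t}` to a point of `{t ≤ g}` which lies in all the `Out j` -/
theorem pnk_sep {α ι : Type*} {r : α → α → Prop} {g : α → ℤ} (hg : ∀ x y, r x y → g y ≤ g x + 1) {t : ℤ} (In Out : ι → Set α)
    (hcov : ∀ u, g u = t → ∃ j, u ∈ In j) (hsep : ∀ j, ∀ u ∈ In j, ∀ v ∈ Out j, ¬ ReflTransGen r u v)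
    {a o : α} (ha : g a ≤ t) (ho : t ≤ g o) (hout : ∀ j, o ∈ Out j) : ¬ ReflTransGen r a o := by
  intro h
  obtain ⟨u, h1, _, h3⟩ := pnk_ivt hg h ha ho
  obtain ⟨j, hj⟩ := hcov u h1
  exact hsep j u hj o (hout j) h3

/-- mirror form: the starting point lies in all the `Out j` -/
theorem pnk_sep' {α ι : Type*} {r : α → α → Prop} {g : α → ℤ} (hg : ∀ x y, r x y → g y ≤ g x + 1) {t : ℤ} (In Out : ι → Set α)
    (hcov : ∀ u, g u = t → ∃ j, u ∈ In j) (hsep : ∀ j, ∀ u ∈ In j, ∀ v ∈ Out j, ¬ ReflTransGen r v u)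
    {a o : α} (ha : g a ≤ t) (ho : t ≤ g o) (hout : ∀ j, a ∈ Out j) : ¬ ReflTransGen r a o := by
  intro h
  obtain ⟨u, h1, h2, _⟩ := pnk_ivt hg h ha ho
  obtain ⟨j, hj⟩ := hcov u h1
  exact hsep j u hj a (hout j) h2

/-- **NECKLACE, relation form**, TEX[T23_CHAIN A7 (R2)].   `r` any symmetric relation on the sites whose steps join equal or adjacent sites (invasion steps through cells, steps inside a set, ...).
A path from `Λ_R(c)` to the complement of `Λ_{R-1}(c)`, one end of which is at distance `≥ L` of the sphere of radius `R`, contains for some centre `z` a crossing of `Λ_L(z) \ Λ_{m-1}(z)` from the sphere of radius `m`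
to the sphere of radius `L` about `z`; every step of the crossing STARTS at distance `< L` of `z` (so the cells used lie inside `Λ_L(z)`). -/
theorem pnk_neck_rel {r : TV → TV → Prop} (hr : ∀ x y, r x y → x = y ∨ triAdj x y) (hs : ∀ x y, r x y → r y x)
    {c : TV} {R m L : ℕ} (hm : 1 ≤ m) (hmL : m ≤ L) {a b : TV} (hab : ReflTransGen r a b)
    (ha : latN (a - c) ≤ R) (hb : R ≤ latN (b - c)) (hfar : latN (a - c) + L ≤ R ∨ R + L ≤ latN (b - c)) :
    ∃ z ∈ pnkCen c R m, ∃ u v, latN (u - z) = m ∧ latN (v - z) = L ∧ ReflTransGen r a u ∧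
      ReflTransGen (fun x y => r x y ∧ (m ≤ latN (x - z) ∧ latN (x - z) < L) ∧ (m < latN (y - z) ∧ latN (y - z) ≤ L)) u v := by
  have hlip : ∀ z : TV, ∀ x y, r x y → ((latN (y - z) : ℕ) : ℤ) ≤ ((latN (x - z) : ℕ) : ℤ) + 1 := by
    intro z x y hxy
    rcases hr x y hxy with rfl | h
    · omega
    · exact pnk_N_lip z h
  obtain ⟨p, p1, p2, p3⟩ := pnk_ivt (g := fun w => ((latN (w - c) : ℕ) : ℤ)) (hlip c) hab (t := (R : ℤ))
    (by exact_mod_cast ha) (by exact_mod_cast hb)
  have p1' : latN (p - c) = R := by exact_mod_cast p1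
  obtain ⟨z, hz, hpz⟩ := pnk_cen_cover hm p1'
  have hzc := pnk_cen_N hz
  -- a far end `e`, joined to `p`
  obtain ⟨e, he1, he2⟩ : ∃ e, ReflTransGen r p e ∧ L ≤ latN (e - z) := by
    rcases hfar with h | h
    · refine ⟨a, pnk_rtg_symm hs p2, ?_⟩
      have := pnk_N_tri z a c
      rw [pnk_N_sub_comm z a] at this
      omega
    · refine ⟨b, p3, ?_⟩
      have := pnk_N_tri b z c
      omega
  obtain ⟨u, v, h1, h2, h3, h4, _⟩ := pnk_cross (g := fun w => ((latN (w - z) : ℕ) : ℤ)) (hlip z) he1 (n := (m : ℤ)) (N := (L : ℤ))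
    (by exact_mod_cast hmL) (by show ((latN (p - z) : ℕ) : ℤ) ≤ (m : ℤ); omega) (by exact_mod_cast he2)
  refine ⟨z, hz, u, v, by exact_mod_cast h1, by exact_mod_cast h2, p2.trans h3, h4.lift id fun x y hxy => ?_⟩
  obtain ⟨q1, ⟨q2, q3⟩, q4, q5⟩ := hxy
  exact ⟨q1, ⟨by exact_mod_cast q2, by exact_mod_cast q3⟩, by exact_mod_cast q4, by exact_mod_cast q5⟩

/-- **NECKLACE, set form**: a path inside `S` contains a crossing inside `S` of a small annulus centred on the sphere of radius `R` -/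
theorem pnk_neck {S : Set TV} {c : TV} {R m L : ℕ} (hm : 1 ≤ m) (hmL : m ≤ L) {a b : TV} (hab : TscR tscG S a b)
    (ha : latN (a - c) ≤ R) (hb : R ≤ latN (b - c)) (hfar : latN (a - c) + L ≤ R ∨ R + L ≤ latN (b - c)) :
    ∃ z ∈ pnkCen c R m, ∃ u v, latN (u - z) = m ∧ latN (v - z) = L ∧ TscR tscG S a u ∧
      TscR tscG (S ∩ {w | m ≤ latN (w - z) ∧ latN (w - z) ≤ L}) u v := by
  obtain ⟨z, hz, u, v, h1, h2, h3, h4⟩ := pnk_neck_rel (r := TscStep tscG S) (fun x y hxy => Or.inr hxy.1)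
    (fun x y hxy => tsc_step_symm hxy) hm hmL hab ha hb hfar
  refine ⟨z, hz, u, v, h1, h2, h3, h4.lift id fun x y hxy => ?_⟩
  exact ⟨hxy.1.1, ⟨hxy.1.2.1, hxy.2.1.1, hxy.2.1.2.le⟩, ⟨hxy.1.2.2, hxy.2.2.1.le, hxy.2.2.2⟩⟩

/-- **blocked beads block the necklace**: if no small annulus `Λ_L(z) \ Λ_{m-1}(z)`, `z ∈ pnkCen c R m`, is crossed inside `S`, then `S` contains no path from `Λ_n(c)` to the complement of `Λ_{N-1}(c)` -/
theorem pnk_neck_block {S : Set TV} {c : TV} {R m L n N : ℕ} (hm : 1 ≤ m) (hmL : m ≤ L) (hnR : n ≤ R) (hRN : R ≤ N)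
    (hfar : n + L ≤ R ∨ R + L ≤ N)
    (hblk : ∀ z ∈ pnkCen c R m, ∀ u v, latN (u - z) = m → latN (v - z) = L →
      ¬ TscR tscG (S ∩ {w | m ≤ latN (w - z) ∧ latN (w - z) ≤ L}) u v)
    {a b : TV} (ha : latN (a - c) ≤ n) (hb : N ≤ latN (b - c)) : ¬ TscR tscG S a b := by
  intro hab
  obtain ⟨z, hz, u, v, h1, h2, _, h4⟩ := pnk_neck hm hmL hab (ha.trans hnR) (hRN.trans hb)
    (by rcases hfar with h | h
        · exact Or.inl (by omega)
        · exact Or.inr (by omega))
  exact hblk z hz u v h1 h2 h4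

/-- the beads lie inside the annulus `Λ_{R+L}(c) \ Λ_{R-L-1}(c)` -/
theorem pnk_bead_sub {c z : TV} {R m L : ℕ} (hz : z ∈ pnkCen c R m) : latBall z L ⊆ latBall c (R + L) :=
  pnk_ball_sub (by rw [pnk_cen_N hz])

theorem pnk_bead_far {c z : TV} {R m L n : ℕ} (hz : z ∈ pnkCen c R m) (h : L + n < R) : Disjoint (latBall z L) (latBall c n) :=
  pnk_ball_far (by rw [pnk_cen_N hz]; exact h)

/-- the number of beads is bounded in terms of the ratio only -/
theorem pnk_cen_card_ratio (c : TV) {R m q : ℕ} (h : R ≤ q * m) : (pnkCen c R m).card ≤ 6 * (q + 1) := by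
  refine (pnk_cen_card c R m).trans (Nat.mul_le_mul_left 6 (Nat.succ_le_succ ?_))
  exact Nat.div_le_of_le_mul (by rwa [Nat.mul_comm] at h)

end Claimed.Agent.R291
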