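import Claimed.Agent.R291.Pl.Deep
import Claimed.Agent.R291.Defs.RswStrip

/-!
# Row 291 (S0539), unit PLA / ANN A3-II (L), Pl/RecFlip : THE HORIZONTAL REFLECTION ON THE INDEX LATTICE (class `false` ⟶ class `true`)      (owner helper105; prefix `hxf_`)

The reflection of the SITES `hxfS (u, v) = (u + v, - v)` (it preserves the abscissa `X = 2 u + v` and flips the rows) exchanges up cells and down cells:
`hxfS '' cellD z = cellV (hxfD z)`, `hxfD z = (z.1 + z.2 + 1, - z.2 - 1)`;   inverse on the indices: `hxfU z = (z.1 + z.2, - z.2 - 1)`.   `X (hxfD z) = X z + 1`.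

* `hxf_sol`      `hxrSol` under an automorphism of a graph
* `hxf_AA`, `hxf_CC`, `hxf_Q`, `hxf_D`, `hxf_B`   the solid sides, the strip and its ends
* `hxf_cr`, **`hxf_pair`**   `HxrCr`, `HxrPair` (feet and heads exchanged)
* `hxf_T1`, `hxf_T2`   index distance
-/

set_option autoImplicit false
set_option linter.unusedSectionVars false
set_option linter.unusedVariables false
set_option linter.unusedSimpArgs false

namespace Claimed.Agent.R291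

open Relation Claims Claims.C0467

/-! ## §1 automorphisms of a graph -/

section abs

variable {V : Type*} {G : SimpleGraph V}

/-- an automorphism with its inverse -/
structure HxfAut (G : SimpleGraph V) (e e' : V → V) : Prop where
  l : ∀ v, e' (e v) = v
  r : ∀ v, e (e' v) = v
  adj : ∀ u v, G.Adj u v → G.Adj (e u) (e v)
  adj' : ∀ u v, G.Adj u v → G.Adj (e' u) (e' v)

theorem HxfAut.symm {e e' : V → V} (h : HxfAut G e e') : HxfAut G e' e := ⟨h.r, h.l, h.adj', h.adj⟩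

theorem hxf_mem {e e' : V → V} (h : HxfAut G e e') (S : Set V) (v : V) : v ∈ e '' S ↔ e' v ∈ S := by
  constructor
  · rintro ⟨x, hx, rfl⟩
    rwa [h.l]
  · intro hv
    exact ⟨e' v, hv, h.r v⟩

theorem hxf_mem' {e e' : V → V} (h : HxfAut G e e') (S : Set V) (v : V) : e v ∈ e '' S ↔ v ∈ S := by
  rw [hxf_mem h, h.l]

theorem hxf_sdiff {e e' : V → V} (h : HxfAut G e e') (S T : Set V) : e '' S \ e '' T = e '' (S \ T) := by
  ext v
  simp only [Set.mem_sdiff, hxf_mem h]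

theorem hxf_union {e : V → V} (S T : Set V) : e '' S ∪ e '' T = e '' (S ∪ T) := (Set.image_union e S T).symm

theorem hxf_R {e e' : V → V} (h : HxfAut G e e') (S : Set V) (u v : V) : TscR G (e '' S) (e u) (e v) ↔ TscR G S u v := by
  constructor
  · intro hp
    have := tsc_R_map (G' := G) e' h.adj' hp
    rw [h.l, h.l] at this
    refine tsc_R_mono ?_ this
    rintro _ ⟨_, ⟨x, hx, rfl⟩, rfl⟩
    rwa [h.l]
  · exact tsc_R_map (G' := G) e h.adj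

theorem hxf_conn {e e' : V → V} (h : HxfAut G e e') {S : Set V} (hS : TscConn G S) : TscConn G (e '' S) := tsc_conn_map (G' := G) e h.adj hS

/-- **the solid side under an automorphism** -/
theorem hxf_sol {e e' : V → V} (h : HxfAut G e e') (Bd a T : Set V) : hxrSol G (e '' Bd) (e '' a) (e '' T) = e '' hxrSol G Bd a T := by
  ext v
  rw [hxf_mem h]
  constructor
  · rintro ⟨h1, h2⟩
    refine ⟨(hxf_mem h _ _).1 h1, fun t ht hp => h2 (e t) ⟨t, ht, rfl⟩ ?_⟩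
    rw [hxf_sdiff h]
    have := (hxf_R h (Bd \ a) (e' v) t).2 hp
    rwa [h.r] at this
  · rintro ⟨h1, h2⟩
    refine ⟨(hxf_mem h _ _).2 h1, ?_⟩
    rintro _ ⟨t, ht, rfl⟩ hp
    rw [hxf_sdiff h, ← h.r v, hxf_R h] at hp
    exact h2 t ht hp

end abs

/-! ## §2 the reflection -/

/-- the reflection of the sites -/
def hxfS (v : ℤ × ℤ) : ℤ × ℤ := (v.1 + v.2, -v.2)

/-- index of a down cell ⟼ index of the up cell which is its mirror image -/
def hxfD (z : ℤ × ℤ) : ℤ × ℤ := (z.1 + z.2 + 1, -z.2 - 1)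

/-- index of an up cell ⟼ index of the down cell which is its mirror image -/
def hxfU (z : ℤ × ℤ) : ℤ × ℤ := (z.1 + z.2, -z.2 - 1)

theorem hxf_eqns_cite : True := by
  have := @hxfS.eq_1
  have := @hxfD.eq_1
  have := @hxfU.eq_1
  trivial

theorem hxf_S_S (v : ℤ × ℤ) : hxfS (hxfS v) = v := by
  ext <;> simp [hxfS]

theorem hxf_U_D (v : ℤ × ℤ) : hxfU (hxfD v) = v := by
  ext <;> simp [hxfU, hxfD] <;> ring

theorem hxf_D_U (v : ℤ × ℤ) : hxfD (hxfU v) = v := by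
  ext <;> simp [hxfU, hxfD] <;> ring

theorem hxf_S_adj (u v : ℤ × ℤ) (h : triAdj u v) : triAdj (hxfS u) (hxfS v) := by
  rw [tsc_adj_iff] at *
  simp only [hxfS]
  omega

theorem hxf_D_adj (u v : ℤ × ℤ) (h : triAdj u v) : triAdj (hxfD u) (hxfD v) := by
  rw [tsc_adj_iff] at *
  simp only [hxfD]
  omega

theorem hxf_U_adj (u v : ℤ × ℤ) (h : triAdj u v) : triAdj (hxfU u) (hxfU v) := by
  rw [tsc_adj_iff] at *
  simp only [hxfU]
  omega

theorem hxf_aut_S : HxfAut tscG hxfS hxfS := ⟨hxf_S_S, hxf_S_S, hxf_S_adj, hxf_S_adj⟩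

theorem hxf_aut_D : HxfAut tscG hxfD hxfU := ⟨hxf_U_D, hxf_D_U, hxf_D_adj, hxf_U_adj⟩

theorem hxf_aut_U : HxfAut tscG hxfU hxfD := hxf_aut_D.symm

theorem hxf_S_X (v : ℤ × ℤ) : hxsX (hxfS v) = hxsX v := by
  simp only [hxsX, hxfS]; ring

theorem hxf_D_X (v : ℤ × ℤ) : hxsX (hxfD v) = hxsX v + 1 := by
  simp only [hxsX, hxfD]; ring

theorem hxf_U_X (v : ℤ × ℤ) : hxsX (hxfU v) = hxsX v - 1 := by
  simp only [hxsX, hxfU]; ring

theorem hxf_D_snd (v : ℤ × ℤ) : (hxfD v).2 = -v.2 - 1 := rfl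

theorem hxf_U_snd (v : ℤ × ℤ) : (hxfU v).2 = -v.2 - 1 := rfl

/-- the mirror image of a down cell is an up cell -/
theorem hxf_cell_D (z : ℤ × ℤ) : (cellD z).image hxfS = cellV (hxfD z) := by
  ext v
  simp only [cellD, cellV, Finset.image_insert, Finset.image_singleton, Finset.mem_insert, Finset.mem_singleton, Prod.ext_iff, Prod.fst_add,
    Prod.snd_add, hxfS, hxfD]
  omega

/-- the mirror image of an up cell is a down cell -/
theorem hxf_cell_V (z : ℤ × ℤ) : (cellV z).image hxfS = cellD (hxfU z) := by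
  ext v
  simp only [cellD, cellV, Finset.image_insert, Finset.image_singleton, Finset.mem_insert, Finset.mem_singleton, Prod.ext_iff, Prod.fst_add,
    Prod.snd_add, hxfS, hxfU]
  omega

theorem hxf_mem_cell {z v : ℤ × ℤ} : hxfS v ∈ cellV (hxfD z) ↔ v ∈ cellD z := by
  rw [← hxf_cell_D, Finset.mem_image]
  constructor
  · rintro ⟨w, hw, e⟩
    have : w = v := by rw [← hxf_S_S w, e, hxf_S_S]
    exact this ▸ hw
  · intro h
    exact ⟨v, h, rfl⟩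

/-- the vertical mirrors commute with the reflection -/
theorem hxf_D_M (μ : ℤ) (z : ℤ × ℤ) : hxfD (hxsM μ z) = hxsM (μ + 1) (hxfD z) := by
  ext <;> simp [hxfD, hxsM] <;> ring

/-! ## §3 band, far sets, solid sides, strip -/

variable {y0 y1 xm xM : ℤ} {a c : Set (ℤ × ℤ)} {pa qa pc qc p q : ℤ × ℤ}

theorem hxf_band (y0 y1 : ℤ) : hxfD '' plsBand y0 y1 = plsBand (-y1 - 1) (-y0 - 1) := by
  ext v
  rw [hxf_mem hxf_aut_D]
  simp only [plsBand, hxfU, Set.mem_ofPred_eq]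
  omega

theorem hxf_farR (y0 y1 x : ℤ) : hxfD '' hxrFarR y0 y1 x = hxrFarR (-y1 - 1) (-y0 - 1) (x + 1) := by
  ext v
  rw [hxf_mem hxf_aut_D]
  simp only [hxrFarR, plsBand, hxsX, hxfU, Set.mem_ofPred_eq]
  omega

theorem hxf_farL (y0 y1 x : ℤ) : hxfD '' hxrFarL y0 y1 x = hxrFarL (-y1 - 1) (-y0 - 1) (x + 1) := by
  ext v
  rw [hxf_mem hxf_aut_D]
  simp only [hxrFarL, plsBand, hxsX, hxfU, Set.mem_ofPred_eq]
  omega

theorem hxf_AA (y0 y1 xM : ℤ) (a : Set (ℤ × ℤ)) : hxrAA (-y1 - 1) (-y0 - 1) (xM + 1) (hxfD '' a) = hxfD '' hxrAA y0 y1 xM a := by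
  unfold hxrAA
  rw [← hxf_band, ← hxf_farR, hxf_sol hxf_aut_D]

theorem hxf_CC (y0 y1 xm : ℤ) (c : Set (ℤ × ℤ)) : hxrCC (-y1 - 1) (-y0 - 1) (xm + 1) (hxfD '' c) = hxfD '' hxrCC y0 y1 xm c := by
  unfold hxrCC
  rw [← hxf_band, ← hxf_farL, hxf_sol hxf_aut_D]

theorem hxf_Q (y0 y1 xm xM : ℤ) (a c : Set (ℤ × ℤ)) :
    hxrQ (-y1 - 1) (-y0 - 1) (xm + 1) (xM + 1) (hxfD '' a) (hxfD '' c) = hxfD '' hxrQ y0 y1 xm xM a c := by
  unfold hxrQ
  rw [hxf_AA, hxf_CC, ← hxf_band, hxf_union, hxf_sdiff hxf_aut_D]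

/-- the bottom end of the reflected strip is the image of the top end -/
theorem hxf_D (y0 y1 xm xM : ℤ) (a c : Set (ℤ × ℤ)) :
    hxrD (-y1 - 1) (-y0 - 1) (xm + 1) (xM + 1) (hxfD '' a) (hxfD '' c) = hxfD '' hxrB y0 y1 xm xM a c := by
  ext v
  rw [hxf_mem hxf_aut_D]
  unfold hxrD hxrB
  simp only [Set.mem_ofPred_eq]
  rw [hxf_Q, hxf_mem hxf_aut_D, hxf_U_snd]
  constructor <;> rintro ⟨h1, h2⟩ <;> exact ⟨h1, by omega⟩

theorem hxf_B (y0 y1 xm xM : ℤ) (a c : Set (ℤ × ℤ)) :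
    hxrB (-y1 - 1) (-y0 - 1) (xm + 1) (xM + 1) (hxfD '' a) (hxfD '' c) = hxfD '' hxrD y0 y1 xm xM a c := by
  ext v
  rw [hxf_mem hxf_aut_D]
  unfold hxrD hxrB
  simp only [Set.mem_ofPred_eq]
  rw [hxf_Q, hxf_mem hxf_aut_D, hxf_U_snd]
  constructor <;> rintro ⟨h1, h2⟩ <;> exact ⟨h1, by omega⟩

/-! ## §4 crossings, pairs, index distance -/

theorem hxf_cr (H : HxrCr y0 y1 xm xM a p q) : HxrCr (-y1 - 1) (-y0 - 1) (xm + 1) (xM + 1) (hxfD '' a) (hxfD q) (hxfD p) where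
  sub := by
    rw [← hxf_band]
    exact Set.image_mono H.sub
  conn := hxf_conn hxf_aut_D H.conn
  box := by
    rintro _ ⟨z, hz, rfl⟩
    rw [hxf_D_X]
    have := H.box z hz
    omega
  pa := ⟨q, H.qa, rfl⟩
  qa := ⟨p, H.pa, rfl⟩
  p0 := by rw [hxf_D_snd, H.q1]
  q1 := by rw [hxf_D_snd, H.p0]

/-- **the reflected pair** (feet and heads exchanged) -/
theorem hxf_pair (H : HxrPair y0 y1 xm xM a c pa qa pc qc) :
    HxrPair (-y1 - 1) (-y0 - 1) (xm + 1) (xM + 1) (hxfD '' a) (hxfD '' c) (hxfD qa) (hxfD pa) (hxfD qc) (hxfD pc) where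
  A := hxf_cr H.A
  C := hxf_cr H.C
  feet := by
    have := H.heads
    have := H.A.q1
    have := H.C.q1
    simp only [hxfD]
    omega
  heads := by
    have := H.feet
    have := H.A.p0
    have := H.C.p0
    simp only [hxfD]
    omega
  sep := by
    rintro _ ⟨u, hu, rfl⟩ _ ⟨v, hv, rfl⟩
    obtain ⟨s1, s2⟩ := H.sep u hu v hv
    refine ⟨fun h => s1 ?_, fun h => s2 ?_⟩
    · rw [← hxf_U_D u, h, hxf_U_D]
    · have := hxf_U_adj _ _ h
      rwa [hxf_U_D, hxf_U_D] at this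

theorem hxf_T1 (a c : Set (ℤ × ℤ)) : RsgT1 (hxfD '' a) (hxfD '' c) ↔ RsgT1 a c := by
  constructor
  · rintro ⟨_, ⟨u, hu, rfl⟩, _, ⟨v, hv, rfl⟩, h | h⟩
    · exact ⟨u, hu, v, hv, Or.inl (by rw [← hxf_U_D u, h, hxf_U_D])⟩
    · refine ⟨u, hu, v, hv, Or.inr ?_⟩
      have := hxf_U_adj _ _ h
      rwa [hxf_U_D, hxf_U_D] at this
  · rintro ⟨u, hu, v, hv, h | h⟩
    · exact ⟨_, ⟨u, hu, rfl⟩, _, ⟨v, hv, rfl⟩, Or.inl (by rw [h])⟩
    · exact ⟨_, ⟨u, hu, rfl⟩, _, ⟨v, hv, rfl⟩, Or.inr (hxf_D_adj _ _ h)⟩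

theorem hxf_T2 (y0 y1 : ℤ) (a c : Set (ℤ × ℤ)) : RsgT2 (-y1 - 1) (-y0 - 1) (hxfD '' a) (hxfD '' c) ↔ RsgT2 y0 y1 a c := by
  constructor
  · rintro ⟨y, hy, ⟨_, ⟨u, hu, rfl⟩, h1⟩, ⟨_, ⟨v, hv, rfl⟩, h2⟩⟩
    rw [← hxf_band, hxf_mem hxf_aut_D] at hy
    refine ⟨hxfU y, hy, ⟨u, hu, ?_⟩, ⟨v, hv, ?_⟩⟩
    · have := hxf_U_adj _ _ h1
      rwa [hxf_U_D] at this
    · have := hxf_U_adj _ _ h2
      rwa [hxf_U_D] at this
  · rintro ⟨y, hy, ⟨u, hu, h1⟩, ⟨v, hv, h2⟩⟩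
    refine ⟨hxfD y, ?_, ⟨_, ⟨u, hu, rfl⟩, hxf_D_adj _ _ h1⟩, ⟨_, ⟨v, hv, rfl⟩, hxf_D_adj _ _ h2⟩⟩
    rw [← hxf_band]
    exact ⟨y, hy, rfl⟩

end Claimed.Agent.R291
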