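import Mathlib
import Claimed.Agent.R291.Defs.Frozen
import Claimed.Agent.R291.Tool.TriSCLat
import Claimed.Agent.R291.Pl.SetForm

/-!
# Row 291 (S0539), Pl/Extr : EXTREMAL CROSSINGS AS SETS (J6)      (owner helper112; prefix `ple_`)      no sorry

Registry `origin/helper269:notes/R291/pla_269.md` Sec. 2 (`ple_layer`), J6 of `origin/helper121:notes/R291/T23_CHAIN.md`.   No curves, no exploration process.

ABSTRACT PART (any simple graph `G`, region `R`, `P` = "plus" sites, `N = R \ P`):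
* `pleI G N σ`            the `N`-cluster of the side `σ` (sites joined inside `N` to a site of `N ∩ σ`)
* `pleGam G R σ σ' I`     THE LAYER: sites of `Dn := pleI G (R \ I) σ'` (the `σ'`-cluster of `R \ I`) which lie on `σ` or touch `I`
* `PleSide G R σ`         `σ` = sites of `R` touching a connected cone `A` outside `R` with `R ∪ A` simply connected (`TriSCOn (ZMod 2)`)
* `PleQuad G R σ σ' lam rho`   quadrilateral: side, connected opposite side, the two other sides join `σ'` to `σ`, Jordan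
* with `I = pleI G (R \ P) σ` and NO path off `P` from `σ'` to `σ` (`ple_hyp`):
  (a) `ple_gam_sub`  layer ⊆ `R ∩ P`;   (b) `ple_gam_conn`  layer connected;   (c) `ple_gam_left`, `ple_gam_right`  it reaches `lam` and `rho`;   `ple_gam_cross`  it contains a crossing path;
  (d) `ple_gam_meets`  it meets every path inside `R` from `σ'` to `I ∪ σ`;      (e) `ple_I_local`, `ple_I_local_P`  ONE-SIDED MEASURABILITY: `I` (hence the layer) is determined by `P` on `σ ∪ I ∪ ∂I`;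
  (f) `ple_gam_extremal`  every connected crossing inside `R ∩ P` lies in `Dn`;   `ple_dn_bd`  the only exits of `Dn` are through the layer into `I`;      all in one: `ple_layer`
TWO-SIDED (forms of 193 / 20 for A2-(SE)): `J = pleI G (R \\ P) σ'`, `pleMid G R σ σ' P` = MIDDLE REGION (`R` minus `I`, `J`, pockets): `ple_IJ_disj`, `ple_mid_sub`, `ple_mid_gam`, `ple_mid_gam'` (both layers inside),
  `ple_mid_cross` (every connected crossing off `I ∪ J` lies inside), `ple_mid_conn` (connected), `ple_mid_bd` (exits go through the layers into the clusters), `ple_mid_to_gam`,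
  `ple_mid_block` (a path from the layer of `J` to the layer of `I` meets every `lam`-`rho` path off `I ∪ J`), `ple_gam_reach`, `ple_gam_extremal_off`
SOLID SIDE: `pleSolid G R σ σ' I = R \\ (Dn \\ layer)` = layer + cluster + pockets: `ple_solid_conn` (connected), `ple_solid_bd` (faces the free region only through the layer), `ple_solid_gam`, `ple_solid_I`, `ple_solid_side`
BOXES: `pleRow y`, `pleCol x`;  `ple_quad_top` (uppermost LR crossing), `ple_quad_bot` (lowermost), `ple_quad_left` (leftmost BT crossing), `ple_quad_right` (rightmost);  `ple_box_jordan`.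
-/

set_option autoImplicit false

namespace Claimed.Agent.R291

open Claims Claims.C0467 Relation

section abs
variable {V : Type*} {G : SimpleGraph V}

/-- the `N`-cluster of the side `σ`: sites joined inside `N` to a site of `N ∩ σ` -/
def pleI (G : SimpleGraph V) (N σ : Set V) : Set V := {z | ∃ t ∈ N, t ∈ σ ∧ TscR G N t z}

/-- the layer: sites of the `σ'`-cluster of `R \ I` which lie on `σ` or touch `I` -/
def pleGam (G : SimpleGraph V) (R σ σ' I : Set V) : Set V := {z | z ∈ pleI G (R \ I) σ' ∧ (z ∈ σ ∨ ∃ i ∈ I, G.Adj i z)}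

/-- `σ` is a SIDE of `R`: the sites of `R` which touch a connected set `A` outside `R` such that `R ∪ A` is simply connected -/
def PleSide (G : SimpleGraph V) (R σ : Set V) : Prop :=
  ∃ A : Set V, (∀ z ∈ A, z ∉ R) ∧ TscConn G A ∧ TriSCOn (ZMod 2) G (R ∪ A) ∧ ∀ z ∈ R, (∃ α ∈ A, G.Adj α z) ↔ z ∈ σ

variable {N N' R σ σ' P : Set V}

/-- the equation lemmas of the definitions are generated HERE -/
theorem ple_eqns_cite : True := by
  have := @pleI.eq_1.{0}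
  have := @pleGam.eq_1.{0}
  have := @PleSide.eq_1.{0}
  trivial

theorem ple_I_sub : pleI G N σ ⊆ N := by
  rintro z ⟨t, ht, _, h⟩
  exact tsc_R_mem h ht

theorem ple_I_side {t : V} (ht : t ∈ N) (hσ : t ∈ σ) : t ∈ pleI G N σ := ⟨t, ht, hσ, tsc_R_refl _⟩

theorem ple_I_adj {i z : V} (hi : i ∈ pleI G N σ) (hz : z ∈ N) (h : G.Adj i z) : z ∈ pleI G N σ := by
  obtain ⟨t, ht, hσ, hti⟩ := hi
  exact ⟨t, ht, hσ, hti.tail ⟨h, tsc_R_mem hti ht, hz⟩⟩

theorem ple_I_R {i z : V} (hi : i ∈ pleI G N σ) (h : TscR G N i z) : z ∈ pleI G N σ := by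
  obtain ⟨t, ht, hσ, hti⟩ := hi
  exact ⟨t, ht, hσ, tsc_R_trans hti h⟩

/-- a path inside `N` which starts in the cluster is a path inside the cluster -/
theorem ple_I_path {i z : V} (hi : i ∈ pleI G N σ) (h : TscR G N i z) : TscR G (pleI G N σ) i z := by
  induction h with
  | refl => exact ReflTransGen.refl
  | @tail b c hib hbc ih =>
    have hb := ple_I_R hi hib
    exact ih.tail ⟨hbc.1, hb, ple_I_adj hb hbc.2.2 hbc.1⟩

theorem ple_I_mono (h : N ⊆ N') : pleI G N σ ⊆ pleI G N' σ := by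
  rintro z ⟨t, ht, hσ, htz⟩
  exact ⟨t, h ht, hσ, tsc_R_mono h htz⟩

/-- **locality (one-sided measurability)**: the cluster is determined by `N` on the side, on the cluster and on the neighbours of the cluster -/
theorem ple_I_local (h : ∀ z, (z ∈ σ ∨ z ∈ pleI G N σ ∨ ∃ i ∈ pleI G N σ, G.Adj i z) → (z ∈ N ↔ z ∈ N')) :
    pleI G N' σ = pleI G N σ := by
  apply Set.Subset.antisymm
  · rintro z ⟨t, ht, hσ, htz⟩
    have ht' : t ∈ N := (h t (Or.inl hσ)).2 ht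
    induction htz with
    | refl => exact ple_I_side ht' hσ
    | @tail b c _ hbc ih => exact ple_I_adj ih ((h c (Or.inr (Or.inr ⟨b, ih, hbc.1⟩))).2 hbc.2.2) hbc.1
  · rintro z ⟨t, ht, hσ, htz⟩
    have ht' : t ∈ N' := (h t (Or.inl hσ)).1 ht
    have hI : ∀ w, w ∈ pleI G N σ → w ∈ N' := fun w hw => (h w (Or.inr (Or.inl hw))).1 (ple_I_sub hw)
    refine ⟨t, ht', hσ, ?_⟩
    have htI := ple_I_side (G := G) ht hσ
    exact tsc_R_mono hI (ple_I_path htI htz)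

/-- (a) the layer consists of sites of `P` -/
theorem ple_gam_sub : pleGam G R σ σ' (pleI G (R \ P) σ) ⊆ R ∩ P := by
  rintro z ⟨hz, h⟩
  have hz' := ple_I_sub hz
  refine ⟨hz'.1, ?_⟩
  by_contra hP
  rcases h with h | ⟨i, hi, h⟩
  · exact hz'.2 (ple_I_side ⟨hz'.1, hP⟩ h)
  · exact hz'.2 (ple_I_adj hi ⟨hz'.1, hP⟩ h)

theorem ple_gam_sub_dn {I : Set V} : pleGam G R σ σ' I ⊆ pleI G (R \ I) σ' := fun _ h => h.1

/-- the only way out of the lower region is through the cluster, hence through the layer -/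
theorem ple_dn_bd {I : Set V} {z w : V} (hz : z ∈ pleI G (R \ I) σ') (hw : w ∈ R) (hw' : w ∉ pleI G (R \ I) σ') (h : G.Adj z w) :
    w ∈ I ∧ z ∈ pleGam G R σ σ' I := by
  have hwI : w ∈ I := by
    by_contra hI
    exact hw' (ple_I_adj hz ⟨hw, hI⟩ h)
  exact ⟨hwI, hz, Or.inr ⟨w, hwI, h.symm⟩⟩

/-- the technical heart: with the cone `A`, the layer is Timar's layer -/
theorem ple_gam_eq {A : Set V} (hAR : ∀ z ∈ A, z ∉ R) (hσ : ∀ z ∈ R, (∃ α ∈ A, G.Adj α z) ↔ z ∈ σ) {I : Set V}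
    (hσ' : TscConn G (R ∩ σ')) (hI : ∀ z ∈ R ∩ σ', z ∉ I) {x : V} (hx : x ∈ R ∩ σ') :
    (R ∪ A) \ (A ∪ I) = R \ I ∧ pleI G (R \ I) σ' = tscComp G (R \ I) x ∧
    pleGam G R σ σ' I = {d | d ∈ tscComp G ((R ∪ A) \ (A ∪ I)) x ∧ ∃ c ∈ A ∪ I, G.Adj c d} := by
  have e1 : (R ∪ A) \ (A ∪ I) = R \ I := by
    ext z
    constructor
    · rintro ⟨h1 | h1, h2⟩
      · exact ⟨h1, fun h => h2 (Or.inr h)⟩
      · exact absurd (Or.inl h1) h2
    · rintro ⟨h1, h2⟩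
      exact ⟨Or.inl h1, fun h => h.elim (fun h => hAR z h h1) h2⟩
  have hsub : R ∩ σ' ⊆ R \ I := fun z hz => ⟨hz.1, hI z hz⟩
  have e2 : pleI G (R \ I) σ' = tscComp G (R \ I) x := by
    ext z
    constructor
    · rintro ⟨t, ht, htσ, htz⟩
      exact ⟨tsc_R_mem htz ht, tsc_R_trans (tsc_R_mono hsub (hσ' x hx t ⟨ht.1, htσ⟩)) htz⟩
    · rintro ⟨_, hxz⟩
      exact ⟨x, hsub hx, hx.2, hxz⟩
  refine ⟨e1, e2, ?_⟩
  rw [e1]
  ext z
  simp only [pleGam, e2, Set.mem_ofPred_eq]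
  constructor
  · rintro ⟨hz, h | ⟨i, hi, h⟩⟩
    · obtain ⟨α, hα, h⟩ := (hσ z hz.1.1).2 h
      exact ⟨hz, α, Or.inl hα, h⟩
    · exact ⟨hz, i, Or.inr hi, h⟩
  · rintro ⟨hz, c, hc | hc, h⟩
    · exact ⟨hz, Or.inl ((hσ z hz.1.1).1 ⟨c, hc, h⟩)⟩
    · exact ⟨hz, Or.inr ⟨c, hc, h⟩⟩

/-- the cone together with the cluster is connected -/
theorem ple_cone_conn {A : Set V} (hA : TscConn G A) (hσ : ∀ z ∈ R, (∃ α ∈ A, G.Adj α z) ↔ z ∈ σ) (hN : N ⊆ R) :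
    TscConn G (A ∪ pleI G N σ) := by
  have key : ∀ u ∈ A ∪ pleI G N σ, ∃ α ∈ A, TscR G (A ∪ pleI G N σ) u α := by
    rintro u (hu | hu)
    · exact ⟨u, hu, tsc_R_refl _⟩
    · obtain ⟨t, ht, htσ, htu⟩ := hu
      obtain ⟨α, hα, h⟩ := (hσ t (hN ht)).2 htσ
      have htI := ple_I_side (G := G) ht htσ
      refine ⟨α, hα, tsc_R_trans (tsc_R_symm (tsc_R_mono Set.subset_union_right (ple_I_path htI htu))) ?_⟩
      exact tsc_R_step h.symm (Or.inr htI) (Or.inl hα)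
  intro u hu v hv
  obtain ⟨α, hα, h1⟩ := key u hu
  obtain ⟨β, hβ, h2⟩ := key v hv
  exact tsc_R_trans h1 (tsc_R_trans (tsc_R_mono Set.subset_union_left (hA α hα β hβ)) (tsc_R_symm h2))

/-- (b) **the layer is connected** -/
theorem ple_gam_conn (hS : PleSide G R σ) (hσ' : TscConn G (R ∩ σ')) (hI : ∀ z ∈ R ∩ σ', z ∉ pleI G (R \ P) σ) :
    TscConn G (pleGam G R σ σ' (pleI G (R \ P) σ)) := by
  obtain ⟨A, hAR, hA, hsc, hσ⟩ := hS
  have hIR : pleI G (R \ P) σ ⊆ R := fun z hz => (ple_I_sub hz).1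
  by_cases hne : (R ∩ σ').Nonempty
  · obtain ⟨x, hx⟩ := hne
    obtain ⟨_, _, e3⟩ := ple_gam_eq hAR hσ hσ' hI hx
    rw [e3]
    refine tsc_timar_out hsc ?_ (ple_cone_conn hA hσ Set.sdiff_subset) x
    rintro z (hz | hz)
    · exact Or.inr hz
    · exact Or.inl (hIR hz)
  · intro u hu
    obtain ⟨t, ht, htσ, _⟩ := hu.1
    exact absurd ⟨t, ht.1, htσ⟩ hne

/-- (d) **the layer blocks**: every path inside `R` from the side `σ'` to the cluster or to the side `σ` meets the layer -/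
theorem ple_gam_meets (hS : PleSide G R σ) (hσ' : TscConn G (R ∩ σ')) (hI : ∀ z ∈ R ∩ σ', z ∉ pleI G (R \ P) σ)
    {Q : Set V} (hQ : Q ⊆ R) {u v : V} (hu : u ∈ Q) (huσ : u ∈ σ') (hv : v ∈ pleI G (R \ P) σ ∨ v ∈ σ) (huv : TscR G Q u v) :
    (Q ∩ pleGam G R σ σ' (pleI G (R \ P) σ)).Nonempty := by
  obtain ⟨A, hAR, hA, hsc, hσ⟩ := hS
  have hIR : pleI G (R \ P) σ ⊆ R := fun z hz => (ple_I_sub hz).1
  have hx : u ∈ R ∩ σ' := ⟨hQ hu, huσ⟩
  obtain ⟨e1, _, e3⟩ := ple_gam_eq hAR hσ hσ' hI hx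
  rw [e3]
  have hub : u ∈ tscComp G ((R ∪ A) \ (A ∪ pleI G (R \ P) σ)) u := by
    rw [e1]
    exact tsc_comp_self ⟨hx.1, hI u hx⟩
  rcases hv with hv | hv
  · exact tsc_timar_meets hub (Or.inr hv) (hQ.trans Set.subset_union_left) huv
  · have hvQ : v ∈ Q := tsc_R_mem huv hu
    obtain ⟨α, hα, h⟩ := (hσ v (hQ hvQ)).2 hv
    have hpath : TscR G (insert α Q) u α :=
      (tsc_R_mono (Set.subset_insert α Q) huv).tail ⟨h.symm, Set.mem_insert_of_mem α hvQ, Set.mem_insert α Q⟩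
    obtain ⟨w, hw1, hw2⟩ := tsc_timar_meets hub (Or.inl hα) (Set.insert_subset (Or.inr hα) (hQ.trans Set.subset_union_left)) hpath
    rcases hw1 with rfl | hw1
    · exact absurd (Or.inl hα) hw2.1.1.2
    · exact ⟨w, hw1, hw2⟩

/-- (e) locality in terms of `P` -/
theorem ple_I_local_P {P' : Set V}
    (h : ∀ z ∈ R, (z ∈ σ ∨ z ∈ pleI G (R \ P) σ ∨ ∃ i ∈ pleI G (R \ P) σ, G.Adj i z) → (z ∈ P ↔ z ∈ P')) :
    pleI G (R \ P') σ = pleI G (R \ P) σ := by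
  refine ple_I_local fun z hz => ?_
  constructor
  · rintro ⟨h1, h2⟩
    exact ⟨h1, fun h3 => h2 ((h z h1 hz).2 h3)⟩
  · rintro ⟨h1, h2⟩
    exact ⟨h1, fun h3 => h2 ((h z h1 hz).1 h3)⟩

/-- a topological quadrilateral: `σ` (the side from which one explores), `σ'` (the opposite side), `lam`, `rho` (the two other sides) -/
structure PleQuad (G : SimpleGraph V) (R σ σ' lam rho : Set V) : Prop where
  side : PleSide G R σ
  opp : TscConn G (R ∩ σ')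
  lpath : ∃ u v, u ∈ R ∩ lam ∧ u ∈ σ' ∧ v ∈ σ ∧ TscR G (R ∩ lam) u v
  rpath : ∃ u v, u ∈ R ∩ rho ∧ u ∈ σ' ∧ v ∈ σ ∧ TscR G (R ∩ rho) u v
  jordan : ∀ S T : Set V, S ⊆ R → T ⊆ R → ∀ p q u v, p ∈ S → p ∈ lam → q ∈ rho → TscR G S p q → u ∈ T → u ∈ σ' → v ∈ σ →
    TscR G T u v → (S ∩ T).Nonempty

variable {lam rho : Set V}

/-- the hypothesis of the layer theorems in path form -/
theorem ple_hyp (h : ¬ ∃ u v, u ∈ R \ P ∧ u ∈ σ' ∧ v ∈ σ ∧ TscR G (R \ P) u v) : ∀ z ∈ R ∩ σ', z ∉ pleI G (R \ P) σ := by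
  rintro z hz ⟨t, ht, htσ, htz⟩
  exact h ⟨z, t, tsc_R_mem htz ht, hz.2, htσ, tsc_R_symm htz⟩

/-- (c) the layer reaches the two other sides -/
theorem ple_gam_left (hq : PleQuad G R σ σ' lam rho) (hI : ∀ z ∈ R ∩ σ', z ∉ pleI G (R \ P) σ) :
    (pleGam G R σ σ' (pleI G (R \ P) σ) ∩ lam).Nonempty := by
  obtain ⟨u, v, hu, huσ, hvσ, huv⟩ := hq.lpath
  obtain ⟨w, hw1, hw2⟩ := ple_gam_meets hq.side hq.opp hI Set.inter_subset_left hu huσ (Or.inr hvσ) huv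
  exact ⟨w, hw2, hw1.2⟩

theorem ple_gam_right (hq : PleQuad G R σ σ' lam rho) (hI : ∀ z ∈ R ∩ σ', z ∉ pleI G (R \ P) σ) :
    (pleGam G R σ σ' (pleI G (R \ P) σ) ∩ rho).Nonempty := by
  obtain ⟨u, v, hu, huσ, hvσ, huv⟩ := hq.rpath
  obtain ⟨w, hw1, hw2⟩ := ple_gam_meets hq.side hq.opp hI Set.inter_subset_left hu huσ (Or.inr hvσ) huv
  exact ⟨w, hw2, hw1.2⟩

/-- from a site of the layer one reaches the side `σ` through the cluster -/
theorem ple_gam_reach {g : V} (hg : g ∈ pleGam G R σ σ' (pleI G N σ)) :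
    ∃ v, v ∈ σ ∧ TscR G (insert g (pleI G N σ)) g v := by
  rcases hg.2 with h | ⟨i, hi, h⟩
  · exact ⟨g, h, tsc_R_refl _⟩
  · obtain ⟨t', ht', htσ', hti⟩ := hi
    have ht'I : t' ∈ pleI G N σ := ple_I_side ht' htσ'
    have hiI : i ∈ pleI G N σ := ple_I_R ht'I hti
    refine ⟨t', htσ', ReflTransGen.head ⟨h.symm, Set.mem_insert _ _, Set.mem_insert_of_mem _ hiI⟩ ?_⟩
    exact tsc_R_symm (tsc_R_mono (Set.subset_insert _ _) (ple_I_path ht'I hti))

/-- (f) **the layer is the extremal crossing**, general form: every connected subset of `R \ I` which joins the two other sides lies in the `σ'`-cluster of `R \ I` -/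
theorem ple_gam_extremal_off (hq : PleQuad G R σ σ' lam rho) (hI : ∀ z ∈ R ∩ σ', z ∉ pleI G (R \ P) σ) {S : Set V}
    (hSI : S ⊆ R \ pleI G (R \ P) σ) (hSc : TscConn G S) {p q : V} (hp : p ∈ S) (hpl : p ∈ lam) (hq' : q ∈ S) (hqr : q ∈ rho) :
    S ⊆ pleI G (R \ pleI G (R \ P) σ) σ' := by
  set I := pleI G (R \ P) σ with hIdef
  set Dn := pleI G (R \ I) σ' with hDn
  obtain ⟨g, hg, _⟩ := ple_gam_left hq hI
  obtain ⟨t, ht, htσ, htg⟩ := hg.1
  have htD : t ∈ Dn := ple_I_side ht htσ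
  have h1 : TscR G (Dn ∪ I) t g := tsc_R_mono Set.subset_union_left (ple_I_path htD htg)
  have hT : Dn ∪ I ⊆ R := by
    rintro z (hz | hz)
    · exact (ple_I_sub hz).1
    · exact (ple_I_sub hz).1
  obtain ⟨v, hvσ, hgv⟩ := ple_gam_reach hg
  have hins : insert g I ⊆ Dn ∪ I := Set.insert_subset (Or.inl hg.1) Set.subset_union_right
  have htv : TscR G (Dn ∪ I) t v := tsc_R_trans h1 (tsc_R_mono hins hgv)
  obtain ⟨w, hwS, hwT⟩ := hq.jordan S (Dn ∪ I) (hSI.trans Set.sdiff_subset) hT p q t v hp hpl hqr (hSc p hp q hq') (Or.inl htD) htσ hvσ htv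
  have hwD : w ∈ Dn := hwT.elim id fun h => absurd h (hSI hwS).2
  exact fun z hz => ple_I_R hwD (tsc_R_mono hSI (hSc w hwS z hz))

/-- (f) **the layer is the extremal crossing**: every connected subset of `R ∩ P` which joins the two other sides lies in the `σ'`-cluster of `R \ I`
(the region "beyond the layer, layer included") -/
theorem ple_gam_extremal (hq : PleQuad G R σ σ' lam rho) (hI : ∀ z ∈ R ∩ σ', z ∉ pleI G (R \ P) σ) {S : Set V} (hS : S ⊆ R ∩ P)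
    (hSc : TscConn G S) {p q : V} (hp : p ∈ S) (hpl : p ∈ lam) (hq' : q ∈ S) (hqr : q ∈ rho) :
    S ⊆ pleI G (R \ pleI G (R \ P) σ) σ' :=
  ple_gam_extremal_off hq hI (fun _ hz => ⟨(hS hz).1, fun h => (ple_I_sub h).2 (hS hz).2⟩) hSc hp hpl hq' hqr

/-- the layer contains a crossing path -/
theorem ple_gam_cross (hq : PleQuad G R σ σ' lam rho) (hI : ∀ z ∈ R ∩ σ', z ∉ pleI G (R \ P) σ) :
    ∃ l r, l ∈ pleGam G R σ σ' (pleI G (R \ P) σ) ∧ l ∈ lam ∧ r ∈ rho ∧ TscR G (pleGam G R σ σ' (pleI G (R \ P) σ)) l r := by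
  obtain ⟨l, hl, hl'⟩ := ple_gam_left hq hI
  obtain ⟨r, hr, hr'⟩ := ple_gam_right hq hI
  exact ⟨l, r, hl, hl', hr', ple_gam_conn hq.side hq.opp hI l hl r hr⟩

/-- **J6, all in one** -/
theorem ple_layer (hq : PleQuad G R σ σ' lam rho) (h : ¬ ∃ u v, u ∈ R \ P ∧ u ∈ σ' ∧ v ∈ σ ∧ TscR G (R \ P) u v) :
    pleGam G R σ σ' (pleI G (R \ P) σ) ⊆ R ∩ P ∧ TscConn G (pleGam G R σ σ' (pleI G (R \ P) σ)) ∧
    (pleGam G R σ σ' (pleI G (R \ P) σ) ∩ lam).Nonempty ∧ (pleGam G R σ σ' (pleI G (R \ P) σ) ∩ rho).Nonempty ∧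
    (∀ Q ⊆ R, ∀ u v, u ∈ Q → u ∈ σ' → (v ∈ pleI G (R \ P) σ ∨ v ∈ σ) → TscR G Q u v → (Q ∩ pleGam G R σ σ' (pleI G (R \ P) σ)).Nonempty) ∧
    (∀ S ⊆ R ∩ P, TscConn G S → (S ∩ lam).Nonempty → (S ∩ rho).Nonempty → S ⊆ pleI G (R \ pleI G (R \ P) σ) σ') := by
  have hI := ple_hyp h
  refine ⟨ple_gam_sub, ple_gam_conn hq.side hq.opp hI, ple_gam_left hq hI, ple_gam_right hq hI, ?_, ?_⟩
  · intro Q hQ u v hu huσ hv huv
    exact ple_gam_meets hq.side hq.opp hI hQ hu huσ hv huv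
  · rintro S hS hSc ⟨p, hp, hpl⟩ ⟨q, hq', hqr⟩
    exact ple_gam_extremal hq hI hS hSc hp hpl hq' hqr

/-! ### the region between the two extremal crossings -/

/-- the MIDDLE REGION: sites joined to `σ'` off `I` (the cluster of `σ`) and to `σ` off `J` (the cluster of `σ'`);   = `R` minus `I`, `J` and the pockets -/
def pleMid (G : SimpleGraph V) (R σ σ' P : Set V) : Set V :=
  pleI G (R \ pleI G (R \ P) σ) σ' ∩ pleI G (R \ pleI G (R \ P) σ') σ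

theorem ple_mid_eqns_cite : True := by
  have := @pleMid.eq_1.{0}
  trivial

theorem ple_hyp_symm (h : ¬ ∃ u v, u ∈ R \ P ∧ u ∈ σ' ∧ v ∈ σ ∧ TscR G (R \ P) u v) :
    ¬ ∃ u v, u ∈ R \ P ∧ u ∈ σ ∧ v ∈ σ' ∧ TscR G (R \ P) u v := by
  rintro ⟨u, v, hu, huσ, hvσ, huv⟩
  exact h ⟨v, u, tsc_R_mem huv hu, hvσ, huσ, tsc_R_symm huv⟩

/-- the two clusters are disjoint -/
theorem ple_IJ_disj (h : ¬ ∃ u v, u ∈ R \ P ∧ u ∈ σ' ∧ v ∈ σ ∧ TscR G (R \ P) u v) {z : V} (hz : z ∈ pleI G (R \ P) σ)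
    (hz' : z ∈ pleI G (R \ P) σ') : False := by
  obtain ⟨t, ht, htσ, htz⟩ := hz
  obtain ⟨t', ht', htσ', htz'⟩ := hz'
  exact h ⟨t', t, ht', htσ', htσ, tsc_R_trans htz' (tsc_R_symm htz)⟩

theorem ple_mid_sub : pleMid G R σ σ' P ⊆ R \ (pleI G (R \ P) σ ∪ pleI G (R \ P) σ') := by
  rintro z ⟨h1, h2⟩
  exact ⟨(ple_I_sub h1).1, fun h => h.elim (ple_I_sub h1).2 (ple_I_sub h2).2⟩

/-- the exits of the middle region go through the layers into the clusters -/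
theorem ple_mid_bd {z w : V} (hz : z ∈ pleMid G R σ σ' P) (hw : w ∈ R) (hw' : w ∉ pleMid G R σ σ' P) (h : G.Adj z w) :
    (w ∈ pleI G (R \ P) σ ∧ z ∈ pleGam G R σ σ' (pleI G (R \ P) σ)) ∨
    (w ∈ pleI G (R \ P) σ' ∧ z ∈ pleGam G R σ' σ (pleI G (R \ P) σ')) := by
  by_cases h1 : w ∈ pleI G (R \ pleI G (R \ P) σ) σ'
  · have h2 : w ∉ pleI G (R \ pleI G (R \ P) σ') σ := fun h2 => hw' ⟨h1, h2⟩
    exact Or.inr (ple_dn_bd hz.2 hw h2 h)
  · exact Or.inl (ple_dn_bd hz.1 hw h1 h)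

/-- (M2) every connected crossing which avoids the two clusters lies in the middle region -/
theorem ple_mid_cross (hq : PleQuad G R σ σ' lam rho) (hq' : PleQuad G R σ' σ lam rho)
    (h : ¬ ∃ u v, u ∈ R \ P ∧ u ∈ σ' ∧ v ∈ σ ∧ TscR G (R \ P) u v) {S : Set V}
    (hS : S ⊆ R \ (pleI G (R \ P) σ ∪ pleI G (R \ P) σ')) (hSc : TscConn G S) {p q : V} (hp : p ∈ S) (hpl : p ∈ lam) (hqS : q ∈ S)
    (hqr : q ∈ rho) : S ⊆ pleMid G R σ σ' P := fun _ hz =>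
  ⟨ple_gam_extremal_off hq (ple_hyp h) (fun _ hz => ⟨(hS hz).1, fun h => (hS hz).2 (Or.inl h)⟩) hSc hp hpl hqS hqr hz,
   ple_gam_extremal_off hq' (ple_hyp (ple_hyp_symm h)) (fun _ hz => ⟨(hS hz).1, fun h => (hS hz).2 (Or.inr h)⟩) hSc hp hpl hqS hqr hz⟩

/-- (M1) the two layers lie in the middle region -/
theorem ple_mid_gam (hq : PleQuad G R σ σ' lam rho) (hq' : PleQuad G R σ' σ lam rho)
    (h : ¬ ∃ u v, u ∈ R \ P ∧ u ∈ σ' ∧ v ∈ σ ∧ TscR G (R \ P) u v) :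
    pleGam G R σ σ' (pleI G (R \ P) σ) ⊆ pleMid G R σ σ' P := by
  have hI := ple_hyp h
  obtain ⟨l, hl, hl'⟩ := ple_gam_left hq hI
  obtain ⟨r, hr, hr'⟩ := ple_gam_right hq hI
  refine ple_mid_cross hq hq' h (fun z hz => ?_) (ple_gam_conn hq.side hq.opp hI) hl hl' hr hr'
  have hz' := ple_gam_sub hz
  exact ⟨hz'.1, fun h => h.elim (fun h => (ple_I_sub h).2 hz'.2) (fun h => (ple_I_sub h).2 hz'.2)⟩

theorem ple_mid_comm : pleMid G R σ' σ P = pleMid G R σ σ' P := Set.inter_comm _ _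

theorem ple_mid_gam' (hq : PleQuad G R σ σ' lam rho) (hq' : PleQuad G R σ' σ lam rho)
    (h : ¬ ∃ u v, u ∈ R \ P ∧ u ∈ σ' ∧ v ∈ σ ∧ TscR G (R \ P) u v) :
    pleGam G R σ' σ (pleI G (R \ P) σ') ⊆ pleMid G R σ σ' P := by
  rw [← ple_mid_comm]
  exact ple_mid_gam hq' hq (ple_hyp_symm h)

/-- every site of the middle region is joined inside it to the layer of `J` -/
theorem ple_mid_to_gam {z : V} (hz : z ∈ pleMid G R σ σ' P) :
    ∃ g ∈ pleGam G R σ' σ (pleI G (R \ P) σ'), TscR G (pleMid G R σ σ' P) z g := by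
  obtain ⟨t, ht, htσ, htz⟩ := hz.1
  have claim : ∀ w, TscR G (R \ pleI G (R \ P) σ) z w →
      (w ∈ pleMid G R σ σ' P ∧ TscR G (pleMid G R σ σ' P) z w) ∨
      ∃ g ∈ pleGam G R σ' σ (pleI G (R \ P) σ'), TscR G (pleMid G R σ σ' P) z g := by
    intro w hw
    induction hw with
    | refl => exact Or.inl ⟨hz, tsc_R_refl _⟩
    | @tail b c _ hbc ih =>
      rcases ih with ⟨hb, hzb⟩ | h
      · by_cases hc : c ∈ pleMid G R σ σ' P
        · exact Or.inl ⟨hc, hzb.tail ⟨hbc.1, hb, hc⟩⟩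
        · rcases ple_mid_bd hb hbc.2.2.1 hc hbc.1 with h | h
          · exact absurd h.1 hbc.2.2.2
          · exact Or.inr ⟨b, h.2, hzb⟩
      · exact Or.inr h
  rcases claim t (tsc_R_symm htz) with ⟨ht', hzt⟩ | h
  · exact ⟨t, ⟨ht'.2, Or.inl htσ⟩, hzt⟩
  · exact h

/-- (M5) **the middle region is connected** -/
theorem ple_mid_conn (hq : PleQuad G R σ σ' lam rho) (hq' : PleQuad G R σ' σ lam rho)
    (h : ¬ ∃ u v, u ∈ R \ P ∧ u ∈ σ' ∧ v ∈ σ ∧ TscR G (R \ P) u v) : TscConn G (pleMid G R σ σ' P) := by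
  intro u hu v hv
  obtain ⟨g, hg, hug⟩ := ple_mid_to_gam hu
  obtain ⟨g', hg', hvg⟩ := ple_mid_to_gam hv
  have hc := ple_gam_conn hq'.side hq'.opp (ple_hyp (ple_hyp_symm h)) g hg g' hg'
  exact tsc_R_trans hug (tsc_R_trans (tsc_R_mono (ple_mid_gam' hq hq' h) hc) (tsc_R_symm hvg))

/-- (M3) **Jordan in the middle region**: a path inside `R` from the layer of `J` to the layer of `I` meets every path inside `R` from `lam` to `rho` which avoids `I ∪ J` -/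
theorem ple_mid_block (hq : PleQuad G R σ σ' lam rho) {T S : Set V} (hT : T ⊆ R) {g g' : V} (hgT : g ∈ T)
    (hg : g ∈ pleGam G R σ' σ (pleI G (R \ P) σ')) (hg' : g' ∈ pleGam G R σ σ' (pleI G (R \ P) σ)) (hgg : TscR G T g g')
    (hS : S ⊆ R \ (pleI G (R \ P) σ ∪ pleI G (R \ P) σ')) {p q : V} (hp : p ∈ S) (hpl : p ∈ lam) (hqr : q ∈ rho) (hpq : TscR G S p q) :
    (S ∩ T).Nonempty := by
  set I := pleI G (R \ P) σ with hI
  set J := pleI G (R \ P) σ' with hJ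
  obtain ⟨u, huσ, hgu⟩ := ple_gam_reach hg
  obtain ⟨v, hvσ, hgv⟩ := ple_gam_reach hg'
  have hg'T : g' ∈ T := tsc_R_mem hgg hgT
  have s1 : insert g J ⊆ T ∪ (I ∪ J) := Set.insert_subset (Or.inl hgT) (fun z hz => Or.inr (Or.inr hz))
  have s2 : insert g' I ⊆ T ∪ (I ∪ J) := Set.insert_subset (Or.inl hg'T) (fun z hz => Or.inr (Or.inl hz))
  have huv : TscR G (T ∪ (I ∪ J)) u v :=
    tsc_R_trans (tsc_R_symm (tsc_R_mono s1 hgu)) (tsc_R_trans (tsc_R_mono Set.subset_union_left hgg) (tsc_R_mono s2 hgv))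
  have huT : u ∈ T ∪ (I ∪ J) := s1 (tsc_R_mem hgu (Set.mem_insert _ _))
  have hsub : T ∪ (I ∪ J) ⊆ R := by
    rintro z (hz | hz | hz)
    · exact hT hz
    · exact (ple_I_sub hz).1
    · exact (ple_I_sub hz).1
  obtain ⟨w, hwS, hwT⟩ := hq.jordan S (T ∪ (I ∪ J)) (hS.trans Set.sdiff_subset) hsub p q u v hp hpl hqr hpq huT huσ hvσ huv
  rcases hwT with h | h
  · exact ⟨w, hwS, h⟩
  · exact absurd h (hS hwS).2

/-! ### the solid side behind the layer -/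

/-- the SOLID SIDE: the layer together with everything behind it (the cluster `I` and the pockets);   its complement in `R` is the free region `Dn \ layer` -/
def pleSolid (G : SimpleGraph V) (R σ σ' I : Set V) : Set V := R \ (pleI G (R \ I) σ' \ pleGam G R σ σ' I)

theorem ple_solid_eqns_cite : True := by
  have := @pleSolid.eq_1.{0}
  trivial

theorem ple_solid_sub {I : Set V} : pleSolid G R σ σ' I ⊆ R := Set.sdiff_subset

theorem ple_solid_of_not_dn {I : Set V} {z : V} (hz : z ∈ R) (h : z ∉ pleI G (R \ I) σ') : z ∈ pleSolid G R σ σ' I := ⟨hz, fun h' => h h'.1⟩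

theorem ple_solid_gam {I : Set V} : pleGam G R σ σ' I ⊆ pleSolid G R σ σ' I := fun _ hz => ⟨(ple_I_sub hz.1).1, fun h => h.2 hz⟩

theorem ple_solid_I {I : Set V} (hI : I ⊆ R) : I ⊆ pleSolid G R σ σ' I := fun _ hz => ple_solid_of_not_dn (hI hz) fun h => (ple_I_sub h).2 hz

theorem ple_solid_side {I : Set V} : R ∩ σ ⊆ pleSolid G R σ σ' I := fun _ hz => ⟨hz.1, fun h => h.2 ⟨h.1, Or.inl hz.2⟩⟩

/-- the solid side faces the free region only through the layer -/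
theorem ple_solid_bd {I : Set V} {z w : V} (hz : z ∈ pleSolid G R σ σ' I) (hw : w ∈ R) (hw' : w ∉ pleSolid G R σ σ' I) (h : G.Adj z w) :
    z ∈ pleGam G R σ σ' I := by
  have hwD : w ∈ pleI G (R \ I) σ' \ pleGam G R σ σ' I := by
    by_contra hcon
    exact hw' ⟨hw, hcon⟩
  by_cases hzD : z ∈ pleI G (R \ I) σ'
  · by_contra hzG
    exact hz.2 ⟨hzD, hzG⟩
  · exact absurd (ple_dn_bd hwD.1 hz.1 hzD h.symm).2 hwD.2

/-- **the solid side is connected** -/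
theorem ple_solid_conn (hq : PleQuad G R σ σ' lam rho) (hI : ∀ z ∈ R ∩ σ', z ∉ pleI G (R \ P) σ) (hR : TscConn G R) (hσ : TscConn G (R ∩ σ)) :
    TscConn G (pleSolid G R σ σ' (pleI G (R \ P) σ)) := by
  set I := pleI G (R \ P) σ with hIdef
  set So := pleSolid G R σ σ' I with hSo
  have hIR : I ⊆ R := fun z hz => (ple_I_sub hz).1
  have hISo : I ⊆ So := ple_solid_I hIR
  have k1 : ∀ z ∈ I, ∃ t ∈ R ∩ σ, TscR G So z t := by
    rintro z ⟨t, ht, htσ, htz⟩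
    exact ⟨t, ⟨ht.1, htσ⟩, tsc_R_symm (tsc_R_mono hISo (ple_I_path (ple_I_side ht htσ) htz))⟩
  obtain ⟨x, _, hx, hxσ, _, _⟩ := hq.lpath
  have hxD : x ∈ pleI G (R \ I) σ' := ple_I_side ⟨hx.1, hI x ⟨hx.1, hxσ⟩⟩ hxσ
  have key : ∀ z ∈ So, ∃ t ∈ R ∩ σ, TscR G So z t := by
    intro z hz
    by_cases hzI : z ∈ I
    · exact k1 z hzI
    by_cases hzD : z ∈ pleI G (R \ I) σ'
    · have hzG : z ∈ pleGam G R σ σ' I := by
        by_contra hzG
        exact hz.2 ⟨hzD, hzG⟩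
      rcases hzG.2 with h | ⟨i, hi, h⟩
      · exact ⟨z, ⟨hz.1, h⟩, tsc_R_refl _⟩
      · obtain ⟨t, ht, hit⟩ := k1 i hi
        exact ⟨t, ht, ReflTransGen.head ⟨h.symm, hz, hISo hi⟩ hit⟩
    · have claim : ∀ w, TscR G R z w → (w ∉ pleI G (R \ I) σ' ∧ w ∉ I ∧ TscR G So z w) ∨ ∃ i ∈ I, TscR G So z i := by
        intro w hw
        induction hw with
        | refl => exact Or.inl ⟨hzD, hzI, tsc_R_refl _⟩
        | @tail b c' _ hbc ih =>
          rcases ih with ⟨hbD, hbI, hzb⟩ | h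
          · have hbS : b ∈ So := ple_solid_of_not_dn hbc.2.1 hbD
            by_cases hcI : c' ∈ I
            · exact Or.inr ⟨c', hcI, hzb.tail ⟨hbc.1, hbS, hISo hcI⟩⟩
            · have hcD : c' ∉ pleI G (R \ I) σ' := fun h => hbD (ple_I_adj h ⟨hbc.2.1, hbI⟩ hbc.1.symm)
              exact Or.inl ⟨hcD, hcI, hzb.tail ⟨hbc.1, hbS, ple_solid_of_not_dn hbc.2.2 hcD⟩⟩
          · exact Or.inr h
      rcases claim x (hR z hz.1 x hx.1) with ⟨h, _, _⟩ | ⟨i, hi, hzi⟩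
      · exact absurd hxD h
      · obtain ⟨t, ht, hit⟩ := k1 i hi
        exact ⟨t, ht, tsc_R_trans hzi hit⟩
  intro u hu v hv
  obtain ⟨t, ht, hut⟩ := key u hu
  obtain ⟨t', ht', hvt⟩ := key v hv
  exact tsc_R_trans hut (tsc_R_trans (tsc_R_mono ple_solid_side (hσ t ht t' ht')) (tsc_R_symm hvt))

end abs

/-! ### the four sides of a lattice parallelogram -/

/-- the row `y` -/
def pleRow (y : ℤ) : Set (ℤ × ℤ) := {z | z.2 = y}

/-- the column `x` -/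
def pleCol (x : ℤ) : Set (ℤ × ℤ) := {z | z.1 = x}

theorem ple_row_eqns_cite : True := by
  have := @pleRow.eq_1
  have := @pleCol.eq_1
  trivial

theorem ple_row_R {a b c d y x x' : ℤ} (hy : c ≤ y ∧ y ≤ d) (hx : a ≤ x ∧ x ≤ b) (hx' : a ≤ x' ∧ x' ≤ b) :
    TscR tscG (tscBox a b c d ∩ pleRow y) (x, y) (x', y) :=
  tsc_R_hseg fun z h1 h2 => ⟨⟨by rcases min_le_iff.1 h1 with h | h <;> omega, by rcases le_max_iff.1 h2 with h | h <;> omega, hy.1, hy.2⟩, rfl⟩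

theorem ple_col_R {a b c d x y y' : ℤ} (hx : a ≤ x ∧ x ≤ b) (hy : c ≤ y ∧ y ≤ d) (hy' : c ≤ y' ∧ y' ≤ d) :
    TscR tscG (tscBox a b c d ∩ pleCol x) (x, y) (x, y') :=
  tsc_R_vseg fun z h1 h2 => ⟨⟨hx.1, hx.2, by rcases min_le_iff.1 h1 with h | h <;> omega, by rcases le_max_iff.1 h2 with h | h <;> omega⟩, rfl⟩

theorem ple_row_conn (a b c d y : ℤ) : TscConn tscG (tscBox a b c d ∩ pleRow y) := by
  rintro ⟨x, y1⟩ ⟨h1, h2⟩ ⟨x', y2⟩ ⟨h3, h4⟩
  obtain rfl : y1 = y := h2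
  obtain rfl : y2 = y1 := h4
  exact ple_row_R ⟨h1.2.2.1, h1.2.2.2⟩ ⟨h1.1, h1.2.1⟩ ⟨h3.1, h3.2.1⟩

theorem ple_col_conn (a b c d x : ℤ) : TscConn tscG (tscBox a b c d ∩ pleCol x) := by
  rintro ⟨x1, y⟩ ⟨h1, h2⟩ ⟨x2, y'⟩ ⟨h3, h4⟩
  obtain rfl : x1 = x := h2
  obtain rfl : x2 = x1 := h4
  exact ple_col_R ⟨h1.1, h1.2.1⟩ ⟨h1.2.2.1, h1.2.2.2⟩ ⟨h3.2.2.1, h3.2.2.2⟩

theorem ple_side_top {a b c d : ℤ} (hcd : c ≤ d) : PleSide tscG (tscBox a b c d) (pleRow d) := by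
  refine ⟨tscBox a b (d + 1) (d + 1), ?_, tsc_box_conn _ _ _ _, ?_, ?_⟩
  · intro z hz hz'
    have := hz.2.2.1
    have := hz'.2.2.2
    omega
  · have e : tscBox a b c d ∪ tscBox a b (d + 1) (d + 1) = tscBox a b c (d + 1) := by
      ext z
      simp only [tscBox, Set.mem_union, Set.mem_ofPred_eq]
      omega
    rw [e]
    exact tsc_box_sc _ _ _ _ _
  · intro z hz
    constructor
    · rintro ⟨α, hα, h⟩
      have h1 := tsc_adj_snd h
      have h2 := hα.2.2.1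
      have h3 := hz.2.2.2
      show z.2 = d
      omega
    · intro h
      have h' : z.2 = d := h
      refine ⟨(z.1, d + 1), ⟨hz.1, hz.2.1, le_rfl, le_rfl⟩, ?_⟩
      show triAdj _ _
      rw [tsc_adj_iff]
      dsimp only
      omega

theorem ple_side_bot {a b c d : ℤ} (hcd : c ≤ d) : PleSide tscG (tscBox a b c d) (pleRow c) := by
  refine ⟨tscBox a b (c - 1) (c - 1), ?_, tsc_box_conn _ _ _ _, ?_, ?_⟩
  · intro z hz hz'
    have := hz.2.2.2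
    have := hz'.2.2.1
    omega
  · have e : tscBox a b c d ∪ tscBox a b (c - 1) (c - 1) = tscBox a b (c - 1) d := by
      ext z
      simp only [tscBox, Set.mem_union, Set.mem_ofPred_eq]
      omega
    rw [e]
    exact tsc_box_sc _ _ _ _ _
  · intro z hz
    constructor
    · rintro ⟨α, hα, h⟩
      have h1 := tsc_adj_snd h
      have h2 := hα.2.2.2
      have h3 := hz.2.2.1
      show z.2 = c
      omega
    · intro h
      have h' : z.2 = c := h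
      refine ⟨(z.1, c - 1), ⟨hz.1, hz.2.1, le_rfl, le_rfl⟩, ?_⟩
      show triAdj _ _
      rw [tsc_adj_iff]
      dsimp only
      omega

theorem ple_side_left {a b c d : ℤ} (hab : a ≤ b) : PleSide tscG (tscBox a b c d) (pleCol a) := by
  refine ⟨tscBox (a - 1) (a - 1) c d, ?_, tsc_box_conn _ _ _ _, ?_, ?_⟩
  · intro z hz hz'
    have := hz.2.1
    have := hz'.1
    omega
  · have e : tscBox a b c d ∪ tscBox (a - 1) (a - 1) c d = tscBox (a - 1) b c d := by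
      ext z
      simp only [tscBox, Set.mem_union, Set.mem_ofPred_eq]
      omega
    rw [e]
    exact tsc_box_sc _ _ _ _ _
  · intro z hz
    constructor
    · rintro ⟨α, hα, h⟩
      have h1 := tsc_adj_fst h
      have h2 := hα.2.1
      have h3 := hz.1
      show z.1 = a
      omega
    · intro h
      have h' : z.1 = a := h
      refine ⟨(a - 1, z.2), ⟨le_rfl, le_rfl, hz.2.2.1, hz.2.2.2⟩, ?_⟩
      show triAdj _ _
      rw [tsc_adj_iff]
      dsimp only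
      omega

theorem ple_side_right {a b c d : ℤ} (hab : a ≤ b) : PleSide tscG (tscBox a b c d) (pleCol b) := by
  refine ⟨tscBox (b + 1) (b + 1) c d, ?_, tsc_box_conn _ _ _ _, ?_, ?_⟩
  · intro z hz hz'
    have := hz.1
    have := hz'.2.1
    omega
  · have e : tscBox a b c d ∪ tscBox (b + 1) (b + 1) c d = tscBox a (b + 1) c d := by
      ext z
      simp only [tscBox, Set.mem_union, Set.mem_ofPred_eq]
      omega
    rw [e]
    exact tsc_box_sc _ _ _ _ _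
  · intro z hz
    constructor
    · rintro ⟨α, hα, h⟩
      have h1 := tsc_adj_fst h
      have h2 := hα.1
      have h3 := hz.2.1
      show z.1 = b
      omega
    · intro h
      have h' : z.1 = b := h
      refine ⟨(b + 1, z.2), ⟨le_rfl, le_rfl, hz.2.2.1, hz.2.2.2⟩, ?_⟩
      show triAdj _ _
      rw [tsc_adj_iff]
      dsimp only
      omega

/-- Jordan in the box, in the four orientations -/
theorem ple_box_jordan {a b c d : ℤ} (S T : Set (ℤ × ℤ)) (hS : S ⊆ tscBox a b c d) (hT : T ⊆ tscBox a b c d) {p q u v : ℤ × ℤ}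
    (hp : p ∈ S) (hpq : TscR tscG S p q) (hpq' : (p.1 = a ∧ q.1 = b) ∨ (p.1 = b ∧ q.1 = a))
    (hu : u ∈ T) (huv : TscR tscG T u v) (huv' : (u.2 = c ∧ v.2 = d) ∨ (u.2 = d ∧ v.2 = c)) : (S ∩ T).Nonempty := by
  have hS' : ∀ z ∈ S, c ≤ z.2 ∧ z.2 ≤ d := fun z hz => ⟨(hS hz).2.2.1, (hS hz).2.2.2⟩
  have hT' : ∀ z ∈ T, a ≤ z.1 ∧ z.1 ≤ b := fun z hz => ⟨(hT hz).1, (hT hz).2.1⟩
  have hq := tsc_R_mem hpq hp
  have hv := tsc_R_mem huv hu
  rcases hpq' with ⟨h1, h2⟩ | ⟨h1, h2⟩ <;> rcases huv' with ⟨h3, h4⟩ | ⟨h3, h4⟩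
  · exact pls_rect hp hpq hS' h1.le h2.ge hu huv hT' h3.le h4.ge
  · exact pls_rect hp hpq hS' h1.le h2.ge hv (tsc_R_symm huv) hT' h4.le h3.ge
  · exact pls_rect hq (tsc_R_symm hpq) hS' h2.le h1.ge hu huv hT' h3.le h4.ge
  · exact pls_rect hq (tsc_R_symm hpq) hS' h2.le h1.ge hv (tsc_R_symm huv) hT' h4.le h3.ge

/-- exploration from the TOP row: the layer is the UPPERMOST left-right crossing -/
theorem ple_quad_top {a b c d : ℤ} (hab : a ≤ b) (hcd : c ≤ d) : PleQuad tscG (tscBox a b c d) (pleRow d) (pleRow c) (pleCol a) (pleCol b) where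
  side := ple_side_top hcd
  opp := ple_row_conn _ _ _ _ _
  lpath := ⟨(a, c), (a, d), ⟨⟨le_rfl, hab, le_rfl, hcd⟩, rfl⟩, rfl, rfl, ple_col_R ⟨le_rfl, hab⟩ ⟨le_rfl, hcd⟩ ⟨hcd, le_rfl⟩⟩
  rpath := ⟨(b, c), (b, d), ⟨⟨hab, le_rfl, le_rfl, hcd⟩, rfl⟩, rfl, rfl, ple_col_R ⟨hab, le_rfl⟩ ⟨le_rfl, hcd⟩ ⟨hcd, le_rfl⟩⟩
  jordan := fun S T hS hT _ _ _ _ hp hpl hqr hpq hu huσ hvσ huv => ple_box_jordan S T hS hT hp hpq (Or.inl ⟨hpl, hqr⟩) hu huv (Or.inl ⟨huσ, hvσ⟩)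

/-- exploration from the BOTTOM row: the layer is the LOWERMOST left-right crossing -/
theorem ple_quad_bot {a b c d : ℤ} (hab : a ≤ b) (hcd : c ≤ d) : PleQuad tscG (tscBox a b c d) (pleRow c) (pleRow d) (pleCol a) (pleCol b) where
  side := ple_side_bot hcd
  opp := ple_row_conn _ _ _ _ _
  lpath := ⟨(a, d), (a, c), ⟨⟨le_rfl, hab, hcd, le_rfl⟩, rfl⟩, rfl, rfl, ple_col_R ⟨le_rfl, hab⟩ ⟨hcd, le_rfl⟩ ⟨le_rfl, hcd⟩⟩
  rpath := ⟨(b, d), (b, c), ⟨⟨hab, le_rfl, hcd, le_rfl⟩, rfl⟩, rfl, rfl, ple_col_R ⟨hab, le_rfl⟩ ⟨hcd, le_rfl⟩ ⟨le_rfl, hcd⟩⟩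
  jordan := fun S T hS hT _ _ _ _ hp hpl hqr hpq hu huσ hvσ huv => ple_box_jordan S T hS hT hp hpq (Or.inl ⟨hpl, hqr⟩) hu huv (Or.inr ⟨huσ, hvσ⟩)

/-- exploration from the LEFT column: the layer is the LEFTMOST bottom-top crossing -/
theorem ple_quad_left {a b c d : ℤ} (hab : a ≤ b) (hcd : c ≤ d) : PleQuad tscG (tscBox a b c d) (pleCol a) (pleCol b) (pleRow c) (pleRow d) where
  side := ple_side_left hab
  opp := ple_col_conn _ _ _ _ _
  lpath := ⟨(b, c), (a, c), ⟨⟨hab, le_rfl, le_rfl, hcd⟩, rfl⟩, rfl, rfl, ple_row_R ⟨le_rfl, hcd⟩ ⟨hab, le_rfl⟩ ⟨le_rfl, hab⟩⟩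
  rpath := ⟨(b, d), (a, d), ⟨⟨hab, le_rfl, hcd, le_rfl⟩, rfl⟩, rfl, rfl, ple_row_R ⟨hcd, le_rfl⟩ ⟨hab, le_rfl⟩ ⟨le_rfl, hab⟩⟩
  jordan := fun S T hS hT _ _ _ _ hp hpl hqr hpq hu huσ hvσ huv => by
    obtain ⟨w, h1, h2⟩ := ple_box_jordan T S hT hS hu huv (Or.inr ⟨huσ, hvσ⟩) hp hpq (Or.inl ⟨hpl, hqr⟩)
    exact ⟨w, h2, h1⟩

/-- exploration from the RIGHT column: the layer is the RIGHTMOST bottom-top crossing -/
theorem ple_quad_right {a b c d : ℤ} (hab : a ≤ b) (hcd : c ≤ d) : PleQuad tscG (tscBox a b c d) (pleCol b) (pleCol a) (pleRow c) (pleRow d) where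
  side := ple_side_right hab
  opp := ple_col_conn _ _ _ _ _
  lpath := ⟨(a, c), (b, c), ⟨⟨le_rfl, hab, le_rfl, hcd⟩, rfl⟩, rfl, rfl, ple_row_R ⟨le_rfl, hcd⟩ ⟨le_rfl, hab⟩ ⟨hab, le_rfl⟩⟩
  rpath := ⟨(a, d), (b, d), ⟨⟨le_rfl, hab, hcd, le_rfl⟩, rfl⟩, rfl, rfl, ple_row_R ⟨hcd, le_rfl⟩ ⟨le_rfl, hab⟩ ⟨hab, le_rfl⟩⟩
  jordan := fun S T hS hT _ _ _ _ hp hpl hqr hpq hu huσ hvσ huv => by
    obtain ⟨w, h1, h2⟩ := ple_box_jordan T S hT hS hu huv (Or.inl ⟨huσ, hvσ⟩) hp hpq (Or.inl ⟨hpl, hqr⟩)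
    exact ⟨w, h2, h1⟩

end Claimed.Agent.R291
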