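/-
# Row 291 (S0539), unit PLA (planar kit), file Pl/Flux  --  owner helper269 (head of PLA)

FORCED INTERSECTION on the triangular lattice `ℤ × ℤ` with the frozen adjacency `Claims.C0467.triAdj`
(the "Jordan direction" of planar duality; the existence direction = Hex / Timar is helper147's TriSC kit).

Carrier: a walk is a list `a :: l` with `(a :: l).IsChain triAdj`; its end is `(a :: l).getLast _`.

* `plX w u v`   signed crossing of the half line `{x = w.1 + 1/2, y < w.2}` by the oriented edge `u → v`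
* `plSum φ l`   sum of an edge function along a walk,  `plF w l = plSum (plX w) l` the flux of `l` seen from `w`
* `pl_flux_adj`, `pl_flux_walk`   the flux is locally constant off the walk (boundary terms: `w` above an end point)
* `pl_flux_below`, `pl_flux_above`  values far below / far above
* `pl_cross`      general forced intersection (walk `p` from `a` to `b`, walk `q` from below `p` to above `p`)
* `pl_cross_box`  a walk crossing the strip `y0 ≤ y ≤ y1` from `x ≤ x0` to `x ≥ x1` meets every walk crossing the strip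
                  `x0 ≤ x ≤ x1` from `y ≤ y0` to `y ≥ y1`  (in particular: LR and TB crossings of a lattice parallelogram)

Corollaries (closed walks, nested circuits, cylinder, other shapes): helper191, `Pl/Wind.lean`.
-/
import Claimed.Agent.R291.Defs.Frozen

set_option autoImplicit false

namespace Claimed.Agent.R291

open Claims.C0467

/-- signed crossing of the half line `{x = w.1 + 1/2, y < w.2}` by the oriented edge `u → v` (height of an edge = half the sum of the ordinates) -/
def plX (w u v : ℤ × ℤ) : ℤ :=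
  if u.2 + v.2 < 2 * w.2 then
    (if u.1 = w.1 ∧ v.1 = w.1 + 1 then 1 else if u.1 = w.1 + 1 ∧ v.1 = w.1 then -1 else 0)
  else 0

/-- sum of an edge function along a walk -/
def plSum (φ : ℤ × ℤ → ℤ × ℤ → ℤ) : List (ℤ × ℤ) → ℤ
  | [] => 0
  | [_] => 0
  | u :: v :: l => φ u v + plSum φ (v :: l)

/-- flux of a walk through the half line below `w` -/
def plF (w : ℤ × ℤ) (l : List (ℤ × ℤ)) : ℤ := plSum (plX w) l

/-- indicator of the open half line below `c` -/
def plG (c z : ℤ × ℤ) : ℤ := if z.1 = c.1 ∧ z.2 < c.2 then 1 else 0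

/-- indicator of the half plane to the right of the column of `w` -/
def plS (w z : ℤ × ℤ) : ℤ := if w.1 < z.1 then 1 else 0

theorem pl_adj_cases {u v : ℤ × ℤ} (h : triAdj u v) :
    (v.1 = u.1 + 1 ∧ v.2 = u.2) ∨ (v.1 = u.1 ∧ v.2 = u.2 + 1) ∨ (v.1 = u.1 - 1 ∧ v.2 = u.2 + 1) ∨
      (v.1 = u.1 - 1 ∧ v.2 = u.2) ∨ (v.1 = u.1 ∧ v.2 = u.2 - 1) ∨ (v.1 = u.1 + 1 ∧ v.2 = u.2 - 1) := by
  unfold triAdj at h
  simp only [Prod.ext_iff, Prod.fst_sub, Prod.snd_sub] at h
  omega

theorem pl_ne_iff {u c : ℤ × ℤ} : u ≠ c ↔ (u.1 ≠ c.1 ∨ u.2 ≠ c.2) := by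
  rw [Ne, Prod.ext_iff]; tauto

/-- horizontal neighbours -/
theorem pl_X_hor {c u v : ℤ × ℤ} (h : triAdj u v) (hu : u ≠ c) (hv : v ≠ c) :
    plX (c.1 - 1, c.2) u v - plX c u v = plG c v - plG c u := by
  have h' := pl_adj_cases h
  rw [pl_ne_iff] at hu hv
  unfold plX plG
  simp only
  split_ifs <;> omega

/-- diagonal neighbours -/
theorem pl_X_diag {c u v : ℤ × ℤ} (h : triAdj u v) (hu : u ≠ c) (hv : v ≠ c) (hu' : u ≠ (c.1 - 1, c.2 + 1)) (hv' : v ≠ (c.1 - 1, c.2 + 1)) :
    plX (c.1 - 1, c.2 + 1) u v - plX c u v = plG c v - plG c u := by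
  have h' := pl_adj_cases h
  rw [pl_ne_iff] at hu hv hu' hv'
  unfold plX plG
  simp only at hu' hv' ⊢
  split_ifs <;> omega

/-- vertical neighbours -/
theorem pl_X_ver {c u v : ℤ × ℤ} (h : triAdj u v) (hu : u ≠ c) (hv : v ≠ c) (hu' : u ≠ (c.1, c.2 + 1)) (hv' : v ≠ (c.1, c.2 + 1)) :
    plX (c.1, c.2 + 1) u v = plX c u v := by
  have h' := pl_adj_cases h
  rw [pl_ne_iff] at hu hv hu' hv'
  unfold plX
  simp only at hu' hv' ⊢
  split_ifs <;> omega

/-- telescoping: an edge function which is a gradient on the good vertices -/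
theorem pl_sum_tele (φ : ℤ × ℤ → ℤ × ℤ → ℤ) (g : ℤ × ℤ → ℤ) (good : ℤ × ℤ → Prop)
    (h : ∀ u v, triAdj u v → good u → good v → φ u v = g v - g u) :
    ∀ (l : List (ℤ × ℤ)) (a : ℤ × ℤ), (a :: l).IsChain triAdj → (∀ z ∈ a :: l, good z) →
      plSum φ (a :: l) = g ((a :: l).getLast (List.cons_ne_nil a l)) - g a := by
  intro l
  induction l with
  | nil => intro a _ _; simp [plSum]
  | cons b l ih =>
    intro a hc hg
    rw [List.isChain_cons_cons] at hc
    have h1 := ih b hc.2 fun z hz => hg z (List.mem_cons_of_mem _ hz)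
    have h2 := h a b hc.1 (hg a List.mem_cons_self) (hg b (List.mem_cons_of_mem _ List.mem_cons_self))
    rw [List.getLast_cons (List.cons_ne_nil b l)]
    show φ a b + plSum φ (b :: l) = _
    rw [h1, h2]; ring

theorem pl_sum_sub (φ ψ : ℤ × ℤ → ℤ × ℤ → ℤ) : ∀ l : List (ℤ × ℤ), plSum (fun u v => φ u v - ψ u v) l = plSum φ l - plSum ψ l
  | [] => by simp [plSum]
  | [_] => by simp [plSum]
  | u :: v :: l => by
    show φ u v - ψ u v + plSum _ (v :: l) = φ u v + plSum φ (v :: l) - (ψ u v + plSum ψ (v :: l))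
    rw [pl_sum_sub φ ψ (v :: l)]; ring

/-- **local constancy of the flux**: `w ~ w'` off the walk; the boundary terms are the indicators "`w` or `w'` lies above an end point" -/
theorem pl_flux_adj {a : ℤ × ℤ} {l : List (ℤ × ℤ)} (hc : (a :: l).IsChain triAdj) {w w' : ℤ × ℤ} (hadj : triAdj w w')
    (hw : w ∉ a :: l) (hw' : w' ∉ a :: l)
    (ha : plG w a = 0 ∧ plG w' a = 0)
    (hb : plG w ((a :: l).getLast (List.cons_ne_nil a l)) = 0 ∧ plG w' ((a :: l).getLast (List.cons_ne_nil a l)) = 0) :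
    plF w (a :: l) = plF w' (a :: l) := by
  have hne : ∀ z ∈ a :: l, z ≠ w ∧ z ≠ w' := fun z hz => ⟨fun e => hw (e ▸ hz), fun e => hw' (e ▸ hz)⟩
  have key : ∀ c d : ℤ × ℤ, (c = w ∧ d = w' ∨ c = w' ∧ d = w) →
      (d = (c.1 - 1, c.2) ∨ d = (c.1 - 1, c.2 + 1) ∨ d = (c.1, c.2 + 1)) → plF d (a :: l) = plF c (a :: l) := by
    intro c d hcd hd
    have hne' : ∀ z ∈ a :: l, z ≠ c ∧ z ≠ d := by
      intro z hz
      rcases hcd with ⟨rfl, rfl⟩ | ⟨rfl, rfl⟩
      · exact hne z hz
      · exact (hne z hz).symm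
    have hGa : plG c a = 0 := by rcases hcd with ⟨rfl, rfl⟩ | ⟨rfl, rfl⟩; exacts [ha.1, ha.2]
    have hGb : plG c ((a :: l).getLast (List.cons_ne_nil a l)) = 0 := by
      rcases hcd with ⟨rfl, rfl⟩ | ⟨rfl, rfl⟩; exacts [hb.1, hb.2]
    rcases hd with rfl | rfl | rfl
    · have := pl_sum_tele (fun u v => plX (c.1 - 1, c.2) u v - plX c u v) (plG c) (fun z => z ≠ c)
        (fun u v h hu hv => pl_X_hor h hu hv) l a hc fun z hz => (hne' z hz).1
      rw [pl_sum_sub, hGa, hGb] at this
      unfold plF; linarith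
    · have := pl_sum_tele (fun u v => plX (c.1 - 1, c.2 + 1) u v - plX c u v) (plG c) (fun z => z ≠ c ∧ z ≠ (c.1 - 1, c.2 + 1))
        (fun u v h hu hv => pl_X_diag h hu.1 hv.1 hu.2 hv.2) l a hc hne'
      rw [pl_sum_sub, hGa, hGb] at this
      unfold plF; linarith
    · have := pl_sum_tele (fun u v => plX (c.1, c.2 + 1) u v - plX c u v) (fun _ => 0) (fun z => z ≠ c ∧ z ≠ (c.1, c.2 + 1))
        (fun u v h hu hv => by rw [pl_X_ver h hu.1 hv.1 hu.2 hv.2]; ring) l a hc hne'
      rw [pl_sum_sub] at this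
      unfold plF; linarith
  have h' := pl_adj_cases hadj
  rcases h' with h | h | h | h | h | h
  · exact key w' w (Or.inr ⟨rfl, rfl⟩) (Or.inl (Prod.ext (by simp only; omega) (by simp only; omega)))
  · exact (key w w' (Or.inl ⟨rfl, rfl⟩) (Or.inr (Or.inr (Prod.ext (by simp only; omega) (by simp only; omega))))).symm
  · exact (key w w' (Or.inl ⟨rfl, rfl⟩) (Or.inr (Or.inl (Prod.ext (by simp only; omega) (by simp only; omega))))).symm
  · exact (key w w' (Or.inl ⟨rfl, rfl⟩) (Or.inl (Prod.ext (by simp only; omega) (by simp only; omega)))).symm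
  · exact key w' w (Or.inr ⟨rfl, rfl⟩) (Or.inr (Or.inr (Prod.ext (by simp only; omega) (by simp only; omega))))
  · exact key w' w (Or.inr ⟨rfl, rfl⟩) (Or.inr (Or.inl (Prod.ext (by simp only; omega) (by simp only; omega))))

/-- the flux is constant along a walk `q` which avoids the walk `p` and does not pass above the end points of `p` -/
theorem pl_flux_walk {a : ℤ × ℤ} {l : List (ℤ × ℤ)} (hc : (a :: l).IsChain triAdj) :
    ∀ (m : List (ℤ × ℤ)) (c : ℤ × ℤ), (c :: m).IsChain triAdj → (∀ w ∈ c :: m, w ∉ a :: l) →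
      (∀ w ∈ c :: m, plG w a = 0 ∧ plG w ((a :: l).getLast (List.cons_ne_nil a l)) = 0) →
      plF c (a :: l) = plF ((c :: m).getLast (List.cons_ne_nil c m)) (a :: l) := by
  intro m
  induction m with
  | nil => intro c _ _ _; rfl
  | cons d m ih =>
    intro c hq hdis hray
    rw [List.isChain_cons_cons] at hq
    have hc' := List.mem_cons_self (a := c) (l := d :: m)
    have hd' : d ∈ c :: d :: m := List.mem_cons_of_mem _ List.mem_cons_self
    rw [List.getLast_cons (List.cons_ne_nil d m), ← ih d hq.2 (fun w hw => hdis w (List.mem_cons_of_mem _ hw))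
      fun w hw => hray w (List.mem_cons_of_mem _ hw)]
    exact pl_flux_adj hc hq.1 (hdis c hc') (hdis d hd') ⟨(hray c hc').1, (hray d hd').1⟩ ⟨(hray c hc').2, (hray d hd').2⟩

/-- a point below the walk sees no flux -/
theorem pl_flux_below {w : ℤ × ℤ} : ∀ l : List (ℤ × ℤ), (∀ z ∈ l, w.2 ≤ z.2) → plF w l = 0
  | [], _ => rfl
  | [_], _ => rfl
  | u :: v :: l, h => by
    have hu := h u List.mem_cons_self
    have hv := h v (List.mem_cons_of_mem _ List.mem_cons_self)
    have ih := pl_flux_below (v :: l) fun z hz => h z (List.mem_cons_of_mem _ hz)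
    show plX w u v + plF w (v :: l) = 0
    rw [ih, add_zero]
    unfold plX
    rw [if_neg (by omega)]

/-- a point above the walk sees the total flux through its column -/
theorem pl_flux_above {w a : ℤ × ℤ} {l : List (ℤ × ℤ)} (hc : (a :: l).IsChain triAdj) (h : ∀ z ∈ a :: l, z.2 < w.2) :
    plF w (a :: l) = plS w ((a :: l).getLast (List.cons_ne_nil a l)) - plS w a := by
  refine pl_sum_tele (plX w) (plS w) (fun z => z.2 < w.2) (fun u v hadj hu hv => ?_) l a hc h
  have h' := pl_adj_cases hadj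
  unfold plX plS
  split_ifs <;> omega

/-- **FORCED INTERSECTION**.  `p` a walk from `a` to `b`, `q` a walk from `c` to `d`; `q` does not pass above `a` or `b` (same column, strictly higher);
`c` is below `p`, `d` is above `p`, and the column of `d` lies between those of `a` and `b`.  Then `p` and `q` share a vertex. -/
theorem pl_cross {a c : ℤ × ℤ} {l m : List (ℤ × ℤ)} (hp : (a :: l).IsChain triAdj) (hq : (c :: m).IsChain triAdj)
    (hra : ∀ w ∈ c :: m, ¬ (w.1 = a.1 ∧ a.2 < w.2))
    (hrb : ∀ w ∈ c :: m, ¬ (w.1 = ((a :: l).getLast (List.cons_ne_nil a l)).1 ∧ ((a :: l).getLast (List.cons_ne_nil a l)).2 < w.2))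
    (hc : ∀ z ∈ a :: l, c.2 ≤ z.2) (hd : ∀ z ∈ a :: l, z.2 < ((c :: m).getLast (List.cons_ne_nil c m)).2)
    (hcol : a.1 ≤ ((c :: m).getLast (List.cons_ne_nil c m)).1 ∧
      ((c :: m).getLast (List.cons_ne_nil c m)).1 < ((a :: l).getLast (List.cons_ne_nil a l)).1) :
    ∃ z, z ∈ a :: l ∧ z ∈ c :: m := by
  by_contra hcon
  push Not at hcon
  have h1 := pl_flux_walk hp m c hq (fun w hw hw' => hcon w hw' hw) fun w hw => by
    constructor
    · unfold plG; rw [if_neg]; intro h; exact hra w hw ⟨h.1.symm, h.2⟩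
    · unfold plG; rw [if_neg]; intro h; exact hrb w hw ⟨h.1.symm, h.2⟩
  rw [pl_flux_below (a :: l) hc, pl_flux_above hp hd] at h1
  unfold plS at h1
  rw [if_pos hcol.2, if_neg (by omega)] at h1
  omega

theorem pl_adj_right (u : ℤ × ℤ) : triAdj u (u.1 + 1, u.2) := by
  unfold triAdj; left; ext <;> simp

theorem pl_adj_left (u : ℤ × ℤ) : triAdj (u.1 - 1, u.2) u := by
  unfold triAdj; left; ext <;> simp

theorem pl_adj_up (u : ℤ × ℤ) : triAdj u (u.1, u.2 + 1) := by
  unfold triAdj; right; left; ext <;> simp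

/-- appending one step to a walk -/
theorem pl_chain_snoc {a : ℤ × ℤ} {l : List (ℤ × ℤ)} (hc : (a :: l).IsChain triAdj) {e : ℤ × ℤ}
    (he : triAdj ((a :: l).getLast (List.cons_ne_nil a l)) e) : (a :: (l ++ [e])).IsChain triAdj := by
  rw [← List.cons_append, List.isChain_append]
  refine ⟨hc, List.isChain_singleton e, ?_⟩
  intro x hx y hy
  rw [List.getLast?_eq_getLast_of_ne_nil (List.cons_ne_nil a l)] at hx
  simp only [Option.mem_def, Option.some.injEq, List.head?_cons] at hx hy
  subst hx; subst hy; exact he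

/-- **crossings of a lattice parallelogram meet**: `p` joins the left side to the right side, `q` the bottom to the top of `[x0,x1] × [y0,y1]`, both inside. -/
theorem pl_cross_box {x0 x1 y0 y1 : ℤ} {a c : ℤ × ℤ} {l m : List (ℤ × ℤ)}
    (hp : (a :: l).IsChain triAdj) (hq : (c :: m).IsChain triAdj)
    (hpB : ∀ z ∈ a :: l, y0 ≤ z.2 ∧ z.2 ≤ y1) (hqB : ∀ z ∈ c :: m, x0 ≤ z.1 ∧ z.1 ≤ x1)
    (ha : a.1 ≤ x0) (hb : x1 ≤ ((a :: l).getLast (List.cons_ne_nil a l)).1)
    (hc : c.2 ≤ y0) (hd : y1 ≤ ((c :: m).getLast (List.cons_ne_nil c m)).2) :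
    ∃ z, z ∈ a :: l ∧ z ∈ c :: m := by
  set b := (a :: l).getLast (List.cons_ne_nil a l) with hbdef
  set d := (c :: m).getLast (List.cons_ne_nil c m) with hddef
  have hp1 : (a :: (l ++ [(b.1 + 1, b.2)])).IsChain triAdj := pl_chain_snoc hp (pl_adj_right b)
  have hp2 : ((a.1 - 1, a.2) :: a :: (l ++ [(b.1 + 1, b.2)])).IsChain triAdj :=
    List.isChain_cons_cons.2 ⟨pl_adj_left a, hp1⟩
  have hq1 : (c :: (m ++ [(d.1, d.2 + 1)])).IsChain triAdj := pl_chain_snoc hq (pl_adj_up d)
  have hlp : ((a.1 - 1, a.2) :: a :: (l ++ [(b.1 + 1, b.2)])).getLast (List.cons_ne_nil _ _) = (b.1 + 1, b.2) := by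
    simp
  have hlq : (c :: (m ++ [(d.1, d.2 + 1)])).getLast (List.cons_ne_nil _ _) = (d.1, d.2 + 1) := by
    simp
  have hbm : b ∈ a :: l := List.getLast_mem _
  have hdm : d ∈ c :: m := List.getLast_mem _
  have hqcol : ∀ w ∈ c :: (m ++ [(d.1, d.2 + 1)]), x0 ≤ w.1 ∧ w.1 ≤ x1 := by
    intro w hw
    rw [← List.cons_append, List.mem_append, List.mem_singleton] at hw
    rcases hw with hw | rfl
    · exact hqB w hw
    · exact hqB d hdm
  have hprow : ∀ z ∈ (a.1 - 1, a.2) :: a :: (l ++ [(b.1 + 1, b.2)]), y0 ≤ z.2 ∧ z.2 ≤ y1 := by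
    intro z hz
    rw [List.mem_cons, ← List.cons_append, List.mem_append, List.mem_singleton] at hz
    rcases hz with rfl | hz | rfl
    · exact hpB a List.mem_cons_self
    · exact hpB z hz
    · exact hpB b hbm
  obtain ⟨z, hz1, hz2⟩ := pl_cross hp2 hq1
    (fun w hw h => by have := (hqcol w hw).1; simp only at h; omega)
    (fun w hw h => by rw [hlp] at h; have := (hqcol w hw).2; simp only at h; omega)
    (fun z hz => by have := (hprow z hz).1; omega)
    (fun z hz => by rw [hlq]; have := (hprow z hz).2; simp only; omega)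
    (by rw [hlp, hlq]; have := hqB d hdm; simp only; omega)
  have h1 := hqcol z hz2
  have h2 := hprow z hz1
  refine ⟨z, ?_, ?_⟩
  · rw [List.mem_cons, ← List.cons_append, List.mem_append, List.mem_singleton] at hz1
    rcases hz1 with rfl | hz | rfl
    · simp only at h1; omega
    · exact hz
    · simp only at h1; omega
  · rw [← List.cons_append, List.mem_append, List.mem_singleton] at hz2
    rcases hz2 with hz | rfl
    · exact hz
    · simp only at h2; omega

theorem pl_flux_eqns_cite : True := by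
  have := @plX.eq_1
  have := @plSum.eq_1
  have := @plSum.eq_2
  have := @plSum.eq_3
  have := @plSum.eq_def
  have := @plF.eq_1
  have := @plG.eq_1
  have := @plS.eq_1
  trivial

end Claimed.Agent.R291
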