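import Claimed.Agent.R291.Pl.Record
import Claimed.Agent.R291.Defs.Lat

/-!
# Row 291 (S0539), unit PLA / ANN A3-II (E), Pl/RecPort : THE STRIP BETWEEN TWO CROSSINGS, SITE LEVEL: LAYER AND PORTS      (owner helper63; prefix `hxp_`)

Pure lattice side of the entrance (E) (`Glue/Enter` of 164, `EntGeo`) for the irregular strips of A3-II, on the INDEX SETS of `Pl/Record` (105) only: `HxrPair y0 y1 xm xM a c ..`, `AA = hxrAA`, `CC = hxrCC`, `M = hxrQ` (free cells).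
The cell of class `T` and index `z` has the sites `if T then cellV z else cellD z` (written inline: `rsgCs T z` of 269, `rshCs T z` of 36 unfold to it).
* `hxp_V_iff`, `hxp_D_iff`, `hxp_tri_rng`, `hxp_share` : two cells of one class which share a site have equal or adjacent indices.
* **`hxp_bot`, `hxp_top`** : on the extreme index rows `AA` is a half line `{i ≤ pA}`, `CC` a half line `{pC ≤ i}`, `pA + 1 < pC`, `(pA, y) ∈ a`, `(pC, y) ∈ c`;   `hxp_Q_bot`, `hxp_Q_top` : `M` is the interval `pA < i < pC`.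
* **`hxp_lay`** (LAY) : a site of a free cell which lies in a cell `z'` which is not free: `z' ∈ a`, or `z' ∈ c`, or `z'` has the index row `y0 - 1` and the site is in the site row `y0`, or index row `y1 + 1` and site row `y1 + 1`.
* **`hxp_ports`** : at most 4 sites of free cells lie in a cell off the band which also contains a site of a cell of `AA ∪ CC`.
* `hxp_Ld`, `hxp_Lb` : the sites of the free cells in the site rows `y0`, `y1 + 1` form intervals;   `hxp_below`, `hxp_level` (a cell of the index row `j - 1` / `j` through a site of the row `j`);   `hxp_Q_rows`, `hxp_Q_cols`.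
-/

set_option autoImplicit false
set_option linter.unusedSectionVars false
set_option linter.unusedVariables false
set_option linter.unusedSimpArgs false

namespace Claimed.Agent.R291

open Relation Claims.C0467

/-! ### 1. cells of one class -/

theorem hxp_V_iff {z v : TV} : v ∈ cellV z ↔ (v.1 = z.1 ∧ v.2 = z.2) ∨ (v.1 = z.1 + 1 ∧ v.2 = z.2) ∨ (v.1 = z.1 ∧ v.2 = z.2 + 1) := by
  simp [cellV, Prod.ext_iff]

theorem hxp_D_iff {z v : TV} : v ∈ cellD z ↔ (v.1 = z.1 + 1 ∧ v.2 = z.2) ∨ (v.1 = z.1 ∧ v.2 = z.2 + 1) ∨ (v.1 = z.1 + 1 ∧ v.2 = z.2 + 1) := by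
  simp [cellD, Prod.ext_iff]

theorem hxp_tri_rng {T : Bool} {z v : TV} (h : v ∈ (if T then cellV z else cellD z)) :
    (v.1 = z.1 ∨ v.1 = z.1 + 1) ∧ (v.2 = z.2 ∨ v.2 = z.2 + 1) := by
  cases T
  · simp only [Bool.false_eq_true, if_false, hxp_D_iff] at h
    omega
  · simp only [if_true, hxp_V_iff] at h
    omega

/-- two cells of one class which share a site have equal or adjacent indices -/
theorem hxp_share {T : Bool} {z z' v : TV} (h : v ∈ (if T then cellV z else cellD z)) (h' : v ∈ (if T then cellV z' else cellD z')) :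
    z = z' ∨ triAdj z z' := by
  rw [tsc_adj_iff, Prod.ext_iff]
  cases T
  · simp only [Bool.false_eq_true, if_false, hxp_D_iff] at h h'
    omega
  · simp only [if_true, hxp_V_iff] at h h'
    omega

section band

variable {y0 y1 xm xM : ℤ} {a c : Set (ℤ × ℤ)} {pa qa pc qc : ℤ × ℤ}

/-! ### 2. the extreme rows -/

theorem hxp_row_aux (H : HxrPair y0 y1 xm xM a c pa qa pc qc) (y : ℤ)
    (hA : ∀ p ∈ a, p.2 = y → ∀ i, i ≤ p.1 → (i, y) ∈ hxrAA y0 y1 xM a) (hC : ∀ p ∈ c, p.2 = y → ∀ i, p.1 ≤ i → (i, y) ∈ hxrCC y0 y1 xm c)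
    (hae : ∃ p ∈ a, p.2 = y) (hce : ∃ p ∈ c, p.2 = y) :
    ∃ pA pC : ℤ, pA + 1 < pC ∧ (pA, y) ∈ a ∧ (pC, y) ∈ c ∧ (∀ i, (i, y) ∈ hxrAA y0 y1 xM a ↔ i ≤ pA) ∧ (∀ i, (i, y) ∈ hxrCC y0 y1 xm c ↔ pC ≤ i) := by
  classical
  obtain ⟨p, hp, hpy⟩ := hae
  obtain ⟨r, hr, hry⟩ := hce
  obtain ⟨pA, hpA, hmax⟩ := Int.exists_greatest_of_bdd (P := fun i => (i, y) ∈ a) ⟨(xM - y) / 2, fun i hi => by
    have := (H.A.box _ hi).2
    simp only [hxsX] at this
    omega⟩ ⟨p.1, by rw [← hpy]; exact hp⟩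
  obtain ⟨pC, hpC, hmin⟩ := Int.exists_least_of_bdd (P := fun i => (i, y) ∈ c) ⟨(xm - y) / 2, fun i hi => by
    have := (H.C.box _ hi).1
    simp only [hxsX] at this
    omega⟩ ⟨r.1, by rw [← hry]; exact hr⟩
  have eA : ∀ i, (i, y) ∈ hxrAA y0 y1 xM a ↔ i ≤ pA := by
    intro i
    constructor
    · intro h
      obtain ⟨n, hn, -⟩ := hxr_AA_ray H.A h
      have := hmax _ hn
      omega
    · exact fun h => hA _ hpA rfl i h
  have eC : ∀ i, (i, y) ∈ hxrCC y0 y1 xm c ↔ pC ≤ i := by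
    intro i
    constructor
    · intro h
      obtain ⟨n, hn, -⟩ := hxr_CC_ray H.C h
      have := hmin _ hn
      omega
    · exact fun h => hC _ hpC rfl i h
  refine ⟨pA, pC, ?_, hpA, hpC, eA, eC⟩
  by_contra hcon
  push Not at hcon
  rcases lt_or_ge pA pC with h | h
  · have e : pC = pA + 1 := by omega
    refine (hxr_sep H _ ((eA pA).2 le_rfl) _ ((eC pC).2 le_rfl)).2 ?_
    rw [tsc_adj_iff]
    left
    exact ⟨e, rfl⟩
  · exact (hxr_sep H _ ((eA pA).2 le_rfl) _ ((eC pA).2 h)).1 rfl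

/-- **the bottom index row** -/
theorem hxp_bot (H : HxrPair y0 y1 xm xM a c pa qa pc qc) :
    ∃ pA pC : ℤ, pA + 1 < pC ∧ (pA, y0) ∈ a ∧ (pC, y0) ∈ c ∧ (∀ i, (i, y0) ∈ hxrAA y0 y1 xM a ↔ i ≤ pA) ∧ (∀ i, (i, y0) ∈ hxrCC y0 y1 xm c ↔ pC ≤ i) :=
  hxp_row_aux H y0
    (fun p hp hpy i hi => hxr_AA_bot (p := p) (q := qa) ⟨H.A.sub, H.A.conn, H.A.box, hp, H.A.qa, hpy, H.A.q1⟩ rfl hi)
    (fun p hp hpy i hi => hxr_CC_bot (p := p) (q := qc) ⟨H.C.sub, H.C.conn, H.C.box, hp, H.C.qa, hpy, H.C.q1⟩ rfl hi)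
    ⟨pa, H.A.pa, H.A.p0⟩ ⟨pc, H.C.pa, H.C.p0⟩

/-- **the top index row** -/
theorem hxp_top (H : HxrPair y0 y1 xm xM a c pa qa pc qc) :
    ∃ qA qC : ℤ, qA + 1 < qC ∧ (qA, y1) ∈ a ∧ (qC, y1) ∈ c ∧ (∀ i, (i, y1) ∈ hxrAA y0 y1 xM a ↔ i ≤ qA) ∧ (∀ i, (i, y1) ∈ hxrCC y0 y1 xm c ↔ qC ≤ i) :=
  hxp_row_aux H y1
    (fun p hp hpy i hi => hxr_AA_top (p := pa) (q := p) ⟨H.A.sub, H.A.conn, H.A.box, H.A.pa, hp, H.A.p0, hpy⟩ rfl hi)
    (fun p hp hpy i hi => hxr_CC_top (p := pc) (q := p) ⟨H.C.sub, H.C.conn, H.C.box, H.C.pa, hp, H.C.p0, hpy⟩ rfl hi)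
    ⟨qa, H.A.qa, H.A.q1⟩ ⟨qc, H.C.qa, H.C.q1⟩

/-- the free cells of a row on which `AA`, `CC` are half lines -/
theorem hxp_Q_row {y pA pC : ℤ} (hy0 : y0 ≤ y) (hy1 : y ≤ y1) (eA : ∀ i, (i, y) ∈ hxrAA y0 y1 xM a ↔ i ≤ pA) (eC : ∀ i, (i, y) ∈ hxrCC y0 y1 xm c ↔ pC ≤ i)
    (i : ℤ) : (i, y) ∈ hxrQ y0 y1 xm xM a c ↔ pA < i ∧ i < pC := by
  unfold hxrQ
  rw [Set.mem_sdiff, Set.mem_union, eA, eC]
  constructor
  · rintro ⟨-, h⟩
    omega
  · intro h
    exact ⟨⟨hy0, hy1⟩, by omega⟩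

/-! ### 3. the layer -/

/-- **(LAY)** a site of a free cell which lies in a cell which is not free -/
theorem hxp_lay (H : HxrPair y0 y1 xm xM a c pa qa pc qc) {T : Bool} {z z' v : TV} (hz : z ∈ hxrQ y0 y1 xm xM a c)
    (hv : v ∈ (if T then cellV z else cellD z)) (hz' : z' ∉ hxrQ y0 y1 xm xM a c) (hv' : v ∈ (if T then cellV z' else cellD z')) :
    z' ∈ a ∨ z' ∈ c ∨ (z'.2 = y0 - 1 ∧ z.2 = y0 ∧ v.2 = y0) ∨ (z'.2 = y1 + 1 ∧ z.2 = y1 ∧ v.2 = y1 + 1) := by
  have hadj : triAdj z z' := by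
    rcases hxp_share hv hv' with e | h
    · exact (hz' (e ▸ hz)).elim
    · exact h
  by_cases hb : z' ∈ plsBand y0 y1
  · have h1 : z' ∈ hxrAA y0 y1 xM a ∪ hxrCC y0 y1 xm c := by
      by_contra hcon
      exact hz' ⟨hb, hcon⟩
    rcases h1 with h1 | h1
    · exact Or.inl (hxr_AA_bd H.A hz.1 (fun h => hz.2 (Or.inl h)) h1 hadj)
    · exact Or.inr (Or.inl (hxr_CC_bd H.C hz.1 (fun h => hz.2 (Or.inr h)) h1 hadj))
  · have h1 : ¬ (y0 ≤ z'.2 ∧ z'.2 ≤ y1) := hb
    have h2 : y0 ≤ z.2 ∧ z.2 ≤ y1 := hz.1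
    have h3 := hxp_tri_rng hv
    have h4 := hxp_tri_rng hv'
    right; right
    omega

/-! ### 4. the ports -/

/-- **the ports**: at most 4 sites of free cells lie in a cell off the band which also contains a site of a cell of `AA ∪ CC` -/
theorem hxp_ports (H : HxrPair y0 y1 xm xM a c pa qa pc qc) (T : Bool) :
    ∃ P : Finset TV, P.card ≤ 4 ∧ ∀ z' v u : TV, z' ∉ plsBand y0 y1 → v ∈ (if T then cellV z' else cellD z') → u ∈ (if T then cellV z' else cellD z') →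
      (∃ z ∈ hxrQ y0 y1 xm xM a c, v ∈ (if T then cellV z else cellD z)) →
      (∃ w ∈ hxrAA y0 y1 xM a ∪ hxrCC y0 y1 xm c, u ∈ (if T then cellV w else cellD w)) → v ∈ P := by
  obtain ⟨pA, pC, -, -, -, eA, eC⟩ := hxp_bot H
  obtain ⟨qA, qC, -, -, -, fA, fC⟩ := hxp_top H
  have hy := hxr_pair_le H
  have eQ := hxp_Q_row (y0 := y0) (y1 := y1) (xm := xm) (xM := xM) (a := a) (c := c) le_rfl hy eA eC
  have fQ := hxp_Q_row (y0 := y0) (y1 := y1) (xm := xm) (xM := xM) (a := a) (c := c) hy le_rfl fA fC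
  refine ⟨{(if T then pA + 1 else pA + 2, y0), (pC, y0), (qA + 1, y1 + 1), (if T then qC - 1 else qC, y1 + 1)}, Finset.card_le_four, ?_⟩
  rintro z' v u hz' hv hu ⟨z, hz, hvz⟩ ⟨w, hw, huw⟩
  have hwb : y0 ≤ w.2 ∧ w.2 ≤ y1 := by
    rcases hw with h | h
    · exact h.1
    · exact h.1
  have hzb : y0 ≤ z.2 ∧ z.2 ≤ y1 := hz.1
  have hz'b : ¬ (y0 ≤ z'.2 ∧ z'.2 ≤ y1) := hz'
  have r1 := hxp_tri_rng hv
  have r2 := hxp_tri_rng hu
  have r3 := hxp_tri_rng hvz
  have r4 := hxp_tri_rng huw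
  simp only [Finset.mem_insert, Finset.mem_singleton, Prod.ext_iff]
  obtain ⟨z1, z2⟩ := z
  obtain ⟨w1, w2⟩ := w
  simp only at hwb hzb r3 r4
  rcases (show (z'.2 = y0 - 1 ∧ z2 = y0 ∧ w2 = y0) ∨ (z'.2 = y1 + 1 ∧ z2 = y1 ∧ w2 = y1) by omega) with ⟨e0, e1, e2⟩ | ⟨e0, e1, e2⟩
  · rw [e1] at hz
    rw [e2] at hw
    have g1 := (eQ z1).1 hz
    have g2 : w1 ≤ pA ∨ pC ≤ w1 := by
      rcases hw with h | h
      · exact Or.inl ((eA w1).1 h)
      · exact Or.inr ((eC w1).1 h)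
    have hv2 : v.2 = y0 := by omega
    have hu2 : u.2 = y0 := by omega
    clear r1 r2 r3 r4 hwb hzb hz'b
    cases T
    · simp only [Bool.false_eq_true, if_false, hxp_D_iff] at hv hu hvz huw ⊢
      have k1 : v.1 = z1 + 1 := by omega
      have k2 : u.1 = w1 + 1 := by omega
      have k3 : v.1 = z'.1 ∨ v.1 = z'.1 + 1 := by omega
      have k4 : u.1 = z'.1 ∨ u.1 = z'.1 + 1 := by omega
      clear hv hu hvz huw
      omega
    · simp only [if_true, hxp_V_iff] at hv hu hvz huw ⊢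
      have k1 : v.1 = z1 ∨ v.1 = z1 + 1 := by omega
      have k2 : u.1 = w1 ∨ u.1 = w1 + 1 := by omega
      have k3 : v.1 = z'.1 := by omega
      have k4 : u.1 = z'.1 := by omega
      clear hv hu hvz huw
      omega
  · rw [e1] at hz
    rw [e2] at hw
    have g1 := (fQ z1).1 hz
    have g2 : w1 ≤ qA ∨ qC ≤ w1 := by
      rcases hw with h | h
      · exact Or.inl ((fA w1).1 h)
      · exact Or.inr ((fC w1).1 h)
    have hv2 : v.2 = y1 + 1 := by omega
    have hu2 : u.2 = y1 + 1 := by omega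
    clear r1 r2 r3 r4 hwb hzb hz'b
    cases T
    · simp only [Bool.false_eq_true, if_false, hxp_D_iff] at hv hu hvz huw ⊢
      have k1 : v.1 = z1 ∨ v.1 = z1 + 1 := by omega
      have k2 : u.1 = w1 ∨ u.1 = w1 + 1 := by omega
      have k3 : v.1 = z'.1 + 1 := by omega
      have k4 : u.1 = z'.1 + 1 := by omega
      clear hv hu hvz huw
      omega
    · simp only [if_true, hxp_V_iff] at hv hu hvz huw ⊢
      have k1 : v.1 = z1 := by omega
      have k2 : u.1 = w1 := by omega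
      have k3 : v.1 = z'.1 ∨ v.1 = z'.1 + 1 := by omega
      have k4 : u.1 = z'.1 ∨ u.1 = z'.1 + 1 := by omega
      clear hv hu hvz huw
      omega

/-! ### 5. the two extreme site rows -/

/-- every site lies in a cell of the index row below it -/
theorem hxp_below (T : Bool) (v : TV) : ∃ z' : TV, z'.2 = v.2 - 1 ∧ v ∈ (if T then cellV z' else cellD z') := by
  refine ⟨(v.1, v.2 - 1), rfl, ?_⟩
  cases T
  · refine hxp_D_iff.2 ?_
    dsimp only
    omega
  · refine hxp_V_iff.2 ?_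
    dsimp only
    omega

/-- every site lies in a cell of its own index row -/
theorem hxp_level (T : Bool) (v : TV) : ∃ z' : TV, z'.2 = v.2 ∧ v ∈ (if T then cellV z' else cellD z') := by
  cases T
  · refine ⟨(v.1 - 1, v.2), rfl, ?_⟩
    refine hxp_D_iff.2 ?_
    dsimp only
    omega
  · refine ⟨(v.1, v.2), rfl, ?_⟩
    refine hxp_V_iff.2 ?_
    dsimp only
    omega

/-- **the bottom side**: the sites of the free cells in the site row `y0` form an interval -/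
theorem hxp_Ld (H : HxrPair y0 y1 xm xM a c pa qa pc qc) (T : Bool) :
    ∃ l r : ℤ, l ≤ r ∧ ∀ v : TV, v.2 = y0 → ((∃ z ∈ hxrQ y0 y1 xm xM a c, v ∈ (if T then cellV z else cellD z)) ↔ l ≤ v.1 ∧ v.1 ≤ r) := by
  obtain ⟨pA, pC, hlt, -, -, eA, eC⟩ := hxp_bot H
  have hy := hxr_pair_le H
  have eQ := hxp_Q_row (y0 := y0) (y1 := y1) (xm := xm) (xM := xM) (a := a) (c := c) le_rfl hy eA eC
  refine ⟨if T then pA + 1 else pA + 2, pC, by split_ifs <;> omega, fun v hv => ?_⟩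
  constructor
  · rintro ⟨⟨z1, z2⟩, hz, hvz⟩
    have hzb : y0 ≤ z2 ∧ z2 ≤ y1 := hz.1
    have r3 := hxp_tri_rng hvz
    simp only at r3
    have e1 : z2 = y0 := by omega
    rw [e1] at hz
    have g1 := (eQ z1).1 hz
    cases T
    · simp only [Bool.false_eq_true, if_false, hxp_D_iff] at hvz ⊢
      omega
    · simp only [if_true, hxp_V_iff] at hvz ⊢
      omega
  · intro h
    cases T
    · simp only [Bool.false_eq_true, if_false] at h
      refine ⟨(v.1 - 1, y0), (eQ _).2 (by omega), ?_⟩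
      refine hxp_D_iff.2 ?_
      dsimp only
      omega
    · simp only [if_true] at h
      by_cases h1 : v.1 < pC
      · refine ⟨(v.1, y0), (eQ _).2 (by omega), ?_⟩
        refine hxp_V_iff.2 ?_
        dsimp only
        omega
      · refine ⟨(v.1 - 1, y0), (eQ _).2 (by omega), ?_⟩
        refine hxp_V_iff.2 ?_
        dsimp only
        omega

/-- **the top side**: the sites of the free cells in the site row `y1 + 1` form an interval -/
theorem hxp_Lb (H : HxrPair y0 y1 xm xM a c pa qa pc qc) (T : Bool) :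
    ∃ l r : ℤ, l ≤ r ∧ ∀ v : TV, v.2 = y1 + 1 → ((∃ z ∈ hxrQ y0 y1 xm xM a c, v ∈ (if T then cellV z else cellD z)) ↔ l ≤ v.1 ∧ v.1 ≤ r) := by
  obtain ⟨qA, qC, hlt, -, -, fA, fC⟩ := hxp_top H
  have hy := hxr_pair_le H
  have fQ := hxp_Q_row (y0 := y0) (y1 := y1) (xm := xm) (xM := xM) (a := a) (c := c) hy le_rfl fA fC
  refine ⟨qA + 1, if T then qC - 1 else qC, by split_ifs <;> omega, fun v hv => ?_⟩
  constructor
  · rintro ⟨⟨z1, z2⟩, hz, hvz⟩
    have hzb : y0 ≤ z2 ∧ z2 ≤ y1 := hz.1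
    have r3 := hxp_tri_rng hvz
    simp only at r3
    have e1 : z2 = y1 := by omega
    rw [e1] at hz
    have g1 := (fQ z1).1 hz
    cases T
    · simp only [Bool.false_eq_true, if_false, hxp_D_iff] at hvz ⊢
      omega
    · simp only [if_true, hxp_V_iff] at hvz ⊢
      omega
  · intro h
    cases T
    · simp only [Bool.false_eq_true, if_false] at h
      by_cases h1 : v.1 < qC
      · refine ⟨(v.1, y1), (fQ _).2 (by omega), ?_⟩
        refine hxp_D_iff.2 ?_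
        dsimp only
        omega
      · refine ⟨(v.1 - 1, y1), (fQ _).2 (by omega), ?_⟩
        refine hxp_D_iff.2 ?_
        dsimp only
        omega
    · simp only [if_true] at h
      refine ⟨(v.1, y1), (fQ _).2 (by omega), ?_⟩
      refine hxp_V_iff.2 ?_
      dsimp only
      omega

/-- the site rows of the free cells -/
theorem hxp_Q_rows {T : Bool} {z v : TV} (hz : z ∈ hxrQ y0 y1 xm xM a c) (hv : v ∈ (if T then cellV z else cellD z)) : y0 ≤ v.2 ∧ v.2 ≤ y1 + 1 := by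
  have h1 : y0 ≤ z.2 ∧ z.2 ≤ y1 := hz.1
  have h2 := hxp_tri_rng hv
  omega

/-- the columns of the sites of the free cells -/
theorem hxp_Q_cols (H : HxrPair y0 y1 xm xM a c pa qa pc qc) {T : Bool} {z v : TV} (hz : z ∈ hxrQ y0 y1 xm xM a c)
    (hv : v ∈ (if T then cellV z else cellD z)) : xm ≤ hxsX v ∧ hxsX v ≤ xM + 3 := by
  have h1 := hxr_Q_box H z hz
  have h2 := hxp_tri_rng hv
  simp only [hxsX] at h1 ⊢
  omega

end band

end Claimed.Agent.R291
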