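import Claimed.Agent.R291.Pl.Place
import Claimed.Agent.R291.Pl.SetForm

/-!
# Row 291 (S0539), unit PLA, Pl/Strip : FRAMES, PLACES, LATERAL TIPS on the triangular lattice (J9: C1, C2, C3)      (owner helper105; prefix `hxs_`)      no sorry

Design note: `origin/helper105:notes/R291/places_105.md`.   Sides of a strip = SOLID sets `AA`, `CC` of a finite region `R`.

* `HxFrame R AA CC ρ`   region + two solid sides + a lattice mirror `ρ` of the region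
* `HxPlace R AA CC ρ K` `K` = a `ρ`-invariant component of the free region `R \ (AA ∪ CC ∪ ρ AA ∪ ρ CC)` which sees `AA, ρ AA` at one site and `CC, ρ CC` at one site
* `HxEK AA CC K P`      a path inside `K ∩ P` from a neighbour of `AA` to a neighbour of `CC`
* **`hxs_place_sym`**   `HxEK AA CC K P ∨ HxEK AA CC K {v | ρ v ∉ P}`      (= "`E` or `T E`" of Lemma A / B.2 of G1)
* `hxsX`, `hxsM m`, `hxsR m L y0 y1`, `hxsSeg`   abscissa, vertical mirror, Euclidean rectangle, thick axis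
* **`hxs_tip`**         lateral tip ⟹ two places, non adjacent, inside the slab
-/

set_option autoImplicit false
set_option linter.unusedSectionVars false
set_option linter.unusedVariables false
set_option linter.unusedSimpArgs false

namespace Claimed.Agent.R291

open Relation Claims.C0467

/-! ### frames and places -/

/-- a finite TriSC region with two solid sides and a mirror -/
structure HxFrame (R AA CC : Set (ℤ × ℤ)) (ρ : ℤ × ℤ → ℤ × ℤ) : Prop where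
  scR : TriSCOn (ZMod 2) tscG R
  finR : R.Finite
  invol : ∀ v, ρ (ρ v) = v
  adj : ∀ u v, triAdj u v → triAdj (ρ u) (ρ v)
  mapR : ∀ v, v ∈ R → ρ v ∈ R
  subA : AA ⊆ R
  subC : CC ⊆ R
  connA : TscConn tscG AA
  connC : TscConn tscG CC
  sep : ∀ u ∈ AA, ∀ v ∈ CC, u ≠ v ∧ ¬ triAdj u v
  anchA : ∃ a ∈ AA, ∃ t, t ∉ R ∧ triAdj a t
  anchC : ∃ a ∈ CC, ∃ t, t ∉ R ∧ triAdj a t
  lnk1 : ∃ w ∈ AA, ρ w ∈ CC
  lnk2 : (∃ w ∈ CC, ρ w ∈ CC) ∨ (∃ w ∈ AA, ρ w ∈ AA)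

/-- a place -/
structure HxPlace (R AA CC : Set (ℤ × ℤ)) (ρ : ℤ × ℤ → ℤ × ℤ) (K : Set (ℤ × ℤ)) : Prop where
  conn : TscConn tscG K
  sub : K ⊆ R
  free : ∀ k ∈ K, k ∉ AA ∧ k ∉ CC ∧ ρ k ∉ AA ∧ ρ k ∉ CC
  max : ∀ k ∈ K, ∀ v, triAdj k v → v ∈ K ∨ v ∈ AA ∨ v ∈ CC ∨ ρ v ∈ AA ∨ ρ v ∈ CC
  inv : ∀ k ∈ K, ρ k ∈ K
  cornA : ∃ k ∈ K, (∃ a ∈ AA, triAdj k a) ∧ (∃ a, ρ a ∈ AA ∧ triAdj k a)
  cornC : ∃ k ∈ K, (∃ c ∈ CC, triAdj k c) ∧ (∃ c, ρ c ∈ CC ∧ triAdj k c)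

/-- a path inside `K ∩ P` from a neighbour of `AA` to a neighbour of `CC` -/
def HxEK (AA CC K P : Set (ℤ × ℤ)) : Prop :=
  ∃ u v, u ∈ K ∩ P ∧ v ∈ K ∩ P ∧ (∃ a ∈ AA, triAdj u a) ∧ (∃ c ∈ CC, triAdj v c) ∧ TscR tscG (K ∩ P) u v

theorem hxs_mem_image {ρ : ℤ × ℤ → ℤ × ℤ} (h : ∀ v, ρ (ρ v) = v) (S : Set (ℤ × ℤ)) (v : ℤ × ℤ) : v ∈ ρ '' S ↔ ρ v ∈ S := by
  constructor
  · rintro ⟨u, hu, rfl⟩
    rw [h]; exact hu
  · intro hv
    exact ⟨ρ v, hv, h v⟩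

theorem hxs_EK_mono {AA CC K P P' : Set (ℤ × ℤ)} (h : P ⊆ P') (hE : HxEK AA CC K P) : HxEK AA CC K P' := by
  obtain ⟨u, v, hu, hv, h1, h2, h3⟩ := hE
  exact ⟨u, v, ⟨hu.1, h hu.2⟩, ⟨hv.1, h hv.2⟩, h1, h2, tsc_R_mono (s := K ∩ P) (t := K ∩ P') (fun x hx => ⟨hx.1, h hx.2⟩) h3⟩

/-- **DICH at a place** -/
theorem hxs_place_dich {R AA CC K : Set (ℤ × ℤ)} {ρ : ℤ × ℤ → ℤ × ℤ} (F : HxFrame R AA CC ρ) (hK : HxPlace R AA CC ρ K)
    (P : Set (ℤ × ℤ)) :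
    HxEK AA CC K P ∨
    (∃ u v, u ∈ K \ P ∧ v ∈ K \ P ∧ (∃ a, ρ a ∈ AA ∧ triAdj u a) ∧ (∃ c, ρ c ∈ CC ∧ triAdj v c) ∧ TscR tscG (K \ P) u v) := by
  classical
  have hi := hxs_mem_image F.invol
  have hadj' : ∀ a b, tscG.Adj a b → tscG.Adj (ρ a) (ρ b) := F.adj
  have hal : TscConn tscG (ρ '' AA) := tsc_conn_map ρ hadj' F.connA
  have hga : TscConn tscG (ρ '' CC) := tsc_conn_map ρ hadj' F.connC
  have halR : ρ '' AA ⊆ R := by
    rintro _ ⟨u, hu, rfl⟩; exact F.mapR u (F.subA hu)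
  have hgaR : ρ '' CC ⊆ R := by
    rintro _ ⟨u, hu, rfl⟩; exact F.mapR u (F.subC hu)
  have hag : ∀ u ∈ ρ '' AA, ∀ v ∈ ρ '' CC, u ≠ v ∧ ¬ tscG.Adj u v := by
    rintro _ ⟨u, hu, rfl⟩ _ ⟨v, hv, rfl⟩
    refine ⟨fun h => (F.sep u hu v hv).1 ?_, fun h => (F.sep u hu v hv).2 ?_⟩
    · rw [← F.invol u, h, F.invol]
    · have := F.adj _ _ h
      rwa [F.invol, F.invol] at this
  have h1 : TriSCOn (ZMod 2) tscG (R \ (AA ∪ CC)) := by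
    refine hxp_sc_diff_conn F.scR (F.finR.subset (Set.union_subset F.subA F.subC)) (Set.union_subset F.subA F.subC) ?_
    obtain ⟨a, ha, t, ht, hat⟩ := F.anchA
    obtain ⟨c, hc, t', ht', hct⟩ := F.anchC
    rintro d (hd | hd)
    · exact ⟨a, t, Or.inl ha, tsc_R_mono Set.subset_union_left (F.connA d hd a ha), ht, hat⟩
    · exact ⟨c, t', Or.inr hc, tsc_R_mono Set.subset_union_right (F.connC d hd c hc), ht', hct⟩
  have hnR : ∀ t, t ∉ R → ρ t ∉ R := fun t ht h => ht (by have := F.mapR _ h; rwa [F.invol] at this)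
  have h2 : TriSCOn (ZMod 2) tscG (R \ (ρ '' AA ∪ ρ '' CC)) := by
    refine hxp_sc_diff_conn F.scR (F.finR.subset (Set.union_subset halR hgaR)) (Set.union_subset halR hgaR) ?_
    obtain ⟨a, ha, t, ht, hat⟩ := F.anchA
    obtain ⟨c, hc, t', ht', hct⟩ := F.anchC
    rintro d (hd | hd)
    · exact ⟨ρ a, ρ t, Or.inl ⟨a, ha, rfl⟩, tsc_R_mono Set.subset_union_left (hal d hd _ ⟨a, ha, rfl⟩), hnR t ht, F.adj _ _ hat⟩
    · exact ⟨ρ c, ρ t', Or.inr ⟨c, hc, rfl⟩, tsc_R_mono Set.subset_union_right (hga d hd _ ⟨c, hc, rfl⟩), hnR t' ht', F.adj _ _ hct⟩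
  have hKd : ∀ k ∈ K, k ∉ AA ∧ k ∉ CC ∧ k ∉ ρ '' AA ∧ k ∉ ρ '' CC := by
    intro k hk
    obtain ⟨f1, f2, f3, f4⟩ := hK.free k hk
    exact ⟨f1, f2, fun h => f3 ((hi _ _).1 h), fun h => f4 ((hi _ _).1 h)⟩
  have hKmax : ∀ k ∈ K, ∀ v, tscG.Adj k v → v ∈ K ∨ v ∈ AA ∨ v ∈ CC ∨ v ∈ ρ '' AA ∨ v ∈ ρ '' CC := by
    intro k hk v hv
    rcases hK.max k hk v hv with h | h | h | h | h
    · exact Or.inl h
    · exact Or.inr (Or.inl h)
    · exact Or.inr (Or.inr (Or.inl h))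
    · exact Or.inr (Or.inr (Or.inr (Or.inl ((hi _ _).2 h))))
    · exact Or.inr (Or.inr (Or.inr (Or.inr ((hi _ _).2 h))))
  obtain ⟨k1, hk1, ⟨a1, ha1, hk1a⟩, ⟨l1, hl1, hk1l⟩⟩ := hK.cornA
  obtain ⟨k3, hk3, ⟨c3, hc3, hk3c⟩, ⟨g3, hg3, hk3g⟩⟩ := hK.cornC
  -- `a1` and `c3` are joined off `K`
  have hjoin : TscR tscG (Set.univ \ K) a1 c3 := by
    obtain ⟨w1, hw1, hw1'⟩ := F.lnk1
    rcases F.lnk2 with ⟨w2, hw2, hw2'⟩ | ⟨w2, hw2, hw2'⟩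
    · have s1 : TscR tscG (Set.univ \ K) a1 w1 :=
        tsc_R_mono (s := AA) (t := Set.univ \ K) (fun x hx => ⟨trivial, fun h => (hKd x h).1 hx⟩) (F.connA a1 ha1 w1 hw1)
      have s2 : TscR tscG (Set.univ \ K) w1 w2 :=
        tsc_R_mono (s := ρ '' CC) (t := Set.univ \ K) (fun x hx => ⟨trivial, fun h => (hKd x h).2.2.2 hx⟩) (hga w1 ((hi _ _).2 hw1') w2 ((hi _ _).2 hw2'))
      have s3 : TscR tscG (Set.univ \ K) w2 c3 :=
        tsc_R_mono (s := CC) (t := Set.univ \ K) (fun x hx => ⟨trivial, fun h => (hKd x h).2.1 hx⟩) (F.connC w2 hw2 c3 hc3)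
      exact (s1.trans s2).trans s3
    · have s1 : TscR tscG (Set.univ \ K) a1 w2 :=
        tsc_R_mono (s := AA) (t := Set.univ \ K) (fun x hx => ⟨trivial, fun h => (hKd x h).1 hx⟩) (F.connA a1 ha1 w2 hw2)
      have s2 : TscR tscG (Set.univ \ K) w2 (ρ w1) :=
        tsc_R_mono (s := ρ '' AA) (t := Set.univ \ K) (fun x hx => ⟨trivial, fun h => (hKd x h).2.2.1 hx⟩) (hal w2 ((hi _ _).2 hw2') (ρ w1) ⟨w1, hw1, rfl⟩)
      have s3 : TscR tscG (Set.univ \ K) (ρ w1) c3 :=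
        tsc_R_mono (s := CC) (t := Set.univ \ K) (fun x hx => ⟨trivial, fun h => (hKd x h).2.1 hx⟩) (F.connC (ρ w1) hw1' c3 hc3)
      exact (s1.trans s2).trans s3
  obtain ⟨k, hk, hcor⟩ := hxp_corner (G := tscG) (tsc_plane (ZMod 2)) (Set.subset_univ K) hK.conn F.sep hag hKd hKmax
    hk1 hk3 ha1 hk1a hc3 hk3c hjoin
  -- the two remaining corners
  obtain ⟨k2, hk2, c2l, c2C, k4, hk4, c4g, c4A⟩ : ∃ k2, k2 ∈ K ∧ (∃ a ∈ ρ '' AA, tscG.Adj k2 a) ∧ (∃ a ∈ CC, tscG.Adj k2 a) ∧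
      ∃ k4, k4 ∈ K ∧ (∃ a ∈ ρ '' CC, tscG.Adj k4 a) ∧ (∃ a ∈ AA, tscG.Adj k4 a) := by
    rcases hcor with ⟨⟨a, ha, hka⟩, ⟨c, hc, hkc⟩⟩ | ⟨⟨a, ha, hka⟩, ⟨c, hc, hkc⟩⟩
    · exact ⟨k, hk, ⟨a, ha, hka⟩, ⟨c, hc, hkc⟩, ρ k, hK.inv k hk, ⟨ρ c, ⟨c, hc, rfl⟩, F.adj _ _ hkc⟩,
        ⟨ρ a, (hi _ _).1 ha, F.adj _ _ hka⟩⟩
    · exact ⟨ρ k, hK.inv k hk, ⟨ρ a, ⟨a, ha, rfl⟩, F.adj _ _ hka⟩, ⟨ρ c, (hi _ _).1 hc, F.adj _ _ hkc⟩, k, hk,
        ⟨c, hc, hkc⟩, ⟨a, ha, hka⟩⟩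
  rcases hxp_dich (G := tscG) F.scR h1 h2 F.subA F.subC halR hgaR F.connA F.connC hal hga F.sep hag hK.conn hK.sub hKd hKmax
    hk1 hk2 hk3 hk4 ⟨a1, ha1, hk1a⟩ ⟨l1, (hi _ _).2 hl1, hk1l⟩ c2l c2C ⟨c3, hc3, hk3c⟩ ⟨g3, (hi _ _).2 hg3, hk3g⟩ c4g c4A P with h | h
  · exact Or.inl h
  · obtain ⟨u, v, hu, hv, ⟨a, ha, hua⟩, ⟨c, hc, hvc⟩, huv⟩ := h
    exact Or.inr ⟨u, v, hu, hv, ⟨a, (hi _ _).1 ha, hua⟩, ⟨c, (hi _ _).1 hc, hvc⟩, huv⟩

/-- **`E` or `T E`**: the symmetric form consumed by the symmetry lemma -/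
theorem hxs_place_sym {R AA CC K : Set (ℤ × ℤ)} {ρ : ℤ × ℤ → ℤ × ℤ} (F : HxFrame R AA CC ρ) (hK : HxPlace R AA CC ρ K)
    (P : Set (ℤ × ℤ)) : HxEK AA CC K P ∨ HxEK AA CC K {v | ρ v ∉ P} := by
  rcases hxs_place_dich F hK P with h | ⟨u, v, hu, hv, ⟨a, ha, hua⟩, ⟨c, hc, hvc⟩, huv⟩
  · exact Or.inl h
  · right
    have hm : ∀ x, x ∈ K \ P → ρ x ∈ K ∩ {v | ρ v ∉ P} := fun x hx =>
      ⟨hK.inv x hx.1, by show ρ (ρ x) ∉ P; rw [F.invol]; exact hx.2⟩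
    refine ⟨ρ u, ρ v, hm u hu, hm v hv, ⟨ρ a, ha, F.adj _ _ hua⟩, ⟨ρ c, hc, F.adj _ _ hvc⟩, ?_⟩
    refine tsc_R_mono ?_ (tsc_R_map (G' := tscG) ρ F.adj huv)
    rintro _ ⟨x, hx, rfl⟩
    exact hm x hx

/-- a place contains a path from `AA` to `CC` -/
theorem hxs_place_cross {R AA CC K : Set (ℤ × ℤ)} {ρ : ℤ × ℤ → ℤ × ℤ} (hK : HxPlace R AA CC ρ K) : HxEK AA CC K Set.univ := by
  obtain ⟨k1, hk1, h1, _⟩ := hK.cornA
  obtain ⟨k3, hk3, h3, _⟩ := hK.cornC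
  exact ⟨k1, k3, ⟨hk1, trivial⟩, ⟨hk3, trivial⟩, h1, h3, tsc_R_mono (s := K) (t := K ∩ Set.univ) (fun x hx => ⟨hx, trivial⟩) (hK.conn k1 hk1 k3 hk3)⟩

/-- exchange of the two sides -/
theorem HxPlace.swap {R AA CC K : Set (ℤ × ℤ)} {ρ : ℤ × ℤ → ℤ × ℤ} (hK : HxPlace R AA CC ρ K) : HxPlace R CC AA ρ K where
  conn := hK.conn
  sub := hK.sub
  free := fun k hk => ⟨(hK.free k hk).2.1, (hK.free k hk).1, (hK.free k hk).2.2.2, (hK.free k hk).2.2.1⟩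
  max := fun k hk v hv => by
    rcases hK.max k hk v hv with h | h | h | h | h
    · exact Or.inl h
    · exact Or.inr (Or.inr (Or.inl h))
    · exact Or.inr (Or.inl h)
    · exact Or.inr (Or.inr (Or.inr (Or.inr h)))
    · exact Or.inr (Or.inr (Or.inr (Or.inl h)))
  inv := hK.inv
  cornA := hK.cornC
  cornC := hK.cornA

/-- a place of the mirrored sides is a place -/
theorem HxPlace.mirror {R AA CC K : Set (ℤ × ℤ)} {ρ : ℤ × ℤ → ℤ × ℤ} (hi : ∀ v, ρ (ρ v) = v)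
    (hK : HxPlace R (ρ '' AA) (ρ '' CC) ρ K) : HxPlace R AA CC ρ K where
  conn := hK.conn
  sub := hK.sub
  free := fun k hk => by
    obtain ⟨f1, f2, f3, f4⟩ := hK.free k hk
    refine ⟨fun h => f3 ((hxs_mem_image hi _ _).2 (by rw [hi]; exact h)), fun h => f4 ((hxs_mem_image hi _ _).2 (by rw [hi]; exact h)),
      fun h => f1 ((hxs_mem_image hi _ _).2 h), fun h => f2 ((hxs_mem_image hi _ _).2 h)⟩
  max := fun k hk v hv => by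
    rcases hK.max k hk v hv with h | h | h | h | h
    · exact Or.inl h
    · exact Or.inr (Or.inr (Or.inr (Or.inl ((hxs_mem_image hi _ _).1 h))))
    · exact Or.inr (Or.inr (Or.inr (Or.inr ((hxs_mem_image hi _ _).1 h))))
    · have := (hxs_mem_image hi _ _).1 h
      rw [hi] at this
      exact Or.inr (Or.inl this)
    · have := (hxs_mem_image hi _ _).1 h
      rw [hi] at this
      exact Or.inr (Or.inr (Or.inl this))
  inv := hK.inv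
  cornA := by
    obtain ⟨k, hk, ⟨a, ha, hka⟩, ⟨b, hb, hkb⟩⟩ := hK.cornA
    have hb' := (hxs_mem_image hi _ _).1 hb
    rw [hi] at hb'
    exact ⟨k, hk, ⟨b, hb', hkb⟩, ⟨a, (hxs_mem_image hi _ _).1 ha, hka⟩⟩
  cornC := by
    obtain ⟨k, hk, ⟨a, ha, hka⟩, ⟨b, hb, hkb⟩⟩ := hK.cornC
    have hb' := (hxs_mem_image hi _ _).1 hb
    rw [hi] at hb'
    exact ⟨k, hk, ⟨b, hb', hkb⟩, ⟨a, (hxs_mem_image hi _ _).1 ha, hka⟩⟩

/-- a frame of the mirrored and exchanged sides is a frame -/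
theorem HxFrame.mirror {R AA CC : Set (ℤ × ℤ)} {ρ : ℤ × ℤ → ℤ × ℤ} (F : HxFrame R (ρ '' CC) (ρ '' AA) ρ) : HxFrame R AA CC ρ := by
  have hi := hxs_mem_image F.invol
  have him : ∀ S : Set (ℤ × ℤ), ρ '' (ρ '' S) = S := by
    intro S
    ext v
    rw [hi, hi, F.invol]
  have hnR : ∀ t, t ∉ R → ρ t ∉ R := fun t ht h => ht (by have := F.mapR _ h; rwa [F.invol] at this)
  refine ⟨F.scR, F.finR, F.invol, F.adj, F.mapR, ?_, ?_, ?_, ?_, ?_, ?_, ?_, ?_, ?_⟩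
  · intro v hv
    have := F.mapR _ (F.subC ⟨v, hv, rfl⟩)
    rwa [F.invol] at this
  · intro v hv
    have := F.mapR _ (F.subA ⟨v, hv, rfl⟩)
    rwa [F.invol] at this
  · have := tsc_conn_map (G' := tscG) ρ F.adj F.connC
    rwa [him] at this
  · have := tsc_conn_map (G' := tscG) ρ F.adj F.connA
    rwa [him] at this
  · intro u hu v hv
    obtain ⟨h1, h2⟩ := F.sep (ρ v) ⟨v, hv, rfl⟩ (ρ u) ⟨u, hu, rfl⟩
    exact ⟨fun h => h1 (by rw [h]), fun h => h2 (hx_tri_symm _ _ (F.adj _ _ h))⟩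
  · obtain ⟨a, ha, t, ht, hat⟩ := F.anchC
    exact ⟨ρ a, (hi _ _).1 ha, ρ t, hnR t ht, F.adj _ _ hat⟩
  · obtain ⟨a, ha, t, ht, hat⟩ := F.anchA
    exact ⟨ρ a, (hi _ _).1 ha, ρ t, hnR t ht, F.adj _ _ hat⟩
  · obtain ⟨w, hw, hw'⟩ := F.lnk1
    have h1 := (hi _ _).1 hw
    have h2 := (hi _ _).1 hw'
    rw [F.invol] at h2
    exact ⟨w, h2, h1⟩
  · rcases F.lnk2 with ⟨w, hw, hw'⟩ | ⟨w, hw, hw'⟩
    · have h1 := (hi _ _).1 hw
      have h2 := (hi _ _).1 hw'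
      rw [F.invol] at h2
      exact Or.inr ⟨w, h2, h1⟩
    · have h1 := (hi _ _).1 hw
      have h2 := (hi _ _).1 hw'
      rw [F.invol] at h2
      exact Or.inl ⟨w, h2, h1⟩

/-! ### vertical mirrors, Euclidean rectangles, the thick axis -/

/-- twice the Euclidean abscissa -/
def hxsX (v : ℤ × ℤ) : ℤ := 2 * v.1 + v.2

/-- the mirror whose axis is the vertical line `hxsX = m` -/
def hxsM (m : ℤ) (v : ℤ × ℤ) : ℤ × ℤ := (m - v.1 - v.2, v.2)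

theorem hxs_M_invol (m : ℤ) (v : ℤ × ℤ) : hxsM m (hxsM m v) = v := by
  obtain ⟨x, y⟩ := v
  simp only [hxsM, Prod.mk.injEq, and_true]
  omega

theorem hxs_M_adj (m : ℤ) (u v : ℤ × ℤ) (h : triAdj u v) : triAdj (hxsM m u) (hxsM m v) := by
  rw [tsc_adj_iff] at *
  simp only [hxsM]
  omega

theorem hxs_M_X (m : ℤ) (v : ℤ × ℤ) : hxsX (hxsM m v) = 2 * m - hxsX v := by
  simp only [hxsX, hxsM]
  omega

theorem hxs_M_snd (m : ℤ) (v : ℤ × ℤ) : (hxsM m v).2 = v.2 := rfl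

/-- Euclidean rectangle: rows `y0 .. y1`, abscissas within `L` of the axis -/
def hxsR (m L y0 y1 : ℤ) : Set (ℤ × ℤ) := {v | y0 ≤ v.2 ∧ v.2 ≤ y1 ∧ m - L ≤ hxsX v ∧ hxsX v ≤ m + L}

theorem hxs_R_finite (m L y0 y1 : ℤ) : (hxsR m L y0 y1).Finite := by
  refine Set.Finite.subset ((Set.finite_Icc ((m - L - y1) / 2) ((m + L - y0) / 2 + 1)).prod (Set.finite_Icc y0 y1)) ?_
  rintro ⟨x, y⟩ ⟨h1, h2, h3, h4⟩
  simp only [hxsX] at h1 h2 h3 h4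
  refine ⟨⟨?_, ?_⟩, ⟨h1, h2⟩⟩
  · show (m - L - y1) / 2 ≤ x
    omega
  · show x ≤ (m + L - y0) / 2 + 1
    omega

theorem hxs_R_sc (m L y0 y1 : ℤ) : TriSCOn (ZMod 2) tscG (hxsR m L y0 y1) := by
  refine tsc_shell_set (A := ZMod 2) (hxs_R_finite m L y0 y1) ?_
  intro x y h1 h2 h3
  simp only [hxsR, hxsX, Set.mem_ofPred_eq] at *
  omega

theorem hxs_R_map (m L y0 y1 : ℤ) (v : ℤ × ℤ) (h : v ∈ hxsR m L y0 y1) : hxsM m v ∈ hxsR m L y0 y1 := by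
  obtain ⟨h1, h2, h3, h4⟩ := h
  refine ⟨h1, h2, ?_, ?_⟩ <;> rw [hxs_M_X] <;> omega

/-- the thick axis between two rows -/
def hxsSeg (m ya yb : ℤ) : Set (ℤ × ℤ) := {v | ya ≤ v.2 ∧ v.2 ≤ yb ∧ m - 1 ≤ hxsX v ∧ hxsX v ≤ m + 1}

/-- one site of the thick axis in the row `y` -/
def hxsAx (m y : ℤ) : ℤ × ℤ := ((m - y) / 2, y)

theorem hxs_Ax_X (m y : ℤ) : m - 1 ≤ hxsX (hxsAx m y) ∧ hxsX (hxsAx m y) ≤ m + 1 := by
  simp only [hxsX, hxsAx]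
  omega

theorem hxs_Ax_mem {m ya yb y : ℤ} (h1 : ya ≤ y) (h2 : y ≤ yb) : hxsAx m y ∈ hxsSeg m ya yb :=
  ⟨h1, h2, (hxs_Ax_X m y).1, (hxs_Ax_X m y).2⟩

/-- sites of the thick axis in consecutive rows are adjacent -/
theorem hxs_ax_adj {m : ℤ} {u v : ℤ × ℤ} (hu : m - 1 ≤ hxsX u ∧ hxsX u ≤ m + 1) (hv : m - 1 ≤ hxsX v ∧ hxsX v ≤ m + 1)
    (h : v.2 = u.2 + 1 ∨ u.2 = v.2 + 1) : triAdj u v := by
  rw [tsc_adj_iff]
  simp only [hxsX] at hu hv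
  omega

/-- sites of the thick axis in one row are equal or adjacent -/
theorem hxs_ax_row {m : ℤ} {u v : ℤ × ℤ} (hu : m - 1 ≤ hxsX u ∧ hxsX u ≤ m + 1) (hv : m - 1 ≤ hxsX v ∧ hxsX v ≤ m + 1)
    (h : v.2 = u.2) : u = v ∨ triAdj u v := by
  rw [tsc_adj_iff]
  simp only [hxsX] at hu hv
  by_cases h1 : u.1 = v.1
  · left; exact Prod.ext h1 h.symm
  · right; omega

theorem hxs_seg_conn (m ya yb : ℤ) : TscConn tscG (hxsSeg m ya yb) := by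
  have key : ∀ n : ℕ, ∀ u ∈ hxsSeg m ya yb, ∀ v ∈ hxsSeg m ya yb, v.2 = u.2 + n → TscR tscG (hxsSeg m ya yb) u v := by
    intro n
    induction n with
    | zero =>
      intro u hu v hv h
      rcases hxs_ax_row hu.2.2 hv.2.2 (by simpa using h) with rfl | h'
      · exact ReflTransGen.refl
      · exact tsc_R_step h' hu hv
    | succ n ih =>
      intro u hu v hv h
      push_cast at h
      have hw : hxsAx m (u.2 + 1) ∈ hxsSeg m ya yb := hxs_Ax_mem (by have := hu.1; omega) (by have := hv.2.1; omega)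
      have h1 : TscR tscG (hxsSeg m ya yb) u (hxsAx m (u.2 + 1)) :=
        tsc_R_step (hxs_ax_adj hu.2.2 (hxs_Ax_X m _) (Or.inl rfl)) hu hw
      exact h1.trans (ih _ hw v hv (by show v.2 = u.2 + 1 + n; omega))
  intro u hu v hv
  rcases le_total u.2 v.2 with h | h
  · obtain ⟨n, hn⟩ := Int.eq_ofNat_of_zero_le (sub_nonneg.2 h)
    exact key n u hu v hv (by omega)
  · obtain ⟨n, hn⟩ := Int.eq_ofNat_of_zero_le (sub_nonneg.2 h)
    exact tsc_R_symm (key n v hv u hu (by omega))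

theorem hxs_seg_map {m ya yb : ℤ} {v : ℤ × ℤ} (h : v ∈ hxsSeg m ya yb) : hxsM m v ∈ hxsSeg m ya yb := by
  obtain ⟨h1, h2, h3, h4⟩ := h
  refine ⟨h1, h2, ?_, ?_⟩ <;> rw [hxs_M_X] <;> omega

/-- the free region -/
def hxsF (m L y0 y1 : ℤ) (AA CC : Set (ℤ × ℤ)) : Set (ℤ × ℤ) :=
  {v | v ∈ hxsR m L y0 y1 ∧ v ∉ AA ∧ v ∉ CC ∧ hxsM m v ∉ AA ∧ hxsM m v ∉ CC}

theorem hxs_F_map {m L y0 y1 : ℤ} {AA CC : Set (ℤ × ℤ)} {v : ℤ × ℤ} (h : v ∈ hxsF m L y0 y1 AA CC) :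
    hxsM m v ∈ hxsF m L y0 y1 AA CC := by
  obtain ⟨h1, h2, h3, h4, h5⟩ := h
  refine ⟨hxs_R_map _ _ _ _ _ h1, h4, h5, ?_, ?_⟩ <;> rw [hxs_M_invol] <;> assumption

/-- **a free run of the thick axis between a site of `AA` and a site of `CC` defines a place** -/
theorem hxs_run_place {m L y0 y1 W lo hi : ℤ} {AA CC : Set (ℤ × ℤ)}
    (hslab : ∀ v ∈ hxsF m L y0 y1 AA CC, y0 < v.2 ∧ v.2 < y1 ∧ m - W ≤ hxsX v ∧ hxsX v ≤ m + W) (hWL : W + 2 ≤ L)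
    (hlohi : lo ≤ hi) (hseg : hxsSeg m lo hi ⊆ hxsF m L y0 y1 AA CC)
    {a c : ℤ × ℤ} (ha : a ∈ AA) (haX : m - 1 ≤ hxsX a ∧ hxsX a ≤ m + 1) (hc : c ∈ CC) (hcX : m - 1 ≤ hxsX c ∧ hxsX c ≤ m + 1)
    (hrows : (a.2 = hi + 1 ∧ c.2 = lo - 1) ∨ (a.2 = lo - 1 ∧ c.2 = hi + 1)) :
    HxPlace (hxsR m L y0 y1) AA CC (hxsM m) (tscComp tscG (hxsF m L y0 y1 AA CC) (hxsAx m lo)) := by
  set F := hxsF m L y0 y1 AA CC with hF
  set x0 := hxsAx m lo with hx0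
  have hx0S : x0 ∈ hxsSeg m lo hi := hxs_Ax_mem le_rfl hlohi
  have hsegK : ∀ v ∈ hxsSeg m lo hi, v ∈ tscComp tscG F x0 := fun v hv =>
    ⟨hseg hv, tsc_R_mono hseg (hxs_seg_conn m lo hi x0 hx0S v hv)⟩
  have mX : ∀ z : ℤ × ℤ, (m - 1 ≤ hxsX z ∧ hxsX z ≤ m + 1) → (m - 1 ≤ hxsX (hxsM m z) ∧ hxsX (hxsM m z) ≤ m + 1) := by
    intro z hz
    rw [hxs_M_X]
    omega
  -- a corner: a site of the run next to a given site of the axis
  have corner : ∀ z : ℤ × ℤ, (m - 1 ≤ hxsX z ∧ hxsX z ≤ m + 1) → (z.2 = hi + 1 ∨ z.2 = lo - 1) →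
      ∃ k ∈ tscComp tscG F x0, triAdj k z ∧ triAdj k (hxsM m z) := by
    intro z hz hrow
    rcases hrow with h | h
    · refine ⟨hxsAx m hi, hsegK _ (hxs_Ax_mem hlohi le_rfl), ?_, ?_⟩
      · exact hxs_ax_adj (hxs_Ax_X m hi) hz (Or.inl h)
      · exact hxs_ax_adj (hxs_Ax_X m hi) (mX z hz) (Or.inl h)
    · refine ⟨hxsAx m lo, hsegK _ hx0S, ?_, ?_⟩
      · exact hxs_ax_adj (hxs_Ax_X m lo) hz (Or.inr (by show lo = z.2 + 1; omega))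
      · exact hxs_ax_adj (hxs_Ax_X m lo) (mX z hz) (Or.inr (by show lo = z.2 + 1; omega))
  refine ⟨tsc_comp_conn x0, fun k hk => hk.1.1, fun k hk => hk.1.2, ?_, ?_, ?_, ?_⟩
  · intro k hk v hv
    by_cases hvF : v ∈ F
    · exact Or.inl (tsc_comp_adj hk hvF hv)
    · obtain ⟨s1, s2, s3, s4⟩ := hslab k hk.1
      have hvR : v ∈ hxsR m L y0 y1 := by
        rw [tsc_adj_iff] at hv
        simp only [hxsR, hxsX, Set.mem_ofPred_eq] at *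
        omega
      by_contra hcon
      exact hvF ⟨hvR, fun h => hcon (Or.inr (Or.inl h)), fun h => hcon (Or.inr (Or.inr (Or.inl h))),
        fun h => hcon (Or.inr (Or.inr (Or.inr (Or.inl h)))), fun h => hcon (Or.inr (Or.inr (Or.inr (Or.inr h))))⟩
  · intro k hk
    refine ⟨hxs_F_map hk.1, ?_⟩
    have h1 : TscR tscG F x0 (hxsM m x0) := (hsegK _ (hxs_seg_map hx0S)).2
    have h2 : TscR tscG F (hxsM m x0) (hxsM m k) := by
      refine tsc_R_mono ?_ (tsc_R_map (G' := tscG) (hxsM m) (hxs_M_adj m) hk.2)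
      rintro _ ⟨x, hx, rfl⟩
      exact hxs_F_map hx
    exact h1.trans h2
  · obtain ⟨k, hk, h1, h2⟩ := corner a haX (by omega)
    exact ⟨k, hk, ⟨a, ha, h1⟩, ⟨hxsM m a, by rw [hxs_M_invol]; exact ha, h2⟩⟩
  · obtain ⟨k, hk, h1, h2⟩ := corner c hcX (by omega)
    exact ⟨k, hk, ⟨c, hc, h1⟩, ⟨hxsM m c, by rw [hxs_M_invol]; exact hc, h2⟩⟩

/-- hypotheses of the lateral tip (C3 of G1): the side `AA` comes from the far left and reaches the axis `hxsX = m`;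
everything of the rectangle at abscissa `> m + W`, and everything of the two extreme rows at abscissa `≥ m - W`, belongs to `CC`. -/
structure HxTip (m L y0 y1 W : ℤ) (AA CC : Set (ℤ × ℤ)) : Prop where
  subA : AA ⊆ hxsR m L y0 y1
  subC : CC ⊆ hxsR m L y0 y1
  connA : TscConn tscG AA
  connC : TscConn tscG CC
  sep : ∀ u ∈ AA, ∀ v ∈ CC, u ≠ v ∧ ¬ triAdj u v
  far : ∀ v ∈ hxsR m L y0 y1, m + W < hxsX v → v ∈ CC
  rows : ∀ v ∈ hxsR m L y0 y1, (v.2 = y0 ∨ v.2 = y1) → m - W ≤ hxsX v → v ∈ CC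
  axis : ∃ a ∈ AA, m - 1 ≤ hxsX a ∧ hxsX a ≤ m + 1
  left : ∃ w ∈ AA, hxsX w ≤ m - L + 1
  hW : 1 ≤ W
  hL : W + (y1 - y0) + 2 ≤ L
  hy : y0 ≤ y1

theorem hxs_tip_slab {m L y0 y1 W : ℤ} {AA CC : Set (ℤ × ℤ)} (T : HxTip m L y0 y1 W AA CC) :
    ∀ v ∈ hxsF m L y0 y1 AA CC, y0 < v.2 ∧ v.2 < y1 ∧ m - W ≤ hxsX v ∧ hxsX v ≤ m + W := by
  rintro v ⟨hR, _, hC, _, hC'⟩
  have h1 : hxsX v ≤ m + W := by
    by_contra h
    exact hC (T.far v hR (by omega))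
  have h2 : m - W ≤ hxsX v := by
    by_contra h
    exact hC' (T.far _ (hxs_R_map _ _ _ _ _ hR) (by rw [hxs_M_X]; omega))
  have h3 : v.2 ≠ y0 := fun h => hC (T.rows v hR (Or.inl h) h2)
  have h4 : v.2 ≠ y1 := fun h => hC (T.rows v hR (Or.inr h) h2)
  have := hR.1
  have := hR.2.1
  exact ⟨by omega, by omega, h2, h1⟩

theorem hxs_tip_frame {m L y0 y1 W : ℤ} {AA CC : Set (ℤ × ℤ)} (T : HxTip m L y0 y1 W AA CC) :
    HxFrame (hxsR m L y0 y1) AA CC (hxsM m) := by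
  obtain ⟨w, hw, hwX⟩ := T.left
  have hwR := T.subA hw
  have hW := T.hW
  have hL := T.hL
  have hy := T.hy
  have hρw : hxsM m w ∈ CC := T.far _ (hxs_R_map _ _ _ _ _ hwR) (by rw [hxs_M_X]; omega)
  have hax : hxsAx m y0 ∈ hxsR m L y0 y1 := ⟨le_rfl, hy, by have := (hxs_Ax_X m y0).1; omega, by have := (hxs_Ax_X m y0).2; omega⟩
  refine ⟨hxs_R_sc m L y0 y1, hxs_R_finite m L y0 y1, hxs_M_invol m, hxs_M_adj m, hxs_R_map m L y0 y1, T.subA, T.subC, T.connA,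
    T.connC, T.sep, ?_, ?_, ⟨w, hw, hρw⟩, ?_⟩
  · refine ⟨w, hw, (w.1 - 1, w.2), ?_, ?_⟩
    · rintro ⟨_, _, h3, _⟩
      simp only [hxsX] at h3 hwX
      omega
    · rw [tsc_adj_iff]; simp
  · refine ⟨hxsM m w, hρw, ((hxsM m w).1 + 1, (hxsM m w).2), ?_, ?_⟩
    · rintro ⟨_, _, _, h4⟩
      have := hxs_M_X m w
      simp only [hxsX] at h4 hwX this
      omega
    · rw [tsc_adj_iff]; simp
  · refine Or.inl ⟨hxsAx m y0, T.rows _ hax (Or.inl rfl) (by have := (hxs_Ax_X m y0).1; omega), ?_⟩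
    refine T.rows _ (hxs_R_map _ _ _ _ _ hax) (Or.inl rfl) ?_
    rw [hxs_M_X]
    have := (hxs_Ax_X m y0).2
    omega

/-- **LATERAL TIP** (C1 + C2 + C3 of G1 in set form): two places, not adjacent, inside the slab. -/
theorem hxs_tip {m L y0 y1 W : ℤ} {AA CC : Set (ℤ × ℤ)} (T : HxTip m L y0 y1 W AA CC) :
    ∃ K0 K1 : Set (ℤ × ℤ), HxPlace (hxsR m L y0 y1) AA CC (hxsM m) K0 ∧ HxPlace (hxsR m L y0 y1) AA CC (hxsM m) K1 ∧
      (∀ u ∈ K0, ∀ v ∈ K1, u ≠ v ∧ ¬ triAdj u v) ∧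
      (∀ v ∈ K0 ∪ K1, y0 < v.2 ∧ v.2 < y1 ∧ m - W ≤ hxsX v ∧ hxsX v ≤ m + W) := by
  classical
  have hW := T.hW
  have hL := T.hL
  have hy := T.hy
  have hslab := hxs_tip_slab T
  set R := hxsR m L y0 y1 with hR
  set F := hxsF m L y0 y1 AA CC with hF
  let rowA : ℤ → Prop := fun y => ∃ a ∈ AA, a.2 = y ∧ m - 1 ≤ hxsX a ∧ hxsX a ≤ m + 1
  let rowC : ℤ → Prop := fun y => ∃ c ∈ CC, c.2 = y ∧ m - 1 ≤ hxsX c ∧ hxsX c ≤ m + 1
  have rowA_rng : ∀ y, rowA y → y0 ≤ y ∧ y ≤ y1 := by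
    rintro y ⟨a, ha, rfl, _⟩
    exact ⟨(T.subA ha).1, (T.subA ha).2.1⟩
  have rowC_rng : ∀ y, rowC y → y0 ≤ y ∧ y ≤ y1 := by
    rintro y ⟨a, ha, rfl, _⟩
    exact ⟨(T.subC ha).1, (T.subC ha).2.1⟩
  have axR : ∀ y, y0 ≤ y → y ≤ y1 → hxsAx m y ∈ R := fun y h1 h2 =>
    ⟨h1, h2, by have := (hxs_Ax_X m y).1; omega, by have := (hxs_Ax_X m y).2; omega⟩
  have rowC0 : rowC y0 := ⟨hxsAx m y0, T.rows _ (axR y0 le_rfl hy) (Or.inl rfl) (by have := (hxs_Ax_X m y0).1; omega), rfl, hxs_Ax_X m y0⟩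
  have rowC1 : rowC y1 := ⟨hxsAx m y1, T.rows _ (axR y1 hy le_rfl) (Or.inr rfl) (by have := (hxs_Ax_X m y1).1; omega), rfl, hxs_Ax_X m y1⟩
  -- a row is not both, consecutive rows are not of different kinds
  have excl : ∀ y y', rowA y → rowC y' → y' ≠ y ∧ y' ≠ y + 1 ∧ y ≠ y' + 1 := by
    rintro y y' ⟨a, ha, rfl, haX⟩ ⟨c, hc, rfl, hcX⟩
    refine ⟨fun h => ?_, fun h => ?_, fun h => ?_⟩
    · rcases hxs_ax_row haX hcX h with h' | h'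
      · exact (T.sep a ha c hc).1 h'
      · exact (T.sep a ha c hc).2 h'
    · exact (T.sep a ha c hc).2 (hxs_ax_adj haX hcX (Or.inl h))
    · exact (T.sep a ha c hc).2 (hxs_ax_adj haX hcX (Or.inr h))
  have exA : ∃ y, rowA y := by
    obtain ⟨a, ha, haX⟩ := T.axis
    exact ⟨a.2, a, ha, rfl, haX⟩
  -- a segment of the thick axis whose rows are neither `A` nor `C` is free
  have segF : ∀ lo hi, y0 ≤ lo → hi ≤ y1 → (∀ y, lo ≤ y → y ≤ hi → ¬ rowA y ∧ ¬ rowC y) → hxsSeg m lo hi ⊆ F := by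
    intro lo hi h1 h2 h v hv
    obtain ⟨v1, v2, v3, v4⟩ := hv
    have hn := h v.2 v1 v2
    refine ⟨⟨by omega, by omega, by omega, by omega⟩, fun hA => hn.1 ⟨v, hA, rfl, v3, v4⟩, fun hC => hn.2 ⟨v, hC, rfl, v3, v4⟩,
      fun hA => hn.1 ⟨_, hA, rfl, ?_, ?_⟩, fun hC => hn.2 ⟨_, hC, rfl, ?_, ?_⟩⟩ <;> rw [hxs_M_X] <;> omega
  -- the lowest and the highest row of kind `A`
  obtain ⟨yA, hyA, hyAmin⟩ := Int.exists_least_of_bdd (P := rowA) ⟨y0, fun z hz => (rowA_rng z hz).1⟩ exA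
  obtain ⟨yB, hyB, hyBmax⟩ := Int.exists_greatest_of_bdd (P := rowA) ⟨y1, fun z hz => (rowA_rng z hz).2⟩ exA
  have hyA0 : y0 < yA := by
    have := (rowA_rng yA hyA).1
    have := (excl yA y0 hyA rowC0).1
    omega
  have hyB1 : yB < y1 := by
    have := (rowA_rng yB hyB).2
    have := (excl yB y1 hyB rowC1).1
    omega
  obtain ⟨yC, ⟨hyC, hyCA⟩, hyCmax⟩ := Int.exists_greatest_of_bdd (P := fun y => rowC y ∧ y < yA) ⟨yA, fun z hz => hz.2.le⟩ ⟨y0, rowC0, hyA0⟩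
  obtain ⟨yD, ⟨hyD, hyDB⟩, hyDmin⟩ := Int.exists_least_of_bdd (P := fun y => rowC y ∧ yB < y) ⟨yB, fun z hz => hz.2.le⟩ ⟨y1, rowC1, hyB1⟩
  have e0 := excl yA yC hyA hyC
  have e1 := excl yB yD hyB hyD
  have seg0 : hxsSeg m (yC + 1) (yA - 1) ⊆ F := by
    refine segF _ _ (by have := (rowC_rng yC hyC).1; omega) (by have := (rowA_rng yA hyA).2; omega) ?_
    intro y h1 h2
    exact ⟨fun h => by have := hyAmin y h; omega, fun h => by have := hyCmax y ⟨h, by omega⟩; omega⟩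
  have seg1 : hxsSeg m (yB + 1) (yD - 1) ⊆ F := by
    refine segF _ _ (by have := (rowA_rng yB hyB).1; omega) (by have := (rowC_rng yD hyD).2; omega) ?_
    intro y h1 h2
    exact ⟨fun h => by have := hyBmax y h; omega, fun h => by have := hyDmin y ⟨h, by omega⟩; omega⟩
  obtain ⟨a0, ha0, ha0r, ha0X⟩ := hyA
  obtain ⟨c0, hc0, hc0r, hc0X⟩ := hyC
  obtain ⟨a1, ha1, ha1r, ha1X⟩ := hyB
  obtain ⟨c1, hc1, hc1r, hc1X⟩ := hyD
  have P0 := hxs_run_place (lo := yC + 1) (hi := yA - 1) hslab (by omega) (by omega) seg0 ha0 ha0X hc0 hc0X (Or.inl ⟨by omega, by omega⟩)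
  have P1 := hxs_run_place (lo := yB + 1) (hi := yD - 1) hslab (by omega) (by omega) seg1 ha1 ha1X hc1 hc1X (Or.inr ⟨by omega, by omega⟩)
  refine ⟨_, _, P0, P1, ?_, ?_⟩
  · -- C2
    have hdisj : ∀ z, z ∈ tscComp tscG F (hxsAx m (yC + 1)) → z ∈ tscComp tscG F (hxsAx m (yB + 1)) → False := by
      intro z hz0 hz1
      have hmid : TscR tscG F (hxsAx m (yC + 1)) (hxsAx m (yB + 1)) := hz0.2.trans (tsc_R_symm hz1.2)
      -- the bottom-top path off `AA ∪ ρ AA`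
      set Tt : Set (ℤ × ℤ) := (hxsSeg m y0 (yA - 1) ∪ F) ∪ hxsSeg m (yB + 1) y1 with hTt
      have t1 : TscR tscG Tt (hxsAx m y0) (hxsAx m (yC + 1)) :=
        tsc_R_mono (s := hxsSeg m y0 (yA - 1)) (t := Tt) (fun x hx => Or.inl (Or.inl hx))
          (hxs_seg_conn m y0 (yA - 1) _ (hxs_Ax_mem le_rfl (by omega)) _
            (hxs_Ax_mem (by have := (T.subC hc0).1; omega) (by omega)))
      have t2 : TscR tscG Tt (hxsAx m (yC + 1)) (hxsAx m (yB + 1)) :=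
        tsc_R_mono (s := F) (t := Tt) (fun x hx => Or.inl (Or.inr hx)) hmid
      have t3 : TscR tscG Tt (hxsAx m (yB + 1)) (hxsAx m y1) :=
        tsc_R_mono (s := hxsSeg m (yB + 1) y1) (t := Tt) (fun x hx => Or.inr hx)
          (hxs_seg_conn m (yB + 1) y1 _ (hxs_Ax_mem le_rfl (by omega)) _ (hxs_Ax_mem (by omega) le_rfl))
      have tpath := (t1.trans t2).trans t3
      -- the left-right path inside `AA ∪ ρ AA`
      obtain ⟨w, hw, hwX⟩ := T.left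
      set Ss : Set (ℤ × ℤ) := AA ∪ hxsM m '' AA with hSs
      have s1 : TscR tscG Ss w a0 := tsc_R_mono (s := AA) (t := Ss) (fun x hx => Or.inl hx) (T.connA w hw a0 ha0)
      have s2 : TscR tscG Ss a0 (hxsM m a0) := by
        rcases hxs_ax_row ha0X (by rw [hxs_M_X]; omega : m - 1 ≤ hxsX (hxsM m a0) ∧ hxsX (hxsM m a0) ≤ m + 1) rfl with h | h
        · rw [← h]; exact ReflTransGen.refl
        · exact tsc_R_step h (Or.inl ha0) (Or.inr ⟨a0, ha0, rfl⟩)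
      have s3 : TscR tscG Ss (hxsM m a0) (hxsM m w) :=
        tsc_R_mono (s := hxsM m '' AA) (t := Ss) (fun x hx => Or.inr hx)
          (tsc_R_map (G' := tscG) (hxsM m) (hxs_M_adj m) (T.connA a0 ha0 w hw))
      have spath := (s1.trans s2).trans s3
      have hSrow : ∀ z ∈ Ss, y0 ≤ z.2 ∧ z.2 ≤ y1 := by
        rintro z (hz | ⟨x, hx, rfl⟩)
        · exact ⟨(T.subA hz).1, (T.subA hz).2.1⟩
        · exact ⟨(T.subA hx).1, (T.subA hx).2.1⟩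
      have hwR := T.subA hw
      have hTcol : ∀ z ∈ Tt, w.1 ≤ z.1 ∧ z.1 ≤ (hxsM m w).1 := by
        have gen : ∀ z : ℤ × ℤ, y0 ≤ z.2 → z.2 ≤ y1 → m - W ≤ hxsX z → hxsX z ≤ m + W → w.1 ≤ z.1 ∧ z.1 ≤ (hxsM m w).1 := by
          intro z z1 z2 z3 z4
          obtain ⟨w1, w2, w3, w4⟩ := hwR
          simp only [hxsX, hxsM] at *
          omega
        rintro z ((hz | hz) | hz)
        · exact gen z hz.1 (by have := hz.2.1; have := (T.subA ha0).2.1; omega) (by have := hz.2.2.1; omega) (by have := hz.2.2.2; omega)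
        · obtain ⟨z1, z2, z3, z4⟩ := hslab z hz
          exact gen z z1.le z2.le z3 z4
        · exact gen z (by have := hz.1; have := (T.subA ha1).1; omega) hz.2.1 (by have := hz.2.2.1; omega) (by have := hz.2.2.2; omega)
      obtain ⟨z, hzS, hzT⟩ := pls_rect (S := Ss) (T := Tt) (a := w.1) (b := (hxsM m w).1) (c := y0) (d := y1) (Or.inl hw) spath hSrow le_rfl le_rfl
        (Or.inl (Or.inl (hxs_Ax_mem le_rfl (by omega)))) tpath hTcol le_rfl le_rfl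
      -- contradiction: `Tt` avoids `AA ∪ ρ AA`
      have noA : ∀ z : ℤ × ℤ, (m - 1 ≤ hxsX z ∧ hxsX z ≤ m + 1) → (z.2 < yA ∨ yB < z.2) → z ∉ Ss := by
        rintro z hzX hrow (hz | ⟨x, hx, rfl⟩)
        · have r : rowA z.2 := ⟨z, hz, rfl, hzX⟩
          have := hyAmin _ r
          have := hyBmax _ r
          omega
        · have r : rowA x.2 := ⟨x, hx, rfl, by rw [hxs_M_X] at hzX; omega⟩
          have := hyAmin _ r
          have := hyBmax _ r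
          have : (hxsM m x).2 = x.2 := rfl
          omega
      rcases hzT with (hz | hz) | hz
      · exact noA z hz.2.2 (Or.inl (by have := hz.2.1; omega)) hzS
      · rcases hzS with h | ⟨x, hx, rfl⟩
        · exact hz.2.1 h
        · exact hz.2.2.2.1 (by rw [hxs_M_invol]; exact hx)
      · exact noA z hz.2.2 (Or.inr (by have := hz.1; omega)) hzS
    intro u hu v hv
    refine ⟨fun h => hdisj u hu (h ▸ hv), fun h => hdisj v (tsc_comp_adj hu hv.1 h) hv⟩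
  · rintro v (hv | hv)
    · exact hslab v hv.1
    · exact hslab v hv.1

/-- **LATERAL TIP, mirror form**: the side `CC` comes from the far right and reaches the axis; hypotheses = `HxTip` for the mirrored, exchanged sides. -/
theorem hxs_tip_left {m L y0 y1 W : ℤ} {AA CC : Set (ℤ × ℤ)} (T : HxTip m L y0 y1 W (hxsM m '' CC) (hxsM m '' AA)) :
    HxFrame (hxsR m L y0 y1) AA CC (hxsM m) ∧
    ∃ K0 K1 : Set (ℤ × ℤ), HxPlace (hxsR m L y0 y1) AA CC (hxsM m) K0 ∧ HxPlace (hxsR m L y0 y1) AA CC (hxsM m) K1 ∧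
      (∀ u ∈ K0, ∀ v ∈ K1, u ≠ v ∧ ¬ triAdj u v) ∧
      (∀ v ∈ K0 ∪ K1, y0 < v.2 ∧ v.2 < y1 ∧ m - W ≤ hxsX v ∧ hxsX v ≤ m + W) := by
  refine ⟨(hxs_tip_frame T).mirror, ?_⟩
  obtain ⟨K0, K1, h0, h1, h2, h3⟩ := hxs_tip T
  exact ⟨K0, K1, (h0.mirror (hxs_M_invol m)).swap, (h1.mirror (hxs_M_invol m)).swap, h2, h3⟩

end Claimed.Agent.R291
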