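import Claimed.Agent.R291.Pl.Strip
import Claimed.Agent.R291.Pl.ExtrArc
import Claimed.Agent.R291.Pl.CellPath

/-!
# Row 291 (S0539), unit PLA, Pl/Tube : THE STRAIGHT VERTICAL TUBE AND ITS 30-DEGREE MIRRORS (J9: C4)      (owner helper1; prefix `hxt_`)

TEX[annulus:gluing] (09-annulus), Lemma C4 of `origin/helper187:notes/R291/g1_helper187.md`; consumer: `Glue/Tube.lean` (instance of the machine of 55, `Glue/Place.lean`).

Pure lattice geometry, no probability.   `X = 2 u + v` = twice the Euclidean abscissa (`hxsX`, `rswX`).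
* `hxtM k`            the mirror `(u, v) ↦ (v + k, u - k)` (axis at 30 degrees); it maps the up-cell `y` onto the up-cell `hxtM k y` (`hxt_M_cell`)
* `hxtRh α β k`       the rhombus `α ≤ X ≤ β`, `α ≤ X ∘ mirror ≤ β`;   **`hxt_rh_conn`** connected
* `hxtSeg`, `hxtAx`, `HxtOn`   the thick axis (levels `u + v - k`, offsets `u - v - k ∈ {-1, 0, 1}`)
* `hxtBx k c d`       the mirror-invariant lattice rhombus used as ambient region;   `hxtF` the free region
* **`hxt_run_place`** a free run of the thick axis between a site of `AA` and a site of `CC` defines a place (`HxPlace` of 105), ANY solid sides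
* `HxTube k A B c d AA CC`   everything at abscissa `< A` is in `AA`, everything at abscissa `> B` in `CC`;   `hxt_tube_frame : HxFrame`
* **`hxt_tube`**      the mirror has a place, inside the rhombus `hxtRh A B k` (rows `(2A - B - 2k)/3 .. (2B - A - 2k)/3`)      no sorry
-/

set_option autoImplicit false
set_option linter.unusedSectionVars false
set_option linter.unusedVariables false
set_option linter.unusedSimpArgs false

namespace Claimed.Agent.R291

open Relation Claims.C0467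

/-! ### the mirror -/

/-- the mirror with axis at 30 degrees -/
def hxtM (k : ℤ) (v : ℤ × ℤ) : ℤ × ℤ := (v.2 + k, v.1 - k)

theorem hxt_M_invol (k : ℤ) (v : ℤ × ℤ) : hxtM k (hxtM k v) = v := by
  unfold hxtM
  ext <;> simp

theorem hxt_M_adj (k : ℤ) (u v : ℤ × ℤ) (h : triAdj u v) : triAdj (hxtM k u) (hxtM k v) := by
  rw [tsc_adj_iff] at h ⊢
  unfold hxtM
  simp only
  omega

theorem hxt_M_fst (k : ℤ) (v : ℤ × ℤ) : (hxtM k v).1 = v.2 + k := rfl
theorem hxt_M_snd (k : ℤ) (v : ℤ × ℤ) : (hxtM k v).2 = v.1 - k := rfl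

/-- the mirror maps the up-cell `y` onto the up-cell of the mirror image of `y` -/
theorem hxt_M_cell (k : ℤ) (y u : ℤ × ℤ) : hxtM k u ∈ cellV (hxtM k y) ↔ u ∈ cellV y := by
  rw [pcp_mem_cell, pcp_mem_cell]
  unfold hxtM
  simp only [Prod.ext_iff, Prod.fst_add, Prod.snd_add]
  omega

/-! ### the rhombus -/

/-- the rhombus `α ≤ X ≤ β`, `α ≤ X ∘ mirror ≤ β` -/
def hxtRh (α β k : ℤ) : Set (ℤ × ℤ) := {v | α ≤ 2 * v.1 + v.2 ∧ 2 * v.1 + v.2 ≤ β ∧ α ≤ v.1 + 2 * v.2 + k ∧ v.1 + 2 * v.2 + k ≤ β}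

theorem hxt_mem_rh (α β k : ℤ) (v : ℤ × ℤ) :
    v ∈ hxtRh α β k ↔ α ≤ 2 * v.1 + v.2 ∧ 2 * v.1 + v.2 ≤ β ∧ α ≤ v.1 + 2 * v.2 + k ∧ v.1 + 2 * v.2 + k ≤ β := Iff.rfl

theorem hxt_rh_map {α β k : ℤ} {v : ℤ × ℤ} (h : v ∈ hxtRh α β k) : hxtM k v ∈ hxtRh α β k := by
  rw [hxt_mem_rh] at h ⊢
  unfold hxtM
  simp only
  omega

theorem hxt_rh_mono {α β α' β' k : ℤ} (h1 : α' ≤ α) (h2 : β ≤ β') : hxtRh α β k ⊆ hxtRh α' β' k := by
  intro v h
  rw [hxt_mem_rh] at h ⊢
  omega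

/-- the sites of the axis inside the rhombus are joined -/
theorem hxt_axis_R {α β k : ℤ} (n : ℕ) : ∀ y : ℤ, (y + k, y) ∈ hxtRh α β k → (y + n + k, y + n) ∈ hxtRh α β k →
    TscR tscG (hxtRh α β k) (y + k, y) (y + n + k, y + n) := by
  induction n with
  | zero =>
    intro y _ _
    simp only [Nat.cast_zero, add_zero]
    exact tsc_R_refl _
  | succ n ih =>
    intro y h0 h1
    rw [hxt_mem_rh] at h0 h1
    simp only [Nat.cast_add, Nat.cast_one] at h1 ⊢
    have hm : (y + n + k, y + n) ∈ hxtRh α β k := by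
      rw [hxt_mem_rh]; simp only; omega
    have hm' : (y + n + k + 1, y + n) ∈ hxtRh α β k := by
      rw [hxt_mem_rh]; simp only; omega
    have hm'' : (y + (n + 1) + k, y + (n + 1)) ∈ hxtRh α β k := by
      rw [hxt_mem_rh]; simp only; omega
    refine tsc_R_trans (ih y ((hxt_mem_rh _ _ _ _).2 h0) hm) ?_
    refine tsc_R_trans (tsc_R_step (b := (y + n + k + 1, y + n)) ?_ hm hm') (tsc_R_step ?_ hm' hm'')
    · exact pla_adj_mk (by omega)
    · exact pla_adj_mk (by omega)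

/-- every site of the rhombus is joined to the axis -/
theorem hxt_to_axis {α β k : ℤ} (h : α + 2 ≤ β) (n : ℕ) : ∀ p : ℤ × ℤ, p ∈ hxtRh α β k → (p.1 - p.2 - k).natAbs = n →
    ∃ y : ℤ, (y + k, y) ∈ hxtRh α β k ∧ TscR tscG (hxtRh α β k) p (y + k, y) := by
  induction n using Nat.strong_induction_on with
  | _ n ih =>
    rintro ⟨u, v⟩ hp hn
    have hp' := hp
    rw [hxt_mem_rh] at hp'
    simp only at hp' hn
    have step : ∀ q : ℤ × ℤ, q ∈ hxtRh α β k → triAdj (u, v) q → (q.1 - q.2 - k).natAbs < n →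
        ∃ y : ℤ, (y + k, y) ∈ hxtRh α β k ∧ TscR tscG (hxtRh α β k) (u, v) (y + k, y) := by
      intro q hq hadj hlt
      obtain ⟨y, hy, hR⟩ := ih _ hlt q hq rfl
      exact ⟨y, hy, tsc_R_trans (tsc_R_step hadj hp hq) hR⟩
    by_cases h0 : u - v - k = 0
    · refine ⟨v, ?_, ?_⟩
      · have : u = v + k := by omega
        rw [← this]; exact hp
      · have : u = v + k := by omega
        rw [← this]; exact tsc_R_refl _
    by_cases h2 : 2 ≤ u - v - k
    · refine step (u - 1, v + 1) ?_ ?_ ?_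
      · rw [hxt_mem_rh]; simp only; omega
      · exact pla_adj_mk (by omega)
      · simp only; omega
    by_cases h2' : u - v - k ≤ -2
    · refine step (u + 1, v - 1) ?_ ?_ ?_
      · rw [hxt_mem_rh]; simp only; omega
      · exact pla_adj_mk (by omega)
      · simp only; omega
    by_cases h1 : u - v - k = 1
    · by_cases ha : α ≤ 3 * v + 2 * k
      · refine step (u - 1, v) ?_ ?_ ?_
        · rw [hxt_mem_rh]; simp only; omega
        · exact pla_adj_mk (by omega)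
        · simp only; omega
      · refine step (u, v + 1) ?_ ?_ ?_
        · rw [hxt_mem_rh]; simp only; omega
        · exact pla_adj_mk (by omega)
        · simp only; omega
    · by_cases ha : 3 * v + 2 * k ≤ β
      · refine step (u + 1, v) ?_ ?_ ?_
        · rw [hxt_mem_rh]; simp only; omega
        · exact pla_adj_mk (by omega)
        · simp only; omega
      · refine step (u, v - 1) ?_ ?_ ?_
        · rw [hxt_mem_rh]; simp only; omega
        · exact pla_adj_mk (by omega)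
        · simp only; omega

/-- **the rhombus is connected** -/
theorem hxt_rh_conn {α β k : ℤ} (h : α + 2 ≤ β) : TscConn tscG (hxtRh α β k) := by
  intro p hp q hq
  obtain ⟨y, hy, hpy⟩ := hxt_to_axis h _ p hp rfl
  obtain ⟨y', hy', hqy⟩ := hxt_to_axis h _ q hq rfl
  refine tsc_R_trans hpy (tsc_R_trans ?_ (tsc_R_symm hqy))
  rcases le_total y y' with hle | hle
  · obtain ⟨n, hn⟩ := Int.eq_ofNat_of_zero_le (sub_nonneg.2 hle)
    have e : y' = y + n := by omega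
    subst e
    exact hxt_axis_R n y hy hy'
  · obtain ⟨n, hn⟩ := Int.eq_ofNat_of_zero_le (sub_nonneg.2 hle)
    have e : y = y' + n := by omega
    subst e
    exact tsc_R_symm (hxt_axis_R n y' hy' hy)

/-! ### the thick axis -/

/-- the thick axis between two levels (`level = u + v - k`, `offset = u - v - k`) -/
def hxtSeg (k lo hi : ℤ) : Set (ℤ × ℤ) := {v | lo ≤ v.1 + v.2 - k ∧ v.1 + v.2 - k ≤ hi ∧ -1 ≤ v.1 - v.2 - k ∧ v.1 - v.2 - k ≤ 1}

/-- a site lies on the thick axis -/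
def HxtOn (k : ℤ) (v : ℤ × ℤ) : Prop := -1 ≤ v.1 - v.2 - k ∧ v.1 - v.2 - k ≤ 1

/-- one site of the thick axis at the level `n` -/
def hxtAx (k n : ℤ) : ℤ × ℤ := (n - n / 2 + k, n / 2)

theorem hxt_Ax_on (k n : ℤ) : HxtOn k (hxtAx k n) := by
  simp only [HxtOn, hxtAx]
  omega

theorem hxt_Ax_lv (k n : ℤ) : (hxtAx k n).1 + (hxtAx k n).2 - k = n := by
  simp only [hxtAx]
  omega

theorem hxt_Ax_mem {k lo hi n : ℤ} (h1 : lo ≤ n) (h2 : n ≤ hi) : hxtAx k n ∈ hxtSeg k lo hi := by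
  have := hxt_Ax_lv k n
  have := hxt_Ax_on k n
  exact ⟨by omega, by omega, this.1, this.2⟩

theorem hxt_M_on {k : ℤ} {v : ℤ × ℤ} (h : HxtOn k v) : HxtOn k (hxtM k v) := by
  simp only [HxtOn, hxtM] at *
  omega

theorem hxt_M_lv (k : ℤ) (v : ℤ × ℤ) : (hxtM k v).1 + (hxtM k v).2 - k = v.1 + v.2 - k := by
  simp only [hxtM]
  omega

/-- sites of the thick axis at consecutive levels are adjacent -/
theorem hxt_ax_adj {k : ℤ} {u v : ℤ × ℤ} (hu : HxtOn k u) (hv : HxtOn k v)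
    (h : v.1 + v.2 = u.1 + u.2 + 1 ∨ u.1 + u.2 = v.1 + v.2 + 1) : triAdj u v := by
  rw [tsc_adj_iff]
  simp only [HxtOn] at hu hv
  omega

/-- sites of the thick axis at one level are equal or adjacent -/
theorem hxt_ax_row {k : ℤ} {u v : ℤ × ℤ} (hu : HxtOn k u) (hv : HxtOn k v) (h : v.1 + v.2 = u.1 + u.2) : u = v ∨ triAdj u v := by
  rw [tsc_adj_iff]
  simp only [HxtOn] at hu hv
  by_cases h1 : u.1 = v.1
  · left; exact Prod.ext h1 (by omega)
  · right; omega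

theorem hxt_seg_conn (k lo hi : ℤ) : TscConn tscG (hxtSeg k lo hi) := by
  have key : ∀ n : ℕ, ∀ u ∈ hxtSeg k lo hi, ∀ v ∈ hxtSeg k lo hi, v.1 + v.2 = u.1 + u.2 + n → TscR tscG (hxtSeg k lo hi) u v := by
    intro n
    induction n with
    | zero =>
      intro u hu v hv h
      rcases hxt_ax_row hu.2.2 hv.2.2 (by simpa using h) with rfl | h'
      · exact ReflTransGen.refl
      · exact tsc_R_step h' hu hv
    | succ n ih =>
      intro u hu v hv h
      push_cast at h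
      have hw : hxtAx k (u.1 + u.2 - k + 1) ∈ hxtSeg k lo hi := hxt_Ax_mem (by have := hu.1; omega) (by have := hv.2.1; omega)
      have hl := hxt_Ax_lv k (u.1 + u.2 - k + 1)
      have h1 : TscR tscG (hxtSeg k lo hi) u (hxtAx k (u.1 + u.2 - k + 1)) :=
        tsc_R_step (hxt_ax_adj hu.2.2 (hxt_Ax_on k _) (Or.inl (by omega))) hu hw
      exact h1.trans (ih _ hw v hv (by omega))
  intro u hu v hv
  rcases le_total (u.1 + u.2) (v.1 + v.2) with h | h
  · obtain ⟨n, hn⟩ := Int.eq_ofNat_of_zero_le (sub_nonneg.2 h)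
    exact key n u hu v hv (by omega)
  · obtain ⟨n, hn⟩ := Int.eq_ofNat_of_zero_le (sub_nonneg.2 h)
    exact tsc_R_symm (key n v hv u hu (by omega))

theorem hxt_seg_map {k lo hi : ℤ} {v : ℤ × ℤ} (h : v ∈ hxtSeg k lo hi) : hxtM k v ∈ hxtSeg k lo hi := by
  obtain ⟨h1, h2, h3⟩ := h
  have := hxt_M_lv k v
  have h4 := hxt_M_on h3
  exact ⟨by omega, by omega, h4.1, h4.2⟩

/-! ### the ambient region, the free region -/

/-- the mirror-invariant lattice rhombus -/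
def hxtBx (k c d : ℤ) : Set (ℤ × ℤ) := tscBox (c + k) (d + k) c d

theorem hxt_mem_bx (k c d : ℤ) (v : ℤ × ℤ) : v ∈ hxtBx k c d ↔ c + k ≤ v.1 ∧ v.1 ≤ d + k ∧ c ≤ v.2 ∧ v.2 ≤ d := Iff.rfl

theorem hxt_bx_map (k c d : ℤ) (v : ℤ × ℤ) (h : v ∈ hxtBx k c d) : hxtM k v ∈ hxtBx k c d := by
  rw [hxt_mem_bx] at h ⊢
  simp only [hxtM]
  omega

/-- the free region -/
def hxtF (k c d : ℤ) (AA CC : Set (ℤ × ℤ)) : Set (ℤ × ℤ) :=
  {v | v ∈ hxtBx k c d ∧ v ∉ AA ∧ v ∉ CC ∧ hxtM k v ∉ AA ∧ hxtM k v ∉ CC}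

theorem hxt_F_map {k c d : ℤ} {AA CC : Set (ℤ × ℤ)} {v : ℤ × ℤ} (h : v ∈ hxtF k c d AA CC) : hxtM k v ∈ hxtF k c d AA CC := by
  obtain ⟨h1, h2, h3, h4, h5⟩ := h
  refine ⟨hxt_bx_map _ _ _ _ h1, h4, h5, ?_, ?_⟩ <;> rw [hxt_M_invol] <;> assumption

/-- **a free run of the thick axis between a site of `AA` and a site of `CC` defines a place** -/
theorem hxt_run_place {k c d lo hi : ℤ} {AA CC : Set (ℤ × ℤ)}
    (hslab : ∀ v ∈ hxtF k c d AA CC, c + k < v.1 ∧ v.1 < d + k ∧ c < v.2 ∧ v.2 < d)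
    (hlohi : lo ≤ hi) (hseg : hxtSeg k lo hi ⊆ hxtF k c d AA CC)
    {a b : ℤ × ℤ} (ha : a ∈ AA) (haX : HxtOn k a) (hb : b ∈ CC) (hbX : HxtOn k b)
    (hal : a.1 + a.2 - k = lo - 1) (hbl : b.1 + b.2 - k = hi + 1) :
    HxPlace (hxtBx k c d) AA CC (hxtM k) (tscComp tscG (hxtF k c d AA CC) (hxtAx k lo)) := by
  set F := hxtF k c d AA CC with hF
  set x0 := hxtAx k lo with hx0
  have hx0S : x0 ∈ hxtSeg k lo hi := hxt_Ax_mem le_rfl hlohi
  have hsegK : ∀ v ∈ hxtSeg k lo hi, v ∈ tscComp tscG F x0 := fun v hv =>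
    ⟨hseg hv, tsc_R_mono hseg (hxt_seg_conn k lo hi x0 hx0S v hv)⟩
  refine ⟨tsc_comp_conn x0, fun z hz => hz.1.1, fun z hz => hz.1.2, ?_, ?_, ?_, ?_⟩
  · intro z hz v hv
    by_cases hvF : v ∈ F
    · exact Or.inl (tsc_comp_adj hz hvF hv)
    · obtain ⟨s1, s2, s3, s4⟩ := hslab z hz.1
      have hvR : v ∈ hxtBx k c d := by
        rw [tsc_adj_iff] at hv
        rw [hxt_mem_bx]
        omega
      by_contra hcon
      exact hvF ⟨hvR, fun h => hcon (Or.inr (Or.inl h)), fun h => hcon (Or.inr (Or.inr (Or.inl h))),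
        fun h => hcon (Or.inr (Or.inr (Or.inr (Or.inl h)))), fun h => hcon (Or.inr (Or.inr (Or.inr (Or.inr h))))⟩
  · intro z hz
    refine ⟨hxt_F_map hz.1, ?_⟩
    have h1 : TscR tscG F x0 (hxtM k x0) := (hsegK _ (hxt_seg_map hx0S)).2
    have h2 : TscR tscG F (hxtM k x0) (hxtM k z) := by
      refine tsc_R_mono ?_ (tsc_R_map (G' := tscG) (hxtM k) (hxt_M_adj k) hz.2)
      rintro _ ⟨x, hx, rfl⟩
      exact hxt_F_map hx
    exact h1.trans h2
  · have hl : x0.1 + x0.2 - k = lo := hxt_Ax_lv k lo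
    have hm := hxt_M_lv k a
    refine ⟨x0, hsegK _ hx0S, ⟨a, ha, hxt_ax_adj (hxt_Ax_on k lo) haX (Or.inr (by omega))⟩,
      ⟨hxtM k a, by rw [hxt_M_invol]; exact ha, hxt_ax_adj (hxt_Ax_on k lo) (hxt_M_on haX) (Or.inr (by omega))⟩⟩
  · have hl := hxt_Ax_lv k hi
    have hm := hxt_M_lv k b
    refine ⟨hxtAx k hi, hsegK _ (hxt_Ax_mem hlohi le_rfl), ⟨b, hb, hxt_ax_adj (hxt_Ax_on k hi) hbX (Or.inl (by omega))⟩,
      ⟨hxtM k b, by rw [hxt_M_invol]; exact hb, hxt_ax_adj (hxt_Ax_on k hi) (hxt_M_on hbX) (Or.inl (by omega))⟩⟩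

/-- hypotheses of the tube (C4 of G1): inside the mirror-invariant rhombus `hxtBx k c d` everything at abscissa `< A` belongs to `AA`, everything at abscissa `> B` to `CC` -/
structure HxTube (k A B c d : ℤ) (AA CC : Set (ℤ × ℤ)) : Prop where
  subA : AA ⊆ hxtBx k c d
  subC : CC ⊆ hxtBx k c d
  connA : TscConn tscG AA
  connC : TscConn tscG CC
  sep : ∀ u ∈ AA, ∀ v ∈ CC, u ≠ v ∧ ¬ triAdj u v
  farA : ∀ v ∈ hxtBx k c d, 2 * v.1 + v.2 < A → v ∈ AA
  farC : ∀ v ∈ hxtBx k c d, B < 2 * v.1 + v.2 → v ∈ CC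
  hAB : A ≤ B
  h1 : 2 * c + d + 2 * k < A
  h2 : B < c + 2 * d + 2 * k

theorem hxt_tube_rh {k A B c d : ℤ} {AA CC : Set (ℤ × ℤ)} (T : HxTube k A B c d AA CC) : hxtF k c d AA CC ⊆ hxtRh A B k := by
  rintro v ⟨hR, hA, hC, hA', hC'⟩
  have hR' := hxt_bx_map _ _ _ _ hR
  rw [hxt_mem_rh]
  refine ⟨?_, ?_, ?_, ?_⟩
  · by_contra h
    exact hA (T.farA v hR (by omega))
  · by_contra h
    exact hC (T.farC v hR (by omega))
  · by_contra h
    exact hA' (T.farA _ hR' (by simp only [hxtM]; omega))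
  · by_contra h
    exact hC' (T.farC _ hR' (by simp only [hxtM]; omega))

theorem hxt_tube_slab {k A B c d : ℤ} {AA CC : Set (ℤ × ℤ)} (T : HxTube k A B c d AA CC) :
    ∀ v ∈ hxtF k c d AA CC, c + k < v.1 ∧ v.1 < d + k ∧ c < v.2 ∧ v.2 < d := by
  intro v hv
  have h := hxt_tube_rh T hv
  rw [hxt_mem_rh] at h
  have := T.h1
  have := T.h2
  omega

theorem hxt_tube_frame {k A B c d : ℤ} {AA CC : Set (ℤ × ℤ)} (T : HxTube k A B c d AA CC) : HxFrame (hxtBx k c d) AA CC (hxtM k) := by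
  have h1 := T.h1
  have h2 := T.h2
  have hAB := T.hAB
  have m1 : ((c + k, c) : ℤ × ℤ) ∈ hxtBx k c d := by rw [hxt_mem_bx]; simp only; omega
  have m2 : ((d + k, d) : ℤ × ℤ) ∈ hxtBx k c d := by rw [hxt_mem_bx]; simp only; omega
  have m3 : ((c + k, d) : ℤ × ℤ) ∈ hxtBx k c d := by rw [hxt_mem_bx]; simp only; omega
  have m4 : ((d + k, c) : ℤ × ℤ) ∈ hxtBx k c d := by rw [hxt_mem_bx]; simp only; omega
  refine ⟨tsc_box_sc _ _ _ _ _, tsc_box_finite _ _ _ _, hxt_M_invol k, hxt_M_adj k, hxt_bx_map k c d, T.subA, T.subC, T.connA,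
    T.connC, T.sep, ?_, ?_, ?_, ?_⟩
  · refine ⟨(c + k, c), T.farA _ m1 (by simp only; omega), (c + k - 1, c), ?_, pla_adj_mk (by omega)⟩
    rw [hxt_mem_bx]; simp only; omega
  · refine ⟨(d + k, d), T.farC _ m2 (by simp only; omega), (d + k + 1, d), ?_, pla_adj_mk (by omega)⟩
    rw [hxt_mem_bx]; simp only; omega
  · refine ⟨(c + k, d), T.farA _ m3 (by simp only; omega), ?_⟩
    have e : hxtM k (c + k, d) = (d + k, c) := by simp [hxtM]
    rw [e]
    exact T.farC _ m4 (by simp only; omega)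
  · refine Or.inl ⟨(d + k, d), T.farC _ m2 (by simp only; omega), ?_⟩
    have e : hxtM k (d + k, d) = (d + k, d) := by simp [hxtM]
    rw [e]
    exact T.farC _ m2 (by simp only; omega)

/-- **TUBE** (C4 of G1 in set form): the mirror `hxtM k` has a place, inside the rhombus -/
theorem hxt_tube {k A B c d : ℤ} {AA CC : Set (ℤ × ℤ)} (T : HxTube k A B c d AA CC) :
    ∃ K : Set (ℤ × ℤ), HxPlace (hxtBx k c d) AA CC (hxtM k) K ∧ K ⊆ hxtRh A B k := by
  classical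
  have h1 := T.h1
  have h2 := T.h2
  have hAB := T.hAB
  have hslab := hxt_tube_slab T
  set F := hxtF k c d AA CC with hF
  let lvA : ℤ → Prop := fun n => ∃ a ∈ AA, a.1 + a.2 - k = n ∧ HxtOn k a
  let lvC : ℤ → Prop := fun n => ∃ b ∈ CC, b.1 + b.2 - k = n ∧ HxtOn k b
  have rngC : ∀ n, lvC n → 2 * c ≤ n := by
    rintro n ⟨b, hb, rfl, _⟩
    have := (hxt_mem_bx _ _ _ _).1 (T.subC hb)
    omega
  have m1 : ((c + k, c) : ℤ × ℤ) ∈ hxtBx k c d := by rw [hxt_mem_bx]; simp only; omega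
  have m2 : ((d + k, d) : ℤ × ℤ) ∈ hxtBx k c d := by rw [hxt_mem_bx]; simp only; omega
  have lvA0 : lvA (2 * c) := ⟨(c + k, c), T.farA _ m1 (by simp only; omega), by simp only; omega, by simp only [HxtOn]; omega⟩
  have lvC1 : lvC (2 * d) := ⟨(d + k, d), T.farC _ m2 (by simp only; omega), by simp only; omega, by simp only [HxtOn]; omega⟩
  have excl : ∀ n n', lvA n → lvC n' → n' ≠ n ∧ n' ≠ n + 1 ∧ n ≠ n' + 1 := by
    rintro n n' ⟨a, ha, rfl, haX⟩ ⟨b, hb, rfl, hbX⟩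
    refine ⟨fun h => ?_, fun h => ?_, fun h => ?_⟩
    · rcases hxt_ax_row haX hbX (by omega) with h' | h'
      · exact (T.sep a ha b hb).1 h'
      · exact (T.sep a ha b hb).2 h'
    · exact (T.sep a ha b hb).2 (hxt_ax_adj haX hbX (Or.inl (by omega)))
    · exact (T.sep a ha b hb).2 (hxt_ax_adj haX hbX (Or.inr (by omega)))
  obtain ⟨nC, hnC, hnCmin⟩ := Int.exists_least_of_bdd (P := lvC) ⟨2 * c, fun z hz => rngC z hz⟩ ⟨_, lvC1⟩
  have hc0 : 2 * c < nC := by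
    have := rngC nC hnC
    have := (excl _ _ lvA0 hnC).1
    omega
  have hnCd : nC ≤ 2 * d := hnCmin _ lvC1
  obtain ⟨nA, ⟨hnA, hnAC⟩, hnAmax⟩ := Int.exists_greatest_of_bdd (P := fun n => lvA n ∧ n < nC) ⟨nC, fun z hz => hz.2.le⟩ ⟨2 * c, lvA0, hc0⟩
  have hnAc : 2 * c ≤ nA := hnAmax _ ⟨lvA0, hc0⟩
  have e0 := excl nA nC hnA hnC
  have seg : hxtSeg k (nA + 1) (nC - 1) ⊆ F := by
    rintro v ⟨v1, v2, v3, v4⟩
    have hvR : v ∈ hxtBx k c d := by rw [hxt_mem_bx]; omega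
    have hm := hxt_M_lv k v
    refine ⟨hvR, fun h => ?_, fun h => ?_, fun h => ?_, fun h => ?_⟩
    · have := hnAmax _ ⟨⟨v, h, rfl, v3, v4⟩, by omega⟩
      omega
    · have := hnCmin _ ⟨v, h, rfl, v3, v4⟩
      omega
    · have := hnAmax _ ⟨⟨_, h, rfl, hxt_M_on ⟨v3, v4⟩⟩, by omega⟩
      omega
    · have := hnCmin _ ⟨_, h, rfl, hxt_M_on ⟨v3, v4⟩⟩
      omega
  obtain ⟨a, ha, hal, haX⟩ := hnA
  obtain ⟨b, hb, hbl, hbX⟩ := hnC
  exact ⟨_, hxt_run_place hslab (by omega) seg ha haX hb hbX (by omega) (by omega), fun z hz => hxt_tube_rh T hz.1⟩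

/-- the equation lemmas of the definitions of this file are generated HERE -/
theorem hxt_eqns_cite : True := by
  have := @hxtM.eq_1
  have := @hxtRh.eq_1
  have := @hxtSeg.eq_1
  have := @HxtOn.eq_1
  have := @hxtAx.eq_1
  have := @hxtBx.eq_1
  have := @hxtF.eq_1
  trivial

end Claimed.Agent.R291
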